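import Crest.Agent.R347.BaseSys
import Crest.Agent.R347.CertR0C
import Crest.Agent.R347.CertR6C
import Crest.Agent.R347.CertR3C
import Crest.Agent.R347.CertR4C
import Crest.Agent.R347.CertO1

/-! Row 347: certified enclosures of small partition functions. -/

set_option autoImplicit false
set_option maxRecDepth 100000
set_option Elab.async false

namespace Crest.Agent.R347
open Chk

theorem finR6_0 : finCheck 6 (10 ^ 8) (levR 6 BR6_0) (tailR 6 BR6_0) (entR 0 6) = true := by
  decide +kernel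
theorem finR7_0 : finCheck 7 (10 ^ 8) (levR 7 BR7_0) (tailR 7 BR7_0) (entR 0 7) = true := by
  decide +kernel
theorem finR8_0 : finCheck 8 (10 ^ 8) (levR 8 BR8_0) (tailR 8 BR8_0) (entR 0 8) = true := by
  decide +kernel
theorem finR9_0 : finCheck 9 (10 ^ 8) (levR 9 BR9_0) (tailR 9 BR9_0) (entR 0 9) = true := by
  decide +kernel
theorem finR10_0 : finCheck 10 (10 ^ 8) (levR 10 BR10_0) (tailR 10 BR10_0) (entR 0 10) = true := by
  decide +kernel
theorem finR6_6 : finCheck 6 (10 ^ 8) (levR 6 BR6_6) (tailR 6 BR6_6) (entR 6 6) = true := by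
  decide +kernel
theorem finR7_6 : finCheck 7 (10 ^ 8) (levR 7 BR7_6) (tailR 7 BR7_6) (entR 6 7) = true := by
  decide +kernel
theorem finR8_6 : finCheck 8 (10 ^ 8) (levR 8 BR8_6) (tailR 8 BR8_6) (entR 6 8) = true := by
  decide +kernel
theorem finR9_6 : finCheck 9 (10 ^ 8) (levR 9 BR9_6) (tailR 9 BR9_6) (entR 6 9) = true := by
  decide +kernel
theorem finR10_6 : finCheck 10 (10 ^ 8) (levR 10 BR10_6) (tailR 10 BR10_6) (entR 6 10) = true := by
  decide +kernel
theorem finR6_3 : finCheck 6 (10 ^ 8) (levR 6 BR6_3) (tailR 6 BR6_3) (entR 3 6) = true := by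
  decide +kernel
theorem finR7_3 : finCheck 7 (10 ^ 8) (levR 7 BR7_3) (tailR 7 BR7_3) (entR 3 7) = true := by
  decide +kernel
theorem finR8_3 : finCheck 8 (10 ^ 8) (levR 8 BR8_3) (tailR 8 BR8_3) (entR 3 8) = true := by
  decide +kernel
theorem finR9_3 : finCheck 9 (10 ^ 8) (levR 9 BR9_3) (tailR 9 BR9_3) (entR 3 9) = true := by
  decide +kernel
theorem finR10_3 : finCheck 10 (10 ^ 8) (levR 10 BR10_3) (tailR 10 BR10_3) (entR 3 10) = true := by
  decide +kernel
theorem finR6_4 : finCheck 6 (10 ^ 8) (levR 6 BR6_4) (tailR 6 BR6_4) (entR 4 6) = true := by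
  decide +kernel
theorem finR7_4 : finCheck 7 (10 ^ 8) (levR 7 BR7_4) (tailR 7 BR7_4) (entR 4 7) = true := by
  decide +kernel
theorem finR8_4 : finCheck 8 (10 ^ 8) (levR 8 BR8_4) (tailR 8 BR8_4) (entR 4 8) = true := by
  decide +kernel
theorem finR9_4 : finCheck 9 (10 ^ 8) (levR 9 BR9_4) (tailR 9 BR9_4) (entR 4 9) = true := by
  decide +kernel
theorem finR10_4 : finCheck 10 (10 ^ 8) (levR 10 BR10_4) (tailR 10 BR10_4) (entR 4 10) = true := by
  decide +kernel
theorem finO4_0 : finCheck 4 (10 ^ 14) (levO 4 o4_0) (tailO 4 o4_0) (entO false 4) = true := by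
  decide +kernel
theorem finO5_0 : finCheck 5 (10 ^ 14) (levO 5 o5_0) (tailO 5 o5_0) (entO false 5) = true := by
  decide +kernel
theorem finO6_0 : finCheck 6 (10 ^ 14) (levO 6 o6_0) (tailO 6 o6_0) (entO false 6) = true := by
  decide +kernel
theorem finO7_0 : finCheck 7 (10 ^ 14) (levO 7 o7_0) (tailO 7 o7_0) (entO false 7) = true := by
  decide +kernel
theorem finO8_0 : finCheck 8 (10 ^ 14) (levO 8 o8_0) (tailO 8 o8_0) (entO false 8) = true := by
  decide +kernel
theorem finO4_1 : finCheck 4 (10 ^ 14) (levO 4 o4_1) (tailO 4 o4_1) (entO true 4) = true := by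
  decide +kernel
theorem finO5_1 : finCheck 5 (10 ^ 14) (levO 5 o5_1) (tailO 5 o5_1) (entO true 5) = true := by
  decide +kernel
theorem finO6_1 : finCheck 6 (10 ^ 14) (levO 6 o6_1) (tailO 6 o6_1) (entO true 6) = true := by
  decide +kernel
theorem finO7_1 : finCheck 7 (10 ^ 14) (levO 7 o7_1) (tailO 7 o7_1) (entO true 7) = true := by
  decide +kernel
theorem finO8_1 : finCheck 8 (10 ^ 14) (levO 8 o8_1) (tailO 8 o8_1) (entO true 8) = true := by
  decide +kernel

theorem tabR_range : ∀ t ∈ tabR, (t.1 = 0 ∨ t.1 = 6 ∨ t.1 = 3 ∨ t.1 = 4) ∧ 6 ≤ t.2.1 ∧ t.2.1 ≤ 10 := by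
  decide +kernel

theorem tabO_range : ∀ t ∈ tabO, 4 ≤ t.2.1 ∧ t.2.1 ≤ 8 := by
  decide +kernel

theorem base_ring : ∀ t ∈ tabR, EncR Zr t := by
  rintro ⟨a, L, x⟩ ht
  obtain ⟨ha, h6, h10⟩ := tabR_range _ ht
  simp only at ha h6 h10
  rcases ha with rfl | rfl | rfl | rfl <;> interval_cases L
  · exact ring_ent 6 0 (by norm_num) (by norm_num) (by norm_num) _ sysR6_0 finR6_0 x ht
  · exact ring_ent 7 0 (by norm_num) (by norm_num) (by norm_num) _ sysR7_0 finR7_0 x ht
  · exact ring_ent 8 0 (by norm_num) (by norm_num) (by norm_num) _ sysR8_0 finR8_0 x ht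
  · exact ring_ent 9 0 (by norm_num) (by norm_num) (by norm_num) _ sysR9_0 finR9_0 x ht
  · exact ring_ent 10 0 (by norm_num) (by norm_num) (by norm_num) _ sysR10_0 finR10_0 x ht
  · exact ring_ent 6 6 (by norm_num) (by norm_num) (by norm_num) _ sysR6_6 finR6_6 x ht
  · exact ring_ent 7 6 (by norm_num) (by norm_num) (by norm_num) _ sysR7_6 finR7_6 x ht
  · exact ring_ent 8 6 (by norm_num) (by norm_num) (by norm_num) _ sysR8_6 finR8_6 x ht
  · exact ring_ent 9 6 (by norm_num) (by norm_num) (by norm_num) _ sysR9_6 finR9_6 x ht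
  · exact ring_ent 10 6 (by norm_num) (by norm_num) (by norm_num) _ sysR10_6 finR10_6 x ht
  · exact ring_ent 6 3 (by norm_num) (by norm_num) (by norm_num) _ sysR6_3 finR6_3 x ht
  · exact ring_ent 7 3 (by norm_num) (by norm_num) (by norm_num) _ sysR7_3 finR7_3 x ht
  · exact ring_ent 8 3 (by norm_num) (by norm_num) (by norm_num) _ sysR8_3 finR8_3 x ht
  · exact ring_ent 9 3 (by norm_num) (by norm_num) (by norm_num) _ sysR9_3 finR9_3 x ht
  · exact ring_ent 10 3 (by norm_num) (by norm_num) (by norm_num) _ sysR10_3 finR10_3 x ht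
  · exact ring_ent 6 4 (by norm_num) (by norm_num) (by norm_num) _ sysR6_4 finR6_4 x ht
  · exact ring_ent 7 4 (by norm_num) (by norm_num) (by norm_num) _ sysR7_4 finR7_4 x ht
  · exact ring_ent 8 4 (by norm_num) (by norm_num) (by norm_num) _ sysR8_4 finR8_4 x ht
  · exact ring_ent 9 4 (by norm_num) (by norm_num) (by norm_num) _ sysR9_4 finR9_4 x ht
  · exact ring_ent 10 4 (by norm_num) (by norm_num) (by norm_num) _ sysR10_4 finR10_4 x ht

theorem base_open : ∀ t ∈ tabO, EncO Zo t := by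
  rintro ⟨τ, N, x⟩ ht
  obtain ⟨h4, h8⟩ := tabO_range _ ht
  simp only at h4 h8
  cases τ <;> interval_cases N
  · exact open_ent false 4 (by norm_num) (by norm_num) _ sysO4_0 finO4_0 x ht
  · exact open_ent false 5 (by norm_num) (by norm_num) _ sysO5_0 finO5_0 x ht
  · exact open_ent false 6 (by norm_num) (by norm_num) _ sysO6_0 finO6_0 x ht
  · exact open_ent false 7 (by norm_num) (by norm_num) _ sysO7_0 finO7_0 x ht
  · exact open_ent false 8 (by norm_num) (by norm_num) _ sysO8_0 finO8_0 x ht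
  · exact open_ent true 4 (by norm_num) (by norm_num) _ sysO4_1 finO4_1 x ht
  · exact open_ent true 5 (by norm_num) (by norm_num) _ sysO5_1 finO5_1 x ht
  · exact open_ent true 6 (by norm_num) (by norm_num) _ sysO6_1 finO6_1 x ht
  · exact open_ent true 7 (by norm_num) (by norm_num) _ sysO7_1 finO7_1 x ht
  · exact open_ent true 8 (by norm_num) (by norm_num) _ sysO8_1 finO8_1 x ht

end Crest.Agent.R347
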