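import Crest.Agent.R347.BaseDefs

/-! Row 347: the kernel checker for one block (definitions only).  Owner: helper8.

Vectors of integers are packed in base `2^64`.  A column of the approximate Cholesky factor is a
number `Y` whose digits are `l_k + 2^20` (`< 2^21`). -/

set_option autoImplicit false

namespace Crest.Agent.R347.Chk

/-- list of columns: `s` = low digits of `Y` (those of the current chunk) -/
inductive CL
  | nil
  | cons (s Y : ℕ) (tl : CL)

/-- digit at bit position `sh` -/
noncomputable def dig (Y sh : ℕ) : ℕ := Nat.land (Nat.shiftRight Y sh) (nat_lit 18446744073709551615)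

noncomputable def dot (sh : ℕ) (c : CL) : ℕ :=
  CL.rec (motive := fun _ => ℕ) 0 (fun s Y _ ih =>
    Nat.add ih (Nat.mul (Nat.land (Nat.shiftRight s sh) (nat_lit 18446744073709551615)) Y)) c
noncomputable def sumY (c : CL) : ℕ :=
  CL.rec (motive := fun _ => ℕ) 0 (fun _ Y _ ih => Nat.add ih Y) c
noncomputable def cntC (c : CL) : ℕ :=
  CL.rec (motive := fun _ => ℕ) 0 (fun _ _ _ ih => Nat.add ih 1) c
/-- shift all columns by `sh` bits, recompute the low parts, append `tl` -/
noncomputable def shiftC (sh msk : ℕ) (c tl : CL) : CL :=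
  CL.rec (motive := fun _ => CL) tl (fun _ Y _ ih =>
    (fun y => CL.cons (Nat.land y msk) y ih) (Nat.shiftRight Y sh)) c
/-- drop the columns which vanish on the whole chunk -/
noncomputable def filtC (os : ℕ) (c : CL) : CL :=
  CL.rec (motive := fun _ => CL) CL.nil (fun s Y _ ih =>
    Bool.rec (motive := fun _ => CL) (CL.cons s Y ih) ih (Nat.beq s os)) c
/-- drop the columns which vanish at one row -/
noncomputable def filtR (sh : ℕ) (c : CL) : CL :=
  CL.rec (motive := fun _ => CL) CL.nil (fun s Y _ ih =>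
    Bool.rec (motive := fun _ => CL) (CL.cons s Y ih) ih
      (Nat.beq (Nat.land (Nat.shiftRight s sh) (nat_lit 18446744073709551615)) (nat_lit 1048576))) c

/-- `gP - gN` is the packed row `sh/64` of the Gram matrix of the columns `c` -/
noncomputable def gP (ones sh : ℕ) (c : CL) : ℕ :=
  Nat.add (dot sh c) (Nat.mul (Nat.mul (cntC c) (nat_lit 1099511627776)) ones)
noncomputable def gN (ones sh : ℕ) (c : CL) : ℕ :=
  Nat.mul (nat_lit 1048576) (Nat.add (sumY c) (Nat.mul (dig (sumY c) sh) ones))

/-- `Σ_{i<len} 2^(64 i)` -/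
noncomputable def onesN (len : ℕ) : ℕ :=
  Nat.div (Nat.sub (Nat.shiftLeft 1 (Nat.mul (nat_lit 64) len)) 1) (nat_lit 18446744073709551615)

/-- all digits of `a - b + 2^eb` lie in `[0, 2^(eb+1))` -/
noncomputable def small (ones eb a b : ℕ) : Bool :=
  (fun a' => Bool.rec (motive := fun _ => Bool) false
    ((fun x => Nat.beq (Nat.land x (Nat.mul (Nat.sub (Nat.shiftLeft 2 eb) 1) ones)) x) (Nat.sub a' b))
    (Nat.ble b a')) (Nat.add a (Nat.shiftLeft ones eb))

/-- Newton iteration for the square root (not trusted) -/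
noncomputable def isq (x : ℕ) : ℕ :=
  Nat.rec (motive := fun _ => ℕ) (nat_lit 524288)
    (fun _ y => Nat.shiftRight (Nat.add y (Nat.div x y)) 1) (nat_lit 12)

/-- new column from the residual row `a - b`, starting at bit `sh` (only the last mask is trusted) -/
noncomputable def newCol (ones sh a b : ℕ) : ℕ :=
  Nat.land
    ((fun x on =>
      (fun d =>
        Nat.add (Nat.shiftLeft (Nat.add (Nat.shiftLeft (Nat.shiftRight
          (Nat.land (Nat.shiftRight (Nat.add
            (Nat.mul (Nat.sub (Nat.add x (Nat.mul (Nat.mul (nat_lit 1048576) d) on)) (Nat.shiftLeft on (nat_lit 58)))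
              (Nat.div (nat_lit 8796093022208) d))
            (Nat.shiftLeft on (nat_lit 42))) (nat_lit 43)) (Nat.mul (nat_lit 2097151) on)) (nat_lit 64)) (nat_lit 64)) (Nat.add d (nat_lit 1048576))) sh)
          (Nat.mul (nat_lit 1048576) (Nat.land ones (Nat.sub (Nat.shiftLeft 1 sh) 1))))
        (Nat.shiftRight (Nat.add 1 (isq (Nat.mul 4
          (Nat.sub (Nat.land x (nat_lit 18446744073709551615)) (nat_lit 288230376151711744))))) 1))
      (Nat.shiftRight (Nat.sub (Nat.add a (Nat.shiftLeft ones (nat_lit 58))) b) sh) (Nat.shiftRight ones sh))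
    (Nat.mul (nat_lit 2097151) ones)

/-- list of pairs of packed numbers -/
inductive PL
  | nil
  | cons (a b : ℕ) (tl : PL)

/-- sum of the table values of the terms with position in `[lo, hi)`, packed relative to `lo` -/
noncomputable def foldT (tab lo hi : ℕ) (T : List (ℕ × ℕ)) : ℕ :=
  List.rec (motive := fun _ => ℕ) 0 (fun t _ ih =>
    Prod.rec (motive := fun _ => ℕ) (fun q y =>
      Bool.rec (motive := fun _ => ℕ) ih
        (Bool.rec (motive := fun _ => ℕ)
          (Nat.add ih (Nat.shiftLeft (Nat.land (Nat.shiftRight tab (Nat.mul (nat_lit 40) y)) (nat_lit 1099511627775))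
            (Nat.mul (nat_lit 64) (Nat.sub q lo)))) ih (Nat.ble hi q)) (Nat.ble lo q)) t) T
/-- the same with all values `1` -/
noncomputable def foldO (lo hi : ℕ) (T : List (ℕ × ℕ)) : ℕ :=
  List.rec (motive := fun _ => ℕ) 0 (fun t _ ih =>
    Prod.rec (motive := fun _ => ℕ) (fun q _ =>
      Bool.rec (motive := fun _ => ℕ) ih
        (Bool.rec (motive := fun _ => ℕ)
          (Nat.add ih (Nat.shiftLeft 1 (Nat.mul (nat_lit 64) (Nat.sub q lo)))) ih (Nat.ble hi q))
        (Nat.ble lo q)) t) T

/-- positive part of the shifted diagonal at scale `2^32` (the negative part is `2^40`) -/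
noncomputable def diagP (es G dno : ℕ) : ℕ :=
  Nat.add (Nat.div (Nat.shiftLeft dno (nat_lit 32)) 5) (Nat.shiftLeft (Nat.mul es G) (nat_lit 16))

/-- packed row of the shifted matrix: positive part -/
noncomputable def rowP (act : ℕ → Bool) (tab es lo hi sh shT : ℕ) (r : Row) : ℕ :=
  Row.rec (motive := fun _ => ℕ) (fun d G dno T =>
    Bool.rec (motive := fun _ => ℕ) (Nat.shiftLeft (nat_lit 4294967296) sh)
      (Nat.add (Nat.shiftLeft (foldT tab lo hi T) shT) (Nat.shiftLeft (diagP es G dno) sh)) (act d)) r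
/-- negative part -/
noncomputable def rowN (act : ℕ → Bool) (lo hi sh shT : ℕ) (r : Row) : ℕ :=
  Row.rec (motive := fun _ => ℕ) (fun d _ _ T =>
    Bool.rec (motive := fun _ => ℕ) 0
      (Nat.add (Nat.shiftLeft (foldO lo hi T) (Nat.add shT (nat_lit 37))) (Nat.shiftLeft (nat_lit 1099511627776) sh))
      (act d)) r

/-- residual rows of one chunk after the old columns `C`, `F` and the deflation vectors `V` -/
noncomputable def pairs (act : ℕ → Bool) (tab es lo hi ones : ℕ) (C F V : CL) (rows : List Row) :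
    ℕ → PL :=
  List.rec (motive := fun _ => ℕ → PL) (fun _ => PL.nil) (fun r _ ih sh =>
    (fun Fr => PL.cons
      (Nat.add (Nat.add (Nat.add (rowP act tab es lo hi sh 0 r) (gN ones sh C)) (gN ones sh Fr))
        (gP ones sh V))
      (Nat.add (Nat.add (Nat.add (rowN act lo hi sh 0 r) (gP ones sh C)) (gP ones sh Fr))
        (gN ones sh V))
      (ih (Nat.add sh (nat_lit 64)))) (filtR sh F)) rows

/-- the new columns of one chunk -/
noncomputable def newCols (ones msk : ℕ) (p : PL) : ℕ → CL → CL :=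
  PL.rec (motive := fun _ => ℕ → CL → CL) (fun _ N => N) (fun a b _ ih sh N =>
    (fun y => ih (Nat.add sh (nat_lit 64)) (CL.cons (Nat.land y msk) y N))
      (newCol ones sh (Nat.add a (gN ones sh N)) (Nat.add b (gP ones sh N)))) p

noncomputable def allP (f : ℕ → ℕ → ℕ → Bool) (p : PL) : ℕ → Bool :=
  PL.rec (motive := fun _ => ℕ → Bool) (fun _ => true) (fun a b _ ih sh =>
    Bool.rec (motive := fun _ => Bool) false (ih (Nat.add sh (nat_lit 64))) (f a b sh)) p

/-- residual check of one chunk -/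
noncomputable def chkRows (ones eb : ℕ) (N : CL) (p : PL) : ℕ → Bool :=
  allP (fun a b sh => small ones eb (Nat.add a (gN ones sh N)) (Nat.add b (gP ones sh N))) p

noncomputable def lenR (l : List Row) : ℕ :=
  List.rec (motive := fun _ => ℕ) 0 (fun _ _ ih => Nat.add ih 1) l

/-- one chunk: `C`, `S`, `V` are the columns before shifting by `psh` bits -/
noncomputable def chunkStep (act : ℕ → Bool) (tab es eb hi : ℕ) (rows : List Row)
    (k : ℕ → ℕ → CL → CL → CL → CL → Bool) (lo psh : ℕ) (N C S V : CL) : Bool :=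
  (fun len ones =>
    (fun msk =>
      (fun C' S' V' =>
        (fun p =>
          (fun N' =>
            Bool.rec (motive := fun _ => Bool) false
              (k (Nat.add lo len) (Nat.mul (nat_lit 64) len) N' C' S' V') (chkRows ones eb N' p 0))
            (newCols ones msk p 0 CL.nil))
          (pairs act tab es lo hi ones C' (filtC (Nat.mul (nat_lit 1048576) (Nat.land ones msk)) S') V' rows 0))
        (shiftC psh msk N (shiftC psh msk C CL.nil)) (shiftC psh msk S CL.nil)
        (shiftC psh msk V CL.nil))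
      (Nat.sub (Nat.shiftLeft 1 (Nat.mul (nat_lit 64) len)) 1))
    (lenR rows) (onesN (Nat.sub hi lo))

noncomputable def chkD (act : ℕ → Bool) (tab es eb hi : ℕ) (D : List (List Row)) :
    ℕ → ℕ → CL → CL → CL → CL → Bool :=
  List.rec (motive := fun _ => ℕ → ℕ → CL → CL → CL → CL → Bool) (fun _ _ _ _ _ _ => true)
    (fun rows _ ih => chunkStep act tab es eb hi rows ih) D

/-- column of an independent row: digit `0` is the diagonal entry -/
noncomputable def colI (act : ℕ → Bool) (tab es hi ones : ℕ) (r : Row) : ℕ :=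
  newCol ones 0 (rowP act tab es 0 hi 0 (nat_lit 64) r) (rowN act 0 hi 0 (nat_lit 64) r)
noncomputable def colsI (act : ℕ → Bool) (tab es hi ones : ℕ) (I : List Row) : CL :=
  List.rec (motive := fun _ => CL) CL.nil (fun r _ ih =>
    CL.cons 0 (colI act tab es hi ones r) ih) I
noncomputable def allR (f : Row → Bool) (I : List Row) : Bool :=
  List.rec (motive := fun _ => Bool) true (fun r _ ih =>
    Bool.rec (motive := fun _ => Bool) false ih (f r)) I
noncomputable def chkRowI (act : ℕ → Bool) (tab es eb hi ones : ℕ) (r : Row) (y : ℕ) : Bool :=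
  small ones eb
    (Nat.add (rowP act tab es 0 hi 0 (nat_lit 64) r) (gN ones 0 (CL.cons y y CL.nil)))
    (Nat.add (rowN act 0 hi 0 (nat_lit 64) r) (gP ones 0 (CL.cons y y CL.nil)))
noncomputable def chkI (act : ℕ → Bool) (tab es eb hi ones : ℕ) (I : List Row) : Bool :=
  allR (fun r => chkRowI act tab es eb hi ones r (colI act tab es hi ones r)) I

/-- deflation vectors (digit `0` is a dummy) -/
noncomputable def colsV (ones : ℕ) (V : List ℕ) : CL :=
  List.rec (motive := fun _ => CL) CL.nil (fun y _ ih =>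
    CL.cons 0 (Nat.land y (Nat.mul (nat_lit 2097151) ones)) ih) V

/-- approximate Cholesky factorisation of `C + es/2^16 G + Σ v vᵀ`, residual entries `≤ 2^eb` -/
noncomputable def psdCheck (act : ℕ → Bool) (tab es eb hi : ℕ) (D : List (List Row))
    (I : List Row) (V : List ℕ) : Bool :=
  (fun ones =>
    Bool.rec (motive := fun _ => Bool) false
      (chkD act tab es eb hi D 0 (nat_lit 64) CL.nil CL.nil (colsI act tab es hi ones I) (colsV ones V))
      (chkI act tab es eb hi ones I)) (onesN (Nat.add hi 1))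

/-! ### residual of a trial vector (fields of 40 bits, offset `2^38`) -/

noncomputable def vAt (W q : ℕ) : ℕ := Nat.land (Nat.shiftRight W (Nat.mul (nat_lit 40) q)) (nat_lit 549755813887)
noncomputable def tAt (tab y : ℕ) : ℕ :=
  Nat.land (Nat.shiftRight tab (Nat.mul (nat_lit 48) y)) (nat_lit 281474976710655)
noncomputable def sumA (tab W : ℕ) (T : List (ℕ × ℕ)) : ℕ :=
  List.rec (motive := fun _ => ℕ) 0 (fun t _ ih =>
    Prod.rec (motive := fun _ => ℕ) (fun q y => Nat.add ih (Nat.mul (tAt tab y) (vAt W q))) t) T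
noncomputable def sumB (tab : ℕ) (T : List (ℕ × ℕ)) : ℕ :=
  List.rec (motive := fun _ => ℕ) 0 (fun t _ ih =>
    Prod.rec (motive := fun _ => ℕ) (fun _ y => Nat.add ih (tAt tab y)) t) T
noncomputable def sumC (W : ℕ) (T : List (ℕ × ℕ)) : ℕ :=
  List.rec (motive := fun _ => ℕ) 0 (fun t _ ih =>
    Prod.rec (motive := fun _ => ℕ) (fun q _ => Nat.add ih (vAt W q)) t) T
noncomputable def lenT (T : List (ℕ × ℕ)) : ℕ :=
  List.rec (motive := fun _ => ℕ) 0 (fun _ _ ih => Nat.add ih 1) T
noncomputable def sqd (a b : ℕ) : ℕ :=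
  (fun x => Nat.mul x x) (Nat.add (Nat.sub a b) (Nat.sub b a))
/-- squared residual of one row at scale `2^80` -/
noncomputable def resRow (act : ℕ → Bool) (tab W ρ p : ℕ) (r : Row) : ℕ :=
  Row.rec (motive := fun _ => ℕ) (fun d G dno T =>
    Bool.rec (motive := fun _ => ℕ) 0
      ((fun dp vo => sqd
        (Nat.add (Nat.add (sumA tab W T) (Nat.shiftLeft (lenT T) (nat_lit 83)))
          (Nat.add (Nat.mul dp vo) (nat_lit 77371252455336267181195264)))
        (Nat.add (Nat.add (Nat.shiftLeft (sumB tab T) (nat_lit 38)) (Nat.shiftLeft (sumC W T) (nat_lit 45)))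
          (Nat.add (Nat.shiftLeft dp (nat_lit 38)) (Nat.shiftLeft vo (nat_lit 48)))))
        (Nat.add (Nat.div (Nat.shiftLeft dno (nat_lit 40)) 5) (Nat.mul ρ G)) (vAt W p)) (act d)) r
noncomputable def nrmRow (act : ℕ → Bool) (W p : ℕ) (r : Row) : ℕ :=
  Row.rec (motive := fun _ => ℕ) (fun d G _ _ =>
    Bool.rec (motive := fun _ => ℕ) 0 (Nat.mul G (sqd (vAt W p) (nat_lit 274877906944))) (act d)) r
noncomputable def sumRows (f : ℕ → Row → ℕ) (l : List Row) : ℕ → ℕ :=
  List.rec (motive := fun _ => ℕ → ℕ) (fun _ => 0) (fun r _ ih p =>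
    Nat.add (f p r) (ih (Nat.add p 1))) l
noncomputable def sumD (f : ℕ → Row → ℕ) (D : List (List Row)) : ℕ → ℕ :=
  List.rec (motive := fun _ => ℕ → ℕ) (fun _ => 0) (fun l _ ih p =>
    Nat.add (sumRows f l p) (ih (Nat.add p (lenR l)))) D
/-- `n` = number of rows, `hi` = number of rows of `D` -/
noncomputable def levCheck (act : ℕ → Bool) (tab n hi : ℕ) (D : List (List Row)) (I : List Row)
    (ρ W : ℕ) : Bool :=
  Nat.blt
    (Nat.add (Nat.mul 2 (Nat.add (sumD (resRow act tab W ρ) D 0) (sumRows (resRow act tab W ρ) I hi)))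
      (Nat.shiftLeft n (nat_lit 93)))
    (Nat.shiftLeft (Nat.add (sumD (nrmRow act W) D 0) (sumRows (nrmRow act W) I hi)) (nat_lit 32))

/-- certificate of one block: shift `es`, final threshold `ef`, residual exponent `eb`,
levels `(ρ, trial vector)`, deflation vectors -/
structure BD where
  es : ℕ
  ef : ℕ
  eb : ℕ
  lev : List (ℕ × ℕ)
  defl : List ℕ

/-- levels decreasing with gaps, the last one above the threshold -/
def sepOK (ef : ℕ) : List ℕ → Bool
  | [] => true
  | [a] => decide (ef * 2 ^ 24 + 2 ^ 16 < a)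
  | a :: b :: l => decide (b + 2 ^ 17 < a) && sepOK ef (b :: l)

noncomputable def levsCheck (act : ℕ → Bool) (tab n hi : ℕ) (D : List (List Row)) (I : List Row)
    (l : List (ℕ × ℕ)) : Bool :=
  List.rec (motive := fun _ => Bool) true (fun t _ ih =>
    Bool.rec (motive := fun _ => Bool) false ih (levCheck act tab n hi D I t.1 t.2)) l

noncomputable def blockCheck (R : RT) (n hi : ℕ) (act : ℕ → Bool) (T32 T40 : ℕ) (b : BD) : Bool :=
  (decide (b.eb ≤ 40) && decide (b.es ≤ 2 ^ 22) && decide (b.lev.length = b.defl.length) &&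
    decide (b.defl.length ≤ 16) &&
    decide (b.es * 2 ^ 16 + n * (2 ^ b.eb + 256) ≤ b.ef * 2 ^ 16) &&
    sepOK b.ef (b.lev.map Prod.fst)) &&
  (levsCheck act T40 n hi R.D R.I b.lev && psdCheck act T32 b.es b.eb hi R.D R.I b.defl)

/-- structural requirements on a table -/
def rowOK (lim ny : ℕ) (r : Row) : Bool :=
  decide (1 ≤ r.G) && decide (r.G ≤ 32) && decide (r.dno ≤ 4096) && decide (r.T.length ≤ 64) &&
    r.T.all fun t => decide (t.1 < lim) && decide (t.2 < ny)
def structOK (R : RT) (n hi ny : ℕ) : Bool :=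
  decide (R.D.flatten.length = hi) && decide (hi + R.I.length = n) && decide (n ≤ 2048) &&
    R.D.all (fun l => l.all (rowOK n ny)) && R.I.all (rowOK hi ny)

/-! ### value tables of the ring -/

/-- entry `y` of the value table; `ct` holds `round (2^60 cos (2π e/(24 L))) + 2^60` in fields of
64 bits -/
noncomputable def entry (L : ℕ) (sl : List ℕ) (ct a k sc y : ℕ) : ℕ :=
  (fun st =>
    Bool.rec (motive := fun _ => ℕ) (Nat.shiftLeft 32 sc)
      ((fun mult => Nat.sub (Nat.add (Nat.shiftLeft 32 sc) (Nat.shiftRight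
          (Nat.add (Nat.mul mult (dig ct (Nat.mul 64 (Nat.mod (Nat.add (Nat.add
            (Nat.mul (Nat.mul 6 L) (Nat.mod (Nat.div y (Nat.mul 2 L)) 4))
            (Nat.mul (Nat.mul 12 k) (Nat.mod y (Nat.mul 2 L))))
            (Bool.rec (motive := fun _ => ℕ) (Nat.sub (Nat.mul 24 L) (Nat.mul 2 a)) (Nat.mul 2 a)
              (Nat.beq (Nat.mod (Nat.div y (Nat.mul 8 L)) 2) 0))) (Nat.mul 24 L)))))
            (Nat.shiftLeft 1 (Nat.sub 59 sc))) (Nat.sub 60 sc))) (Nat.shiftLeft mult sc))
        (Nat.mul st (Nat.sub 2 (Nat.mod (Nat.div y (Nat.mul 16 L)) 2))))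
      (actR L k (Nat.div L st))) (sl.getD (Nat.div y (Nat.mul 32 L)) 1)

/-- `Σ_{y<ny} f y · 2^(w y)` -/
noncomputable def pack (w : ℕ) (f : ℕ → ℕ) (ny : ℕ) : ℕ :=
  Nat.rec (motive := fun _ => ℕ) 0
    (fun y ih => Nat.add ih (Nat.shiftLeft (f y) (Nat.mul w y))) ny

noncomputable def mkTab (L : ℕ) (sl : List ℕ) (ct a k sc : ℕ) : ℕ :=
  pack (Nat.add sc 8) (entry L sl ct a k sc) (Nat.mul (Nat.mul 32 L) sl.length)

/-- check of one ring block -/
noncomputable def ringCheck (L : ℕ) (sl : List ℕ) (ct a k : ℕ) (R : RT) (n hi : ℕ) (b : BD) : Bool :=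
  blockCheck R n hi (actR L k) (mkTab L sl ct a k 32) (mkTab L sl ct a k 40) b

/-- check of one open-chain block -/
noncomputable def openCheck (R : RT) (n hi : ℕ) (b : BD) : Bool :=
  blockCheck R n hi (fun _ => true) 141733920768 36283883716608 b

end Crest.Agent.R347.Chk
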