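import Crest.Agent.R347.BaseTabR

/-! Row 347: cosine tables and value tables. -/

set_option autoImplicit false
set_option Elab.async false

namespace Crest.Agent.R347
open Crest.MathPhysics.SpinChain Matrix Finset Chk

def CosSpec (L ct : ℕ) : Prop :=
  ∀ e, e < 24 * L →
    |((fld 64 ct e : ℝ) - 2 ^ 60) - 2 ^ 60 * Real.cos (2 * Real.pi * (e : ℝ) / (24 * L))| ≤ 4096

namespace Cos

/-- Taylor polynomial of the cosine -/
noncomputable def tC (x : ℝ) : ℝ :=
  1 - x ^ 2 / 2 + x ^ 4 / 24 - x ^ 6 / 720 + x ^ 8 / 40320 - x ^ 10 / 3628800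
/-- Taylor polynomial of the sine -/
noncomputable def tS (x : ℝ) : ℝ :=
  x - x ^ 3 / 6 + x ^ 5 / 120 - x ^ 7 / 5040 + x ^ 9 / 362880 - x ^ 11 / 39916800

theorem exp_taylor (x : ℝ) (hx : |x| ≤ 1 / 16) :
    ‖Complex.exp (Complex.I * x) - ((tC x : ℂ) + (tS x : ℂ) * Complex.I)‖ ≤ 1 / 2 ^ 70 := by
  have hn : ‖Complex.I * (x : ℂ)‖ = |x| := by simp
  have h := Complex.exp_bound (x := Complex.I * x) (by rw [hn]; linarith) (n := 12) (by norm_num)
  have e : ∑ m ∈ range 12, (Complex.I * (x : ℂ)) ^ m / (m.factorial : ℂ) =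
      (tC x : ℂ) + (tS x : ℂ) * Complex.I := by
    have h2 : Complex.I ^ 2 = -1 := Complex.I_sq
    have h3 : Complex.I ^ 3 = -Complex.I := by rw [pow_succ, h2]; ring
    have h4 : Complex.I ^ 4 = 1 := Complex.I_pow_four
    have h5 : Complex.I ^ 5 = Complex.I := by rw [pow_succ, h4]; ring
    have h6 : Complex.I ^ 6 = -1 := by rw [pow_succ, h5, Complex.I_mul_I]
    have h7 : Complex.I ^ 7 = -Complex.I := by rw [pow_succ, h6]; ring
    have h8 : Complex.I ^ 8 = 1 := by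
      rw [show 8 = 4 + 4 from rfl, pow_add, h4, one_mul]
    have h9 : Complex.I ^ 9 = Complex.I := by rw [pow_succ, h8]; ring
    have h10 : Complex.I ^ 10 = -1 := by rw [pow_succ, h9, Complex.I_mul_I]
    have h11 : Complex.I ^ 11 = -Complex.I := by rw [pow_succ, h10]; ring
    simp only [Finset.sum_range_succ, Finset.sum_range_zero, mul_pow, h2, h3, h4, h5, h6, h7, h8,
      h9, h10, h11, tC, tS, Nat.factorial]
    push_cast
    ring
  rw [e, hn] at h
  refine h.trans ?_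
  have h1 : |x| ^ 12 ≤ (1 / 16) ^ 12 := pow_le_pow_left₀ (abs_nonneg _) hx 12
  refine (mul_le_mul_of_nonneg_right h1 (by positivity)).trans ?_
  norm_num [Nat.factorial]

/-- rational approximation of `2π/(24 L)` -/
noncomputable def x0 (L : ℕ) : ℝ := 3.14159265358979323846 / (12 * L)

theorem base_approx (L : ℕ) (hL : 6 ≤ L) (p q : ℤ) (hp : |(p : ℝ) / 2 ^ 70 - tC (x0 L)| ≤ 1 / 2 ^ 70)
    (hq : |(q : ℝ) / 2 ^ 70 - tS (x0 L)| ≤ 1 / 2 ^ 70) :
    ‖(((p : ℝ) / 2 ^ 70 : ℝ) + ((q : ℝ) / 2 ^ 70 : ℝ) * Complex.I) -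
      Complex.exp (Complex.I * (2 * Real.pi / (24 * L) : ℝ))‖ ≤ 1 / 2 ^ 64 := by
  have hL' : (6 : ℝ) ≤ L := by exact_mod_cast hL
  have hx0 : |x0 L| ≤ 1 / 16 := by
    rw [x0, abs_of_nonneg (by positivity), div_le_iff₀ (by positivity)]
    linarith
  have h1 := exp_taylor (x0 L) hx0
  have hd : |2 * Real.pi / (24 * L) - x0 L| ≤ 1 / 2 ^ 70 := by
    have e : 2 * Real.pi / (24 * L) - x0 L = (Real.pi - 3.14159265358979323846) / (12 * L) := by
      rw [x0]; field_simp; ring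
    have a1 := Real.pi_gt_d20
    have a2 := Real.pi_lt_d20
    rw [e, abs_of_nonneg (div_nonneg (by linarith) (by positivity)), div_le_iff₀ (by positivity)]
    linarith
  have h2 : ‖Complex.exp (Complex.I * (2 * Real.pi / (24 * L) : ℝ)) -
      Complex.exp (Complex.I * (x0 L : ℝ))‖ ≤ 1 / 2 ^ 70 := by
    have e : Complex.exp (Complex.I * (2 * Real.pi / (24 * L) : ℝ)) -
        Complex.exp (Complex.I * (x0 L : ℝ)) = Complex.exp (Complex.I * (x0 L : ℝ)) *
        (Complex.exp (Complex.I * ((2 * Real.pi / (24 * L) - x0 L : ℝ) : ℂ)) - 1) := by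
      rw [mul_sub, ← Complex.exp_add, mul_one]
      congr 2
      push_cast
      ring
    rw [e, norm_mul, Complex.norm_exp_I_mul_ofReal, one_mul]
    exact Real.norm_exp_I_mul_ofReal_sub_one_le.trans hd
  have h3 : ‖(((p : ℝ) / 2 ^ 70 : ℝ) + ((q : ℝ) / 2 ^ 70 : ℝ) * Complex.I) -
      ((tC (x0 L) : ℂ) + (tS (x0 L) : ℂ) * Complex.I)‖ ≤ 2 / 2 ^ 70 := by
    have e : (((p : ℝ) / 2 ^ 70 : ℝ) + ((q : ℝ) / 2 ^ 70 : ℝ) * Complex.I) -
        ((tC (x0 L) : ℂ) + (tS (x0 L) : ℂ) * Complex.I) =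
        (((p : ℝ) / 2 ^ 70 - tC (x0 L) : ℝ) : ℂ) +
          (((q : ℝ) / 2 ^ 70 - tS (x0 L) : ℝ) : ℂ) * Complex.I := by
      push_cast; ring
    rw [e]
    refine (norm_add_le _ _).trans ?_
    rw [norm_mul, Complex.norm_I, mul_one, Complex.norm_real, Complex.norm_real, Real.norm_eq_abs,
      Real.norm_eq_abs]
    linarith
  calc _ = ‖((((p : ℝ) / 2 ^ 70 : ℝ) + ((q : ℝ) / 2 ^ 70 : ℝ) * Complex.I) -
        ((tC (x0 L) : ℂ) + (tS (x0 L) : ℂ) * Complex.I)) -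
        (Complex.exp (Complex.I * (x0 L : ℝ)) - ((tC (x0 L) : ℂ) + (tS (x0 L) : ℂ) * Complex.I)) -
        (Complex.exp (Complex.I * (2 * Real.pi / (24 * L) : ℝ)) -
          Complex.exp (Complex.I * (x0 L : ℝ)))‖ := by congr 1; ring
    _ ≤ 2 / 2 ^ 70 + 1 / 2 ^ 70 + 1 / 2 ^ 70 :=
        (norm_sub_le _ _).trans (add_le_add ((norm_sub_le _ _).trans (add_le_add h3 h1)) h2)
    _ ≤ 1 / 2 ^ 64 := by norm_num

theorem pow_approx (w z : ℂ) (hz : ‖z‖ = 1) (δ : ℝ) (hδ : 0 ≤ δ) (h : ‖w - z‖ ≤ δ) (e : ℕ)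
    (he : 2 * e * δ ≤ 1) : ‖w ^ e - z ^ e‖ ≤ 2 * e * δ := by
  induction e with
  | zero => simp
  | succ e ih =>
    push_cast at he ⊢
    have h1 := ih (by nlinarith)
    have h2 : ‖w ^ e‖ ≤ 2 := by
      have : ‖w ^ e‖ ≤ ‖w ^ e - z ^ e‖ + ‖z ^ e‖ := by
        simpa using norm_add_le (w ^ e - z ^ e) (z ^ e)
      rw [norm_pow z, hz, one_pow] at this
      nlinarith
    have e1 : w ^ (e + 1) - z ^ (e + 1) = w ^ e * (w - z) + (w ^ e - z ^ e) * z := by ring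
    rw [e1]
    refine (norm_add_le _ _).trans ?_
    rw [norm_mul, norm_mul, hz, mul_one]
    have h3 : ‖w ^ e‖ * ‖w - z‖ ≤ 2 * δ := mul_le_mul h2 h (norm_nonneg _) (by norm_num)
    linarith

/-- exact powers of `(p + q i)/2^70` against the table -/
def chk (ct : ℕ) (p q : ℤ) : ℕ → ℕ → ℤ → ℤ → ℤ → Bool
  | 0, _, _, _, _ => true
  | n + 1, e, A, B, D =>
    decide ((((fld 64 ct e : ℕ) : ℤ) - 2 ^ 60) * D - 2 ^ 60 * A ≤ 2048 * D) &&
    decide (2 ^ 60 * A - (((fld 64 ct e : ℕ) : ℤ) - 2 ^ 60) * D ≤ 2048 * D) &&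
      chk ct p q n (e + 1) (A * p - B * q) (A * q + B * p) (D * 2 ^ 70)

theorem chk_sound (ct : ℕ) (p q : ℤ) (n : ℕ) : ∀ (e : ℕ) (A B D : ℤ), 0 < D →
    (((p : ℝ) / 2 ^ 70 : ℝ) + ((q : ℝ) / 2 ^ 70 : ℝ) * Complex.I) ^ e =
      (((A : ℝ) / D : ℝ) : ℂ) + (((B : ℝ) / D : ℝ) : ℂ) * Complex.I →
    chk ct p q n e A B D = true → ∀ i, e ≤ i → i < e + n →
      |((fld 64 ct i : ℝ) - 2 ^ 60) - 2 ^ 60 *
        ((((p : ℝ) / 2 ^ 70 : ℝ) + ((q : ℝ) / 2 ^ 70 : ℝ) * Complex.I) ^ i).re| ≤ 2048 := by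
  induction n with
  | zero => intro e A B D _ _ _ i h1 h2; omega
  | succ n ih =>
    intro e A B D hD hw hc i h1 h2
    simp only [chk, Bool.and_eq_true, decide_eq_true_eq] at hc
    obtain ⟨⟨c1, c2⟩, c3⟩ := hc
    have hD' : (0 : ℝ) < D := by exact_mod_cast hD
    by_cases hi : i = e
    · subst hi
      rw [hw]
      simp only [Complex.add_re, Complex.ofReal_re, Complex.mul_re, Complex.I_re, mul_zero,
        Complex.ofReal_im, Complex.I_im, mul_one, sub_zero, add_zero]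
      have d1 : (((fld 64 ct i : ℕ) : ℝ) - 2 ^ 60) * D - 2 ^ 60 * A ≤ 2048 * D := by
        exact_mod_cast c1
      have d2 : 2 ^ 60 * (A : ℝ) - (((fld 64 ct i : ℕ) : ℝ) - 2 ^ 60) * D ≤ 2048 * D := by
        exact_mod_cast c2
      have e1 : ((fld 64 ct i : ℝ) - 2 ^ 60) - 2 ^ 60 * ((A : ℝ) / D) =
          ((((fld 64 ct i : ℕ) : ℝ) - 2 ^ 60) * D - 2 ^ 60 * A) / D := by
        field_simp
      rw [e1, abs_div, abs_of_pos hD', div_le_iff₀ hD', abs_le]
      constructor <;> linarith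
    · refine ih (e + 1) _ _ _ (by positivity) ?_ c3 i (by omega) (by omega)
      rw [pow_succ, hw]
      have hD'' : (D : ℂ) ≠ 0 := by exact_mod_cast hD.ne'
      push_cast
      field_simp
      linear_combination (B * q * 2 ^ 70 : ℂ) * Complex.I_sq

theorem cos_of_chk (L ct : ℕ) (hL : 6 ≤ L) (hL' : L ≤ 10) (p q : ℤ)
    (hp : |(p : ℝ) / 2 ^ 70 - tC (x0 L)| ≤ 1 / 2 ^ 70)
    (hq : |(q : ℝ) / 2 ^ 70 - tS (x0 L)| ≤ 1 / 2 ^ 70)
    (hc : chk ct p q (24 * L) 0 1 0 1 = true) : CosSpec L ct := by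
  intro e he
  have h1 := chk_sound ct p q (24 * L) 0 1 0 1 one_pos (by simp) hc e (Nat.zero_le _) (by omega)
  have he' : (e : ℝ) ≤ 240 := by exact_mod_cast (by omega : e ≤ 240)
  have h2 := pow_approx _ _ (Complex.norm_exp_I_mul_ofReal _) _ (by positivity)
    (base_approx L hL p q hp hq) e (by nlinarith)
  have h3 : (Complex.exp (Complex.I * (2 * Real.pi / (24 * L) : ℝ)) ^ e).re =
      Real.cos (2 * Real.pi * (e : ℝ) / (24 * L)) := by
    rw [← Complex.exp_nat_mul, ← Complex.exp_ofReal_mul_I_re]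
    congr 2
    push_cast
    ring
  have h4 := (Complex.abs_re_le_norm _).trans h2
  rw [Complex.sub_re, h3] at h4
  rw [abs_le] at h1 h4 ⊢
  constructor <;> nlinarith [h1.1, h1.2, h4.1, h4.2]

theorem chk6 : chk ct6 1179467959092172905154 51496683224342601371 (24 * 6) 0 1 0 1 = true := by
  decide +kernel
theorem chk7 : chk ct7 1179766038650186825672 44143730651246858079 (24 * 7) 0 1 0 1 = true := by
  decide +kernel
theorem chk8 : chk ct8 1179959517178381420297 38627875016947906690 (24 * 8) 0 1 0 1 = true := by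
  decide +kernel
theorem chk9 : chk ct9 1180092171529312114952 34337175239039965682 (24 * 9) 0 1 0 1 = true := by
  decide +kernel
theorem chk10 : chk ct10 1180187061454925094129 30904285828227862600 (24 * 10) 0 1 0 1 = true := by
  decide +kernel

theorem pack_succ (w : ℕ) (f : ℕ → ℕ) (n : ℕ) :
    pack w f (n + 1) = pack w f n + f n * 2 ^ (w * n) := by
  rw [← Nat.shiftLeft_eq]; rfl

theorem pack_lt (w : ℕ) (f : ℕ → ℕ) (n : ℕ) (h : ∀ i, i < n → f i < 2 ^ w) :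
    pack w f n < 2 ^ (w * n) := by
  induction n with
  | zero => exact Nat.one_pos
  | succ n ih =>
    have h1 := ih (fun i hi => h i (by omega))
    have h2 := h n (by omega)
    rw [pack_succ, Nat.mul_succ, pow_add]
    calc pack w f n + f n * 2 ^ (w * n) < 2 ^ (w * n) + f n * 2 ^ (w * n) := by omega
      _ = 2 ^ (w * n) * (f n + 1) := by ring
      _ ≤ 2 ^ (w * n) * 2 ^ w := Nat.mul_le_mul_left _ h2

theorem fld_pack (w : ℕ) (f : ℕ → ℕ) (n : ℕ) (h : ∀ i, i < n → f i < 2 ^ w) (y : ℕ) (hy : y < n) :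
    fld w (pack w f n) y = f y := by
  induction n with
  | zero => omega
  | succ n ih =>
    rw [pack_succ]
    by_cases hyn : y = n
    · subst hyn
      have h1 := pack_lt w f y (fun i hi => h i (by omega))
      rw [fld, Nat.add_mul_div_right _ _ (by positivity), Nat.div_eq_of_lt h1, zero_add,
        Nat.mod_eq_of_lt (h y hy)]
    · obtain ⟨j, rfl⟩ : ∃ j, n = y + 1 + j := ⟨n - (y + 1), by omega⟩
      rw [← ih (fun i hi => h i (by omega)) (by omega), fld, fld,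
        show f (y + 1 + j) * 2 ^ (w * (y + 1 + j)) =
          (f (y + 1 + j) * 2 ^ (w * j) * 2 ^ w) * 2 ^ (w * y) by ring,
        Nat.add_mul_div_right _ _ (by positivity), Nat.add_mul_mod_self_right]

theorem dig_eq (ct i : ℕ) : dig ct (64 * i) = fld 64 ct i := by
  rw [fld, ← Nat.shiftRight_eq_div_pow, ← Nat.and_two_pow_sub_one_eq_mod]
  rfl

theorem entry_eq (L : ℕ) (sl : List ℕ) (ct a k sc y : ℕ) :
    entry L sl ct a k sc y =
      if actR L k (L / sl.getD (y / (32 * L)) 1) = true then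
        32 * 2 ^ sc + (sl.getD (y / (32 * L)) 1 * (2 - y / (16 * L) % 2) *
          fld 64 ct ((6 * L * (y / (2 * L) % 4) + 12 * k * (y % (2 * L)) +
            (if y / (8 * L) % 2 = 0 then 2 * a else 24 * L - 2 * a)) % (24 * L)) +
          2 ^ (59 - sc)) / 2 ^ (60 - sc) -
          sl.getD (y / (32 * L)) 1 * (2 - y / (16 * L) % 2) * 2 ^ sc
      else 32 * 2 ^ sc := by
  have hb : (Bool.rec (motive := fun _ => ℕ) (24 * L - 2 * a) (2 * a)
      (Nat.beq (y / (8 * L) % 2) 0)) =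
      (if y / (8 * L) % 2 = 0 then 2 * a else 24 * L - 2 * a) := by
    by_cases h : y / (8 * L) % 2 = 0
    · rw [if_pos h, h]; rfl
    · rw [if_neg h]
      have : Nat.beq (y / (8 * L) % 2) 0 = false := by
        cases hh : Nat.beq (y / (8 * L) % 2) 0
        · rfl
        · exact absurd (Nat.eq_of_beq_eq_true hh) h
      rw [this]
  rw [← dig_eq, ← hb, ← Nat.shiftRight_eq_div_pow, ← Nat.shiftLeft_eq, ← Nat.shiftLeft_eq,
    ← Nat.one_shiftLeft]
  change Bool.rec (motive := fun _ => ℕ) _ _ (actR L k (L / sl.getD (y / (32 * L)) 1)) = _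
  cases actR L k (L / sl.getD (y / (32 * L)) 1)
  · rfl
  · rfl

theorem entry_spec (L : ℕ) (sl : List ℕ) (ct a k sc : ℕ) (hL : 0 < L)
    (hsl : ∀ s ∈ sl, s ≤ 15) (hsc : sc = 32 ∨ sc = 40) (h : CosSpec L ct) (y : ℕ) :
    entry L sl ct a k sc y < 2 ^ (sc + 6) ∧
      |((entry L sl ct a k sc y : ℝ) - 2 ^ (sc + 5)) - 2 ^ sc * ringVal L sl a k y| ≤ 2 := by
  rw [entry_eq, ringVal]
  by_cases hact : ¬ actR L k (L / sl.getD (y / (32 * L)) 1) = true
  · rw [if_neg hact, if_neg hact]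
    refine ⟨?_, ?_⟩
    · rw [pow_add]; have := Nat.two_pow_pos sc; omega
    · push_cast; rw [pow_add]; norm_num [mul_comm]
  rw [not_not] at hact
  rw [if_pos hact, if_pos hact]
  have hst : sl.getD (y / (32 * L)) 1 ≤ 15 := by
    rw [List.getD_eq_getElem?_getD]
    cases hh : sl[y / (32 * L)]? with
    | none => simp
    | some s => exact hsl s (List.mem_of_getElem? hh)
  generalize sl.getD (y / (32 * L)) 1 = st at hst
  have hm : st * (2 - y / (16 * L) % 2) ≤ 30 :=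
    (Nat.mul_le_mul hst (Nat.sub_le 2 _)).trans (by norm_num)
  generalize st * (2 - y / (16 * L) % 2) = m at hm
  generalize 6 * L * (y / (2 * L) % 4) + 12 * k * (y % (2 * L)) +
    (if y / (8 * L) % 2 = 0 then 2 * a else 24 * L - 2 * a) = N
  have h1 := h (N % (24 * L)) (Nat.mod_lt _ (by omega))
  have hcos : Real.cos (2 * Real.pi * ((N % (24 * L) : ℕ) : ℝ) / (24 * L)) =
      Real.cos (2 * Real.pi * (N : ℝ) / (24 * L)) := by
    rw [← Real.cos_add_nat_mul_two_pi _ (N / (24 * L))]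
    congr 1
    have hL' : (L : ℝ) ≠ 0 := by exact_mod_cast hL.ne'
    have e : (N : ℝ) = ((N % (24 * L) : ℕ) : ℝ) + 24 * L * ((N / (24 * L) : ℕ) : ℝ) := by
      exact_mod_cast (Nat.mod_add_div N (24 * L)).symm
    conv_rhs => rw [e]
    field_simp
  rw [hcos] at h1
  have hc1 := Real.cos_le_one (2 * Real.pi * (N : ℝ) / (24 * L))
  have hc2 := Real.neg_one_le_cos (2 * Real.pi * (N : ℝ) / (24 * L))
  generalize Real.cos (2 * Real.pi * (N : ℝ) / (24 * L)) = γ at h1 hc1 hc2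
  generalize fld 64 ct (N % (24 * L)) = c at h1
  have hm' : (m : ℝ) ≤ 30 := by exact_mod_cast hm
  have hm0 : (0 : ℝ) ≤ m := Nat.cast_nonneg _
  rw [abs_le] at h1
  have g1 : (m : ℝ) * (c - 2 ^ 60 - 2 ^ 60 * γ) ≤ 30 * 4096 := by nlinarith [h1.1, h1.2]
  have g2 : -(30 * 4096) ≤ (m : ℝ) * (c - 2 ^ 60 - 2 ^ 60 * γ) := by nlinarith [h1.1, h1.2]
  have g3 : (m : ℝ) * γ ≤ 30 := by nlinarith
  have key : |(((32 * 2 ^ sc + (m * c + 2 ^ (59 - sc)) / 2 ^ (60 - sc) - m * 2 ^ sc : ℕ) : ℝ) -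
      2 ^ (sc + 5)) - 2 ^ sc * (m * γ)| ≤ 2 := by
    have hle : m * 2 ^ sc ≤ 32 * 2 ^ sc + (m * c + 2 ^ (59 - sc)) / 2 ^ (60 - sc) :=
      le_trans (Nat.mul_le_mul_right _ (by omega)) (Nat.le_add_right _ _)
    have q1 := Nat.div_mul_le_self (m * c + 2 ^ (59 - sc)) (2 ^ (60 - sc))
    have q2 := Nat.lt_div_mul_add (a := m * c + 2 ^ (59 - sc)) (Nat.two_pow_pos (60 - sc))
    rw [Nat.cast_sub hle]
    generalize (m * c + 2 ^ (59 - sc)) / 2 ^ (60 - sc) = Q at q1 q2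
    have q1' : (Q : ℝ) * 2 ^ (60 - sc) ≤ m * c + 2 ^ (59 - sc) := by exact_mod_cast q1
    have q2' : (m : ℝ) * c + 2 ^ (59 - sc) ≤ Q * 2 ^ (60 - sc) + 2 ^ (60 - sc) := by
      exact_mod_cast q2.le
    push_cast
    rw [abs_le]
    have g4 : (m : ℝ) * (c - 2 ^ 60 - 2 ^ 60 * γ) = m * c - 2 ^ 60 * m - 2 ^ 60 * (m * γ) := by
      ring
    rw [g4] at g1 g2
    generalize (m : ℝ) * γ = u at g1 g2 ⊢
    generalize (m : ℝ) * c = u' at g1 g2 q1' q2'
    generalize (m : ℝ) = m' at g1 g2 ⊢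
    generalize (Q : ℝ) = Q' at q1' q2' ⊢
    clear q1 q2 hle
    rcases hsc with rfl | rfl
    · norm_num at q1' q2' g1 g2 ⊢
      constructor <;> linarith
    · norm_num at q1' q2' g1 g2 ⊢
      constructor <;> linarith
  refine ⟨?_, key⟩
  have k2 := (abs_le.1 key).2
  generalize (32 * 2 ^ sc + (m * c + 2 ^ (59 - sc)) / 2 ^ (60 - sc) - m * 2 ^ sc : ℕ) = E at k2
  have : (E : ℝ) < 2 ^ (sc + 6) := by
    clear key
    generalize (E : ℝ) = E' at k2 ⊢
    generalize (m : ℝ) * γ = u at g3 k2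
    rcases hsc with rfl | rfl
    · norm_num at k2 ⊢; linarith
    · norm_num at k2 ⊢; linarith
  exact_mod_cast this

end Cos

theorem cos_spec (L : ℕ) (h6 : 6 ≤ L) (h10 : L ≤ 10) : CosSpec L (ctR L) := by
  interval_cases L
  · exact Cos.cos_of_chk 6 _ (by norm_num) (by norm_num) _ _
      (by norm_num [Cos.tC, Cos.x0, abs_le]) (by norm_num [Cos.tS, Cos.x0, abs_le]) Cos.chk6
  · exact Cos.cos_of_chk 7 _ (by norm_num) (by norm_num) _ _
      (by norm_num [Cos.tC, Cos.x0, abs_le]) (by norm_num [Cos.tS, Cos.x0, abs_le]) Cos.chk7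
  · exact Cos.cos_of_chk 8 _ (by norm_num) (by norm_num) _ _
      (by norm_num [Cos.tC, Cos.x0, abs_le]) (by norm_num [Cos.tS, Cos.x0, abs_le]) Cos.chk8
  · exact Cos.cos_of_chk 9 _ (by norm_num) (by norm_num) _ _
      (by norm_num [Cos.tC, Cos.x0, abs_le]) (by norm_num [Cos.tS, Cos.x0, abs_le]) Cos.chk9
  · exact Cos.cos_of_chk 10 _ (by norm_num) (by norm_num) _ _
      (by norm_num [Cos.tC, Cos.x0, abs_le]) (by norm_num [Cos.tS, Cos.x0, abs_le]) Cos.chk10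

theorem tab_spec (L : ℕ) (sl : List ℕ) (ct a k sc : ℕ) (hL : 0 < L) (ha : a ≤ 12)
    (hsl : ∀ s ∈ sl, s ≤ 15) (hsc : sc = 32 ∨ sc = 40) (h : CosSpec L ct) :
    TabSpec (mkTab L sl ct a k sc) (sc + 8) sc (ringVal L sl a k) (32 * L * sl.length) := by
  intro y hy
  have e : fld (sc + 8) (mkTab L sl ct a k sc) y = entry L sl ct a k sc y :=
    Cos.fld_pack (sc + 8) _ (32 * L * sl.length) (fun i _ =>
      (Cos.entry_spec L sl ct a k sc hL hsl hsc h i).1.trans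
        (Nat.pow_lt_pow_right (by norm_num) (by omega))) y hy
  rw [e]
  exact Cos.entry_spec L sl ct a k sc hL hsl hsc h y

theorem tab_open32 : TabSpec 141733920768 40 32 (fun _ => 1) 1 := by
  intro y hy
  obtain rfl : y = 0 := by omega
  norm_num [fld]

theorem tab_open40 : TabSpec 36283883716608 48 40 (fun _ => 1) 1 := by
  intro y hy
  obtain rfl : y = 0 := by omega
  norm_num [fld]

end Crest.Agent.R347
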