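import Mathlib.Tactic.Eval
import Crest.Agent.R347.BaseChk

/-! Row 347: decoding of the tables (run at elaboration time by `eval%`), value tables. -/

set_option autoImplicit false

namespace Crest.Agent.R347.Chk

def hexv (c : Char) : ℕ := if c.toNat ≥ 97 then c.toNat - 87 else c.toNat - 48

/-- tokens of three hexadecimal digits -/
def toks (s : String) : Array ℕ := Id.run do
  let mut out : Array ℕ := #[]
  let mut acc := 0
  let mut k := 0
  for c in s.toList do
    if c.toNat ≥ 48 then
      acc := acc * 16 + hexv c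
      k := k + 1
      if k == 3 then
        out := out.push acc
        acc := 0
        k := 0
  return out

def decRows (t : Array ℕ) : Array Row := Id.run do
  let mut out : Array Row := #[]
  let mut i := 2
  for _ in [0:t[0]!] do
    let c := t[i + 3]!
    let mut T : List (ℕ × ℕ) := []
    for j in [0:c] do
      T := (t[i + 4 + 2 * (c - 1 - j)]!, t[i + 5 + 2 * (c - 1 - j)]!) :: T
    out := out.push ⟨t[i]!, t[i + 1]!, t[i + 2]!, T⟩
    i := i + 4 + 2 * c
  return out

def decRT (s : String) : RT :=
  let t := toks s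
  let r := decRows t
  let hi := t[1]!
  ⟨(List.range ((hi + 15) / 16)).map fun j => (r.extract (16 * j) (min hi (16 * j + 16))).toList,
    (r.extract hi r.size).toList⟩

def listE {α : Type} (ty : Lean.Expr) (f : α → Lean.Expr) (l : List α) : Lean.Expr :=
  let c := Lean.mkApp (Lean.mkConst ``List.cons [Lean.levelZero]) ty
  l.foldr (fun a e => Lean.mkApp2 c (f a) e) (Lean.mkApp (Lean.mkConst ``List.nil [Lean.levelZero]) ty)

def natE : Lean.Expr := Lean.mkConst ``Nat
def pairTy : Lean.Expr := Lean.mkApp2 (Lean.mkConst ``Prod [Lean.levelZero, Lean.levelZero]) natE natE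
def pairE (p : ℕ × ℕ) : Lean.Expr :=
  Lean.mkApp2 (Lean.mkApp2 (Lean.mkConst ``Prod.mk [Lean.levelZero, Lean.levelZero]) natE natE)
    (Lean.mkRawNatLit p.1) (Lean.mkRawNatLit p.2)
def rowE (r : Row) : Lean.Expr :=
  Lean.mkApp4 (Lean.mkConst ``Row.mk) (Lean.mkRawNatLit r.d) (Lean.mkRawNatLit r.G)
    (Lean.mkRawNatLit r.dno) (listE pairTy pairE r.T)
def rowTy : Lean.Expr := Lean.mkConst ``Row
instance : Lean.ToExpr RT where
  toTypeExpr := Lean.mkConst ``RT
  toExpr R := Lean.mkApp2 (Lean.mkConst ``RT.mk)
    (listE (Lean.mkApp (Lean.mkConst ``List [Lean.levelZero]) rowTy) (listE rowTy rowE) R.D)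
    (listE rowTy rowE R.I)

end Crest.Agent.R347.Chk
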