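import Crest.Agent.R347.Defs

/-! Row 347: auxiliary spectral lemmas. -/

set_option autoImplicit false

namespace Crest.Agent.R347
open Matrix Filter Topology

variable {κ : Type} [Fintype κ] [DecidableEq κ]

theorem sp_diag {𝕜 : Type} [RCLike 𝕜] (H : Matrix κ κ 𝕜) (hH : H.IsHermitian) :
    ∃ U : Matrix κ κ 𝕜, Uᴴ * U = 1 ∧ U * Uᴴ = 1 ∧
      H = U * diagonal (fun i => (hH.eigenvalues i : 𝕜)) * Uᴴ :=
  ⟨hH.eigenvectorUnitary, Unitary.coe_star_mul_self _, Unitary.coe_mul_star_self _,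
    hH.spectral_theorem⟩

theorem sp_pow {R : Type} [CommRing R] {ι : Type} [Fintype ι] [DecidableEq ι] {A : Matrix κ κ R}
    {V : Matrix κ ι R} {B : Matrix ι ι R} (h : A * V = V * B) (n : ℕ) : A ^ n * V = V * B ^ n := by
  induction n with
  | zero => simp
  | succ n ih => rw [pow_succ, Matrix.mul_assoc, h, ← Matrix.mul_assoc, ih, Matrix.mul_assoc, pow_succ]

omit [DecidableEq κ] in
theorem sp_dot (φ : κ → ℂ) : (star φ ⬝ᵥ φ).re = ∑ p, ‖φ p‖ ^ 2 := by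
  simp only [dotProduct, Complex.re_sum, Pi.star_apply, Complex.star_def, Complex.conj_mul',
    ← Complex.ofReal_pow, Complex.ofReal_re]

theorem sp_form (U : Matrix κ κ ℂ) (E : κ → ℝ) (ψ : κ → ℂ) :
    (star ψ ⬝ᵥ (U * diagonal (fun i => (E i : ℂ)) * Uᴴ) *ᵥ ψ).re =
      ∑ j, E j * ‖(Uᴴ *ᵥ ψ) j‖ ^ 2 := by
  rw [← mulVec_mulVec, ← mulVec_mulVec, dotProduct_mulVec,
    show star ψ ᵥ* U = star (Uᴴ *ᵥ ψ) by rw [star_mulVec, conjTranspose_conjTranspose],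
    dotProduct, Complex.re_sum]
  refine Finset.sum_congr rfl fun j _ => ?_
  rw [mulVec_diagonal, mul_left_comm, Pi.star_apply, Complex.star_def, Complex.conj_mul',
    ← Complex.ofReal_pow, ← Complex.ofReal_mul, Complex.ofReal_re]

theorem sp_norm {U : Matrix κ κ ℂ} (hU : U * Uᴴ = 1) (ψ : κ → ℂ) :
    ∑ j, ‖(Uᴴ *ᵥ ψ) j‖ ^ 2 = ∑ p, ‖ψ p‖ ^ 2 := by
  have := sp_form U (fun _ => 1) ψ
  simp only [Complex.ofReal_one, diagonal_one, Matrix.mul_one, hU, one_mulVec, one_mul] at this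
  rw [← this, sp_dot]

theorem sp_pow_sub {A : Type} [NormedRing A] {x y : A} {M : ℝ} (hx : ‖x‖ ≤ M) (hy : ‖y‖ ≤ M)
    (n : ℕ) : ‖x ^ (n + 1) - y ^ (n + 1)‖ ≤ (n + 1) * M ^ n * ‖x - y‖ := by
  have hM : 0 ≤ M := (norm_nonneg _).trans hx
  induction n with
  | zero => simp
  | succ n ih =>
    have h1 : ‖y ^ (n + 1)‖ ≤ M ^ (n + 1) := (norm_pow_le' _ n.succ_pos).trans (by gcongr)
    calc _ = ‖x * (x ^ (n + 1) - y ^ (n + 1)) + (x - y) * y ^ (n + 1)‖ := by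
          congr 1; rw [pow_succ' x (n + 1), pow_succ' y (n + 1)]; noncomm_ring
      _ ≤ M * ((n + 1) * M ^ n * ‖x - y‖) + ‖x - y‖ * M ^ (n + 1) :=
          norm_add_le_of_le ((norm_mul_le _ _).trans (by gcongr))
            ((norm_mul_le _ _).trans (by gcongr))
      _ = _ := by push_cast; ring

theorem sp_trotter {A : Type} [NormedRing A] [NormedAlgebra ℂ A] (h1 : ‖(1 : A)‖ ≤ 1)
    {X Y : ℕ → A} {T : A} (hX : Tendsto (fun n : ℕ => (n : ℂ) • (X n - 1)) atTop (𝓝 T))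
    (hY : Tendsto (fun n : ℕ => (n : ℂ) • (Y n - 1)) atTop (𝓝 T)) :
    Tendsto (fun n => X n ^ n - Y n ^ n) atTop (𝓝 0) := by
  have bd : ∀ {Z : ℕ → A}, Tendsto (fun n : ℕ => (n : ℂ) • (Z n - 1)) atTop (𝓝 T) →
      ∀ᶠ n : ℕ in atTop, 0 < n → ‖Z n‖ ≤ Real.exp ((‖T‖ + 1) / n) := fun {Z} hZ => by
    filter_upwards [hZ.norm.eventually_le_const (lt_add_one _)] with n hn hn0
    rw [norm_smul, Complex.norm_natCast, mul_comm, ← le_div_iff₀ (by exact_mod_cast hn0)] at hn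
    linarith [norm_le_norm_sub_add (Z n) 1, Real.add_one_le_exp ((‖T‖ + 1) / n)]
  have h0 := (hX.sub hY).norm.const_mul (Real.exp (‖T‖ + 1))
  rw [sub_self, norm_zero, mul_zero] at h0
  refine squeeze_zero_norm' ?_ h0
  filter_upwards [bd hX, bd hY, eventually_gt_atTop 0] with n a b hn
  obtain ⟨m, rfl⟩ : ∃ m, n = m + 1 := ⟨n - 1, by omega⟩
  refine (sp_pow_sub (a hn) (b hn) m).trans ?_
  rw [← smul_sub, sub_sub_sub_cancel_right, norm_smul, Complex.norm_natCast, ← mul_assoc,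
    mul_comm (Real.exp _), ← Real.exp_nat_mul]
  push_cast
  gcongr
  rw [mul_div_assoc', div_le_iff₀ (by positivity)]
  nlinarith [norm_nonneg T]

open scoped Matrix.Norms.Operator in
theorem sp_trotter' {X Y : ℕ → Matrix κ κ ℂ} {T : Matrix κ κ ℂ}
    (hX : Tendsto (fun n : ℕ => (n : ℂ) • (X n - 1)) atTop (𝓝 T))
    (hY : Tendsto (fun n : ℕ => (n : ℂ) • (Y n - 1)) atTop (𝓝 T)) :
    Tendsto (fun n => X n ^ n - Y n ^ n) atTop (𝓝 0) :=
  sp_trotter (by rw [← diagonal_one, linfty_opNorm_diagonal]; simpa using pi_norm_const_le (1 : ℂ))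
    hX hY

theorem sp_tendsto (H : Matrix κ κ ℂ) (hH : H.IsHermitian) (β : ℝ) :
    Tendsto (fun n : ℕ => (trace ((1 + ((-β / n : ℝ) : ℂ) • H) ^ n)).re) atTop (𝓝 (ptr H β)) := by
  obtain ⟨U, h1, h2, h3⟩ := sp_diag H hH
  rw [ptr, dif_pos hH]
  generalize hH.eigenvalues = E at h3
  refine (tendsto_finsetSum _ fun i _ => Real.tendsto_one_add_div_pow_exp (-β * E i)).congr
    fun n => ?_
  have h4 : (1 + ((-β / n : ℝ) : ℂ) • H) * U =
      U * diagonal fun i => ((1 + -β * E i / n : ℝ) : ℂ) := by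
    rw [h3, add_mul, smul_mul_assoc, mul_assoc, h1, mul_one, one_mul, ← mul_smul_comm,
      ← mul_one_add, ← diagonal_one, ← diagonal_smul, diagonal_add]
    congr 2
    ext i
    simp
    ring
  have h5 : ∀ M : Matrix κ κ ℂ, M ^ n = M ^ n * U * Uᴴ := fun M => by rw [mul_assoc, h2, mul_one]
  rw [h5, sp_pow h4, trace_mul_cycle, h1, one_mul, diagonal_pow,
    trace_diagonal, Complex.re_sum]
  exact Finset.sum_congr rfl fun i _ => by rw [Pi.pow_apply, ← Complex.ofReal_pow, Complex.ofReal_re]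

theorem sp_blocks {B : Type} [Fintype B] {ι : B → Type} [∀ b, Fintype (ι b)]
    [∀ b, DecidableEq (ι b)] (H : Matrix κ κ ℂ) (hH : H.IsHermitian) (V : ∀ b, Matrix κ (ι b) ℂ)
    (hV : ∀ b, (V b)ᴴ * V b = 1) (hP : ∑ b, V b * (V b)ᴴ = 1)
    (hK : ∀ b, H * V b = V b * ((V b)ᴴ * H * V b)) (β : ℝ) :
    ptr H β = ∑ b, ptr ((V b)ᴴ * H * V b) β := by
  refine tendsto_nhds_unique (sp_tendsto H hH β) ((tendsto_finsetSum _ fun b _ =>
    sp_tendsto _ (isHermitian_conjTranspose_mul_mul (V b) hH) β).congr fun n => ?_)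
  have h5 : ∀ M : Matrix κ κ ℂ, M ^ n = M ^ n * ∑ b, V b * (V b)ᴴ := fun M => by rw [hP, mul_one]
  rw [← Complex.re_sum, h5, Finset.mul_sum, trace_sum]
  congr 1
  refine Finset.sum_congr rfl fun b _ => ?_
  rw [← Matrix.mul_assoc, sp_pow (B := 1 + ((-β / n : ℝ) : ℂ) • ((V b)ᴴ * H * V b)) (by
    rw [Matrix.add_mul, Matrix.mul_add, Matrix.smul_mul, Matrix.mul_smul, ← hK, Matrix.one_mul,
      Matrix.mul_one]), trace_mul_cycle, hV, one_mul]

theorem sp_block {ι : Type} [Fintype ι] [DecidableEq ι] (H : Matrix κ κ ℂ) (hH : H.IsHermitian)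
    (V : Matrix κ ι ℂ) (hV : Vᴴ * V = 1) (hP : V * Vᴴ = 1) (β : ℝ) :
    ptr (Vᴴ * H * V) β = ptr H β := by
  rw [sp_blocks (B := Unit) H hH (fun _ => V) (fun _ => hV) (by simpa using hP) (fun _ => by
    rw [← Matrix.mul_assoc, ← Matrix.mul_assoc, hP, Matrix.one_mul])]
  simp

/-- the ground state index -/
theorem sp_ground [Nonempty κ] (H : Matrix κ κ ℂ) (hH : H.IsHermitian) :
    ∃ i, gse H = hH.eigenvalues i ∧ ∀ j, hH.eigenvalues i ≤ hH.eigenvalues j := by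
  obtain ⟨i, hi⟩ := Finite.exists_min hH.eigenvalues
  refine ⟨i, ?_, hi⟩
  rw [gse, dif_pos hH]
  exact le_antisymm (ciInf_le (Set.finite_range _).bddBelow i) (le_ciInf hi)

end Crest.Agent.R347
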