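import Crest.Agent.R347.Defs
import Crest.Agent.R347.SpecAux

/-! Row 347: spectral lemmas for `ptr`, `gse`. -/

set_option autoImplicit false

namespace Crest.Agent.R347
open Crest.MathPhysics.SpinChain Matrix Filter Topology

variable {κ : Type} [Fintype κ] [DecidableEq κ]

/-- Trotter limit: if `n (X n - 1) → -β H` then `Re tr (X n)^n → ptr H β`. -/
theorem ptr_tendsto (H : Matrix κ κ ℂ) (hH : H.IsHermitian) (β : ℝ) (X : ℕ → Matrix κ κ ℂ)
    (hX : Tendsto (fun n : ℕ => (n : ℂ) • (X n - 1)) atTop (𝓝 ((-(β : ℂ)) • H))) :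
    Tendsto (fun n : ℕ => (trace (X n ^ n)).re) atTop (𝓝 (ptr H β)) := by
  have hY : Tendsto (fun n : ℕ => (n : ℂ) • ((1 + ((-β / n : ℝ) : ℂ) • H) - 1)) atTop
      (𝓝 ((-(β : ℂ)) • H)) := by
    refine tendsto_const_nhds.congr' ?_
    filter_upwards [eventually_ne_atTop 0] with n hn
    rw [add_sub_cancel_left, smul_smul]
    congr 1
    have : (n : ℂ) ≠ 0 := by exact_mod_cast hn
    push_cast
    field_simp
  have hc : Continuous fun M : Matrix κ κ ℂ => (trace M).re :=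
    Complex.continuous_re.comp continuous_id.matrix_trace
  have := ((hc.tendsto 0).comp (sp_trotter' hX hY)).add (sp_tendsto H hH β)
  simpa [Function.comp_def] using this

theorem ptr_conj (H W : Matrix κ κ ℂ) (hH : H.IsHermitian) (hW : Wᴴ * W = 1) (β : ℝ) :
    ptr (Wᴴ * H * W) β = ptr H β := by
  exact sp_block H hH W hW (mul_eq_one_comm.1 hW) β

theorem ptr_submatrix {κ' : Type} [Fintype κ'] [DecidableEq κ'] (H : Matrix κ κ ℂ)
    (hH : H.IsHermitian) (e : κ' ≃ κ) (β : ℝ) : ptr (H.submatrix e e) β = ptr H β := by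
  have h : ((1 : Matrix κ κ ℂ).submatrix (Equiv.refl κ) e)ᴴ =
      (1 : Matrix κ κ ℂ).submatrix e (Equiv.refl κ) := by simp
  have hV : ((1 : Matrix κ κ ℂ).submatrix (Equiv.refl κ) e)ᴴ *
      (1 : Matrix κ κ ℂ).submatrix (Equiv.refl κ) e = 1 := by
    rw [h, submatrix_mul_equiv, mul_one, submatrix_one_equiv]
  rw [← sp_block H hH _ hV ((mul_eq_one_comm_of_equiv e).1 hV), h, one_submatrix_mul,
    mul_submatrix_one]
  rfl

/-- block decomposition along an orthonormal basis grouped in blocks -/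
theorem ptr_blocks {B : Type} [Fintype B] [DecidableEq B] (d : B → ℕ) (H : Matrix κ κ ℂ)
    (hH : H.IsHermitian) (V : ∀ b, Matrix κ (Fin (d b)) ℂ) (hV : ∀ b, (V b)ᴴ * V b = 1)
    (hV' : ∀ b b', b ≠ b' → (V b)ᴴ * V b' = 0) (hH' : ∀ b b', b ≠ b' → (V b)ᴴ * H * V b' = 0)
    (hd : ∑ b, d b = Fintype.card κ) (β : ℝ) :
    ptr H β = ∑ b, ptr ((V b)ᴴ * H * V b) β := by
  let W : Matrix κ (Σ b, Fin (d b)) ℂ := Matrix.of fun i x => V x.1 i x.2
  have hW : Wᴴ * W = 1 := by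
    ext ⟨b, p⟩ ⟨b', q⟩
    change ((V b)ᴴ * V b') p q = _
    by_cases h : b = b'
    · subst h
      simp [hV, one_apply]
    · rw [hV' b b' h, one_apply_ne fun h' => h (congrArg Sigma.fst h')]
      rfl
  have hP : ∑ b, V b * (V b)ᴴ = 1 := by
    rw [← (mul_eq_one_comm_of_card_eq _ _ _ (by simpa using hd)).1 hW]
    ext i j
    simp [W, mul_apply, Matrix.sum_apply, Fintype.sum_sigma]
  refine sp_blocks H hH V hV hP (fun b => ?_) β
  calc H * V b = (∑ b, V b * (V b)ᴴ) * (H * V b) := by rw [hP, Matrix.one_mul]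
    _ = _ := by
      rw [Matrix.sum_mul, Finset.sum_eq_single b (fun b' _ h => by
        rw [Matrix.mul_assoc, ← Matrix.mul_assoc _ H, hH' b' b h, Matrix.mul_zero]) (by simp)]
      simp only [Matrix.mul_assoc]

theorem ts_ptr [Nonempty κ] (H : Matrix κ κ ℂ) (hH : H.IsHermitian) : TS (ptr H) (gse H) := by
  obtain ⟨i, h1, h2⟩ := sp_ground H hH
  refine ⟨_, fun j => hH.eigenvalues ((Fintype.equivFin {j // j ≠ i}).symm j).1,
    fun j => h1 ▸ h2 _, fun β => ?_⟩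
  rw [ptr, dif_pos hH, Fintype.sum_eq_add_sum_subtype_ne _ i, h1,
    ← (Fintype.equivFin {j // j ≠ i}).symm.sum_comp]

theorem gse_le (H : Matrix κ κ ℂ) (hH : H.IsHermitian) (ψ : κ → ℂ) :
    gse H * (star ψ ⬝ᵥ ψ).re ≤ (star ψ ⬝ᵥ H.mulVec ψ).re := by
  obtain ⟨U, -, h2, h3⟩ := sp_diag H hH
  have := (congrArg (fun M => (star ψ ⬝ᵥ M *ᵥ ψ).re) h3).trans (sp_form U hH.eigenvalues ψ)
  rw [this, sp_dot, ← sp_norm h2, Finset.mul_sum, gse, dif_pos hH]
  exact Finset.sum_le_sum fun j _ => mul_le_mul_of_nonneg_right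
    (ciInf_le (Set.finite_range _).bddBelow j) (sq_nonneg _)

theorem sp_col (U : Matrix κ κ ℂ) (i : κ) (ψ : κ → ℂ) :
    star (U *ᵥ Pi.single i 1) ⬝ᵥ ψ = (Uᴴ *ᵥ ψ) i := by
  rw [star_mulVec, ← dotProduct_mulVec, Pi.star_single, star_one, single_one_dotProduct]

theorem sp_eig {H U : Matrix κ κ ℂ} {E : κ → ℝ} (h1 : Uᴴ * U = 1)
    (h3 : H = U * diagonal (fun i => (E i : ℂ)) * Uᴴ) (i : κ) :
    H *ᵥ (U *ᵥ Pi.single i 1) = (E i : ℂ) • U *ᵥ Pi.single i 1 := by
  rw [mulVec_mulVec, h3, mul_assoc, h1, mul_one, ← mulVec_mulVec, diagonal_mulVec_single,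
    ← mulVec_smul, ← Pi.single_smul', smul_eq_mul]

theorem exists_ground [Nonempty κ] (H : Matrix κ κ ℂ) (hH : H.IsHermitian) :
    ∃ ψ : κ → ℂ, star ψ ⬝ᵥ ψ = 1 ∧ H.mulVec ψ = (gse H : ℂ) • ψ := by
  obtain ⟨U, h1, -, h3⟩ := sp_diag H hH
  obtain ⟨i, h, -⟩ := sp_ground H hH
  exact ⟨_, by rw [sp_col, mulVec_mulVec, h1]; simp, h ▸ sp_eig h1 h3 i⟩

theorem sp_ne {U : Matrix κ κ ℂ} (h2 : U * Uᴴ = 1) {ψ : κ → ℂ} (hψ : ψ ≠ 0) : Uᴴ *ᵥ ψ ≠ 0 :=
  fun h => hψ (by rw [← one_mulVec ψ, ← h2, ← mulVec_mulVec, h, mulVec_zero])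

theorem gap_of_gapAt [Nonempty κ] (H : Matrix κ κ ℂ) (hH : H.IsHermitian) (γ γ' : ℝ)
    (h0 : 0 ≤ γ') (hγ : γ' ≤ γ) (h : GapAt (ptr H) (gse H) γ) :
    HasSimpleGroundStateWithGap H γ' := by
  obtain ⟨U, h1, h2, h3⟩ := sp_diag H hH
  obtain ⟨i, hi, -⟩ := sp_ground H hH
  obtain ⟨β, hβ, h⟩ := h
  rw [ptr, dif_pos hH, hi] at h
  have gap : ∀ j, j ≠ i → hH.eigenvalues i + γ' < hH.eigenvalues j := fun j hj => by
    have := Finset.add_le_sum (s := Finset.univ) (f := fun i => Real.exp (-β * hH.eigenvalues i))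
      (fun _ _ => (Real.exp_pos _).le) (Finset.mem_univ j) (Finset.mem_univ i) hj
    have h4 : Real.exp (-β * hH.eigenvalues j) < Real.exp (-γ * β + -β * hH.eigenvalues i) := by
      rw [Real.exp_add]; linarith
    rw [Real.exp_lt_exp] at h4
    nlinarith
  refine ⟨hH.eigenvalues i, U *ᵥ Pi.single i 1, fun h0 => ?_, sp_eig h1 h3 i, fun ψ hψ ho => ?_⟩
  · have := sp_col U i (U *ᵥ Pi.single i 1)
    rw [mulVec_mulVec, h1, h0] at this
    simp at this
  · rw [sp_col] at ho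
    have := (congrArg (fun M => (star ψ ⬝ᵥ M *ᵥ ψ).re) h3).trans (sp_form U hH.eigenvalues ψ)
    rw [this, sp_dot, ← sp_norm h2, Finset.mul_sum]
    obtain ⟨j, hj⟩ := Function.ne_iff.1 (sp_ne h2 hψ)
    refine Finset.sum_lt_sum (fun k _ => ?_) ⟨j, Finset.mem_univ _, mul_lt_mul_of_pos_right
      (gap j fun h => hj (h ▸ ho)) (pow_pos (norm_pos_iff.2 hj) _)⟩
    by_cases hk : k = i
    · simp [hk, ho]
    · exact mul_le_mul_of_nonneg_right (gap k hk).le (sq_nonneg _)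

theorem sp_encl {n r : ℕ} {K : Matrix (Fin n) (Fin n) ℂ} (hK : K.IsHermitian) {Es η : ℚ}
    (hη : 0 ≤ η) {ρ : Fin r → ℚ} (ℓ : Fin r → Fin n → ℂ)
    (hcount : ∀ y : Fin n → ℂ, (∀ i, ℓ i ⬝ᵥ y = 0) →
      (Es : ℝ) * ∑ p, ‖y p‖ ^ 2 ≤ (star y ⬝ᵥ K.mulVec y).re)
    (v : Fin r → Fin n → ℂ) (hv : ∀ i, v i ≠ 0)
    (hres : ∀ i, ∑ p, ‖K.mulVec (v i) p - (ρ i : ℂ) * v i p‖ ^ 2 ≤ (η : ℝ) ^ 2 * ∑ p, ‖v i p‖ ^ 2)
    (hsep : ∀ i j, i < j → ρ i + η < ρ j - η) (hbelow : ∀ i, ρ i + η < Es) :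
    Encl (ptr K) (List.ofFn ρ) η [(n, Es)] := by
  obtain ⟨U, h1, h2, h3⟩ := sp_diag K hK
  have hp : ∀ β, ptr K β = ∑ j, Real.exp (-β * hK.eigenvalues j) := fun β => dif_pos hK
  generalize hK.eigenvalues = E at h3 hp
  replace h3 : K = U * diagonal (fun i => (E i : ℂ)) * Uᴴ := h3
  have hη' : (0 : ℝ) ≤ η := by exact_mod_cast hη
  have count : (Finset.univ.filter fun j => E j < Es).card ≤ r := by
    let Φ : (Fin n → ℂ) →ₗ[ℂ] (Fin r → ℂ) × ({j // ¬E j < Es} → ℂ) :=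
      (Matrix.of ℓ * U).mulVecLin.prod (LinearMap.funLeft ℂ ℂ Subtype.val)
    have hΦ : Function.Injective Φ := by
      rw [injective_iff_map_eq_zero]
      intro c hc
      by_contra hc0
      obtain ⟨j, hj⟩ := Function.ne_iff.1 hc0
      have c1 : (Matrix.of ℓ * U) *ᵥ c = 0 := congrArg Prod.fst hc
      have c2 : ∀ j, ¬E j < Es → c j = 0 := fun j h => congrFun (congrArg Prod.snd hc) ⟨j, h⟩
      have := hcount (U *ᵥ c) fun i => by
        rw [← mulVec_mulVec] at c1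
        exact congrFun c1 i
      rw [h3, sp_form, ← sp_norm h2, mulVec_mulVec, h1, one_mulVec, Finset.mul_sum] at this
      refine this.not_gt (Finset.sum_lt_sum (fun k _ => ?_) ⟨j, Finset.mem_univ _,
        mul_lt_mul_of_pos_right (by_contra fun h => hj (c2 j h)) (pow_pos (norm_pos_iff.2 hj) _)⟩)
      by_cases hk : E k < Es
      · exact mul_le_mul_of_nonneg_right hk.le (sq_nonneg _)
      · simp [c2 k hk]
    have := LinearMap.finrank_le_finrank_of_injective hΦ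
    have h4 := Finset.card_filter_add_card_filter_not (s := Finset.univ) fun j => E j < Es
    simp only [Module.finrank_prod, Module.finrank_fintype_fun_eq_card, Fintype.card_subtype,
      Finset.card_univ, Fintype.card_fin] at this h4
    omega
  have res : ∀ i, ∃ j, |E j - ρ i| ≤ η := fun i => by
    by_contra! h
    have e : Uᴴ *ᵥ (K *ᵥ v i - (ρ i : ℂ) • v i) =
        fun j => ((E j - ρ i : ℝ) : ℂ) * (Uᴴ *ᵥ v i) j := by
      rw [mulVec_sub, mulVec_smul, h3, mulVec_mulVec, ← mul_assoc, ← mul_assoc, h1, one_mul,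
        ← mulVec_mulVec]
      ext j
      simp [mulVec_diagonal, sub_mul, -mulVec_mulVec]
    have a1 := sp_norm h2 (K *ᵥ v i - (ρ i : ℂ) • v i)
    have a2 := hres i
    rw [← sp_norm h2 (v i), Finset.mul_sum] at a2
    obtain ⟨j, hj⟩ := Function.ne_iff.1 (sp_ne h2 (hv i))
    simp only [e, norm_mul, mul_pow, Complex.norm_real, Real.norm_eq_abs] at a1
    exact (a1.le.trans a2).not_gt (Finset.sum_lt_sum (fun k _ => by gcongr; exact (h k).le)
      ⟨j, Finset.mem_univ _, mul_lt_mul_of_pos_right (by gcongr; exact h j)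
        (pow_pos (norm_pos_iff.2 hj) _)⟩)
  choose J hJ using res
  simp only [abs_le] at hJ
  have hinj : Function.Injective J := Function.Injective.of_lt_imp_ne fun i j hij h => by
    have : (ρ i : ℝ) + η < ρ j - η := by exact_mod_cast hsep i j hij
    linarith [(hJ i).2, (h ▸ hJ j).1]
  have himg : Finset.univ.image J = Finset.univ.filter fun j => E j < Es := by
    refine Finset.eq_of_subset_of_card_le (fun j hj => ?_)
      (by rwa [Finset.card_image_of_injective _ hinj, Finset.card_univ, Fintype.card_fin])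
    obtain ⟨i, -, rfl⟩ := Finset.mem_image.1 hj
    have : (ρ i : ℝ) + η < Es := by exact_mod_cast hbelow i
    exact Finset.mem_filter.2 ⟨Finset.mem_univ _, by linarith [(hJ i).2]⟩
  intro β hβ
  rw [hp, ← Finset.sum_filter_add_sum_filter_not _ fun j => E j < Es, ← himg,
    Finset.sum_image hinj.injOn]
  simp only [List.map_ofFn, List.sum_ofFn, Function.comp_apply, List.map_cons, List.map_nil,
    List.sum_cons, List.sum_nil, add_zero]
  refine ⟨le_add_of_le_of_nonneg (Finset.sum_le_sum fun i _ => ?_)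
    (Finset.sum_nonneg fun _ _ => (Real.exp_pos _).le),
    add_le_add (Finset.sum_le_sum fun i _ => ?_) ?_⟩
  · exact Real.exp_le_exp.2 (by nlinarith [(hJ i).2])
  · exact Real.exp_le_exp.2 (by nlinarith [(hJ i).1])
  · refine (Finset.sum_le_card_nsmul _ _ (Real.exp (-β * Es)) fun j hj =>
      Real.exp_le_exp.2 (by nlinarith [not_lt.1 (Finset.mem_filter.1 hj).2])).trans ?_
    rw [nsmul_eq_mul]
    gcongr
    exact (Finset.card_le_univ _).trans_eq (Fintype.card_fin n)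

/-- Counting + enclosure, for the pencil `(C, diag G)`.  At most `r` levels lie below `Es`
(the form is `≥ Es` on the common kernel of `r` functionals), and `r` approximate eigenvectors
with separated levels locate them. -/
theorem encl_pencil {n r : ℕ} (C : Matrix (Fin n) (Fin n) ℂ) (hC : C.IsHermitian)
    (G : Fin n → ℝ) (hG : ∀ p, 0 < G p) (Es η : ℚ) (hη : 0 ≤ η) (ρ : Fin r → ℚ)
    (ℓ : Fin r → Fin n → ℂ)
    (hcount : ∀ y : Fin n → ℂ, (∀ i, ℓ i ⬝ᵥ y = 0) →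
      (Es : ℝ) * ∑ p, G p * ‖y p‖ ^ 2 ≤ (star y ⬝ᵥ C.mulVec y).re)
    (v : Fin r → Fin n → ℂ) (hv : ∀ i, v i ≠ 0)
    (hres : ∀ i, ∑ p, ‖C.mulVec (v i) p - (ρ i : ℂ) * G p * v i p‖ ^ 2 / G p ≤
      (η : ℝ) ^ 2 * ∑ p, G p * ‖v i p‖ ^ 2)
    (hsep : ∀ i j, i < j → ρ i + η < ρ j - η) (hbelow : ∀ i, ρ i + η < Es) :
    Encl (ptr (diagonal (fun p => (((Real.sqrt (G p))⁻¹ : ℝ) : ℂ)) * C *
      diagonal (fun p => (((Real.sqrt (G p))⁻¹ : ℝ) : ℂ)))) (List.ofFn ρ) η [(n, Es)] := by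
  set S := diagonal (fun p => (((Real.sqrt (G p))⁻¹ : ℝ) : ℂ)) with hS
  have hSh : Sᴴ = S := by rw [hS, diagonal_conjTranspose]; congr 1; ext p; simp
  have hK : (S * C * S).IsHermitian := by
    have := isHermitian_conjTranspose_mul_mul S hC
    rwa [hSh] at this
  have hs : ∀ p, 0 < Real.sqrt (G p) := fun p => Real.sqrt_pos.2 (hG p)
  have hSn : ∀ (x : Fin n → ℂ) p, ‖(S *ᵥ x) p‖ ^ 2 = ‖x p‖ ^ 2 / G p := fun x p => by
    rw [hS, mulVec_diagonal, norm_mul, Complex.norm_real, Real.norm_eq_abs, mul_pow, sq_abs, inv_pow,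
      Real.sq_sqrt (hG p).le, inv_mul_eq_div]
  refine sp_encl hK hη (fun i => ℓ i ᵥ* S) (fun x hx => ?_)
    (fun i p => (Real.sqrt (G p) : ℂ) * v i p) (fun i h => hv i ?_) (fun i => ?_) hsep hbelow
  · have := hcount (S *ᵥ x) fun i => by rw [dotProduct_mulVec, hx]
    rw [star_mulVec, ← dotProduct_mulVec, hSh, mulVec_mulVec, mulVec_mulVec] at this
    simpa only [hSn, mul_div_cancel₀ _ (hG _).ne'] using this
  · ext p
    simpa [(hs p).ne'] using congrFun h p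
  · have e : S *ᵥ (fun p => (Real.sqrt (G p) : ℂ) * v i p) = v i := by
      ext p
      rw [hS, mulVec_diagonal, ← mul_assoc, ← Complex.ofReal_mul, inv_mul_cancel₀ (hs p).ne']
      simp
    convert hres i using 3 with p _ p
    · rw [← hSn fun p => C.mulVec (v i) p - (ρ i : ℂ) * G p * v i p, ← mulVec_mulVec, e,
        ← mulVec_mulVec, hS, mulVec_diagonal, mulVec_diagonal, mul_sub]
      have h1 : (G p : ℂ) = (Real.sqrt (G p) : ℂ) * Real.sqrt (G p) := by
        rw [← Complex.ofReal_mul, Real.mul_self_sqrt (hG p).le]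
      have h2 : (Real.sqrt (G p) : ℂ) ≠ 0 := by exact_mod_cast (hs p).ne'
      congr 3
      rw [h1]
      push_cast
      field_simp
    · rw [norm_mul, mul_pow, Complex.norm_real, Real.norm_eq_abs, sq_abs, Real.sq_sqrt (hG p).le]

end Crest.Agent.R347
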