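import Crest.Agent.R347.Defs

/-! Row 347: product operators; the Hamiltonians are Hermitian. -/

set_option autoImplicit false
set_option linter.unusedSectionVars false

namespace Crest.Agent.R347
open Crest.MathPhysics.SpinChain Matrix Filter Topology

section
variable {ι V R : Type} [Fintype ι] [DecidableEq ι] [Fintype V] [DecidableEq V]

theorem piKron_mul [CommRing R] (W W' : ι → Matrix V V R) :
    piKron W * piKron W' = piKron fun j => W j * W' j := by
  ext σ τ
  simp only [piKron, mul_apply, of_apply, Finset.prod_univ_sum, Fintype.piFinset_univ,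
    Finset.prod_mul_distrib]

theorem piKron_one [CommRing R] : piKron (fun _ : ι => (1 : Matrix V V R)) = 1 := by
  ext σ τ
  simp only [piKron, of_apply, one_apply, Fintype.prod_boole, funext_iff]

theorem trace_piKron [CommRing R] (W : ι → Matrix V V R) :
    trace (piKron W) = ∏ j, trace (W j) := by
  simp only [piKron, trace, diag, of_apply, Finset.prod_univ_sum, Fintype.piFinset_univ]

theorem piKron_transpose [CommRing R] (W : ι → Matrix V V R) :
    (piKron W)ᵀ = piKron fun j => (W j)ᵀ := by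
  rfl

theorem piKron_conjTranspose (W : ι → Matrix V V ℂ) :
    (piKron W)ᴴ = piKron fun j => (W j)ᴴ := by
  ext σ τ
  simp only [piKron, of_apply, conjTranspose_apply, star_prod]

theorem piKron_two [CommRing R] (A B : Matrix V V R) (j k : ι) (hjk : j ≠ k) :
    piKron (Function.update (Function.update (fun _ => (1 : Matrix V V R)) j A) k B) =
      onBond (kroneckerMap (· * ·) A B) j k := by
  ext σ τ
  simp only [piKron, onBond, of_apply, kroneckerMap_apply]
  rw [← Finset.mul_prod_erase _ _ (Finset.mem_univ k),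
    ← Finset.mul_prod_erase _ _ (Finset.mem_erase.2 ⟨hjk, Finset.mem_univ j⟩),
    Finset.prod_congr rfl (g := fun i => if σ i = τ i then 1 else 0) fun i hi => by
      simp only [Finset.mem_erase] at hi
      rw [Function.update_of_ne hi.2.1, Function.update_of_ne hi.1, one_apply],
    Finset.prod_boole, Function.update_self, Function.update_of_ne hjk, Function.update_self]
  simp only [Finset.mem_erase, Finset.mem_univ, and_true, and_imp]
  split_ifs <;> ring

theorem onBond_add [CommRing R] (A B : Matrix (V × V) (V × V) R) (j k : ι) :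
    onBond (A + B) j k = onBond A j k + onBond B j k := by
  ext σ τ
  simp only [onBond, of_apply, Matrix.add_apply]
  split_ifs <;> simp

theorem onBond_smul [CommRing R] (c : R) (A : Matrix (V × V) (V × V) R) (j k : ι) :
    onBond (c • A) j k = c • onBond A j k := by
  ext σ τ
  simp only [onBond, of_apply, Matrix.smul_apply]
  split_ifs <;> simp

theorem onBond_conjTranspose (A : Matrix (V × V) (V × V) ℂ) (j k : ι) :
    (onBond A j k)ᴴ = onBond Aᴴ j k := by
  ext σ τ
  simp only [onBond, of_apply, conjTranspose_apply, eq_comm (a := τ _)]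
  split_ifs <;> simp

omit [Fintype V] in
theorem tn_onBond_zero [CommRing R] (j k : ι) : onBond (0 : Matrix (V × V) (V × V) R) j k = 0 := by
  ext σ τ
  simp [onBond]

theorem tn_kron_ind [CommRing R] {P : Matrix (V × V) (V × V) R → Prop} (h0 : P 0)
    (hadd : ∀ A B, P A → P B → P (A + B))
    (hk : ∀ A B : Matrix V V R, P (kroneckerMap (· * ·) A B)) (M : Matrix (V × V) (V × V) R) :
    P M := by
  refine Matrix.induction_on' M h0 hadd fun s t x => ?_
  have := hk (single s.1 t.1 x) (single s.2 t.2 1)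
  rwa [single_kronecker_single, mul_one] at this

theorem tn_onBond_mul [CommRing R] (A B : Matrix (V × V) (V × V) R) (j k : ι) (hjk : j ≠ k) :
    onBond (A * B) j k = onBond A j k * onBond B j k := by
  induction A using tn_kron_ind with
  | h0 => simp [tn_onBond_zero]
  | hadd A A' ha hb => simp only [onBond_add, add_mul, ha, hb]
  | hk A A' =>
    induction B using tn_kron_ind with
    | h0 => simp [tn_onBond_zero]
    | hadd B B' ha hb => simp only [onBond_add, mul_add, ha, hb]
    | hk B B' =>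
      rw [← mul_kronecker_mul, ← piKron_two _ _ _ _ hjk, ← piKron_two _ _ _ _ hjk,
        ← piKron_two _ _ _ _ hjk, piKron_mul]
      congr 1
      ext1 i
      by_cases h : i = k
      · simp [h]
      · by_cases h' : i = j
        · simp [h', hjk]
        · simp [h, h']

/-- `onBond` as a ring homomorphism -/
def tn_hom [CommRing R] (j k : ι) (hjk : j ≠ k) :
    Matrix (V × V) (V × V) R →+* Matrix (ι → V) (ι → V) R where
  toFun A := onBond A j k
  map_one' := by rw [← one_kronecker_one, ← piKron_two _ _ _ _ hjk]; simp [piKron_one]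
  map_mul' A B := tn_onBond_mul A B j k hjk
  map_zero' := tn_onBond_zero j k
  map_add' A B := onBond_add A B j k

theorem conj_onBond (W : ι → Matrix V V ℂ) (hW : ∀ j, (W j)ᴴ * W j = 1)
    (A : Matrix (V × V) (V × V) ℂ) (j k : ι) (hjk : j ≠ k) :
    (piKron W)ᴴ * onBond A j k * piKron W =
      onBond ((kroneckerMap (· * ·) (W j) (W k))ᴴ * A * kroneckerMap (· * ·) (W j) (W k)) j k := by
  induction A using tn_kron_ind with
  | h0 => simp [tn_onBond_zero]
  | hadd A B ha hb => simp only [onBond_add, mul_add, add_mul, ha, hb]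
  | hk A B =>
    rw [conjTranspose_kronecker, ← mul_kronecker_mul, ← mul_kronecker_mul, ← piKron_two _ _ _ _ hjk,
      ← piKron_two _ _ _ _ hjk, piKron_conjTranspose, piKron_mul, piKron_mul]
    congr 1
    ext1 i
    by_cases h : i = k
    · simp [h]
    · by_cases h' : i = j
      · simp [h', hjk]
      · simp [h, h', hW]
end

section
variable {ι : Type} [Fintype ι] [DecidableEq ι]

theorem onSite_eq_piKron (A : Matrix (Fin 3) (Fin 3) ℂ) (j : ι) :
    onSite A j = piKron (Function.update (fun _ => (1 : Matrix (Fin 3) (Fin 3) ℂ)) j A) := by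
  ext σ τ
  simp only [piKron, onSite, of_apply]
  rw [← Finset.mul_prod_erase _ _ (Finset.mem_univ j),
    Finset.prod_congr rfl (g := fun i => if σ i = τ i then 1 else 0) fun i hi => by
      rw [Function.update_of_ne (Finset.mem_erase.1 hi).1, one_apply],
    Finset.prod_boole, Function.update_self]
  simp

theorem conj_onSite (W : ι → Matrix (Fin 3) (Fin 3) ℂ) (hW : ∀ j, (W j)ᴴ * W j = 1)
    (A : Matrix (Fin 3) (Fin 3) ℂ) (j : ι) :
    (piKron W)ᴴ * onSite A j * piKron W = onSite ((W j)ᴴ * A * W j) j := by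
  rw [onSite_eq_piKron, onSite_eq_piKron, piKron_conjTranspose, piKron_mul, piKron_mul]
  congr 1
  ext1 i
  by_cases h : i = j
  · simp [h]
  · simp [h, hW]

theorem tn_site_mul (A B : Matrix (Fin 3) (Fin 3) ℂ) (j k : ι) (hjk : j ≠ k) :
    onSite A j * onSite B k = onBond (kroneckerMap (· * ·) A B) j k := by
  rw [onSite_eq_piKron, onSite_eq_piKron, piKron_mul, ← piKron_two _ _ _ _ hjk]
  congr 1
  ext1 i
  by_cases h : i = k
  · simp [h, hjk.symm]
  · by_cases h' : i = j
    · simp [h', hjk]
    · simp [h, h']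

theorem tbond_eq_onBond (ζ : ℂ) (j k : ι) (hjk : j ≠ k) : tbond ζ j k = onBond (hloc ζ) j k := by
  rw [tbond, tn_site_mul _ _ _ _ hjk, tn_site_mul _ _ _ _ hjk, tn_site_mul _ _ _ _ hjk,
    ← onBond_smul, ← onBond_smul, ← onBond_add, ← onBond_add]
  congr 1
  have h2 : ((Real.sqrt 2 : ℝ) : ℂ) * ((Real.sqrt 2 : ℝ) : ℂ) = 2 := by
    rw [← Complex.ofReal_mul, Real.mul_self_sqrt (by norm_num)]; norm_num
  ext ⟨a, b⟩ ⟨c, d⟩
  fin_cases a <;> fin_cases b <;> fin_cases c <;> fin_cases d <;>
    simp [hloc, spinZ, spinPlus, spinMinus, magneticNumber, h2]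

theorem bond_eq_tbond (j k : ι) : bond j k = tbond 1 j k := by
  have hadd : ∀ (A B : Matrix (Fin 3) (Fin 3) ℂ) (i : ι),
      onSite (A + B) i = onSite A i + onSite B i := fun A B i => by
    ext σ τ; simp only [onSite, of_apply, Matrix.add_apply]; split_ifs <;> simp
  have hsub : ∀ (A B : Matrix (Fin 3) (Fin 3) ℂ) (i : ι),
      onSite (A - B) i = onSite A i - onSite B i := fun A B i => by
    ext σ τ; simp only [onSite, of_apply, Matrix.sub_apply]; split_ifs <;> simp
  have hsmul : ∀ (c : ℂ) (A : Matrix (Fin 3) (Fin 3) ℂ) (i : ι),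
      onSite (c • A) i = c • onSite A i := fun c A i => by
    ext σ τ; simp only [onSite, of_apply, Matrix.smul_apply]; split_ifs <;> simp
  have hI : (1 / (2 * Complex.I)) * (1 / (2 * Complex.I)) = -1 / 4 := by
    field_simp; rw [Complex.I_sq]; norm_num
  simp only [bond, tbond, Fin.sum_univ_three, spinOp, cons_val_zero, cons_val_one, cons_val, spinX,
    spinY, hadd, hsub, hsmul, smul_mul_smul_comm, hI, mul_add, add_mul, mul_sub, sub_mul, star_one]
  module

theorem tn_hloc_herm (ζ : ℂ) : (hloc ζ)ᴴ = hloc ζ := by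
  ext ⟨a, b⟩ ⟨c, d⟩
  fin_cases a <;> fin_cases b <;> fin_cases c <;> fin_cases d <;> simp [hloc]

/-- integer version of `hloc 1` -/
def tn_hz : Matrix (Fin 3 × Fin 3) (Fin 3 × Fin 3) ℤ :=
  Matrix.of fun s t =>
    if s = t then magneticNumber s.1 * magneticNumber s.2
    else if t.1.val = s.1.val + 1 ∧ s.2.val = t.2.val + 1 then 1
    else if s.1.val = t.1.val + 1 ∧ t.2.val = s.2.val + 1 then 1
    else 0

open scoped ComplexOrder in
theorem tn_psd {κ : Type} [Fintype κ] [DecidableEq κ] {Z : Matrix κ κ ℂ} (hZ : Z.IsHermitian)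
    (h : 6 • Z = 2 • (Z * Z) + (Z * Z - 3 • Z) * (Z * Z - 3 • Z)) (ψ : κ → ℂ) :
    0 ≤ (star ψ ⬝ᵥ Z.mulVec ψ).re := by
  have sq : ∀ B : Matrix κ κ ℂ, B.IsHermitian → 0 ≤ (star ψ ⬝ᵥ (B * B).mulVec ψ).re := by
    intro B hB
    have := (posSemidef_conjTranspose_mul_self B).re_dotProduct_nonneg ψ
    rwa [hB.eq] at this
  have a1 := sq Z hZ
  have a2 := sq (Z * Z - 3 • Z) (by
    rw [IsHermitian, conjTranspose_sub, conjTranspose_mul, conjTranspose_nsmul, hZ.eq])
  have := congrArg (fun M => (star ψ ⬝ᵥ M.mulVec ψ).re) h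
  simp only [add_mulVec, smul_mulVec, dotProduct_add, dotProduct_smul, Complex.add_re,
    Complex.re_nsmul] at this
  rw [nsmul_eq_mul, nsmul_eq_mul] at this
  push_cast at this
  linarith

/-- `-2 ≤ h ≤ 1` for one bond -/
theorem bond_form_bound (j k : ι) (hjk : j ≠ k) (ψ : (ι → Fin 3) → ℂ) :
    -2 * (star ψ ⬝ᵥ ψ).re ≤ (star ψ ⬝ᵥ (bond j k).mulVec ψ).re ∧
      (star ψ ⬝ᵥ (bond j k).mulVec ψ).re ≤ (star ψ ⬝ᵥ ψ).re := by
  let φ : Matrix (Fin 3 × Fin 3) (Fin 3 × Fin 3) ℤ →+* Matrix (ι → Fin 3) (ι → Fin 3) ℂ :=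
    (tn_hom j k hjk).comp (Int.castRingHom ℂ).mapMatrix
  have hφ : φ tn_hz = bond j k := by
    rw [bond_eq_tbond, tbond_eq_onBond _ _ _ hjk]
    change onBond _ j k = _
    congr 1
    ext s t
    simp [tn_hz, hloc]
  have hH : (bond j k).IsHermitian := by
    rw [bond_eq_tbond, tbond_eq_onBond _ _ _ hjk, IsHermitian, onBond_conjTranspose, tn_hloc_herm]
  have key : ∀ Z, 6 • Z = 2 • (Z * Z) + (Z * Z - 3 • Z) * (Z * Z - 3 • Z) → (φ Z).IsHermitian →
      0 ≤ (star ψ ⬝ᵥ (φ Z).mulVec ψ).re := fun Z h hZ =>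
    tn_psd hZ (by simpa only [map_nsmul, map_add, map_mul, map_sub] using congrArg φ h) ψ
  have a1 := key (1 - tn_hz) (by decide +kernel)
    (by rw [map_sub, map_one, hφ]; exact isHermitian_one.sub hH)
  have a2 := key (tn_hz + 1 + 1) (by decide +kernel)
    (by rw [map_add, map_add, map_one, hφ]; exact (hH.add isHermitian_one).add isHermitian_one)
  simp only [map_sub, map_add, map_one, hφ, sub_mulVec, add_mulVec, one_mulVec, dotProduct_sub,
    dotProduct_add, Complex.sub_re, Complex.add_re] at a1 a2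
  constructor <;> linarith
end

theorem finRotate_ne {L : ℕ} (hL : 2 ≤ L) (j : Fin L) : j ≠ finRotate L j := by
  obtain ⟨n, rfl⟩ : ∃ n, L = n + 2 := ⟨L - 2, by omega⟩
  simp

theorem Hring_herm (L : ℕ) (hL : 2 ≤ L) (ζ : ℂ) : (Hring L ζ).IsHermitian := by
  rw [IsHermitian, Hring, conjTranspose_sum]
  refine Finset.sum_congr rfl fun j _ => ?_
  rw [tbond_eq_onBond _ _ _ (finRotate_ne hL j), onBond_conjTranspose, tn_hloc_herm]

theorem Hopen_herm (n : ℕ) (τ : Bool) : (Hopen n τ).IsHermitian := by
  have hz : ∀ j : Fin (n + 1), (onSite spinZ j)ᴴ = onSite spinZ j := fun j => by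
    ext σ τ
    simp only [onSite, of_apply, conjTranspose_apply, eq_comm (a := τ _), spinZ, diagonal_apply]
    split_ifs with h h' <;> simp [*]
  rw [IsHermitian, Hopen, conjTranspose_sub, conjTranspose_sum, conjTranspose_smul,
    conjTranspose_add, conjTranspose_smul, hz, hz]
  congr 1
  · refine Finset.sum_congr rfl fun j _ => ?_
    rw [bond_eq_tbond, tbond_eq_onBond _ _ _ Fin.castSucc_lt_succ.ne, onBond_conjTranspose,
      tn_hloc_herm]
  · cases τ <;> simp

theorem heisenbergRing_eq (L : ℕ) : heisenbergRing L = Hring L (zeta L 0) := by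
  simp only [heisenbergRing, Hring, zeta, bond_eq_tbond, mul_zero, pow_zero]

theorem openChain_eq (n : ℕ) : openChainEndField n (3 / 5) = Hopen n true := by
  simp [openChainEndField, Hopen]

/-- the ring is the open chain plus the closing bond -/
theorem Hring_succ (n : ℕ) : Hring (n + 1) (zeta (n + 1) 0) =
    (∑ j : Fin n, bond (Fin.castSucc j) (Fin.succ j)) + bond (Fin.last n) 0 := by
  rw [← heisenbergRing_eq, heisenbergRing, Fin.sum_univ_castSucc, finRotate_last]
  simp only [finRotate_apply, Fin.coeSucc_eq_succ]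

end Crest.Agent.R347
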