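import Crest.Agent.R347.Tab
import Crest.Agent.R347.Spec
import Crest.Agent.R347.Tensor

/-! Row 347: definitions for the certified enclosures (block models, term tables).
Owner: helper8. -/

set_option autoImplicit false

namespace Crest.Agent.R347
open Crest.MathPhysics.SpinChain Matrix

/-! ### generic part -/

/-- field number `i` of width `w` bits of the packed number `Y` -/
def fld (w Y i : ℕ) : ℕ := Y / 2 ^ (w * i) % 2 ^ w

/-- one row of a sparse symmetric matrix: activity tag `d`, weight `G`,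
diagonal `(dno - 1280)/5`, off-diagonal terms `(position, value type)` -/
structure Row where
  d : ℕ
  G : ℕ
  dno : ℕ
  T : List (ℕ × ℕ)
  deriving Inhabited

/-- rows in chunks (`D`), followed by an independent set of rows (`I`) -/
structure RT where
  D : List (List Row)
  I : List Row

def RT.rows (R : RT) : List Row := R.D.flatten ++ R.I
def RT.row (R : RT) (p : ℕ) : Row := R.rows.getD p default
def RT.n (R : RT) : ℕ := R.rows.length

/-- active positions -/
abbrev Idx (n : ℕ) (act : ℕ → Bool) : Type := {p : Fin n // act p.val = true}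

/-- the matrix `G^{-1/2} C G^{-1/2}` on the active positions -/
noncomputable def pencil (n : ℕ) (act : ℕ → Bool) (G : ℕ → ℕ) (C : ℕ → ℕ → ℝ) :
    Matrix (Idx n act) (Idx n act) ℂ :=
  Matrix.of fun p q =>
    ((C p.1.val q.1.val / (Real.sqrt (G p.1.val) * Real.sqrt (G q.1.val)) : ℝ) : ℂ)

/-- the table `R` describes the matrix `C` on the active positions -/
def RowSpec (R : RT) (act : ℕ → Bool) (valR : ℕ → ℝ) (C : ℕ → ℕ → ℝ) : Prop :=
  ∀ p, p < R.n → act (R.row p).d = true → ∀ q, q < R.n →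
    (if act (R.row q).d = true then C p q else 0) =
      (if p = q then (((R.row p).dno : ℝ) - 1280) / 5 else 0) +
        (((R.row p).T.filter fun t => t.1 = q).map fun t => valR t.2).sum

/-- the packed table `T` (fields of `w` bits, offset `2^(sc+5)`) approximates `2^sc · valR` -/
def TabSpec (T w sc : ℕ) (valR : ℕ → ℝ) (ny : ℕ) : Prop :=
  ∀ y, y < ny → fld w T y < 2 ^ (sc + 6) ∧
    |((fld w T y : ℝ) - 2 ^ (sc + 5)) - 2 ^ sc * valR y| ≤ 2

/-- enclosure with levels `-ρ/2^40 ± 2^-24` and tails `(n, -E/2^16)` -/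
def EnclN (f : ℝ → ℝ) (ρ : List ℕ) (tails : List (ℕ × ℕ)) : Prop :=
  Encl f (ρ.map fun r : ℕ => -(r : ℚ) / 2 ^ 40) (1 / 2 ^ 24)
    (tails.map fun t : ℕ × ℕ => (t.1, -(t.2 : ℚ) / 2 ^ 16))

/-! ### configurations -/

def cfg (L c : ℕ) : Cfg L := fun j => ⟨c / 3 ^ j.val % 3, Nat.mod_lt _ (by norm_num)⟩
/-- translation by one site -/
def tr {L : ℕ} (σ : Cfg L) : Cfg L := fun j => σ ((finRotate L).symm j)
/-- reflection -/
def rf {L : ℕ} (σ : Cfg L) : Cfg L := fun j => σ (Fin.rev j)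
/-- spin flip -/
def fl {L : ℕ} (σ : Cfg L) : Cfg L := fun j => Fin.rev (σ j)
def mag {L : ℕ} (σ : Cfg L) : ℤ := ∑ j, magneticNumber (σ j)

/-! ### ring model -/

noncomputable def uvec {L : ℕ} (κ : ℂ) (s : Cfg L) : Cfg L → ℂ :=
  fun σ => ∑ t ∈ Finset.range L, if tr^[t] s = σ then κ ^ t else 0
noncomputable def wvec {L : ℕ} (κ z : ℂ) (s : Cfg L) : Cfg L → ℂ :=
  fun σ => z * uvec κ s σ + star z * uvec κ (rf s) σ

/-- basis position: code, variant, period, self-paired flag, pairing shift -/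
structure Pos where
  c : ℕ
  v : ℕ
  d : ℕ
  slf : ℕ
  r : ℕ

def Pos.Valid (L m : ℕ) (P : Pos) : Prop :=
  P.c < 3 ^ L ∧ mag (cfg L P.c) = m ∧ 0 < P.d ∧ P.d ∣ L ∧
  (∀ t, t < L → (tr^[t] (cfg L P.c) = cfg L P.c ↔ P.d ∣ t)) ∧
  (∀ t, t < L → ∀ c', c' < 3 ^ L →
    (cfg L c' = tr^[t] (cfg L P.c) ∨ cfg L c' = tr^[t] (rf (cfg L P.c))) → P.c ≤ c') ∧
  ((P.slf = 1 ∧ P.v = 0 ∧ P.r < L ∧ tr^[P.r] (cfg L P.c) = rf (cfg L P.c)) ∨
    (P.slf = 0 ∧ P.v ≤ 1 ∧ P.r = 0 ∧ ∀ t, t < L → tr^[t] (cfg L P.c) ≠ rf (cfg L P.c)))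

/-- compatibility of the period `d` with the momentum `k` -/
def actR (L k d : ℕ) : Bool := Nat.beq (Nat.mod (Nat.mul k d) L) 0
def Pos.G (L : ℕ) (P : Pos) : ℕ := L / P.d * (1 + P.slf)
noncomputable def Pos.z (L k : ℕ) (P : Pos) : ℂ := om L ^ (6 * L * P.v + 12 * k * (2 * L - P.r))
noncomputable def Pos.w (L k : ℕ) (P : Pos) : Cfg L → ℂ :=
  wvec (om L ^ (24 * k)) (P.z L k) (cfg L P.c)
noncomputable def Chat (L a k : ℕ) (P Q : Pos) : ℝ :=
  (star (P.z L k) * (Hring L (zeta L a)).mulVec (Q.w L k) (cfg L P.c)).re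

/-- unpacking of a position from a field of 32 bits -/
def Pos.dec (x : ℕ) : Pos := ⟨x % 65536, x / 65536 % 2, x / 262144 % 16, x / 131072 % 2, x / 4194304⟩
def posAt (PT p : ℕ) : Pos := Pos.dec (fld 32 PT p)

/-- value of a term of type `y = xk + 2L (x0 + 4 (xa + 2 (2 i + (1 - slf))))`,
the stabiliser order being `sl[i]` -/
noncomputable def ringVal (L : ℕ) (sl : List ℕ) (a k y : ℕ) : ℝ :=
  if actR L k (L / sl.getD (y / (32 * L)) 1) = true then
    ((sl.getD (y / (32 * L)) 1 * (2 - y / (16 * L) % 2) : ℕ) : ℝ) *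
      Real.cos (2 * Real.pi *
        ((6 * L * (y / (2 * L) % 4) + 12 * k * (y % (2 * L)) +
          (if y / (8 * L) % 2 = 0 then 2 * a else 24 * L - 2 * a) : ℕ) : ℝ) / (24 * L))
  else 0

/-- everything the tables of the sector `(L, m)` have to satisfy -/
def RingTab (L m : ℕ) (sl : List ℕ) (PT : ℕ) (R : RT) : Prop :=
  (∀ p, p < R.n → (posAt PT p).Valid L m ∧ (R.row p).d = (posAt PT p).d ∧
    (R.row p).G = (posAt PT p).G L) ∧
  (∀ p q, p < R.n → q < R.n → (posAt PT p).c = (posAt PT q).c → (posAt PT p).v = (posAt PT q).v →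
    p = q) ∧
  ∀ a k, a ≤ 12 → k < L → RowSpec R (actR L k) (ringVal L sl a k)
    (fun p q => Chat L a k (posAt PT p) (posAt PT q))

/-- block of the ring Hamiltonian -/
noncomputable def Kring (L a k PT : ℕ) (R : RT) :=
  pencil R.n (fun p => actR L k (R.row p).d) (fun p => (R.row p).G)
    (fun p q => Chat L a k (posAt PT p) (posAt PT q))

/-- number of active rows -/
def RT.cnt (R : RT) (act : ℕ → Bool) : ℕ := (R.rows.filter fun r => act r.d).length

/-! ### open model (`N = n + 1` sites, sector `mag = mm - N`) -/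

noncomputable def Copen (n : ℕ) (τ : Bool) (CT : ℕ) (p q : ℕ) : ℝ :=
  (Hopen n τ (cfg (n + 1) (fld 16 CT p)) (cfg (n + 1) (fld 16 CT q))).re

def OpenTab (n : ℕ) (τ : Bool) (mm : ℕ) (CT : ℕ) (R : RT) : Prop :=
  (∀ p, p < R.n → fld 16 CT p < 3 ^ (n + 1) ∧
    mag (cfg (n + 1) (fld 16 CT p)) = (mm : ℤ) - (n + 1 : ℕ) ∧ (R.row p).G = 1) ∧
  (∀ p q, p < R.n → q < R.n → fld 16 CT p = fld 16 CT q → p = q) ∧
  RowSpec R (fun _ => true) (fun _ => 1) (Copen n τ CT)

noncomputable def Kopen (n : ℕ) (τ : Bool) (CT : ℕ) (R : RT) :=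
  pencil R.n (fun _ => true) (fun p => (R.row p).G) (Copen n τ CT)

end Crest.Agent.R347
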