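import Crest.Agent.R347.BaseChk

/-! Row 347: digits in base `2^64`. -/

set_option autoImplicit false

namespace Crest.Agent.R347.Chk
open Finset

def dg (Y i : ℕ) : ℕ := Y / 2 ^ (64 * i) % 2 ^ 64

def evz (f : ℕ → ℤ) (n : ℕ) : ℤ := ∑ i ∈ range n, f i * (2 ^ 64) ^ i

theorem evz_succ' (f : ℕ → ℤ) (n : ℕ) :
    evz f (n + 1) = f 0 + 2 ^ 64 * evz (fun i => f (i + 1)) n := by
  unfold evz
  rw [sum_range_succ', mul_sum, add_comm]
  congr 1
  · simp
  · exact sum_congr rfl fun i _ => by ring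

theorem evz_add (f g : ℕ → ℤ) (n : ℕ) : evz (fun i => f i + g i) n = evz f n + evz g n := by
  simp [evz, add_mul, sum_add_distrib]

theorem evz_sub (f g : ℕ → ℤ) (n : ℕ) : evz (fun i => f i - g i) n = evz f n - evz g n := by
  simp [evz, sub_mul, sum_sub_distrib]

theorem evz_mul (c : ℤ) (f : ℕ → ℤ) (n : ℕ) : evz (fun i => c * f i) n = c * evz f n := by
  simp [evz, mul_sum, mul_assoc]

theorem evz_zero (n : ℕ) : evz (fun _ => 0) n = 0 := by simp [evz]

theorem evz_congr {f g : ℕ → ℤ} {n : ℕ} (h : ∀ i, i < n → f i = g i) : evz f n = evz g n :=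
  sum_congr rfl fun i hi => by rw [h i (mem_range.1 hi)]

theorem evz_single (c : ℤ) (r n : ℕ) (h : r < n) :
    evz (fun i => if i = r then c else 0) n = c * (2 ^ 64) ^ r := by
  unfold evz
  rw [sum_eq_single r]
  · simp
  · intro b _ hb; simp [hb]
  · intro hr; exact absurd (mem_range.2 h) hr

theorem dg_lt (Y i : ℕ) : dg Y i < 2 ^ 64 := Nat.mod_lt _ (by norm_num)

theorem dg_shift (Y j i : ℕ) : dg (Y / 2 ^ (64 * j)) i = dg Y (i + j) := by
  unfold dg
  rw [Nat.div_div_eq_div_mul, ← pow_add]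
  congr 3
  ring

theorem evz_dg : ∀ (n Y : ℕ), Y < 2 ^ (64 * n) → (Y : ℤ) = evz (fun i => (dg Y i : ℤ)) n
  | 0, Y, h => by
    have : Y = 0 := by simpa using h
    simp [this, evz]
  | n + 1, Y, h => by
    rw [evz_succ']
    have h1 : Y / 2 ^ (64 * 1) < 2 ^ (64 * n) := by
      rw [Nat.div_lt_iff_lt_mul (by positivity), ← pow_add]
      exact h
    have h2 := evz_dg n _ h1
    simp only [dg_shift] at h2
    rw [← h2]
    have : dg Y 0 = Y % 2 ^ 64 := by simp [dg]
    rw [this]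
    have := Nat.mod_add_div Y (2 ^ 64)
    exact_mod_cast this.symm

theorem evz_eq_zero : ∀ (n : ℕ) (f : ℕ → ℤ), (∀ i, i < n → |f i| < 2 ^ 64) → evz f n = 0 →
    ∀ i, i < n → f i = 0
  | 0, _, _, _ => fun i hi => absurd hi (by omega)
  | n + 1, f, hb, h => by
    rw [evz_succ'] at h
    have h0 : f 0 = 0 := by
      have hd : (2 ^ 64 : ℤ) ∣ f 0 := ⟨-evz (fun i => f (i + 1)) n, by linarith⟩
      exact Int.eq_zero_of_abs_lt_dvd hd (hb 0 (by omega))
    rw [h0, zero_add] at h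
    have h1 : evz (fun i => f (i + 1)) n = 0 := by
      rcases mul_eq_zero.1 h with h | h
      · norm_num at h
      · exact h
    have := evz_eq_zero n _ (fun i hi => hb (i + 1) (by omega)) h1
    intro i hi
    cases i with
    | zero => exact h0
    | succ i => exact this i (by omega)

theorem evz_unique {n : ℕ} {f g : ℕ → ℤ} (hb : ∀ i, i < n → |f i - g i| < 2 ^ 64)
    (h : evz f n = evz g n) (i : ℕ) (hi : i < n) : f i = g i :=
  sub_eq_zero.1 (evz_eq_zero n (fun i => f i - g i) hb (by rw [evz_sub, h, sub_self]) i hi)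

theorem evz_lt : ∀ (n : ℕ) (f : ℕ → ℤ), (∀ i, i < n → f i < 2 ^ 64) → evz f n < 2 ^ (64 * n)
  | 0, _, _ => by simp [evz]
  | n + 1, f, h => by
    rw [evz_succ']
    have h1 := evz_lt n (fun i => f (i + 1)) fun i hi => h (i + 1) (by omega)
    have h0 := h 0 (by omega)
    have : (2 : ℤ) ^ (64 * (n + 1)) = 2 ^ 64 * 2 ^ (64 * n) := by ring
    rw [this]
    nlinarith

/-- digits of a number given as a proper expansion -/
theorem dg_of_evz {n Y : ℕ} {f : ℕ → ℤ} (h : (Y : ℤ) = evz f n)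
    (h0 : ∀ i, i < n → 0 ≤ f i) (h1 : ∀ i, i < n → f i < 2 ^ 64) :
    Y < 2 ^ (64 * n) ∧ ∀ i, i < n → (dg Y i : ℤ) = f i := by
  have hY : Y < 2 ^ (64 * n) := by
    have := evz_lt n f h1
    rw [← h] at this
    exact_mod_cast this
  refine ⟨hY, fun i hi => evz_unique (fun i hi => ?_) ((evz_dg n Y hY).symm.trans h) i hi⟩
  have := dg_lt Y i
  have h2 : ((dg Y i : ℕ) : ℤ) < 2 ^ 64 := by exact_mod_cast this
  have h3 : (0 : ℤ) ≤ (dg Y i : ℕ) := Int.natCast_nonneg _
  have := h0 i hi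
  have := h1 i hi
  rw [abs_lt]; constructor <;> linarith

theorem dg_of_lt {Y n i : ℕ} (h : Y < 2 ^ (64 * n)) (hi : n ≤ i) : dg Y i = 0 := by
  unfold dg
  rw [Nat.div_eq_of_lt (h.trans_le (Nat.pow_le_pow_right (by norm_num) (by omega))), Nat.zero_mod]

theorem onesN_eq (n : ℕ) : (onesN n : ℤ) = evz (fun _ => 1) n := by
  have : onesN n = ∑ i ∈ range n, (2 ^ 64) ^ i := by
    rw [Nat.geomSum_eq (by norm_num), ← pow_mul]
    show ((1 <<< (64 * n)) - 1) / 18446744073709551615 = _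
    rw [Nat.shiftLeft_eq, one_mul]
    norm_num
  rw [this]
  simp [evz]

theorem dg_and (X Z i : ℕ) : dg (X &&& Z) i = dg X i &&& dg Z i := by
  unfold dg
  rw [← Nat.shiftRight_eq_div_pow, ← Nat.shiftRight_eq_div_pow, ← Nat.shiftRight_eq_div_pow,
    Nat.shiftRight_and_distrib, Nat.and_mod_two_pow]

/-- bounded digits -/
def Gd (m len Y : ℕ) : Prop := Y < 2 ^ (64 * len) ∧ ∀ i, dg Y i ≤ m

theorem Gd_mul_ones (m len : ℕ) (hm : m < 2 ^ 64) : Gd m len (m * onesN len) := by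
  have h : ((m * onesN len : ℕ) : ℤ) = evz (fun _ => (m : ℤ)) len := by
    rw [Nat.cast_mul, onesN_eq, ← evz_mul]; simp
  obtain ⟨h1, h2⟩ := dg_of_evz h (fun _ _ => Int.natCast_nonneg _) (fun _ _ => by exact_mod_cast hm)
  refine ⟨h1, fun i => ?_⟩
  by_cases hi : i < len
  · exact_mod_cast (h2 i hi).le
  · rw [dg_of_lt h1 (by omega)]; exact Nat.zero_le _

theorem Gd_and (m len X : ℕ) (hm : m < 2 ^ 64) : Gd m len (X &&& (m * onesN len)) := by
  obtain ⟨h1, h2⟩ := Gd_mul_ones m len hm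
  exact ⟨Nat.and_le_right.trans_lt h1, fun i => by
    rw [dg_and]; exact Nat.and_le_right.trans (h2 i)⟩

theorem Gd_shift {m len Y : ℕ} (j : ℕ) (h : Gd m len Y) : Gd m (len - j) (Y / 2 ^ (64 * j)) := by
  refine ⟨?_, fun i => by rw [dg_shift]; exact h.2 _⟩
  rw [Nat.div_lt_iff_lt_mul (by positivity), ← pow_add]
  exact h.1.trans_le (Nat.pow_le_pow_right (by norm_num) (by omega))

theorem dig_eq (Y r : ℕ) : dig Y (64 * r) = dg Y r := by
  show (Y >>> (64 * r)) &&& (2 ^ 64 - 1) = _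
  rw [Nat.and_two_pow_sub_one_eq_mod, Nat.shiftRight_eq_div_pow]; rfl

theorem dg_mask (Y c r : ℕ) (h : r < c) : dg (Y &&& (1 <<< (64 * c) - 1)) r = dg Y r := by
  rw [Nat.shiftLeft_eq, one_mul, Nat.and_two_pow_sub_one_eq_mod]
  unfold dg
  have e : 2 ^ (64 * c) = 2 ^ (64 * r) * (2 ^ 64 * 2 ^ (64 * (c - r - 1))) := by
    rw [← pow_add, ← pow_add]; congr 1; omega
  rw [e, Nat.mod_mul_right_div_self, Nat.mod_mul_right_mod]

/-- soundness of `small` -/
theorem small_sound {len eb a b : ℕ} {f : ℕ → ℤ} (heb : eb ≤ 40)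
    (hf : (a : ℤ) - b = evz f len) (hb : ∀ i, i < len → |f i| ≤ 2 ^ 62)
    (h : small (onesN len) eb a b = true) : ∀ i, i < len → |f i| ≤ 2 ^ eb := by
  have h' : Bool.rec (motive := fun _ => Bool) false
      (Nat.beq ((a + onesN len <<< eb - b) &&& ((2 <<< eb - 1) * onesN len))
        (a + onesN len <<< eb - b)) (Nat.ble b (a + onesN len <<< eb)) = true := h
  cases hle : Nat.ble b (a + onesN len <<< eb) with
  | false => rw [hle] at h'; exact absurd h' (by simp)
  | true =>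
    rw [hle] at h'
    have hle' := Nat.le_of_ble_eq_true hle
    have he := Nat.eq_of_beq_eq_true h'
    have hp : (2 : ℕ) ^ eb ≤ 2 ^ 40 := Nat.pow_le_pow_right (by norm_num) heb
    have hm : 2 <<< eb - 1 < 2 ^ 64 := by
      rw [Nat.shiftLeft_eq]; omega
    have hG := Gd_and (2 <<< eb - 1) len (a + onesN len <<< eb - b) hm
    rw [he, Nat.shiftLeft_eq 2 eb] at hG
    have e1 := evz_dg len _ hG.1
    have e2 : ((a + onesN len <<< eb - b : ℕ) : ℤ) = evz (fun i => f i + 2 ^ eb * 1) len := by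
      rw [evz_add, evz_mul, ← onesN_eq, ← hf, Nat.cast_sub hle', Nat.shiftLeft_eq]
      push_cast; ring
    intro i hi
    have hd := hG.2 i
    have hd' : ((dg (a + onesN len <<< eb - b) i : ℕ) : ℤ) + 1 ≤ 2 * 2 ^ eb := by
      have : dg (a + onesN len <<< eb - b) i + 1 ≤ 2 * 2 ^ eb := by
        have : 0 < 2 * 2 ^ eb := by positivity
        omega
      exact_mod_cast this
    have hp' : (2 : ℤ) ^ eb ≤ 2 ^ 40 := by exact_mod_cast hp
    have hu := evz_unique (f := fun i => ((dg (a + onesN len <<< eb - b) i : ℕ) : ℤ))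
      (g := fun i => f i + 2 ^ eb * 1) (fun j hj => by
        have h1 := hG.2 j
        have h2 : ((dg (a + onesN len <<< eb - b) j : ℕ) : ℤ) ≤ 2 * 2 ^ eb := by
          have : dg (a + onesN len <<< eb - b) j ≤ 2 * 2 ^ eb := by omega
          exact_mod_cast this
        have h3 : (0 : ℤ) ≤ (dg (a + onesN len <<< eb - b) j : ℕ) := Int.natCast_nonneg _
        have h4 := abs_le.1 (hb j hj)
        have h5 : (0 : ℤ) < 2 ^ eb := by positivity
        rw [abs_lt]; constructor <;> linarith [h4.1, h4.2]) (e1.symm.trans e2) i hi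
    have h3 : (0 : ℤ) ≤ (dg (a + onesN len <<< eb - b) i : ℕ) := Int.natCast_nonneg _
    rw [abs_le]; constructor <;> linarith

end Crest.Agent.R347.Chk
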