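import Crest.Agent.R347.BaseChk

/-! Row 347: from enclosures to table entries. -/

set_option autoImplicit false

namespace Crest.Agent.R347
open Crest.MathPhysics.SpinChain Matrix Finset Chk

theorem EnclN_add {f g : ℝ → ℝ} {ρ ρ' : List ℕ} {t t' : List (ℕ × ℕ)} (h : EnclN f ρ t)
    (h' : EnclN g ρ' t') : EnclN (fun β => f β + g β) (ρ ++ ρ') (t ++ t') := by
  intro β hβ
  obtain ⟨h1, h2⟩ := h β hβ
  obtain ⟨h3, h4⟩ := h' β hβ
  simp only [List.map_append, List.sum_append]
  constructor <;> linarith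

theorem EnclN_sum (n : ℕ) (f : ℕ → ℝ → ℝ) (ρ : ℕ → List ℕ) (t : ℕ → List (ℕ × ℕ))
    (h : ∀ i, i < n → EnclN (f i) (ρ i) (t i)) :
    EnclN (fun β => ∑ i ∈ range n, f i β) ((List.range n).flatMap ρ) ((List.range n).flatMap t) := by
  induction n with
  | zero => intro β _; simp
  | succ n ih =>
    have := EnclN_add (ih fun i hi => h i (by omega)) (h n (by omega))
    simpa only [Finset.sum_range_succ, List.range_succ, List.flatMap_append, List.flatMap_cons,
      List.flatMap_nil, List.append_nil] using this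

theorem EnclN_mult {f : ℝ → ℝ} {ρ : List ℕ} {t : List (ℕ × ℕ)} (m : ℕ) (h : EnclN f ρ t) :
    EnclN (fun β => (if m = 0 then 1 else 2 : ℝ) * f β) (if m = 0 then ρ else ρ ++ ρ)
      (if m = 0 then t else t ++ t) := by
  split_ifs
  · simpa only [one_mul] using h
  · simpa only [two_mul] using EnclN_add h h

/-- `k` squarings at scale `2^128`, rounded down -/
noncomputable def finSqD (k x : ℕ) : ℕ :=
  Nat.rec (motive := fun _ => ℕ) x (fun _ y => Nat.shiftRight (Nat.mul y y) (nat_lit 128)) k
/-- `k` squarings at scale `2^128`, rounded up -/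
noncomputable def finSqU (k x : ℕ) : ℕ :=
  Nat.rec (motive := fun _ => ℕ) x
    (fun _ y => Nat.add (Nat.shiftRight (Nat.mul y y) (nat_lit 128)) (nat_lit 1)) k

/-- lower bound of `2^128 exp ((A - B) / (2^40 10^5))` -/
noncomputable def finLo (A B : ℕ) : ℕ :=
  finSqD (nat_lit 48) (Nat.div (Nat.shiftLeft
    (Nat.sub (Nat.add (nat_lit 30948500982134506872478105600000) A) B) (nat_lit 128))
    (nat_lit 30948500982134506872478105600000))
/-- upper bound of `2^128 exp ((A - B) / (2^40 10^5))` -/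
noncomputable def finHi (A B : ℕ) : ℕ :=
  finSqU (nat_lit 48) (Nat.add (Nat.div
    (Nat.shiftLeft (nat_lit 30948500982134506872478105600000) (nat_lit 128))
    (Nat.sub (Nat.add (nat_lit 30948500982134506872478105600000) B) A)) (nat_lit 1))

noncomputable def finSumLo (B b : ℕ) (ρ : List ℕ) : ℕ :=
  List.rec (motive := fun _ => ℕ) (nat_lit 0) (fun r _ ih =>
    Nat.add (Nat.pow (finLo (Nat.mul r (nat_lit 100000)) (Nat.add B (nat_lit 6553600000))) b) ih) ρ
noncomputable def finSumHi (B b : ℕ) (ρ : List ℕ) : ℕ :=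
  List.rec (motive := fun _ => ℕ) (nat_lit 0) (fun r _ ih =>
    Nat.add (Nat.pow (finHi (Nat.add (Nat.mul r (nat_lit 100000)) (nat_lit 6553600000)) B) b) ih) ρ
noncomputable def finSumT (B b : ℕ) (tails : List (ℕ × ℕ)) : ℕ :=
  List.rec (motive := fun _ => ℕ) (nat_lit 0) (fun t _ ih =>
    Prod.rec (motive := fun _ => ℕ) (fun n E =>
      Nat.add (Nat.mul n (Nat.pow (finHi (Nat.mul E (nat_lit 1677721600000)) B) b)) ih) t) tails
noncomputable def finOkL (ρ : List ℕ) : Bool :=
  List.rec (motive := fun _ => Bool) true (fun r _ ih =>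
    Bool.rec (motive := fun _ => Bool) false ih (Nat.ble r (nat_lit 1152921504606846976))) ρ
noncomputable def finOkT (tails : List (ℕ × ℕ)) : Bool :=
  List.rec (motive := fun _ => Bool) true (fun t _ ih =>
    Prod.rec (motive := fun _ => Bool) (fun _ E =>
      Bool.rec (motive := fun _ => Bool) false ih (Nat.ble E (nat_lit 1099511627776))) t) tails
noncomputable def finEnt (B den : ℕ) (ρ : List ℕ) (tails : List (ℕ × ℕ))
    (ent : List (ℕ × ℕ × ℕ)) : Bool :=
  List.rec (motive := fun _ => Bool) true (fun t _ ih =>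
    Prod.rec (motive := fun _ => Bool) (fun b p =>
      Prod.rec (motive := fun _ => Bool) (fun lo hi =>
        Bool.rec (motive := fun _ => Bool) false
          (Bool.rec (motive := fun _ => Bool) false ih
            (Nat.ble (Nat.mul den (Nat.add (finSumHi B b ρ) (finSumT B b tails)))
              (Nat.shiftLeft hi (Nat.mul (nat_lit 128) b))))
          (Nat.ble (Nat.shiftLeft lo (Nat.mul (nat_lit 128) b)) (Nat.mul den (finSumLo B b ρ))))
        p) t) ent

theorem finSqD_succ (k x : ℕ) : finSqD (k + 1) x = (finSqD k x * finSqD k x) >>> 128 := rfl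
theorem finSqU_succ (k x : ℕ) : finSqU (k + 1) x = (finSqU k x * finSqU k x) >>> 128 + 1 := rfl

theorem finSqD_le (k x : ℕ) (u : ℝ) (h : (x : ℝ) ≤ 2 ^ 128 * Real.exp u) :
    (finSqD k x : ℝ) ≤ 2 ^ 128 * Real.exp (2 ^ k * u) := by
  induction k with
  | zero => simpa [finSqD] using h
  | succ k ih =>
    rw [finSqD_succ, Nat.shiftRight_eq_div_pow]
    refine Nat.cast_div_le.trans ?_
    rw [show (2 : ℝ) ^ (k + 1) * u = 2 ^ k * u + 2 ^ k * u by ring, Real.exp_add]
    push_cast
    rw [div_le_iff₀ (by norm_num)]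
    have := mul_self_le_mul_self (Nat.cast_nonneg _) ih
    linarith

theorem finSqU_ge (k x : ℕ) (u : ℝ) (h : 2 ^ 128 * Real.exp u ≤ (x : ℝ)) :
    2 ^ 128 * Real.exp (2 ^ k * u) ≤ (finSqU k x : ℝ) := by
  induction k with
  | zero => simpa [finSqU] using h
  | succ k ih =>
    rw [finSqU_succ, Nat.shiftRight_eq_div_pow]
    have h1 := Nat.lt_div_mul_add (a := finSqU k x * finSqU k x) (b := 2 ^ 128) (by norm_num)
    have h2 : ((finSqU k x : ℝ)) * finSqU k x <
        ((finSqU k x * finSqU k x / 2 ^ 128 : ℕ) : ℝ) * 2 ^ 128 + 2 ^ 128 := by exact_mod_cast h1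
    rw [show (2 : ℝ) ^ (k + 1) * u = 2 ^ k * u + 2 ^ k * u by ring, Real.exp_add, Nat.cast_add,
      Nat.cast_one]
    have := mul_self_le_mul_self (by positivity) ih
    generalize ((finSqU k x * finSqU k x / 2 ^ 128 : ℕ) : ℝ) = q at h2 ⊢
    linarith

theorem finLo_le (A B : ℕ) :
    (finLo A B : ℝ) ≤ 2 ^ 128 * Real.exp (((A : ℝ) - B) / (2 ^ 40 * 100000)) := by
  have := finSqD_le 48 (((30948500982134506872478105600000 + A - B) <<< 128) /
    30948500982134506872478105600000) (((A : ℝ) - B) / 30948500982134506872478105600000) (by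
      refine Nat.cast_div_le.trans ?_
      rw [Nat.shiftLeft_eq, Nat.cast_mul, div_le_iff₀ (by norm_num)]
      have h1 : ((30948500982134506872478105600000 + A - B : ℕ) : ℝ) ≤
          Real.exp (((A : ℝ) - B) / 30948500982134506872478105600000) *
            30948500982134506872478105600000 := by
        rcases le_total B (30948500982134506872478105600000 + A) with hB | hB
        · rw [Nat.cast_sub hB]
          have := Real.add_one_le_exp (((A : ℝ) - B) / 30948500982134506872478105600000)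
          push_cast
          linarith
        · rw [Nat.sub_eq_zero_of_le hB, Nat.cast_zero]
          positivity
      push_cast
      linarith)
  rw [show (2 : ℝ) ^ 48 * (((A : ℝ) - B) / 30948500982134506872478105600000) =
    ((A : ℝ) - B) / (2 ^ 40 * 100000) by ring] at this
  exact this

theorem finHi_ge (A B : ℕ) (hA : A < 30948500982134506872478105600000) :
    2 ^ 128 * Real.exp (((A : ℝ) - B) / (2 ^ 40 * 100000)) ≤ (finHi A B : ℝ) := by
  have := finSqU_ge 48 ((30948500982134506872478105600000 <<< 128) /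
    (30948500982134506872478105600000 + B - A) + 1)
    (((A : ℝ) - B) / 30948500982134506872478105600000) (by
      have hpos : 0 < 30948500982134506872478105600000 + B - A := by omega
      have h1 := Nat.lt_div_mul_add (a := 30948500982134506872478105600000 <<< 128) hpos
      have hc : ((30948500982134506872478105600000 + B - A : ℕ) : ℝ) =
          30948500982134506872478105600000 + B - A := by
        rw [Nat.cast_sub (by omega)]; push_cast; ring
      have hp : (0 : ℝ) < 30948500982134506872478105600000 + B - A := by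
        rw [← hc]; exact_mod_cast hpos
      have h2 : ((30948500982134506872478105600000 <<< 128 : ℕ) : ℝ) <
          (((30948500982134506872478105600000 <<< 128) /
            (30948500982134506872478105600000 + B - A) : ℕ) : ℝ) *
            ((30948500982134506872478105600000 + B - A : ℕ) : ℝ) +
            ((30948500982134506872478105600000 + B - A : ℕ) : ℝ) := by
        rw [← Nat.cast_mul, ← Nat.cast_add, Nat.cast_lt]; exact h1
      rw [Nat.cast_add, Nat.cast_one]
      generalize (((30948500982134506872478105600000 <<< 128) /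
            (30948500982134506872478105600000 + B - A) : ℕ) : ℝ) = q at h2 ⊢
      rw [hc, Nat.shiftLeft_eq, Nat.cast_mul] at h2
      have h3 := Real.add_one_le_exp (-(((A : ℝ) - B) / 30948500982134506872478105600000))
      have h4 : Real.exp (((A : ℝ) - B) / 30948500982134506872478105600000) *
          (30948500982134506872478105600000 + B - A) ≤ 30948500982134506872478105600000 := by
        have h5 := mul_le_mul_of_nonneg_left h3
          (Real.exp_pos (((A : ℝ) - B) / 30948500982134506872478105600000)).le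
        rw [← Real.exp_add, add_neg_cancel, Real.exp_zero] at h5
        linarith
      refine le_of_mul_le_mul_right ?_ hp
      push_cast at h2
      linarith)
  rw [show (2 : ℝ) ^ 48 * (((A : ℝ) - B) / 30948500982134506872478105600000) =
    ((A : ℝ) - B) / (2 ^ 40 * 100000) by ring] at this
  exact this

theorem fin_pow_le {x b : ℕ} {u : ℝ} (h : (x : ℝ) ≤ 2 ^ 128 * Real.exp u) :
    ((x ^ b : ℕ) : ℝ) ≤ 2 ^ (128 * b) * Real.exp (b * u) := by
  rw [Real.exp_nat_mul, pow_mul, ← mul_pow, Nat.cast_pow]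
  exact pow_le_pow_left₀ (Nat.cast_nonneg _) h b

theorem fin_pow_ge {x b : ℕ} {u : ℝ} (h : 2 ^ 128 * Real.exp u ≤ (x : ℝ)) :
    2 ^ (128 * b) * Real.exp (b * u) ≤ ((x ^ b : ℕ) : ℝ) := by
  rw [Real.exp_nat_mul, pow_mul, ← mul_pow, Nat.cast_pow]
  exact pow_le_pow_left₀ (by positivity) h b

theorem finSumLo_cons (B b r : ℕ) (ρ : List ℕ) :
    finSumLo B b (r :: ρ) = finLo (r * 100000) (B + 6553600000) ^ b + finSumLo B b ρ := rfl
theorem finSumHi_cons (B b r : ℕ) (ρ : List ℕ) :
    finSumHi B b (r :: ρ) = finHi (r * 100000 + 6553600000) B ^ b + finSumHi B b ρ := rfl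
theorem finSumT_cons (B b n E : ℕ) (l : List (ℕ × ℕ)) :
    finSumT B b ((n, E) :: l) = n * finHi (E * 1677721600000) B ^ b + finSumT B b l := rfl

theorem fin_bool_rec {c d : Bool} (h : Bool.rec (motive := fun _ => Bool) false d c = true) :
    c = true ∧ d = true := by
  cases c
  · exact absurd h (by simp)
  · exact ⟨rfl, h⟩

theorem finSumLo_le (N b : ℕ) (ρ : List ℕ) :
    (finSumLo (N * 154094355609550848) b ρ : ℝ) ≤ 2 ^ (128 * b) *
      (((ρ.map fun r : ℕ => -(r : ℚ) / 2 ^ 40).map fun r : ℚ =>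
        Real.exp (-(b : ℝ) * ((r : ℝ) + ((1 / 2 ^ 24 : ℚ) : ℝ)))).sum *
        Real.exp (b * N * (ev : ℝ))) := by
  induction ρ with
  | nil => simp [finSumLo]
  | cons r ρ ih =>
    rw [finSumLo_cons, Nat.cast_add, List.map_cons, List.map_cons, List.sum_cons, add_mul,
      mul_add, ← Real.exp_add]
    refine add_le_add ((fin_pow_le (finLo_le _ _)).trans (le_of_eq ?_)) ih
    congr 2
    unfold ev
    push_cast
    ring

theorem finSumHi_ge (N b : ℕ) (ρ : List ℕ) (h : finOkL ρ = true) :
    2 ^ (128 * b) * (((ρ.map fun r : ℕ => -(r : ℚ) / 2 ^ 40).map fun r : ℚ =>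
        Real.exp (-(b : ℝ) * ((r : ℝ) - ((1 / 2 ^ 24 : ℚ) : ℝ)))).sum *
        Real.exp (b * N * (ev : ℝ))) ≤ (finSumHi (N * 154094355609550848) b ρ : ℝ) := by
  induction ρ with
  | nil => simp [finSumHi]
  | cons r ρ ih =>
    obtain ⟨h1, h2⟩ := fin_bool_rec (c := Nat.ble r 1152921504606846976) (d := finOkL ρ) h
    have h3 := Nat.le_of_ble_eq_true h1
    rw [finSumHi_cons, Nat.cast_add, List.map_cons, List.map_cons, List.sum_cons, add_mul,
      mul_add, ← Real.exp_add]
    refine add_le_add ((le_of_eq ?_).trans (fin_pow_ge (finHi_ge _ _ (by omega)))) (ih h2)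
    congr 2
    unfold ev
    push_cast
    ring

theorem finSumT_ge (N b : ℕ) (l : List (ℕ × ℕ)) (h : finOkT l = true) :
    2 ^ (128 * b) * (((l.map fun t : ℕ × ℕ => (t.1, -(t.2 : ℚ) / 2 ^ 16)).map fun t : ℕ × ℚ =>
        (t.1 : ℝ) * Real.exp (-(b : ℝ) * (t.2 : ℝ))).sum *
        Real.exp (b * N * (ev : ℝ))) ≤ (finSumT (N * 154094355609550848) b l : ℝ) := by
  induction l with
  | nil => simp [finSumT]
  | cons t l ih =>
    obtain ⟨n, E⟩ := t
    obtain ⟨h1, h2⟩ := fin_bool_rec (c := Nat.ble E 1099511627776) (d := finOkT l) h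
    have h3 := Nat.le_of_ble_eq_true h1
    rw [finSumT_cons, Nat.cast_add, List.map_cons, List.map_cons, List.sum_cons, add_mul,
      mul_add, mul_assoc (_ : ℝ) (Real.exp _), ← Real.exp_add, mul_left_comm, Nat.cast_mul]
    refine add_le_add (mul_le_mul_of_nonneg_left
      ((le_of_eq ?_).trans (fin_pow_ge (finHi_ge _ _ (by omega)))) (Nat.cast_nonneg _)) (ih h2)
    congr 2
    unfold ev
    push_cast
    ring

theorem finEnt_spec (B den : ℕ) (ρ : List ℕ) (tails : List (ℕ × ℕ)) (ent : List (ℕ × ℕ × ℕ))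
    (h : finEnt B den ρ tails ent = true) : ∀ t ∈ ent,
      t.2.1 * 2 ^ (128 * t.1) ≤ den * finSumLo B t.1 ρ ∧
      den * (finSumHi B t.1 ρ + finSumT B t.1 tails) ≤ t.2.2 * 2 ^ (128 * t.1) := by
  induction ent with
  | nil => simp
  | cons t ent ih =>
    obtain ⟨b, lo, hi⟩ := t
    obtain ⟨h1, h2⟩ := fin_bool_rec (c := Nat.ble (lo <<< (128 * b)) (den * finSumLo B b ρ)) h
    obtain ⟨h3, h4⟩ := fin_bool_rec
      (c := Nat.ble (den * (finSumHi B b ρ + finSumT B b tails)) (hi <<< (128 * b)))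
      (d := finEnt B den ρ tails ent) h2
    have h5 := Nat.le_of_ble_eq_true h1
    have h6 := Nat.le_of_ble_eq_true h3
    rw [Nat.shiftLeft_eq] at h5 h6
    intro t ht
    rcases List.mem_cons.1 ht with rfl | ht
    · exact ⟨h5, h6⟩
    · exact ih h4 t ht

/-- entries `(β, lo, hi)`; to be evaluated by `decide +kernel` -/
noncomputable def finCheck (N den : ℕ) (ρ : List ℕ) (tails : List (ℕ × ℕ))
    (ent : List (ℕ × ℕ × ℕ)) : Bool :=
  Bool.rec (motive := fun _ => Bool) false
    (Bool.rec (motive := fun _ => Bool) false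
      (Bool.rec (motive := fun _ => Bool) false
        (finEnt (Nat.mul N (nat_lit 154094355609550848)) den ρ tails ent) (finOkT tails))
      (finOkL ρ))
    (Nat.ble (nat_lit 1) den)

theorem fin_sound {f : ℝ → ℝ} {ρ : List ℕ} {tails : List (ℕ × ℕ)} (N den : ℕ)
    (ent : List (ℕ × ℕ × ℕ)) (h : EnclN f ρ tails) (hc : finCheck N den ρ tails ent = true) :
    ∀ t ∈ ent, (t.2.1 : ℝ) / den ≤ f t.1 * Real.exp (t.1 * N * (ev : ℝ)) ∧
      f t.1 * Real.exp (t.1 * N * (ev : ℝ)) ≤ (t.2.2 : ℝ) / den := by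
  obtain ⟨h1, h2⟩ := fin_bool_rec (c := Nat.ble 1 den) hc
  obtain ⟨h3, h4⟩ := fin_bool_rec (c := finOkL ρ) h2
  obtain ⟨h5, h6⟩ := fin_bool_rec (c := finOkT tails)
    (d := finEnt (N * 154094355609550848) den ρ tails ent) h4
  have hden : (0 : ℝ) < den := by exact_mod_cast Nat.le_of_ble_eq_true h1
  intro t ht
  obtain ⟨a1, a2⟩ := finEnt_spec _ _ _ _ _ h6 t ht
  obtain ⟨e1, e2⟩ := h (t.1 : ℝ) (Nat.cast_nonneg _)
  have b1 := finSumLo_le N t.1 ρ
  have b2 := finSumHi_ge N t.1 ρ h3
  have b3 := finSumT_ge N t.1 tails h5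
  have c1 : (t.2.1 : ℝ) * 2 ^ (128 * t.1) ≤ den * (finSumLo (N * 154094355609550848) t.1 ρ : ℝ) := by
    exact_mod_cast a1
  have c2 : (den : ℝ) * ((finSumHi (N * 154094355609550848) t.1 ρ : ℝ) +
      (finSumT (N * 154094355609550848) t.1 tails : ℝ)) ≤ (t.2.2 : ℝ) * 2 ^ (128 * t.1) := by
    exact_mod_cast a2
  have hS : (0 : ℝ) < 2 ^ (128 * t.1) := by positivity
  have hE := (Real.exp_pos (t.1 * N * (ev : ℝ))).le
  have d1 := mul_le_mul_of_nonneg_left (mul_le_mul_of_nonneg_right e1 hE) hS.le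
  have d2 := mul_le_mul_of_nonneg_left (mul_le_mul_of_nonneg_right e2 hE) hS.le
  rw [add_mul, mul_add] at d2
  constructor
  · rw [div_le_iff₀ hden]
    refine le_of_mul_le_mul_right (c1.trans ?_) hS
    have := mul_le_mul_of_nonneg_left (b1.trans d1) hden.le
    linarith
  · rw [le_div_iff₀ hden]
    refine le_of_mul_le_mul_right (le_trans ?_ c2) hS
    have := mul_le_mul_of_nonneg_left (d2.trans (add_le_add b2 b3)) hden.le
    linarith

end Crest.Agent.R347
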