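import Crest.Agent.R347.BaseChk

/-! Row 347: soundness of the residual check. -/

set_option autoImplicit false

namespace Crest.Agent.R347
open Crest.MathPhysics.SpinChain Matrix Finset Chk

theorem baseLev_lenR (l : List Row) : lenR l = l.length := by
  induction l with
  | nil => rfl
  | cons r l ih => exact congrArg (· + 1) ih

theorem baseLev_lenT (T : List (ℕ × ℕ)) : lenT T = T.length := by
  induction T with
  | nil => rfl
  | cons r l ih => exact congrArg (· + 1) ih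

theorem baseLev_sumRows_cons (f : ℕ → Row → ℕ) (r : Row) (l : List Row) (p : ℕ) :
    sumRows f (r :: l) p = f p r + sumRows f l (p + 1) := rfl

theorem baseLev_sumRows_append (f : ℕ → Row → ℕ) (l l' : List Row) (p : ℕ) :
    sumRows f (l ++ l') p = sumRows f l p + sumRows f l' (p + l.length) := by
  induction l generalizing p with
  | nil => exact (Nat.zero_add _).symm
  | cons r l ih =>
    rw [List.cons_append, baseLev_sumRows_cons, baseLev_sumRows_cons, ih, List.length_cons,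
      Nat.add_assoc (f p r), Nat.add_assoc p, Nat.add_comm 1]

theorem baseLev_sumD (f : ℕ → Row → ℕ) (D : List (List Row)) (p : ℕ) :
    sumD f D p = sumRows f D.flatten p := by
  induction D generalizing p with
  | nil => rfl
  | cons l D ih =>
    rw [List.flatten_cons, baseLev_sumRows_append, ← ih, ← baseLev_lenR]
    rfl

theorem baseLev_sumRows (f : ℕ → Row → ℕ) (l : List Row) (p : ℕ) :
    sumRows f l p = ∑ i ∈ range l.length, f (p + i) (l.getD i default) := by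
  induction l generalizing p with
  | nil => rfl
  | cons r l ih =>
    rw [baseLev_sumRows_cons, ih, List.length_cons, sum_range_succ', Nat.add_comm (f p r)]
    congr 1
    refine sum_congr rfl fun i _ => ?_
    rw [List.getD_cons_succ, Nat.add_assoc, Nat.add_comm 1]

theorem baseLev_total (f : ℕ → Row → ℕ) (R : RT) {hi : ℕ} (h : R.D.flatten.length = hi) :
    sumD f R.D 0 + sumRows f R.I hi = ∑ p ∈ range R.n, f p (R.row p) := by
  have := baseLev_sumRows_append f R.D.flatten R.I 0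
  rw [Nat.zero_add, h, ← baseLev_sumD] at this
  rw [← this, baseLev_sumRows]
  exact sum_congr rfl fun i _ => by rw [Nat.zero_add]; rfl

theorem baseLev_sqd (a b : ℕ) : (sqd a b : ℝ) = ((a : ℝ) - b) ^ 2 := by
  change ((((a - b) + (b - a)) * ((a - b) + (b - a)) : ℕ) : ℝ) = _
  rcases le_total a b with h | h
  · rw [Nat.sub_eq_zero_of_le h, Nat.zero_add, Nat.cast_mul, Nat.cast_sub h]
    ring
  · rw [Nat.sub_eq_zero_of_le h, Nat.add_zero, Nat.cast_mul, Nat.cast_sub h]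
    ring

theorem baseLev_vAt (W q : ℕ) : |(vAt W q : ℝ) - 2 ^ 38| ≤ 2 ^ 38 := by
  have h : vAt W q ≤ 549755813887 := Nat.and_le_right
  have h' : (vAt W q : ℝ) ≤ 549755813887 := by exact_mod_cast h
  have h0 : (0 : ℝ) ≤ vAt W q := Nat.cast_nonneg _
  rw [abs_le]
  constructor <;> linarith

theorem baseLev_tAt (tab y : ℕ) : tAt tab y = fld 48 tab y := by
  change (tab >>> (48 * y)) &&& (2 ^ 48 - 1) = _
  rw [Nat.and_two_pow_sub_one_eq_mod, Nat.shiftRight_eq_div_pow]
  rfl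

theorem baseLev_terms {tab W ny : ℕ} {valR : ℕ → ℝ} (htab : TabSpec tab 48 40 valR ny)
    (T : List (ℕ × ℕ)) (hT : ∀ t ∈ T, t.2 < ny) :
    |((sumA tab W T : ℝ) + T.length * 2 ^ 83 - (sumB tab T * 2 ^ 38 + sumC W T * 2 ^ 45)) -
      2 ^ 40 * (T.map fun t => valR t.2 * ((vAt W t.1 : ℝ) - 2 ^ 38)).sum| ≤
        (T.length : ℝ) * (2 * 2 ^ 38) := by
  induction T with
  | nil =>
    change |((0 : ℕ) : ℝ) + _ - (((0 : ℕ) : ℝ) * _ + ((0 : ℕ) : ℝ) * _) - _| ≤ _
    simp
  | cons t T ih =>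
    obtain ⟨q, y⟩ := t
    have h1 := ih fun t ht => hT t (List.mem_cons_of_mem _ ht)
    have h2 := (htab y (hT (q, y) List.mem_cons_self)).2
    rw [← baseLev_tAt] at h2
    have h3 := baseLev_vAt W q
    have eA : sumA tab W ((q, y) :: T) = sumA tab W T + tAt tab y * vAt W q := rfl
    have eB : sumB tab ((q, y) :: T) = sumB tab T + tAt tab y := rfl
    have eC : sumC W ((q, y) :: T) = sumC W T + vAt W q := rfl
    have h4 : |((tAt tab y : ℝ) - 2 ^ (40 + 5) - 2 ^ 40 * valR y) * ((vAt W q : ℝ) - 2 ^ 38)| ≤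
        2 * 2 ^ 38 := by
      rw [abs_mul]
      exact mul_le_mul h2 h3 (abs_nonneg _) (by norm_num)
    rw [eA, eB, eC, List.length_cons, List.map_cons, List.sum_cons]
    push_cast
    refine le_trans (le_of_eq ?_) ((abs_add_le _ _).trans ((add_le_add h1 h4).trans (le_of_eq ?_)))
    · congr 1
      ring
    · ring

theorem baseLev_filter (n : ℕ) (valR v : ℕ → ℝ) (T : List (ℕ × ℕ)) (hT : ∀ t ∈ T, t.1 < n) :
    ∑ q ∈ range n, ((T.filter fun t => t.1 = q).map fun t => valR t.2).sum * v q =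
      (T.map fun t => valR t.2 * v t.1).sum := by
  induction T with
  | nil => simp
  | cons t T ih =>
    have e : ∀ q, (((t :: T).filter fun t => t.1 = q).map fun t => valR t.2).sum * v q =
        (if t.1 = q then valR t.2 * v q else 0) +
          ((T.filter fun t => t.1 = q).map fun t => valR t.2).sum * v q := fun q => by
      by_cases h : t.1 = q
      · simp [h, add_mul]
      · simp [h]
    simp only [e]
    rw [sum_add_distrib, ih fun t ht => hT t (List.mem_cons_of_mem _ ht), sum_ite_eq,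
      if_pos (mem_range.2 (hT t List.mem_cons_self)), List.map_cons, List.sum_cons]

theorem baseLev_struct {R : RT} {n hi ny : ℕ} (hst : structOK R n hi ny = true) :
    R.D.flatten.length = hi ∧ R.n = n ∧ ∀ p, p < n → 1 ≤ (R.row p).G ∧ (R.row p).T.length ≤ 64 ∧
      ∀ t ∈ (R.row p).T, t.1 < n ∧ t.2 < ny := by
  simp only [structOK, rowOK, Bool.and_eq_true, decide_eq_true_eq, List.all_eq_true] at hst
  obtain ⟨⟨⟨⟨h1, h2⟩, -⟩, h3⟩, h4⟩ := hst
  have hn : R.n = n := by rw [RT.n, RT.rows, List.length_append, h1, h2]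
  refine ⟨h1, hn, fun p hp => ?_⟩
  have hm : R.row p ∈ R.rows := by
    rw [RT.row, List.getD_eq_getElem _ _ (show p < R.n by omega)]
    exact List.getElem_mem _
  rcases List.mem_append.1 hm with hm | hm
  · obtain ⟨l, hl, hm⟩ := List.mem_flatten.1 hm
    obtain ⟨⟨⟨⟨a1, -⟩, -⟩, a2⟩, a3⟩ := h3 l hl _ hm
    exact ⟨a1, a2, a3⟩
  · obtain ⟨⟨⟨⟨a1, -⟩, -⟩, a2⟩, a3⟩ := h4 _ hm
    exact ⟨a1, a2, fun t ht => ⟨by have := (a3 t ht).1; omega, (a3 t ht).2⟩⟩

theorem baseLev_nrm (act : ℕ → Bool) (W p : ℕ) (r : Row) :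
    (nrmRow act W p r : ℝ) =
      if act r.d = true then (r.G : ℝ) * ((vAt W p : ℝ) - 2 ^ 38) ^ 2 else 0 := by
  obtain ⟨d, G, dno, T⟩ := r
  change ((Bool.rec (motive := fun _ => ℕ) 0 (G * sqd (vAt W p) 274877906944) (act d) : ℕ) : ℝ) = _
  cases h : act d
  · simp
  · rw [if_pos rfl, Nat.cast_mul, baseLev_sqd]
    norm_num

theorem baseLev_res (act : ℕ → Bool) (tab W ρ p : ℕ) (r : Row) (h : act r.d = true) :
    (resRow act tab W ρ p r : ℝ) =
      (((sumA tab W r.T : ℝ) + r.T.length * 2 ^ 83 -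
        (sumB tab r.T * 2 ^ 38 + sumC W r.T * 2 ^ 45)) +
        (((r.dno * 2 ^ 40 / 5 : ℕ) : ℝ) + ρ * r.G - 2 ^ 48) * ((vAt W p : ℝ) - 2 ^ 38)) ^ 2 := by
  obtain ⟨d, G, dno, T⟩ := r
  change ((Bool.rec (motive := fun _ => ℕ) 0
    (sqd ((sumA tab W T + lenT T <<< 83) +
        ((dno <<< 40 / 5 + ρ * G) * vAt W p + 77371252455336267181195264))
      ((sumB tab T <<< 38 + sumC W T <<< 45) +
        ((dno <<< 40 / 5 + ρ * G) <<< 38 + vAt W p <<< 48))) (act d) : ℕ) : ℝ) = _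
  change act d = true at h
  rw [h, baseLev_sqd, baseLev_lenT]
  simp only [Nat.shiftLeft_eq, Nat.cast_add, Nat.cast_mul, Nat.cast_pow, Nat.cast_ofNat]
  ring

theorem baseLev_div5 (x : ℕ) : |((x * 2 ^ 40 / 5 : ℕ) : ℝ) - (x : ℝ) * 2 ^ 40 / 5| ≤ 1 := by
  have key : ∀ z : ℕ, |((z / 5 : ℕ) : ℝ) - (z : ℝ) / 5| ≤ 1 := fun z => by
    have c3 : (5 : ℝ) * ((z / 5 : ℕ) : ℝ) + ((z % 5 : ℕ) : ℝ) = z := by
      exact_mod_cast Nat.div_add_mod z 5
    have c4 : ((z % 5 : ℕ) : ℝ) < 5 := by exact_mod_cast Nat.mod_lt z (show 0 < 5 by norm_num)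
    have c5 : (0 : ℝ) ≤ ((z % 5 : ℕ) : ℝ) := Nat.cast_nonneg _
    rw [abs_le]
    constructor <;> linarith
  have := key (x * 2 ^ 40)
  rwa [Nat.cast_mul, Nat.cast_pow, Nat.cast_ofNat] at this

theorem baseLev_real {Z L Sm F dno ρ G vp : ℝ} (b1 : |Z - 2 ^ 40 * Sm| ≤ L * (2 * 2 ^ 38))
    (hL : L ≤ 64) (hF : |F - dno * 2 ^ 40 / 5| ≤ 1) (hv : |vp| ≤ 2 ^ 38) (hG : 1 ≤ G) :
    ((dno - 1280) / 5 * vp + Sm - (-ρ / 2 ^ 40) * G * vp) ^ 2 / G ≤
      (2 * (Z + (F + ρ * G - 2 ^ 48) * vp) ^ 2 + 2 ^ 93) / 2 ^ 80 := by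
  have b2 : L * (2 * 2 ^ 38) ≤ 64 * (2 * 2 ^ 38) := by gcongr
  have b3 : |(F - dno * 2 ^ 40 / 5) * vp| ≤ 1 * 2 ^ 38 := by
    rw [abs_mul]
    exact mul_le_mul hF hv (abs_nonneg _) zero_le_one
  have b4 : |Z + (F + ρ * G - 2 ^ 48) * vp -
      2 ^ 40 * ((dno - 1280) / 5 * vp + Sm - (-ρ / 2 ^ 40) * G * vp)| ≤ 129 * 2 ^ 38 := by
    refine le_trans (le_of_eq ?_) ((abs_add_le _ _).trans ((add_le_add (b1.trans b2) b3).trans
      (le_of_eq (by ring))))
    congr 1
    ring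
  generalize Z + (F + ρ * G - 2 ^ 48) * vp = X at b4 ⊢
  generalize (dno - 1280) / 5 * vp + Sm - (-ρ / 2 ^ 40) * G * vp = Y at b4 ⊢
  have b5 : (X - 2 ^ 40 * Y) ^ 2 ≤ (129 * 2 ^ 38) ^ 2 := by
    rw [← sq_abs]
    exact pow_le_pow_left₀ (abs_nonneg _) b4 2
  refine (div_le_self (sq_nonneg _) hG).trans ?_
  rw [le_div_iff₀ (by positivity)]
  nlinarith [sq_nonneg (X + (X - 2 ^ 40 * Y))]

theorem lev_sound (R : RT) (n hi ny : ℕ) (act : ℕ → Bool) (valR : ℕ → ℝ) (C : ℕ → ℕ → ℝ)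
    (tab ρ W : ℕ) (hst : structOK R n hi ny = true)
    (htab : TabSpec tab 48 40 valR ny) (hrow : RowSpec R act valR C)
    (h : levCheck act tab n hi R.D R.I ρ W = true) :
    ∃ v : ℕ → ℝ,
      0 < ∑ p ∈ (range n).filter (fun p => act (R.row p).d = true), ((R.row p).G : ℝ) * v p ^ 2 ∧
      ∑ p ∈ (range n).filter (fun p => act (R.row p).d = true),
          ((∑ q ∈ (range n).filter (fun q => act (R.row q).d = true), C p q * v q) -
            (-(ρ : ℝ) / 2 ^ 40) * (R.row p).G * v p) ^ 2 / (R.row p).G ≤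
        (1 / 2 ^ 24) ^ 2 *
          ∑ p ∈ (range n).filter (fun p => act (R.row p).d = true), ((R.row p).G : ℝ) * v p ^ 2 := by
  obtain ⟨hhi, hn, hrows⟩ := baseLev_struct hst
  set v : ℕ → ℝ := fun p => (vAt W p : ℝ) - 2 ^ 38 with hv
  have h1 : 2 * (sumD (resRow act tab W ρ) R.D 0 + sumRows (resRow act tab W ρ) R.I hi) +
      n <<< 93 < (sumD (nrmRow act W) R.D 0 + sumRows (nrmRow act W) R.I hi) <<< 32 :=
    Nat.blt_eq.mp h
  rw [baseLev_total _ R hhi, baseLev_total _ R hhi, hn, Nat.shiftLeft_eq, Nat.shiftLeft_eq] at h1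
  have h2 : 2 * (∑ p ∈ range n, (resRow act tab W ρ p (R.row p) : ℝ)) + n * 2 ^ 93 <
      (∑ p ∈ range n, (nrmRow act W p (R.row p) : ℝ)) * 2 ^ 32 := by exact_mod_cast h1
  have h3 : ∑ p ∈ range n, (nrmRow act W p (R.row p) : ℝ) =
      ∑ p ∈ (range n).filter (fun p => act (R.row p).d = true), ((R.row p).G : ℝ) * v p ^ 2 := by
    rw [sum_filter]
    exact sum_congr rfl fun p _ => baseLev_nrm act W p _
  rw [h3] at h2
  have h4 : ∀ p ∈ (range n).filter (fun p => act (R.row p).d = true),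
      ((∑ q ∈ (range n).filter (fun q => act (R.row q).d = true), C p q * v q) -
        (-(ρ : ℝ) / 2 ^ 40) * (R.row p).G * v p) ^ 2 / (R.row p).G ≤
      (2 * (resRow act tab W ρ p (R.row p) : ℝ) + 2 ^ 93) / 2 ^ 80 := by
    intro p hp
    obtain ⟨hp1, hp2⟩ := mem_filter.1 hp
    have hpn := mem_range.1 hp1
    obtain ⟨a1, a2, a3⟩ := hrows p hpn
    have e1 : ∑ q ∈ (range n).filter (fun q => act (R.row q).d = true), C p q * v q =
        (((R.row p).dno : ℝ) - 1280) / 5 * v p +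
          ((R.row p).T.map fun t => valR t.2 * v t.1).sum := by
      rw [sum_filter, ← baseLev_filter n valR v _ fun t ht => (a3 t ht).1]
      have : ∀ q ∈ range n, (if act (R.row q).d = true then C p q * v q else 0) =
          (if p = q then (((R.row p).dno : ℝ) - 1280) / 5 * v q else 0) +
            (((R.row p).T.filter fun t => t.1 = q).map fun t => valR t.2).sum * v q :=
        fun q hq => by
          have := congrArg (· * v q) (hrow p (hn ▸ hpn) hp2 q (hn ▸ mem_range.1 hq))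
          simpa only [ite_mul, add_mul, zero_mul] using this
      rw [sum_congr rfl this, sum_add_distrib, sum_ite_eq, if_pos hp1]
    have b1 := baseLev_terms (W := W) htab (R.row p).T fun t ht => (a3 t ht).2
    rw [baseLev_res act tab W ρ p _ hp2, e1]
    exact baseLev_real b1 (by exact_mod_cast a2) (baseLev_div5 _) (baseLev_vAt W p)
      (by exact_mod_cast a1)
  have h5 : ∑ p ∈ (range n).filter (fun p => act (R.row p).d = true),
      (2 * (resRow act tab W ρ p (R.row p) : ℝ) + 2 ^ 93) / 2 ^ 80 ≤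
      (2 * (∑ p ∈ range n, (resRow act tab W ρ p (R.row p) : ℝ)) + n * 2 ^ 93) / 2 ^ 80 := by
    refine (sum_le_sum_of_subset_of_nonneg (filter_subset _ _) fun p _ _ => by positivity).trans
      (le_of_eq ?_)
    generalize (2 : ℝ) ^ 93 = A
    generalize (2 : ℝ) ^ 80 = B
    rw [← sum_div, sum_add_distrib, ← mul_sum, sum_const, card_range, nsmul_eq_mul]
  have h6 : (0 : ℝ) ≤ 2 * (∑ p ∈ range n, (resRow act tab W ρ p (R.row p) : ℝ)) + n * 2 ^ 93 :=
    add_nonneg (mul_nonneg zero_le_two (sum_nonneg fun _ _ => Nat.cast_nonneg _)) (by positivity)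
  refine ⟨v, by linarith, (sum_le_sum h4).trans (h5.trans ?_)⟩
  rw [div_le_iff₀ (by positivity)]
  linarith

end Crest.Agent.R347
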