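import Crest.Agent.R347.BasePsd
import Crest.Agent.R347.BaseLev

/-! Row 347: enclosure of one block from its certificate. -/

set_option autoImplicit false

namespace Crest.Agent.R347
open Crest.MathPhysics.SpinChain Matrix Finset Chk

theorem gen_struct {R : RT} {n hi ny : ℕ} (hst : structOK R n hi ny = true) :
    R.n = n ∧ ∀ p, p < R.n → 1 ≤ (R.row p).G := by
  simp only [structOK, Bool.and_eq_true, decide_eq_true_eq, List.all_eq_true] at hst
  obtain ⟨⟨⟨⟨h1, h2⟩, -⟩, h4⟩, h5⟩ := hst
  refine ⟨by rw [RT.n, RT.rows, List.length_append, h1, h2], fun p hp => ?_⟩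
  have hm : R.row p ∈ R.rows := by
    rw [RT.row, List.getD_eq_getElem _ _ hp]
    exact List.getElem_mem _
  rcases List.mem_append.1 hm with h | h
  · obtain ⟨l, hl, hr⟩ := List.mem_flatten.1 h
    have := h4 l hl _ hr
    simp only [rowOK, Bool.and_eq_true, decide_eq_true_eq] at this
    exact this.1.1.1.1
  · have := h5 _ h
    simp only [rowOK, Bool.and_eq_true, decide_eq_true_eq] at this
    exact this.1.1.1.1

theorem gen_sep (ef : ℕ) : ∀ l : List ℕ, sepOK ef l = true →
    l.Pairwise (fun a b => b + 2 ^ 17 < a) ∧ ∀ a ∈ l, ef * 2 ^ 24 + 2 ^ 16 < a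
  | [], _ => by simp
  | [a], h => by simpa [sepOK] using h
  | a :: b :: l, h => by
    simp only [sepOK, Bool.and_eq_true, decide_eq_true_eq] at h
    obtain ⟨h1, h2⟩ := gen_sep ef (b :: l) h.2
    have h3 := h2 b (by simp)
    refine ⟨List.pairwise_cons.2 ⟨fun c hc => ?_, h1⟩, fun c hc => ?_⟩
    · rcases List.mem_cons.1 hc with rfl | hc
      · exact h.1
      · have := (List.pairwise_cons.1 h1).1 c hc
        omega
    · rcases List.mem_cons.1 hc with rfl | hc
      · omega
      · exact h2 c hc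

theorem gen_rec (f : ℕ × ℕ → Bool) (l : List (ℕ × ℕ))
    (h : List.rec (motive := fun _ => Bool) true (fun t _ ih =>
      Bool.rec (motive := fun _ => Bool) false ih (f t)) l = true) : ∀ t ∈ l, f t = true := by
  induction l with
  | nil => simp
  | cons t l ih =>
    cases h1 : f t with
    | false =>
      simp only [h1] at h
      exact absurd h (by simp)
    | true =>
      simp only [h1] at h
      exact List.forall_mem_cons.2 ⟨h1, ih h⟩

theorem gen_levs (act : ℕ → Bool) (tab n hi : ℕ) (D : List (List Row)) (I : List Row)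
    (l : List (ℕ × ℕ)) (h : levsCheck act tab n hi D I l = true) :
    ∀ t ∈ l, levCheck act tab n hi D I t.1 t.2 = true := by
  unfold levsCheck at h
  exact gen_rec (fun t => levCheck act tab n hi D I t.1 t.2) l h

theorem gen_sum_filter {n m : ℕ} {act : ℕ → Bool} (e : Fin m ≃ Idx n act) (f : ℕ → ℝ) :
    ∑ p ∈ (range n).filter (fun p => act p = true), f p = ∑ k, f (e k).1.val := by
  symm
  refine Finset.sum_bij (fun k _ => (e k).1.val) (fun k _ => ?_) (fun k _ l _ h => ?_)
    (fun p hp => ?_) (fun _ _ => rfl)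
  · exact mem_filter.2 ⟨mem_range.2 (e k).1.2, (e k).2⟩
  · exact e.injective (Subtype.ext (Fin.ext h))
  · obtain ⟨h1, h2⟩ := mem_filter.1 hp
    exact ⟨e.symm ⟨⟨p, mem_range.1 h1⟩, h2⟩, mem_univ _, by simp⟩

theorem gen_sum_range {n m : ℕ} {act : ℕ → Bool} (e : Fin m ≃ Idx n act) (f : ℕ → ℝ)
    (hf : ∀ p, p < n → act p = false → f p = 0) :
    ∑ p ∈ range n, f p = ∑ k, f (e k).1.val := by
  rw [← gen_sum_filter e]
  refine (sum_subset (filter_subset _ _) fun p hp hp' => hf p (mem_range.1 hp) ?_).symm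
  simpa [hp] using hp'

theorem gen_ext {n m : ℕ} {act : ℕ → Bool} (e : Fin m ≃ Idx n act) (a : Fin m → ℝ) :
    ∃ x : ℕ → ℝ, (∀ p, act p = false → x p = 0) ∧ ∀ k, x (e k).1.val = a k := by
  refine ⟨fun p => if h : p < n ∧ act p = true then a (e.symm ⟨⟨p, h.1⟩, h.2⟩) else 0,
    fun p hp => dif_neg (by simp [hp]), fun k => ?_⟩
  dsimp only
  rw [dif_pos ⟨(e k).1.2, (e k).2⟩]
  simp

theorem gen_encl_mono {f : ℝ → ℝ} {ρ : List ℚ} {η E : ℚ} {m n : ℕ} (hmn : m ≤ n)
    (h : Encl f ρ η [(m, E)]) : Encl f ρ η [(n, E)] := by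
  intro β hβ
  refine ⟨(h β hβ).1, (h β hβ).2.trans ?_⟩
  simp only [List.map_cons, List.map_nil, List.sum_cons, List.sum_nil, add_zero]
  gcongr

theorem gen_encl (R : RT) (n hi ny : ℕ) (act : ℕ → Bool) (valR : ℕ → ℝ) (C : ℕ → ℕ → ℝ)
    (T32 T40 : ℕ) (b : BD) (hst : structOK R n hi ny = true)
    (h32 : TabSpec T32 40 32 valR ny) (h40 : TabSpec T40 48 40 valR ny)
    (hrow : RowSpec R act valR C)
    (hsym : ∀ p q, p < R.n → q < R.n → act (R.row p).d = true → act (R.row q).d = true →
      C p q = C q p)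
    (h : blockCheck R n hi act T32 T40 b = true) :
    EnclN (ptr (pencil R.n (fun p => act (R.row p).d) (fun p => (R.row p).G) C))
      (b.lev.map Prod.fst) [(n, b.ef)] := by
  simp only [blockCheck, Bool.and_eq_true, decide_eq_true_eq] at h
  obtain ⟨⟨⟨⟨⟨⟨heb, hes⟩, hlen⟩, hV⟩, hef⟩, hsep⟩, hlev, hpsd⟩ := h
  obtain ⟨hn, hG⟩ := gen_struct hst
  obtain ⟨ℓ, hℓ⟩ := psd_sound R n hi ny act valR C T32 b.es b.eb b.defl hst h32 hrow hsym heb hes hV
    hpsd
  have hv := fun i : Fin b.lev.length => lev_sound R n hi ny act valR C T40 (b.lev[i]).1 (b.lev[i]).2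
    hst h40 hrow (gen_levs act T40 n hi R.D R.I b.lev hlev _ (List.getElem_mem _))
  choose v hv0 hv1 using hv
  obtain ⟨hs1, hs2⟩ := gen_sep b.ef _ hsep
  subst hn
  set m := Fintype.card (Idx R.n fun p => act (R.row p).d) with hm
  let e : Fin m ≃ Idx R.n fun p => act (R.row p).d := (Fintype.equivFin _).symm
  have hmn : m ≤ R.n := (Fintype.card_subtype_le _).trans_eq (Fintype.card_fin _)
  have hsym' : ∀ p q : Idx R.n fun p => act (R.row p).d, C p.1.val q.1.val = C q.1.val p.1.val :=
    fun p q => hsym _ _ p.1.2 q.1.2 p.2 q.2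
  let Cm : Matrix (Fin m) (Fin m) ℂ := Matrix.of fun k l => (C (e k).1.val (e l).1.val : ℂ)
  let G : Fin m → ℝ := fun k => (R.row (e k).1.val).G
  have hGpos : ∀ k, 0 < G k := fun k => by
    have := hG _ (e k).1.2
    simp only [G]
    exact_mod_cast this
  have hCm : Cm.IsHermitian := by
    ext k l
    simp only [Cm, conjTranspose_apply, of_apply, Complex.star_def, Complex.conj_ofReal]
    rw [hsym']
  have hP : (pencil R.n (fun p => act (R.row p).d) (fun p => (R.row p).G) C).IsHermitian := by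
    ext k l
    simp only [pencil, conjTranspose_apply, of_apply, Complex.star_def, Complex.conj_ofReal]
    rw [hsym', mul_comm]
  have hsub : (pencil R.n (fun p => act (R.row p).d) (fun p => (R.row p).G) C).submatrix e e =
      diagonal (fun p => (((Real.sqrt (G p))⁻¹ : ℝ) : ℂ)) * Cm *
        diagonal (fun p => (((Real.sqrt (G p))⁻¹ : ℝ) : ℂ)) := by
    ext k l
    simp only [pencil, submatrix_apply, of_apply, mul_diagonal, diagonal_mul, Cm, G]
    push_cast
    ring
  have hptr : ptr (pencil R.n (fun p => act (R.row p).d) (fun p => (R.row p).G) C) =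
      ptr (diagonal (fun p => (((Real.sqrt (G p))⁻¹ : ℝ) : ℂ)) * Cm *
        diagonal (fun p => (((Real.sqrt (G p))⁻¹ : ℝ) : ℂ))) := by
    funext β
    rw [← hsub, ptr_submatrix _ hP]
  let ρ : Fin b.lev.length → ℚ := fun i => -((b.lev[i]).1 : ℚ) / 2 ^ 40
  have hρ : (b.lev.map Prod.fst).map (fun r : ℕ => -(r : ℚ) / 2 ^ 40) = List.ofFn ρ := by
    refine List.ext_getElem (by simp) fun i h1 h2 => ?_
    simp [ρ]
  rw [EnclN, hρ, hptr]
  refine gen_encl_mono hmn (encl_pencil Cm hCm G hGpos (-(b.ef : ℚ) / 2 ^ 16) (1 / 2 ^ 24)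
    (by positivity) ρ (fun i k => (ℓ (i.cast hlen) (e k).1.val : ℂ)) (fun y hy => ?_)
    (fun i k => (v i (e k).1.val : ℂ)) (fun i h0 => ?_) (fun i => ?_) (fun i j hij => ?_)
    (fun i => ?_))
  · have key : ∀ a : Fin m → ℝ, (∀ i, ∑ k, ℓ i (e k).1.val * a k = 0) →
        ((-(b.ef : ℚ) / 2 ^ 16 : ℚ) : ℝ) * ∑ k, G k * a k ^ 2 ≤
          ∑ k, ∑ l, a k * a l * C (e k).1.val (e l).1.val := by
      intro a ha
      obtain ⟨x, hx0, hx⟩ := gen_ext e a
      have h1 := hℓ x (fun p _ hp => hx0 p hp) (fun i => by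
        rw [gen_sum_range e _ (fun p _ hp => by rw [hx0 p hp, mul_zero])]
        simp only [hx]
        exact ha i)
      rw [gen_sum_range e _ (fun p _ hp => by simp [hx0 p hp]),
        gen_sum_range e _ (fun p _ hp => by simp [hx0 p hp])] at h1
      have h2 : ∀ k, ∑ q ∈ range R.n, x (e k).1.val * x q * C (e k).1.val q =
          ∑ l, a k * a l * C (e k).1.val (e l).1.val := fun k => by
        rw [gen_sum_range e _ (fun p _ hp => by simp [hx0 p hp])]
        simp only [hx]
      simp only [h2] at h1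
      simp only [hx] at h1
      refine le_trans (mul_le_mul_of_nonneg_right ?_
        (sum_nonneg fun k _ => mul_nonneg (hGpos k).le (sq_nonneg _))) h1
      have h3 : ((b.es * 2 ^ 16 + R.n * (2 ^ b.eb + 256) : ℕ) : ℝ) ≤ (b.ef : ℝ) * 2 ^ 16 := by
        exact_mod_cast hef
      push_cast at h3 ⊢
      linarith
    have hy' : ∀ i, ∑ k, (ℓ i (e k).1.val : ℂ) * y k = 0 := fun i => hy (i.cast hlen.symm)
    have h1 := key (fun k => (y k).re) fun i => by
      have := congrArg Complex.re (hy' i)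
      simpa [Complex.re_sum] using this
    have h2 := key (fun k => (y k).im) fun i => by
      have := congrArg Complex.im (hy' i)
      simpa [Complex.im_sum] using this
    have h3 : ∑ k, G k * ‖y k‖ ^ 2 = ∑ k, G k * (y k).re ^ 2 + ∑ k, G k * (y k).im ^ 2 := by
      rw [← sum_add_distrib]
      refine sum_congr rfl fun k _ => ?_
      rw [Complex.sq_norm, Complex.normSq_apply]
      ring
    have h4 : (star y ⬝ᵥ Cm.mulVec y).re =
        ∑ k, ∑ l, (y k).re * (y l).re * C (e k).1.val (e l).1.val +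
          ∑ k, ∑ l, (y k).im * (y l).im * C (e k).1.val (e l).1.val := by
      simp only [dotProduct, mulVec, Complex.re_sum, mul_sum, ← sum_add_distrib]
      refine sum_congr rfl fun k _ => sum_congr rfl fun l _ => ?_
      simp [Cm]
      ring
    rw [h3, h4, mul_add]
    exact add_le_add h1 h2
  · have h1 := hv0 i
    rw [gen_sum_filter e] at h1
    refine h1.ne' (sum_eq_zero fun k _ => ?_)
    have : v i (e k).1.val = 0 := by simpa using congrFun h0 k
    simp [this]
  · have h1 := hv1 i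
    rw [gen_sum_filter e, gen_sum_filter e] at h1
    simp only [gen_sum_filter e] at h1
    convert h1 using 2 with k _
    · congr 1
      have : Cm.mulVec (fun k => (v i (e k).1.val : ℂ)) k - (ρ i : ℂ) * G k * v i (e k).1.val =
          ((∑ l, C (e k).1.val (e l).1.val * v i (e l).1.val -
            -((b.lev[i]).1 : ℝ) / 2 ^ 40 * (R.row (e k).1.val).G * v i (e k).1.val : ℝ) : ℂ) := by
        simp [Cm, G, ρ, mulVec, dotProduct]
      rw [this, Complex.norm_real, Real.norm_eq_abs, sq_abs]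
    · push_cast
      rfl
    · refine sum_congr rfl fun k _ => ?_
      rw [Complex.norm_real, Real.norm_eq_abs, sq_abs]
  · have h1 := List.pairwise_iff_getElem.1 hs1 i j (by simp) (by simp) hij
    simp only [List.getElem_map] at h1
    have h2 : ((b.lev[j]).1 : ℚ) + 2 ^ 17 < (b.lev[i]).1 := by exact_mod_cast h1
    simp only [ρ]
    linarith
  · have h1 := hs2 (b.lev[i]).1 (List.mem_map_of_mem (List.getElem_mem _))
    have h2 : (b.ef : ℚ) * 2 ^ 24 + 2 ^ 16 < (b.lev[i]).1 := by exact_mod_cast h1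
    simp only [ρ]
    linarith

end Crest.Agent.R347
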