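import Crest.Agent.R347.BaseOpenAux

/-! Row 347: block decomposition of the open chain and verification of its tables. -/

set_option autoImplicit false
set_option Elab.async false
set_option maxRecDepth 100000

namespace Crest.Agent.R347
open Crest.MathPhysics.SpinChain Matrix Finset Chk

theorem Copen_symm (n : ℕ) (τ : Bool) (CT p q : ℕ) : Copen n τ CT p q = Copen n τ CT q p := by
  unfold Copen
  rw [← (Hopen_herm n τ).apply, Complex.star_def, Complex.conj_re]

open OpenAux in
theorem open_blocks (n : ℕ) (τ : Bool) (CT : ℕ → ℕ) (R : ℕ → RT)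
    (h : ∀ mm, mm ≤ 2 * (n + 1) → OpenTab n τ mm (CT mm) (R mm))
    (hc : ∑ mm ∈ range (2 * (n + 1) + 1), (R mm).n = 3 ^ (n + 1)) (β : ℝ) :
    Zo τ (n + 1) β = ∑ mm ∈ range (2 * (n + 1) + 1), ptr (Kopen n τ (CT mm) (R mm)) β := by
  let f : ∀ b : Fin (2 * (n + 1) + 1), Fin (R b).n → Cfg (n + 1) :=
    fun b p => cfg (n + 1) (fld 16 (CT b) p)
  have hb : ∀ b : Fin (2 * (n + 1) + 1), OpenTab n τ b (CT b) (R b) :=
    fun b => h b (by have := b.2; omega)
  have hmag : ∀ b p, mag (f b p) = ((b : ℕ) : ℤ) - (n + 1 : ℕ) := fun b p => ((hb b).1 p p.2).2.1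
  have hne : ∀ b b', b ≠ b' → ∀ p q, mag (f b p) ≠ mag (f b' q) := by
    intro b b' hbb p q e
    rw [hmag, hmag] at e
    exact hbb (Fin.ext (by omega))
  have hinj : ∀ b, Function.Injective (f b) := fun b p q e =>
    Fin.ext ((hb b).2.1 p q p.2 q.2 (cfg_inj ((hb b).1 p p.2).1 ((hb b).1 q q.2).1 e))
  have h1 := ptr_blocks (fun b : Fin (2 * (n + 1) + 1) => (R b).n) (Hopen n τ) (Hopen_herm n τ)
    (fun b => (1 : Matrix (Cfg (n + 1)) (Cfg (n + 1)) ℂ).submatrix id (f b))
    (fun b => by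
      have := sel_mul (f b) (f b) (1 : Matrix (Cfg (n + 1)) (Cfg (n + 1)) ℂ)
      rw [Matrix.mul_one] at this
      rw [this, submatrix_one _ (hinj b)])
    (fun b b' hbb => by
      have := sel_mul (f b) (f b') (1 : Matrix (Cfg (n + 1)) (Cfg (n + 1)) ℂ)
      rw [Matrix.mul_one] at this
      rw [this]
      ext p q
      exact one_apply_ne (fun e => hne b b' hbb p q (by rw [e])))
    (fun b b' hbb => by
      rw [sel_mul]
      ext p q
      simp [Hopen_apply, Hre_mag (hne b b' hbb p q)])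
    (by
      rw [Fin.sum_univ_eq_sum_range (fun b => (R b).n), hc]; simp) β
  change ptr (Hopen n τ) β = _
  rw [h1, ← Fin.sum_univ_eq_sum_range (fun mm => ptr (Kopen n τ (CT mm) (R mm)) β)]
  refine sum_congr rfl (fun b _ => ?_)
  rw [sel_mul, ← ptr_submatrix _ ((Hopen_herm n τ).submatrix (f b))
    (Equiv.subtypeUnivEquiv (p := fun p : Fin (R b).n => (fun _ : ℕ => true) p.val = true)
      (fun _ => rfl))]
  congr 1
  ext p q
  simp only [Kopen, pencil, of_apply, submatrix_apply, Equiv.subtypeUnivEquiv_apply,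
    ((hb b).1 _ p.1.2).2.2, ((hb b).1 _ q.1.2).2.2, Copen, Hopen_apply, Complex.ofReal_re]
  simp [f]

namespace OpenAux

/-- both checks for the sectors `lo ≤ mm < lo + len` -/
noncomputable def allChk (n : ℕ) (τ : Bool) (lo len : ℕ) : Bool :=
  (List.range' lo len).all fun mm =>
    tabChk n τ mm (CTo (n + 1) mm) (nO (n + 1) mm) (RTo τ (n + 1) mm) &&
      structOK (RTo τ (n + 1) mm) (nO (n + 1) mm) (hiO (n + 1) mm) 1

/-- the conclusion of the checks -/
def Good (n : ℕ) (τ : Bool) (mm : ℕ) : Prop :=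
  OpenTab n τ mm (CTo (n + 1) mm) (RTo τ (n + 1) mm) ∧
    structOK (RTo τ (n + 1) mm) (nO (n + 1) mm) (hiO (n + 1) mm) 1 = true

theorem allChk_sound {n : ℕ} {τ : Bool} {lo len : ℕ} (h : allChk n τ lo len = true) {mm : ℕ}
    (h1 : lo ≤ mm) (h2 : mm < lo + len) : Good n τ mm := by
  rw [allChk, List.all_eq_true] at h
  have := h mm (List.mem_range'_1.2 ⟨h1, h2⟩)
  rw [Bool.and_eq_true] at this
  exact ⟨tabChk_sound this.1, this.2⟩

theorem chk_4_false_0 : allChk 3 false 0 9 = true := by decide +kernel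
theorem chk_4_true_0 : allChk 3 true 0 9 = true := by decide +kernel
theorem chk_5_false_0 : allChk 4 false 0 11 = true := by decide +kernel
theorem chk_5_true_0 : allChk 4 true 0 11 = true := by decide +kernel
theorem chk_6_false_0 : allChk 5 false 0 13 = true := by decide +kernel
theorem chk_6_true_0 : allChk 5 true 0 13 = true := by decide +kernel
theorem chk_7_false_0 : allChk 6 false 0 7 = true := by decide +kernel
theorem chk_7_false_7 : allChk 6 false 7 2 = true := by decide +kernel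
theorem chk_7_false_9 : allChk 6 false 9 6 = true := by decide +kernel
theorem chk_7_true_0 : allChk 6 true 0 7 = true := by decide +kernel
theorem chk_7_true_7 : allChk 6 true 7 2 = true := by decide +kernel
theorem chk_7_true_9 : allChk 6 true 9 6 = true := by decide +kernel
theorem chk_8_false_0 : allChk 7 false 0 6 = true := by decide +kernel
theorem chk_8_false_6 : allChk 7 false 6 1 = true := by decide +kernel
theorem chk_8_false_7 : allChk 7 false 7 1 = true := by decide +kernel
theorem chk_8_false_8 : allChk 7 false 8 1 = true := by decide +kernel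
theorem chk_8_false_9 : allChk 7 false 9 1 = true := by decide +kernel
theorem chk_8_false_10 : allChk 7 false 10 1 = true := by decide +kernel
theorem chk_8_false_11 : allChk 7 false 11 6 = true := by decide +kernel
theorem chk_8_true_0 : allChk 7 true 0 6 = true := by decide +kernel
theorem chk_8_true_6 : allChk 7 true 6 1 = true := by decide +kernel
theorem chk_8_true_7 : allChk 7 true 7 1 = true := by decide +kernel
theorem chk_8_true_8 : allChk 7 true 8 1 = true := by decide +kernel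
theorem chk_8_true_9 : allChk 7 true 9 1 = true := by decide +kernel
theorem chk_8_true_10 : allChk 7 true 10 1 = true := by decide +kernel
theorem chk_8_true_11 : allChk 7 true 11 6 = true := by decide +kernel

theorem good4 (τ : Bool) (mm : ℕ) (hm : mm ≤ 8) : Good 3 τ mm := by
  cases τ
  · exact allChk_sound chk_4_false_0 (by omega) (by omega)
  · exact allChk_sound chk_4_true_0 (by omega) (by omega)

theorem good5 (τ : Bool) (mm : ℕ) (hm : mm ≤ 10) : Good 4 τ mm := by
  cases τ
  · exact allChk_sound chk_5_false_0 (by omega) (by omega)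
  · exact allChk_sound chk_5_true_0 (by omega) (by omega)

theorem good6 (τ : Bool) (mm : ℕ) (hm : mm ≤ 12) : Good 5 τ mm := by
  cases τ
  · exact allChk_sound chk_6_false_0 (by omega) (by omega)
  · exact allChk_sound chk_6_true_0 (by omega) (by omega)

theorem good7 (τ : Bool) (mm : ℕ) (hm : mm ≤ 14) : Good 6 τ mm := by
  have : (0 ≤ mm ∧ mm < 7) ∨ (7 ≤ mm ∧ mm < 9) ∨ (9 ≤ mm ∧ mm < 15) := by omega
  cases τ
  · rcases this with h | h | h
    · exact allChk_sound chk_7_false_0 h.1 h.2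
    · exact allChk_sound chk_7_false_7 h.1 h.2
    · exact allChk_sound chk_7_false_9 h.1 h.2
  · rcases this with h | h | h
    · exact allChk_sound chk_7_true_0 h.1 h.2
    · exact allChk_sound chk_7_true_7 h.1 h.2
    · exact allChk_sound chk_7_true_9 h.1 h.2

theorem good8 (τ : Bool) (mm : ℕ) (hm : mm ≤ 16) : Good 7 τ mm := by
  have : (0 ≤ mm ∧ mm < 6) ∨ (6 ≤ mm ∧ mm < 7) ∨ (7 ≤ mm ∧ mm < 8) ∨ (8 ≤ mm ∧ mm < 9) ∨ (9 ≤ mm ∧ mm < 10) ∨ (10 ≤ mm ∧ mm < 11) ∨ (11 ≤ mm ∧ mm < 17) := by omega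
  cases τ
  · rcases this with h | h | h | h | h | h | h
    · exact allChk_sound chk_8_false_0 h.1 h.2
    · exact allChk_sound chk_8_false_6 h.1 h.2
    · exact allChk_sound chk_8_false_7 h.1 h.2
    · exact allChk_sound chk_8_false_8 h.1 h.2
    · exact allChk_sound chk_8_false_9 h.1 h.2
    · exact allChk_sound chk_8_false_10 h.1 h.2
    · exact allChk_sound chk_8_false_11 h.1 h.2
  · rcases this with h | h | h | h | h | h | h
    · exact allChk_sound chk_8_true_0 h.1 h.2
    · exact allChk_sound chk_8_true_6 h.1 h.2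
    · exact allChk_sound chk_8_true_7 h.1 h.2
    · exact allChk_sound chk_8_true_8 h.1 h.2
    · exact allChk_sound chk_8_true_9 h.1 h.2
    · exact allChk_sound chk_8_true_10 h.1 h.2
    · exact allChk_sound chk_8_true_11 h.1 h.2

theorem good (n : ℕ) (h3 : 3 ≤ n) (h7 : n ≤ 7) (τ : Bool) (mm : ℕ) (hm : mm ≤ 2 * (n + 1)) :
    Good n τ mm := by
  have : n = 3 ∨ n = 4 ∨ n = 5 ∨ n = 6 ∨ n = 7 := by omega
  rcases this with rfl | rfl | rfl | rfl | rfl
  exacts [good4 τ mm hm, good5 τ mm hm, good6 τ mm hm, good7 τ mm hm, good8 τ mm hm]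

end OpenAux

theorem open_tab (n : ℕ) (h3 : 3 ≤ n) (h7 : n ≤ 7) (τ : Bool) (mm : ℕ) (hm : mm ≤ 2 * (n + 1)) :
    OpenTab n τ mm (CTo (n + 1) mm) (RTo τ (n + 1) mm) :=
  (OpenAux.good n h3 h7 τ mm hm).1

theorem open_struct (N : ℕ) (h4 : 4 ≤ N) (h8 : N ≤ 8) (τ : Bool) (mm : ℕ) (hm : mm ≤ 2 * N) :
    structOK (RTo τ N mm) (nO N mm) (hiO N mm) 1 = true := by
  obtain ⟨n, rfl⟩ : ∃ n, N = n + 1 := ⟨N - 1, by omega⟩
  exact (OpenAux.good n (by omega) (by omega) τ mm hm).2

theorem open_count (N : ℕ) (h4 : 4 ≤ N) (h8 : N ≤ 8) :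
    ∑ mm ∈ range (2 * N + 1), nO N mm = 3 ^ N := by
  interval_cases N <;> decide +kernel

end Crest.Agent.R347
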