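import Crest.Agent.R347.BaseTabO

/-! Row 347: matrix elements of the open chain, checker for the open tables. -/

set_option autoImplicit false

namespace Crest.Agent.R347.OpenAux
open Crest.MathPhysics.SpinChain Matrix Finset Chk

/-! ### codes -/

def enc {L : ℕ} (σ : Cfg L) : ℕ := ∑ i, (σ i : ℕ) * 3 ^ (i : ℕ)

theorem enc_eq {L : ℕ} (σ : Cfg L) : enc σ = (finFunctionFinEquiv σ : ℕ) := by
  rw [finFunctionFinEquiv_apply]; rfl

theorem enc_inj {L : ℕ} {σ ρ : Cfg L} (h : enc σ = enc ρ) : σ = ρ := by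
  rw [enc_eq, enc_eq] at h
  exact finFunctionFinEquiv.injective (Fin.ext h)

theorem enc_cfg {L c : ℕ} (h : c < 3 ^ L) : enc (cfg L c) = c := by
  have : cfg L c = finFunctionFinEquiv.symm ⟨c, h⟩ := by
    funext j
    exact Fin.ext (finFunctionFinEquiv_symm_apply_val (⟨c, h⟩ : Fin (3 ^ L)) j).symm
  rw [enc_eq, this, Equiv.apply_symm_apply]

theorem cfg_inj {L c c' : ℕ} (h : c < 3 ^ L) (h' : c' < 3 ^ L) (e : cfg L c = cfg L c') : c = c' := by
  rw [← enc_cfg h, e, enc_cfg h']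

/-- `ρ` is obtained from `σ` by raising the digit `j` and lowering the digit `k` -/
def Hop {L : ℕ} (j k : Fin L) (σ ρ : Cfg L) : Prop :=
  (∀ i, i ≠ j → i ≠ k → σ i = ρ i) ∧ (ρ j : ℕ) = σ j + 1 ∧ (σ k : ℕ) = ρ k + 1

theorem sum_two {L : ℕ} {j k : Fin L} (hjk : j ≠ k) (f g : Fin L → ℤ)
    (h : ∀ i, i ≠ j → i ≠ k → f i = g i) :
    ∑ i, f i + (g j + g k) = ∑ i, g i + (f j + f k) := by
  have h1 : ∑ i, (f i - g i) = (f j - g j) + (f k - g k) := by
    refine Fintype.sum_eq_add j k hjk (fun i hi => ?_)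
    rw [h i hi.1 hi.2, sub_self]
  rw [Finset.sum_sub_distrib] at h1
  linarith

theorem Hop.enc {L : ℕ} {j k : Fin L} (hjk : j ≠ k) {σ ρ : Cfg L} (h : Hop j k σ ρ) :
    enc ρ + 3 ^ (k : ℕ) = enc σ + 3 ^ (j : ℕ) := by
  have h1 := sum_two hjk (fun i => ((σ i : ℕ) : ℤ) * 3 ^ (i : ℕ))
    (fun i => ((ρ i : ℕ) : ℤ) * 3 ^ (i : ℕ)) (fun i h1 h2 => by simp only [h.1 i h1 h2])
  have h2 : ((ρ j : ℕ) : ℤ) = (σ j : ℕ) + 1 := by exact_mod_cast h.2.1
  have h3 : ((σ k : ℕ) : ℤ) = (ρ k : ℕ) + 1 := by exact_mod_cast h.2.2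
  simp only [h2, h3] at h1
  zify [OpenAux.enc]
  linarith

theorem Hop.mag {L : ℕ} {j k : Fin L} (hjk : j ≠ k) {σ ρ : Cfg L} (h : Hop j k σ ρ) :
    mag σ = mag ρ := by
  have h1 := sum_two hjk (fun i => magneticNumber (σ i))
    (fun i => magneticNumber (ρ i)) (fun i h1 h2 => by simp only [h.1 i h1 h2])
  have h2 : ((ρ j : ℕ) : ℤ) = (σ j : ℕ) + 1 := by exact_mod_cast h.2.1
  have h3 : ((σ k : ℕ) : ℤ) = (ρ k : ℕ) + 1 := by exact_mod_cast h.2.2
  simp only [magneticNumber] at h1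
  unfold R347.mag magneticNumber
  linarith

theorem hop_iff {L : ℕ} {j k : Fin L} (hjk : j ≠ k) (σ ρ : Cfg L) :
    Hop j k σ ρ ↔ (σ j : ℕ) < 2 ∧ 0 < (σ k : ℕ) ∧ enc ρ + 3 ^ (k : ℕ) = enc σ + 3 ^ (j : ℕ) := by
  constructor
  · intro h
    have h1 := (ρ j).2
    have h2 := h.2.1
    have h3 := h.2.2
    exact ⟨by omega, by omega, h.enc hjk⟩
  · rintro ⟨h1, h2, h3⟩
    have h4 := (σ k).2
    let ρ' : Cfg L := Function.update (Function.update σ j ⟨σ j + 1, by omega⟩) k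
      ⟨σ k - 1, by omega⟩
    have h5 : Hop j k σ ρ' := by
      refine ⟨fun i g1 g2 => ?_, ?_, ?_⟩
      · simp [ρ', Function.update_of_ne g1, Function.update_of_ne g2]
      · simp [ρ', Function.update_of_ne hjk]
      · simp only [ρ', Function.update_self]; omega
    have h6 := h5.enc hjk
    have h7 : ρ' = ρ := enc_inj (by omega)
    exact h7 ▸ h5

open Classical in
theorem bond_apply {L : ℕ} {j k : Fin L} (hjk : j ≠ k) (σ ρ : Cfg L) :
    bond j k σ ρ = (if σ = ρ then ((magneticNumber (σ j) * magneticNumber (σ k) : ℤ) : ℂ) else 0) +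
      ((if Hop j k σ ρ then 1 else 0) + (if Hop k j σ ρ then 1 else 0)) := by
  rw [bond_eq_tbond, tbond_eq_onBond _ _ _ hjk]
  simp only [onBond, hloc, of_apply, star_one]
  by_cases h : ∀ i, i ≠ j → i ≠ k → σ i = ρ i
  · rw [if_pos h]
    have h' : ∀ i, i ≠ k → i ≠ j → σ i = ρ i := fun i a b => h i b a
    have e0 : σ = ρ ↔ (σ j, σ k) = (ρ j, ρ k) := by
      refine ⟨fun e => by rw [e], fun e => ?_⟩
      funext i
      by_cases g1 : i = j
      · rw [g1]; exact congrArg Prod.fst e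
      by_cases g2 : i = k
      · rw [g2]; exact congrArg Prod.snd e
      exact h i g1 g2
    have e1 : Hop j k σ ρ ↔ (ρ j : ℕ) = σ j + 1 ∧ (σ k : ℕ) = ρ k + 1 := by
      simp only [Hop, and_iff_right h]
    have e2 : Hop k j σ ρ ↔ (σ j : ℕ) = ρ j + 1 ∧ (ρ k : ℕ) = σ k + 1 := by
      simp only [Hop, and_iff_right h', and_comm]
    simp only [e0, e1, e2, Prod.mk.injEq, Fin.ext_iff]
    split_ifs <;> first | omega | simp
  · rw [if_neg h]
    have e0 : σ ≠ ρ := fun e => h (fun i _ _ => by rw [e])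
    have e1 : ¬ Hop j k σ ρ := fun e => h e.1
    have e2 : ¬ Hop k j σ ρ := fun e => h (fun i a b => e.1 i b a)
    simp [e0, e1, e2]

theorem site_apply {L : ℕ} (j : Fin L) (σ ρ : Cfg L) :
    onSite spinZ j σ ρ = if σ = ρ then ((magneticNumber (σ j) : ℤ) : ℂ) else 0 := by
  simp only [onSite, of_apply, spinZ, diagonal_apply]
  by_cases e : σ = ρ
  · subst e; simp
  · rw [if_neg e]
    split_ifs with h1 h2
    · exact absurd (funext fun i => if g : i = j then g ▸ h2 else h1 i g) e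
    · rfl
    · rfl

/-- five times the diagonal entry -/
def diag5 (n : ℕ) (τ : Bool) (σ : Cfg (n + 1)) : ℤ :=
  5 * ∑ j : Fin n, magneticNumber (σ j.castSucc) * magneticNumber (σ j.succ) -
    3 * (magneticNumber (σ 0) + (if τ then 1 else -1) * magneticNumber (σ (Fin.last n)))

open Classical in
/-- real form of the Hamiltonian -/
noncomputable def Hre (n : ℕ) (τ : Bool) (σ ρ : Cfg (n + 1)) : ℝ :=
  (if σ = ρ then (diag5 n τ σ : ℝ) / 5 else 0) +
    ∑ j : Fin n, ((if Hop j.castSucc j.succ σ ρ then 1 else 0) +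
      (if Hop j.succ j.castSucc σ ρ then 1 else 0))

theorem Hopen_apply (n : ℕ) (τ : Bool) (σ ρ : Cfg (n + 1)) :
    Hopen n τ σ ρ = (Hre n τ σ ρ : ℂ) := by
  classical
  simp only [Hopen, Matrix.sub_apply, Matrix.sum_apply, Matrix.smul_apply, Matrix.add_apply,
    site_apply, fun j : Fin n => bond_apply (Fin.castSucc_lt_succ (i := j)).ne σ ρ,
    Finset.sum_add_distrib, Hre, smul_eq_mul]
  push_cast [apply_ite ((↑) : ℝ → ℂ)]
  by_cases e : σ = ρ
  · simp only [if_pos e, diag5]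
    push_cast
    cases τ <;> simp <;> ring
  · simp [if_neg e]

theorem Hre_mag {n : ℕ} {τ : Bool} {σ ρ : Cfg (n + 1)} (h : mag σ ≠ mag ρ) : Hre n τ σ ρ = 0 := by
  have e0 : σ ≠ ρ := fun e => h (by rw [e])
  have e1 : ∀ j : Fin n, ¬ Hop j.castSucc j.succ σ ρ := fun j e =>
    h (e.mag (Fin.castSucc_lt_succ (i := j)).ne)
  have e2 : ∀ j : Fin n, ¬ Hop j.succ j.castSucc σ ρ := fun j e =>
    h (e.mag (Fin.castSucc_lt_succ (i := j)).ne')
  simp [Hre, e0, e1, e2]

theorem sel_mul {κ a b : Type} [Fintype κ] [DecidableEq κ] (f : a → κ) (g : b → κ)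
    (H : Matrix κ κ ℂ) :
    ((1 : Matrix κ κ ℂ).submatrix id f)ᴴ * H * (1 : Matrix κ κ ℂ).submatrix id g =
      H.submatrix f g := by
  ext p q
  simp [mul_apply, one_apply]

/-! ### the checker -/

def fq (CT q : ℕ) : ℕ := Nat.land (Nat.shiftRight CT (Nat.mul 16 q)) 65535

theorem fq_eq (CT q : ℕ) : fq CT q = fld 16 CT q := by
  have h : (65535 : ℕ) = 2 ^ 16 - 1 := by norm_num
  change (CT >>> (16 * q)) &&& 65535 = _
  rw [h, Nat.and_two_pow_sub_one_eq_mod, Nat.shiftRight_eq_div_pow, fld]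

def dg (c j : ℕ) : ℕ := Nat.mod (Nat.div c (Nat.pow 3 j)) 3

def sA (c : ℕ) : ℕ → ℕ
  | 0 => 0
  | j + 1 => Nat.add (sA c j) (dg c j)
def sP (c : ℕ) : ℕ → ℕ
  | 0 => 0
  | j + 1 => Nat.add (sP c j) (Nat.add (dg c j) (dg c (j + 1)))
def sM (c : ℕ) : ℕ → ℕ
  | 0 => 0
  | j + 1 => Nat.add (sM c j) (Nat.mul (dg c j) (dg c (j + 1)))

/-- target of the hop raising `j`, lowering `k` -/
def tg1 (c j k : ℕ) (l : List ℕ) : List ℕ :=
  bif Nat.blt (dg c j) 2 && Nat.blt 0 (dg c k) then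
    Nat.sub (Nat.add c (Nat.pow 3 j)) (Nat.pow 3 k) :: l else l

/-- targets of the hops at the last `i` bonds out of `n` -/
def tg (c n : ℕ) : ℕ → List ℕ
  | 0 => []
  | i + 1 => tg1 c (Nat.sub n (i + 1)) (Nat.sub n i) (tg1 c (Nat.sub n i) (Nat.sub n (i + 1)) (tg c n i))

def chkT (CT nn : ℕ) : List (ℕ × ℕ) → List ℕ → Bool
  | [], [] => true
  | t :: T, a :: l => Nat.blt t.1 nn && (Nat.beq (fq CT t.1) a && chkT CT nn T l)
  | _, _ => false

def rowChk (n : ℕ) (τ : Bool) (mm CT nn c : ℕ) (r : Row) : Bool :=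
  Nat.blt c (Nat.pow 3 (n + 1)) && (Nat.beq (Nat.add (sA c (n + 1)) mm) (Nat.mul 2 (n + 1)) &&
    (Nat.beq r.G 1 &&
    (Nat.beq (Nat.add (Nat.add r.dno (Nat.mul 5 (sP c n))) (bif τ then 6 else Nat.mul 3 (dg c n)))
      (Nat.add (Nat.add (Nat.add (Nat.mul 5 (Nat.add n (sM c n))) (Nat.mul 3 (dg c 0)))
        (bif τ then Nat.mul 3 (dg c n) else 0)) 1280) &&
    chkT CT nn r.T (tg c n n))))

def go (n : ℕ) (τ : Bool) (mm CT nn : ℕ) : List Row → ℕ → ℕ → Bool
  | [], p, _ => Nat.beq p nn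
  | r :: l, p, S => rowChk n τ mm CT nn (fq CT p) r &&
      (Nat.beq (Nat.land (Nat.shiftRight S (fq CT p)) 1) 0 &&
        go n τ mm CT nn l (Nat.add p 1) (Nat.lor S (Nat.shiftLeft 1 (fq CT p))))

def tabChk (n : ℕ) (τ : Bool) (mm CT nn : ℕ) (R : RT) : Bool := go n τ mm CT nn R.rows 0 0

/-! ### soundness -/

theorem dg_cfg (L c : ℕ) (j : Fin L) : (cfg L c j : ℕ) = dg c j := rfl

theorem sA_eq (c k : ℕ) : sA c k = ∑ j ∈ range k, dg c j := by
  induction k with
  | zero => rfl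
  | succ k ih => rw [sum_range_succ, ← ih]; rfl
theorem sP_eq (c k : ℕ) : sP c k = ∑ j ∈ range k, (dg c j + dg c (j + 1)) := by
  induction k with
  | zero => rfl
  | succ k ih => rw [sum_range_succ, ← ih]; rfl
theorem sM_eq (c k : ℕ) : sM c k = ∑ j ∈ range k, dg c j * dg c (j + 1) := by
  induction k with
  | zero => rfl
  | succ k ih => rw [sum_range_succ, ← ih]; rfl

theorem mag_cfg (L c : ℕ) : mag (cfg L c) = L - (sA c L : ℤ) := by
  simp only [mag, magneticNumber, dg_cfg, sA_eq, Finset.sum_sub_distrib]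
  rw [Fin.sum_univ_eq_sum_range (fun j => ((dg c j : ℕ) : ℤ)) L]
  simp

theorem diag5_cfg (n : ℕ) (τ : Bool) (c : ℕ) : diag5 n τ (cfg (n + 1) c) =
    5 * (n + (sM c n : ℤ)) - 5 * (sP c n : ℤ) -
      3 * ((1 - (dg c 0 : ℤ)) + (if τ then 1 else -1) * (1 - (dg c n : ℤ))) := by
  simp only [diag5, magneticNumber, dg_cfg, Fin.val_castSucc, Fin.val_succ, Fin.val_zero,
    Fin.val_last, sM_eq, sP_eq]
  rw [Fin.sum_univ_eq_sum_range (fun j => (1 - ((dg c j : ℕ) : ℤ)) * (1 - (dg c (j + 1) : ℕ))) n]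
  have : ∑ j ∈ range n, (1 - ((dg c j : ℕ) : ℤ)) * (1 - (dg c (j + 1) : ℕ)) =
      ∑ j ∈ range n, (1 + ((dg c j * dg c (j + 1) : ℕ) : ℤ) - ((dg c j + dg c (j + 1) : ℕ) : ℤ)) :=
    sum_congr rfl (fun j _ => by push_cast; ring)
  rw [this, sum_sub_distrib, sum_add_distrib]
  simp only [sum_const, card_range, nsmul_eq_mul, mul_one, Nat.cast_sum]
  ring

theorem pow_le_of_dg {c k : ℕ} (h : 0 < dg c k) : 3 ^ k ≤ c := by
  by_contra hc
  have : c / 3 ^ k = 0 := Nat.div_eq_of_lt (by omega)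
  change 0 < c / 3 ^ k % 3 at h
  rw [this] at h
  omega

theorem count_tg1 (c c' j k : ℕ) (l : List ℕ) : (tg1 c j k l).count c' =
    (if dg c j < 2 ∧ 0 < dg c k ∧ c' + 3 ^ k = c + 3 ^ j then 1 else 0) + l.count c' := by
  unfold tg1
  by_cases h : dg c j < 2 ∧ 0 < dg c k
  · have h1 : (Nat.blt (dg c j) 2 && Nat.blt 0 (dg c k)) = true := by
      simp [Nat.blt_eq, h.1, h.2]
    have h2 := pow_le_of_dg h.2
    rw [h1, cond_true, List.count_cons, add_comm]
    congr 1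
    change (if (c + 3 ^ j - 3 ^ k == c') = true then 1 else 0) = _
    refine if_congr ?_ rfl rfl
    simp only [beq_iff_eq, h.1, h.2, true_and]
    generalize 3 ^ j = a at *
    generalize 3 ^ k = b at *
    omega
  · have h1 : (Nat.blt (dg c j) 2 && Nat.blt 0 (dg c k)) = false := by
      rw [Bool.eq_false_iff]
      intro e
      simp only [Bool.and_eq_true, Nat.blt_eq] at e
      exact h e
    rw [h1, cond_false, if_neg (fun e => h ⟨e.1, e.2.1⟩), zero_add]

/-- the number of hops at the bond `j` from `c` to `c'` -/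
def hp (c c' j : ℕ) : ℕ :=
  (if dg c j < 2 ∧ 0 < dg c (j + 1) ∧ c' + 3 ^ (j + 1) = c + 3 ^ j then 1 else 0) +
    (if dg c (j + 1) < 2 ∧ 0 < dg c j ∧ c' + 3 ^ j = c + 3 ^ (j + 1) then 1 else 0)

theorem count_tg (c c' n i : ℕ) (hi : i ≤ n) :
    (tg c n i).count c' = ∑ j ∈ range i, hp c c' (n - 1 - j) := by
  induction i with
  | zero => rfl
  | succ i ih =>
    rw [tg, count_tg1, count_tg1, ih (by omega), sum_range_succ, ← add_assoc, add_comm]
    congr 1
    have h1 : Nat.sub n (i + 1) = n - 1 - i := by change n - (i + 1) = _; omega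
    have h2 : Nat.sub n i = n - 1 - i + 1 := by change n - i = _; omega
    rw [h1, h2, hp]

theorem Hre_cfg (n : ℕ) (τ : Bool) {c c' : ℕ} (h : c < 3 ^ (n + 1)) (h' : c' < 3 ^ (n + 1)) :
    Hre n τ (cfg (n + 1) c) (cfg (n + 1) c') =
      (if c = c' then (diag5 n τ (cfg (n + 1) c) : ℝ) / 5 else 0) + ((tg c n n).count c' : ℕ) := by
  classical
  rw [Hre, count_tg _ _ _ _ le_rfl, sum_range_reflect, ← Fin.sum_univ_eq_sum_range (hp c c') n]
  congr 1
  · exact if_congr ⟨cfg_inj h h', fun e => by rw [e]⟩ rfl rfl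
  · push_cast
    refine sum_congr rfl (fun j _ => ?_)
    simp only [hop_iff (Fin.castSucc_lt_succ (i := j)).ne, hop_iff (Fin.castSucc_lt_succ (i := j)).ne',
      enc_cfg h, enc_cfg h', dg_cfg, Fin.val_castSucc, Fin.val_succ, hp]
    push_cast
    rfl

theorem chkT_sound {CT nn : ℕ} {T : List (ℕ × ℕ)} {l : List ℕ} (h : chkT CT nn T l = true) :
    (∀ t ∈ T, t.1 < nn) ∧ T.map (fun t => fld 16 CT t.1) = l := by
  induction T generalizing l with
  | nil => cases l with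
    | nil => simp
    | cons a l => simp [chkT] at h
  | cons t T ih => cases l with
    | nil => simp [chkT] at h
    | cons a l =>
      simp only [chkT, Bool.and_eq_true, Nat.blt_eq, Nat.beq_eq, fq_eq] at h
      obtain ⟨h1, h2⟩ := ih h.2.2
      refine ⟨fun s hs => ?_, by rw [List.map_cons, h.2.1, h2]⟩
      rcases List.mem_cons.1 hs with rfl | hs
      · exact h.1
      · exact h1 s hs

theorem go_sound {n : ℕ} {τ : Bool} {mm CT nn : ℕ} {l : List Row} {p S : ℕ}
    (h : go n τ mm CT nn l p S = true) :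
    p + l.length = nn ∧ (∀ i, i < l.length →
      rowChk n τ mm CT nn (fld 16 CT (p + i)) (l.getD i default) = true ∧
        S.testBit (fld 16 CT (p + i)) = false) ∧
      ∀ i j, i < j → j < l.length → fld 16 CT (p + i) ≠ fld 16 CT (p + j) := by
  induction l generalizing p S with
  | nil => simpa [go] using h
  | cons r l ih =>
    simp only [go, Bool.and_eq_true, Nat.beq_eq, fq_eq] at h
    obtain ⟨h1, h2, h3⟩ := h
    obtain ⟨g1, g2, g3⟩ := ih h3
    have h2' : S.testBit (fld 16 CT p) = false := by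
      change (S >>> fld 16 CT p) &&& 1 = 0 at h2
      rw [Nat.testBit, Nat.and_comm, h2]; rfl
    have hb : ∀ x, (Nat.lor S (Nat.shiftLeft 1 (fld 16 CT p))).testBit x = false →
        S.testBit x = false ∧ fld 16 CT p ≠ x := by
      intro x hx
      change (S ||| 1 <<< fld 16 CT p).testBit x = false at hx
      rw [Nat.testBit_or, Bool.or_eq_false_iff, Nat.one_shiftLeft] at hx
      refine ⟨hx.1, fun e => ?_⟩
      rw [e, Nat.testBit_two_pow_self] at hx
      exact absurd hx.2 (by simp)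
    have ha : ∀ i, Nat.add p 1 + i = p + (i + 1) := fun i => by change p + 1 + i = _; omega
    simp only [ha] at g1 g2 g3
    refine ⟨g1, fun i hi => ?_, fun i j hij hj => ?_⟩
    · cases i with
      | zero => exact ⟨h1, h2'⟩
      | succ i =>
        have := g2 i (by simpa using hi)
        exact ⟨this.1, (hb _ this.2).1⟩
    · obtain ⟨j, rfl⟩ : ∃ j', j = j' + 1 := ⟨j - 1, by omega⟩
      have hj' : j < l.length := by simpa using hj
      cases i with
      | zero => exact (hb _ (g2 j hj').2).2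
      | succ i => exact g3 i j (by omega) hj'

theorem tabChk_sound {n : ℕ} {τ : Bool} {mm CT nn : ℕ} {R : RT}
    (h : tabChk n τ mm CT nn R = true) : OpenTab n τ mm CT R := by
  obtain ⟨g1, g2, g3⟩ := go_sound h
  simp only [zero_add] at g1 g2 g3
  have hn : R.n = nn := g1
  have hinj : ∀ p q, p < R.n → q < R.n → fld 16 CT p = fld 16 CT q → p = q := by
    intro p q hp hq e
    rcases lt_trichotomy p q with h1 | h1 | h1
    · exact absurd e (g3 p q h1 hq)
    · exact h1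
    · exact absurd e.symm (g3 q p h1 hp)
  have hrow : ∀ p, p < R.n → fld 16 CT p < 3 ^ (n + 1) ∧
      mag (cfg (n + 1) (fld 16 CT p)) = (mm : ℤ) - (n + 1 : ℕ) ∧ (R.row p).G = 1 ∧
      diag5 n τ (cfg (n + 1) (fld 16 CT p)) = ((R.row p).dno : ℤ) - 1280 ∧
      (∀ t ∈ (R.row p).T, t.1 < R.n) ∧
      (R.row p).T.map (fun t => fld 16 CT t.1) = tg (fld 16 CT p) n n := by
    intro p hp
    have h1 := (g2 p hp).1
    change rowChk n τ mm CT nn (fld 16 CT p) (R.row p) = true at h1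
    simp only [rowChk, Bool.and_eq_true, Nat.blt_eq, Nat.beq_eq, Nat.add_eq, Nat.mul_eq,
      Nat.pow_eq] at h1
    obtain ⟨a1, a2, a3, a4, a5⟩ := h1
    refine ⟨a1, ?_, a3, ?_, hn ▸ (chkT_sound a5).1, (chkT_sound a5).2⟩
    · rw [mag_cfg]; omega
    · rw [diag5_cfg]
      cases τ
      · simp only [cond_false] at a4
        simp only [Bool.false_eq_true, if_false]
        omega
      · simp only [cond_true] at a4
        simp only [if_true]
        omega
  refine ⟨fun p hp => ⟨(hrow p hp).1, (hrow p hp).2.1, (hrow p hp).2.2.1⟩, hinj, ?_⟩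
  intro p hp _ q hq
  obtain ⟨a1, -, -, a4, a5, a6⟩ := hrow p hp
  rw [if_pos rfl, Copen, Hopen_apply, Complex.ofReal_re, Hre_cfg n τ a1 (hrow q hq).1, a4, ← a6]
  congr 1
  · rw [if_congr ⟨hinj p q hp hq, fun e => by rw [e]⟩ rfl rfl]
    push_cast
    rfl
  · rw [List.map_const', List.sum_replicate, nsmul_eq_mul, mul_one, List.count_eq_countP,
      List.countP_map, List.countP_eq_length_filter]
    congr 2
    refine List.filter_congr (fun t ht => ?_)
    simp only [Function.comp, decide_eq_decide, Bool.beq_eq_decide_eq]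
    exact ⟨hinj _ _ (a5 t ht) hq, fun e => by rw [e]⟩

end Crest.Agent.R347.OpenAux
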