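import Crest.Agent.R347.BasePsdB

/-! Row 347: soundness of the approximate Cholesky check. -/

set_option autoImplicit false

namespace Crest.Agent.R347
open Crest.MathPhysics.SpinChain Matrix Finset Chk

theorem psd_form_ge (n : ℕ) (E : ℕ → ℕ → ℝ) (c : ℝ) (h : ∀ p q, p < n → q < n → |E p q| ≤ c)
    (x : ℕ → ℝ) :
    -(n * c) * ∑ p ∈ range n, x p ^ 2 ≤ ∑ p ∈ range n, ∑ q ∈ range n, x p * x q * E p q := by
  have h1 : ∑ p ∈ range n, ∑ q ∈ range n, -(c * (x p ^ 2 / 2 + x q ^ 2 / 2)) ≤
      ∑ p ∈ range n, ∑ q ∈ range n, x p * x q * E p q := by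
    refine sum_le_sum fun p hp => sum_le_sum fun q hq => ?_
    have h2 := h p q (mem_range.1 hp) (mem_range.1 hq)
    have h3 : |x p * x q| ≤ x p ^ 2 / 2 + x q ^ 2 / 2 := by
      rw [abs_le]; constructor <;> nlinarith [sq_nonneg (x p + x q), sq_nonneg (x p - x q)]
    have h4 : |x p * x q * E p q| ≤ (x p ^ 2 / 2 + x q ^ 2 / 2) * c := by
      rw [abs_mul]
      exact mul_le_mul h3 h2 (abs_nonneg _) (by positivity)
    linarith [neg_abs_le (x p * x q * E p q)]
  refine le_trans (le_of_eq ?_) h1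
  simp only [sum_neg_distrib, mul_add, sum_add_distrib, sum_const, card_range, nsmul_eq_mul,
    ← mul_sum, ← sum_div]
  ring

theorem psd_rank_one (n : ℕ) (x l : ℕ → ℝ) :
    ∑ p ∈ range n, ∑ q ∈ range n, x p * x q * (l p * l q) = (∑ p ∈ range n, l p * x p) ^ 2 := by
  rw [sq, sum_mul_sum]
  exact sum_congr rfl fun p _ => sum_congr rfl fun q _ => by ring

theorem psd_gram (n m : ℕ) (x : ℕ → ℝ) (l : ℕ → ℕ → ℝ) :
    ∑ p ∈ range n, ∑ q ∈ range n, x p * x q * ∑ i ∈ range m, l i p * l i q =
      ∑ i ∈ range m, (∑ p ∈ range n, l i p * x p) ^ 2 := by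
  simp only [← psd_rank_one, mul_sum]
  rw [sum_comm' (s := range m) (t := fun _ => range n) (s' := fun _ => range m) (t' := range n)
    (by simp)]
  exact sum_congr rfl fun p _ => sum_comm

theorem gl_eq_sum (Ls : List (ℕ → ℤ)) (a b : ℕ) :
    gl Ls a b = ∑ i ∈ range Ls.length, Ls.getD i 0 a * Ls.getD i 0 b := by
  induction Ls with
  | nil => rfl
  | cons l Ls ih =>
    rw [List.length_cons, sum_range_succ', add_comm]
    unfold gl at ih ⊢
    rw [List.map_cons, List.sum_cons, ih]
    rfl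

theorem tsum_err {tab ny : ℕ} {valR : ℕ → ℝ} (htab : TabSpec tab 40 32 valR ny) (q : ℕ) :
    ∀ T : List (ℕ × ℕ), (∀ t ∈ T, t.2 < ny) →
      |(Chk.tsum tab T q : ℝ) - 2 ^ 32 * ((T.filter fun t => t.1 = q).map fun t => valR t.2).sum| ≤
        2 * (T.length : ℝ)
  | [], _ => by simp [Chk.tsum]
  | t :: T, h => by
    have ih := tsum_err htab q T fun s hs => h s (List.mem_cons_of_mem _ hs)
    have h1 := (htab t.2 (h t List.mem_cons_self)).2
    rw [tsum_cons]
    by_cases e : t.1 = q
    · simp only [e, if_true, List.filter_cons, decide_true, List.map_cons, List.sum_cons,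
        List.length_cons, tv]
      push_cast
      rw [abs_le] at ih h1 ⊢
      norm_num at h1 ih ⊢
      constructor <;> linarith [ih.1, ih.2, h1.1, h1.2]
    · simp only [e, if_false, List.filter_cons, decide_false, List.length_cons, add_zero,
        Bool.false_eq_true]
      push_cast
      linarith

theorem dz_err (es : ℕ) (r : Row) :
    |(dz es r : ℝ) - (2 ^ 32 * (((r.dno : ℝ) - 1280) / 5) + es * 2 ^ 16 * r.G)| ≤ 1 := by
  unfold dz
  rw [diagP_eq]
  have c3 : (5 : ℝ) * ((r.dno * 2 ^ 32 / 5 : ℕ) : ℝ) + ((r.dno * 2 ^ 32 % 5 : ℕ) : ℝ) =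
      r.dno * 2 ^ 32 := by exact_mod_cast Nat.div_add_mod (r.dno * 2 ^ 32) 5
  have c4 : ((r.dno * 2 ^ 32 % 5 : ℕ) : ℝ) < 5 := by
    exact_mod_cast Nat.mod_lt _ (show 0 < 5 by norm_num)
  have c5 : (0 : ℝ) ≤ ((r.dno * 2 ^ 32 % 5 : ℕ) : ℝ) := Nat.cast_nonneg _
  rw [Int.cast_sub, Int.cast_natCast, Nat.cast_add]
  generalize ((r.dno * 2 ^ 32 / 5 : ℕ) : ℝ) = u at *
  generalize ((r.dno * 2 ^ 32 % 5 : ℕ) : ℝ) = w at *
  push_cast
  rw [abs_le]; constructor <;> linarith

/-- the exact shifted matrix, extended by the identity to the inactive positions -/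
noncomputable def Aex (R : RT) (act : ℕ → Bool) (C : ℕ → ℕ → ℝ) (es p q : ℕ) : ℝ :=
  if act (R.row p).d = true ∧ act (R.row q).d = true then
    2 ^ 32 * C p q + (if p = q then (es : ℝ) * 2 ^ 16 * (R.row p).G else 0)
  else if p = q then 2 ^ 32 else 0

theorem Aex_err {R : RT} {act : ℕ → Bool} {valR : ℕ → ℝ} {C : ℕ → ℕ → ℝ} {tab ny : ℕ} (es : ℕ)
    (htab : TabSpec tab 40 32 valR ny) (hrow : RowSpec R act valR C) {p q : ℕ} (hp : p < R.n)
    (hq : q < R.n) (h1 : ∀ t ∈ (R.row p).T, t.2 < ny) (h2 : (R.row p).T.length ≤ 64) :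
    |Aex R act C es p q - (AD act tab es (R.row p) 0 p q : ℝ)| ≤ 256 := by
  unfold Aex AD
  by_cases ha : act (R.row p).d = true
  · have e := hrow p hp ha q hq
    have e1 := tsum_err htab q _ h1
    have e2 := dz_err es (R.row p)
    have e3 : (((R.row p).T.length : ℕ) : ℝ) ≤ 64 := by exact_mod_cast h2
    rw [Nat.zero_add, if_pos ha]
    rw [abs_le] at e1 e2 ⊢
    by_cases hpq : p = q
    · subst hpq
      simp only [ha, if_true, and_self] at e ⊢
      push_cast
      rw [e]
      constructor <;> linarith [e1.1, e1.2, e2.1, e2.2]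
    · have hqp : ¬ q = p := fun h => hpq h.symm
      simp only [hpq, hqp, if_false, zero_add, add_zero, ha, true_and] at e ⊢
      split_ifs at e ⊢
      · rw [e]; constructor <;> linarith [e1.1, e1.2]
      · rw [← e] at e1; constructor <;> linarith [e1.1, e1.2]
  · by_cases hpq : p = q
    · subst hpq; simp [ha]; norm_num
    · have hqp : ¬ q = p := fun h => hpq h.symm
      simp [ha, hpq, hqp]

theorem tsum_zero (tab : ℕ) (T : List (ℕ × ℕ)) (q : ℕ) (h : ∀ t ∈ T, t.1 ≠ q) :
    Chk.tsum tab T q = 0 := by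
  unfold Chk.tsum
  rw [List.filter_eq_nil_iff.2 (by simpa using fun a b hab => h (a, b) hab)]
  rfl

theorem psd_sound (R : RT) (n hi ny : ℕ) (act : ℕ → Bool) (valR : ℕ → ℝ) (C : ℕ → ℕ → ℝ)
    (tab es eb : ℕ) (V : List ℕ) (hst : structOK R n hi ny = true)
    (htab : TabSpec tab 40 32 valR ny) (hrow : RowSpec R act valR C)
    (hsym : ∀ p q, p < R.n → q < R.n → act (R.row p).d = true → act (R.row q).d = true →
      C p q = C q p)
    (heb : eb ≤ 40) (hes : es ≤ 2 ^ 22) (hV : V.length ≤ 16)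
    (h : psdCheck act tab es eb hi R.D R.I V = true) :
    ∃ ℓ : Fin V.length → ℕ → ℝ, ∀ x : ℕ → ℝ,
      (∀ p, p < n → act (R.row p).d = false → x p = 0) →
      (∀ i, ∑ p ∈ range n, ℓ i p * x p = 0) →
      -(((es * 2 ^ 16 + n * (2 ^ eb + 256) : ℕ) : ℝ) / 2 ^ 32) *
          ∑ p ∈ range n, ((R.row p).G : ℝ) * x p ^ 2 ≤
        ∑ p ∈ range n, ∑ q ∈ range n, x p * x q * C p q := by
  simp only [structOK, rowOK, Bool.and_eq_true, decide_eq_true_eq, List.all_eq_true] at hst
  obtain ⟨⟨⟨⟨h1, h2⟩, h2'⟩, h3⟩, h4⟩ := hst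
  have hn : R.n = n := by rw [RT.n, RT.rows, List.length_append, h1, h2]
  have h3' : ∀ r ∈ R.D.flatten, (((1 ≤ r.G ∧ r.G ≤ 32) ∧ r.dno ≤ 4096) ∧ r.T.length ≤ 64) ∧
      ∀ t ∈ r.T, t.1 < n ∧ t.2 < ny := fun r hr => by
    obtain ⟨l, hl, hr⟩ := List.mem_flatten.1 hr
    exact h3 l hl r hr
  have rD : ∀ p, p < hi → R.row p = R.D.flatten.getD p default := fun p hp =>
    List.getD_append _ _ _ _ (by omega)
  have rI : ∀ p, hi ≤ p → R.row p = R.I.getD (p - hi) default := fun p hp => by
    rw [← h1]; exact List.getD_append_right _ _ _ _ (by omega)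
  have mD : ∀ p, p < hi → R.row p ∈ R.D.flatten := fun p hp => by
    rw [rD p hp, List.getD_eq_getElem _ _ (by omega)]; exact List.getElem_mem _
  have mI : ∀ p, hi ≤ p → p < n → R.row p ∈ R.I := fun p hp hp' => by
    rw [rI p hp, List.getD_eq_getElem _ _ (by omega)]; exact List.getElem_mem _
  have hall : ∀ p, p < n → 1 ≤ (R.row p).G ∧ (R.row p).T.length ≤ 64 ∧
      ∀ t ∈ (R.row p).T, t.2 < ny := fun p hp => by
    rcases lt_or_ge p hi with hp' | hp'
    · have := h3' _ (mD p hp'); exact ⟨this.1.1.1.1, this.1.2, fun t ht => (this.2 t ht).2⟩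
    · have := h4 _ (mI p hp' hp); exact ⟨this.1.1.1.1, this.1.2, fun t ht => (this.2 t ht).2⟩
  obtain ⟨Ls, s, v, hD, hI⟩ := psd_int heb hes h1 (by omega) hV
    (fun r hr => ⟨(h3' r hr).1.1.1.2, (h3' r hr).1.1.2, (h3' r hr).1.2⟩)
    (fun r hr => ⟨(h4 r hr).1.1.1.2, (h4 r hr).1.1.2, (h4 r hr).1.2⟩) h
  set lL : ℕ → ℕ → ℝ := fun i p => if p < hi then (Ls.getD i 0 p : ℝ) else 0 with hlL
  set lS : ℕ → ℕ → ℝ := fun i p =>
    if p < hi then (s i (p + 1) : ℝ) else if p = hi + i then (s i 0 : ℝ) else 0 with hlS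
  set lV : ℕ → ℕ → ℝ := fun i p => if p < hi then (v i p : ℝ) else 0 with hlV
  set E : ℕ → ℕ → ℝ := fun p q => Aex R act C es p q -
    ∑ i ∈ range R.I.length, lS i p * lS i q + ∑ i ∈ range V.length, lV i p * lV i q -
    ∑ i ∈ range Ls.length, lL i p * lL i q with hE
  have hA : ∀ p q, p < n → q < n → Aex R act C es p q = Aex R act C es q p := fun p q hp hq => by
    unfold Aex
    by_cases hpq : p = q
    · rw [hpq]
    · have hqp : ¬ q = p := fun h => hpq h.symm
      by_cases ha : act (R.row p).d = true ∧ act (R.row q).d = true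
      · rw [if_pos ha, if_pos ha.symm, hsym p q (by omega) (by omega) ha.1 ha.2, if_neg hpq,
          if_neg hqp]
      · have ha' : ¬ (act (R.row q).d = true ∧ act (R.row p).d = true) := fun h => ha h.symm
        rw [if_neg ha, if_neg ha', if_neg hpq, if_neg hqp]
  have hEs : ∀ p q, p < n → q < n → E p q = E q p := fun p q hp hq => by
    simp only [hE, hA p q hp hq, mul_comm]
  have hEb : ∀ p q, p ≤ q → q < n → |E p q| ≤ 2 ^ eb + 256 := fun p q hpq hq => by
    rcases lt_or_ge q hi with hq' | hq'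
    · have hp' : p < hi := by omega
      have e1 := Aex_err es htab hrow (p := p) (q := q) (by omega) (by omega)
        (hall p (by omega)).2.2 (hall p (by omega)).2.1
      have e2 := hD p q hpq hq'
      rw [← rD p hp', gl_eq_sum] at e2
      have e3 : |(AD act tab es (R.row p) 0 p q : ℝ) -
          ∑ i ∈ range R.I.length, (s i (p + 1) : ℝ) * s i (q + 1) +
          ∑ i ∈ range V.length, (v i p : ℝ) * v i q -
          ∑ i ∈ range Ls.length, (Ls.getD i 0 p : ℝ) * Ls.getD i 0 q| ≤ 2 ^ eb := by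
        exact_mod_cast e2
      simp only [hE, hlL, hlS, hlV, hp', hq', if_true]
      rw [abs_le] at e1 e3 ⊢
      constructor <;> linarith [e1.1, e1.2, e3.1, e3.2]
    · have e1 := Aex_err es htab hrow (p := q) (q := p) (by omega) (by omega)
        (hall q hq).2.2 (hall q hq).2.1
      rw [← hA p q (by omega) hq] at e1
      have hT : ∀ t ∈ (R.row q).T, t.1 < hi := fun t ht => ((h4 _ (mI q hq' hq)).2 t ht).1
      have e4 : ∑ i ∈ range R.I.length, lS i p * lS i q = lS (q - hi) p * s (q - hi) 0 := by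
        rw [sum_eq_single (q - hi)]
        · have : lS (q - hi) q = s (q - hi) 0 := by
            simp only [hlS, show ¬ q < hi by omega, if_false]
            rw [if_pos (by omega)]
          rw [this]
        · intro b _ hb
          simp only [hlS, show ¬ q < hi by omega, if_false, show ¬ q = hi + b by omega, mul_zero]
        · intro hb; exact absurd (mem_range.2 (by omega)) hb
      have e5 : E p q = Aex R act C es p q - lS (q - hi) p * s (q - hi) 0 := by
        simp only [hE, e4]
        simp only [hlL, hlV, show ¬ q < hi by omega, if_false, mul_zero, sum_const_zero]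
        ring
      have hpow : (0 : ℝ) < 2 ^ eb := by positivity
      rw [e5]
      rcases lt_or_ge p hi with hp' | hp'
      · have e2 := hI (q - hi) (by omega) (p + 1) (by omega)
        rw [← rI q hq'] at e2
        have e6 : AI act tab es (R.row q) (p + 1) = AD act tab es (R.row q) 0 q p := by
          simp [AI, AD, show ¬ p = q by omega]
        rw [e6] at e2
        have e3 : |(AD act tab es (R.row q) 0 q p : ℝ) - (s (q - hi) 0 : ℝ) * s (q - hi) (p + 1)| ≤
          2 ^ eb := by exact_mod_cast e2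
        simp only [hlS, hp', if_true]
        rw [abs_le] at e1 e3 ⊢
        constructor <;> linarith [e1.1, e1.2, e3.1, e3.2]
      · have z : Chk.tsum tab (R.row q).T p = 0 := tsum_zero _ _ _ fun t ht => by
          have := hT t ht; omega
        rcases hpq.eq_or_lt with rfl | hlt
        · have e2 := hI (p - hi) (by omega) 0 (by omega)
          rw [← rI p hq'] at e2
          have e6 : AI act tab es (R.row p) 0 = AD act tab es (R.row p) 0 p p := by
            simp [AI, AD, z]
          rw [e6] at e2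
          have e3 : |(AD act tab es (R.row p) 0 p p : ℝ) - (s (p - hi) 0 : ℝ) * s (p - hi) 0| ≤
            2 ^ eb := by exact_mod_cast e2
          have e7 : lS (p - hi) p = s (p - hi) 0 := by
            simp only [hlS, show ¬ p < hi by omega, if_false]
            rw [if_pos (by omega)]
          rw [e7]
          rw [abs_le] at e1 e3 ⊢
          constructor <;> linarith [e1.1, e1.2, e3.1, e3.2]
        · have e6 : AD act tab es (R.row q) 0 q p = 0 := by
            simp [AD, z, show ¬ p = q by omega]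
          have e7 : lS (q - hi) p = 0 := by
            simp only [hlS, show ¬ p < hi by omega, if_false]
            rw [if_neg (by omega)]
          rw [e6] at e1
          rw [e7]
          simp only [Int.cast_zero, sub_zero, zero_mul] at e1 ⊢
          linarith
  refine ⟨fun i => lV i, fun x hx hl => ?_⟩
  have k1 := psd_form_ge n E (2 ^ eb + 256) (fun p q hp hq => by
    rcases le_total p q with hpq | hpq
    · exact hEb p q hpq hq
    · rw [hEs p q hp hq]; exact hEb q p hpq hp) x
  have k2 : ∑ p ∈ range n, ∑ q ∈ range n, x p * x q * E p q =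
      ∑ p ∈ range n, ∑ q ∈ range n, x p * x q * Aex R act C es p q -
      ∑ i ∈ range R.I.length, (∑ p ∈ range n, lS i p * x p) ^ 2 +
      ∑ i ∈ range V.length, (∑ p ∈ range n, lV i p * x p) ^ 2 -
      ∑ i ∈ range Ls.length, (∑ p ∈ range n, lL i p * x p) ^ 2 := by
    simp only [← psd_gram, hE, mul_sub, mul_add, sum_sub_distrib, sum_add_distrib]
  have k3 : ∑ i ∈ range V.length, (∑ p ∈ range n, lV i p * x p) ^ 2 = 0 :=
    sum_eq_zero fun i hi => by rw [hl ⟨i, mem_range.1 hi⟩]; simp
  have k4 : 0 ≤ ∑ i ∈ range R.I.length, (∑ p ∈ range n, lS i p * x p) ^ 2 := by positivity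
  have k5 : 0 ≤ ∑ i ∈ range Ls.length, (∑ p ∈ range n, lL i p * x p) ^ 2 := by positivity
  have k6 : ∑ p ∈ range n, ∑ q ∈ range n, x p * x q * Aex R act C es p q =
      2 ^ 32 * ∑ p ∈ range n, ∑ q ∈ range n, x p * x q * C p q +
      es * 2 ^ 16 * ∑ p ∈ range n, ((R.row p).G : ℝ) * x p ^ 2 := by
    rw [mul_sum, mul_sum, ← sum_add_distrib]
    refine sum_congr rfl fun p hp => ?_
    have : ∀ q ∈ range n, x p * x q * Aex R act C es p q =
        2 ^ 32 * (x p * x q * C p q) +
          if p = q then (es : ℝ) * 2 ^ 16 * (((R.row p).G : ℝ) * x p ^ 2) else 0 := fun q hq => by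
      unfold Aex
      by_cases ha : act (R.row p).d = true ∧ act (R.row q).d = true
      · rw [if_pos ha]
        split_ifs with e
        · subst e; ring
        · ring
      · have : x p = 0 ∨ x q = 0 := by
          by_cases a1 : act (R.row p).d = true
          · exact Or.inr (hx q (mem_range.1 hq) (by simpa [a1] using ha))
          · exact Or.inl (hx p (mem_range.1 hp) (by simpa using a1))
        rcases this with z | z
        · simp [z]
        · by_cases e : p = q
          · subst e; simp [z]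
          · simp [z, e]
    rw [sum_congr rfl this, sum_add_distrib, sum_ite_eq, if_pos hp, mul_sum]
  have k7 : ∑ p ∈ range n, x p ^ 2 ≤ ∑ p ∈ range n, ((R.row p).G : ℝ) * x p ^ 2 :=
    sum_le_sum fun p hp => by
      have : (1 : ℝ) ≤ (R.row p).G := by exact_mod_cast (hall p (mem_range.1 hp)).1
      nlinarith [sq_nonneg (x p)]
  have k8 : (n : ℝ) * (2 ^ eb + 256) * ∑ p ∈ range n, x p ^ 2 ≤
      n * (2 ^ eb + 256) * ∑ p ∈ range n, ((R.row p).G : ℝ) * x p ^ 2 :=
    mul_le_mul_of_nonneg_left k7 (by positivity)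
  rw [k2, k3, k6] at k1
  push_cast
  rw [neg_mul, div_mul_eq_mul_div, neg_le, le_div_iff₀ (by positivity)]
  nlinarith

end Crest.Agent.R347
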