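import Crest.Agent.R347.BaseDig

/-! Row 347: Gram rows of packed columns. -/

set_option autoImplicit false

namespace Crest.Agent.R347.Chk
open Finset

/-- entry of a column -/
def ent (Y k : ℕ) : ℤ := (dg Y k : ℤ) - 2 ^ 20

namespace CL

noncomputable def gram (c : CL) (j k : ℕ) : ℤ :=
  CL.rec (motive := fun _ => ℤ) 0 (fun _ Y _ ih => ih + ent Y j * ent Y k) c
noncomputable def len (c : CL) : ℕ :=
  CL.rec (motive := fun _ => ℕ) 0 (fun _ _ _ ih => ih + 1) c
/-- all columns have bounded digits -/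
def Good (n : ℕ) (c : CL) : Prop :=
  CL.rec (motive := fun _ => Prop) True (fun _ Y _ ih => Gd 2097151 n Y ∧ ih) c
/-- the low parts agree with the columns on the first `w` digits -/
def Al (w : ℕ) (c : CL) : Prop :=
  CL.rec (motive := fun _ => Prop) True (fun s Y _ ih => (∀ r, r < w → dg s r = dg Y r) ∧ ih) c

@[simp] theorem gram_nil (j k : ℕ) : gram nil j k = 0 := rfl
@[simp] theorem gram_cons (s Y : ℕ) (t : CL) (j k : ℕ) :
    gram (cons s Y t) j k = gram t j k + ent Y j * ent Y k := rfl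
@[simp] theorem len_nil : len nil = 0 := rfl
@[simp] theorem len_cons (s Y : ℕ) (t : CL) : len (cons s Y t) = len t + 1 := rfl
@[simp] theorem good_nil (n : ℕ) : Good n nil = True := rfl
@[simp] theorem good_cons (n s Y : ℕ) (t : CL) :
    Good n (cons s Y t) = (Gd 2097151 n Y ∧ Good n t) := rfl
@[simp] theorem al_nil (n : ℕ) : Al n nil = True := rfl
@[simp] theorem al_cons (n s Y : ℕ) (t : CL) :
    Al n (cons s Y t) = ((∀ r, r < n → dg s r = dg Y r) ∧ Al n t) := rfl

end CL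

theorem ent_abs {n Y : ℕ} (h : Gd 2097151 n Y) (k : ℕ) : |ent Y k| ≤ 2 ^ 20 := by
  have h1 : ((dg Y k : ℕ) : ℤ) ≤ 2097151 := by exact_mod_cast h.2 k
  have h2 : (0 : ℤ) ≤ (dg Y k : ℕ) := Int.natCast_nonneg _
  unfold ent
  rw [abs_le]; constructor <;> linarith

theorem gram_abs {n : ℕ} : ∀ {c : CL}, c.Good n → ∀ j k, |c.gram j k| ≤ c.len * 2 ^ 40
  | .nil, _, _, _ => by simp
  | .cons s Y t, h, j, k => by
    simp only [CL.good_cons] at h
    have h1 := gram_abs h.2 j k
    have h2 : |ent Y j * ent Y k| ≤ 2 ^ 20 * 2 ^ 20 := by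
      rw [abs_mul]
      exact mul_le_mul (ent_abs h.1 j) (ent_abs h.1 k) (abs_nonneg _) (by norm_num)
    simp only [CL.gram_cons, CL.len_cons]
    refine (abs_add_le _ _).trans ?_
    push_cast
    linarith

noncomputable def sdg (c : CL) (k : ℕ) : ℕ :=
  CL.rec (motive := fun _ => ℕ) 0 (fun _ Y _ ih => ih + dg Y k) c

theorem sum_spec {n : ℕ} : ∀ {c : CL}, c.Good n →
    (sumY c : ℤ) = evz (fun k => (sdg c k : ℤ)) n ∧ ∀ k, sdg c k ≤ c.len * 2097151
  | .nil, _ => ⟨(evz_zero n).symm, fun _ => Nat.zero_le _⟩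
  | .cons s Y t, h => by
    simp only [CL.good_cons] at h
    obtain ⟨h1, h2⟩ := sum_spec h.2
    refine ⟨?_, fun k => ?_⟩
    · show ((sumY t + Y : ℕ) : ℤ) = evz (fun k => ((sdg t k + dg Y k : ℕ) : ℤ)) n
      push_cast
      rw [evz_add, ← h1, ← evz_dg n Y h.1.1]
    · show sdg t k + dg Y k ≤ (t.len + 1) * 2097151
      have := h2 k
      have := h.1.2 k
      omega

theorem cnt_eq : ∀ c : CL, cntC c = c.len
  | .nil => rfl
  | .cons _ _ t => by
    show cntC t + 1 = t.len + 1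
    rw [cnt_eq t]

theorem dot_spec {n w r : ℕ} (hr : r < w) : ∀ {c : CL}, c.Good n → c.Al w →
    evz (c.gram r) n = (dot (64 * r) c : ℤ) + c.len * 2 ^ 40 * onesN n -
      2 ^ 20 * (sumY c + sdg c r * onesN n)
  | .nil, _, _ => by
    show evz (fun _ => 0) n = ((0 : ℕ) : ℤ) + ((0 : ℕ) : ℤ) * 2 ^ 40 * onesN n -
      2 ^ 20 * (((0 : ℕ) : ℤ) + ((0 : ℕ) : ℤ) * onesN n)
    simp [evz_zero]
  | .cons s Y t, h, ha => by
    simp only [CL.good_cons] at h
    simp only [CL.al_cons] at ha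
    have h1 := dot_spec hr h.2 ha.2
    show evz (fun k => t.gram r k + ent Y r * ent Y k) n =
      ((dot (64 * r) t + dig s (64 * r) * Y : ℕ) : ℤ) + ((t.len + 1 : ℕ) : ℤ) * 2 ^ 40 * onesN n -
      2 ^ 20 * (((sumY t + Y : ℕ) : ℤ) + ((sdg t r + dg Y r : ℕ) : ℤ) * onesN n)
    rw [evz_add, evz_mul, dig_eq, ha.1 r hr]
    have h2 : evz (fun k => ent Y k) n = Y - 2 ^ 20 * onesN n := by
      unfold ent
      rw [evz_sub, ← evz_dg n Y h.1.1, onesN_eq, ← evz_mul]; simp
    have h1' : evz (fun k => t.gram r k) n = _ := h1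
    rw [h1', h2]
    unfold ent
    push_cast
    ring

theorem g_spec {n w r : ℕ} (hr : r < w) (hn : r < n) {c : CL} (h : c.Good n) (ha : c.Al w)
    (hl : c.len ≤ 4096) :
    (gP (onesN n) (64 * r) c : ℤ) - gN (onesN n) (64 * r) c = evz (c.gram r) n := by
  rw [dot_spec hr h ha]
  obtain ⟨h1, h2⟩ := sum_spec h
  have h3 := (dg_of_evz h1 (fun _ _ => Int.natCast_nonneg _) (fun i _ => by
    have := h2 i
    have : sdg c i < 2 ^ 64 := by omega
    exact_mod_cast this)).2 r hn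
  show ((dot (64 * r) c + cntC c * 1099511627776 * onesN n : ℕ) : ℤ) -
    ((1048576 * (sumY c + dig (sumY c) (64 * r) * onesN n) : ℕ) : ℤ) = _
  rw [dig_eq, cnt_eq]
  push_cast
  rw [h3]

theorem ent_shift (Y j k : ℕ) : ent (Y / 2 ^ (64 * j)) k = ent Y (k + j) := by
  unfold ent; rw [dg_shift]

theorem shiftC_spec {n j w : ℕ} {tl : CL} (h1 : tl.Good (n - j)) (h2 : tl.Al w) :
    ∀ {c : CL}, c.Good n →
      (shiftC (64 * j) (1 <<< (64 * w) - 1) c tl).Good (n - j) ∧
      (shiftC (64 * j) (1 <<< (64 * w) - 1) c tl).Al w ∧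
      (shiftC (64 * j) (1 <<< (64 * w) - 1) c tl).len = c.len + tl.len ∧
      ∀ a b, (shiftC (64 * j) (1 <<< (64 * w) - 1) c tl).gram a b =
        c.gram (a + j) (b + j) + tl.gram a b
  | .nil, _ => ⟨h1, h2, by simp; rfl, fun a b => by simp; rfl⟩
  | .cons s Y t, h => by
    simp only [CL.good_cons] at h
    obtain ⟨i1, i2, i3, i4⟩ := shiftC_spec h1 h2 h.2
    have e : shiftC (64 * j) (1 <<< (64 * w) - 1) (.cons s Y t) tl =
        .cons ((Y >>> (64 * j)) &&& (1 <<< (64 * w) - 1)) (Y >>> (64 * j))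
          (shiftC (64 * j) (1 <<< (64 * w) - 1) t tl) := rfl
    rw [e, Nat.shiftRight_eq_div_pow]
    refine ⟨⟨Gd_shift j h.1, i1⟩, ⟨fun r hr => dg_mask _ _ _ hr, i2⟩, ?_, fun a b => ?_⟩
    · simp only [CL.len_cons, i3]; omega
    · simp only [CL.gram_cons, i4, ent_shift]; ring

theorem filtC_spec {n w os : ℕ} (hos : ∀ r, r < w → dg os r = 2 ^ 20) :
    ∀ {c : CL}, c.Good n → c.Al w →
      (filtC os c).Good n ∧ (filtC os c).Al w ∧ (filtC os c).len ≤ c.len ∧
      ∀ r, r < w → ∀ b, (filtC os c).gram r b = c.gram r b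
  | .nil, _, _ => ⟨trivial, trivial, le_rfl, fun _ _ _ => rfl⟩
  | .cons s Y t, h, ha => by
    simp only [CL.good_cons] at h
    simp only [CL.al_cons] at ha
    obtain ⟨i1, i2, i3, i4⟩ := filtC_spec hos h.2 ha.2
    have e : filtC os (.cons s Y t) =
        Bool.rec (motive := fun _ => CL) (CL.cons s Y (filtC os t)) (filtC os t) (Nat.beq s os) := rfl
    rw [e]
    cases hb : Nat.beq s os with
    | false =>
      exact ⟨⟨h.1, i1⟩, ⟨ha.1, i2⟩, by simpa using i3, fun r hr b => by simp [i4 r hr b]⟩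
    | true =>
      refine ⟨i1, i2, by simp; omega, fun r hr b => ?_⟩
      have : ent Y r = 0 := by
        unfold ent
        rw [← ha.1 r hr, Nat.eq_of_beq_eq_true hb, hos r hr]; simp
      simp [i4 r hr b, this]

theorem filtR_spec {n w r : ℕ} (hr : r < w) :
    ∀ {c : CL}, c.Good n → c.Al w →
      (filtR (64 * r) c).Good n ∧ (filtR (64 * r) c).Al w ∧ (filtR (64 * r) c).len ≤ c.len ∧
      ∀ b, (filtR (64 * r) c).gram r b = c.gram r b
  | .nil, _, _ => ⟨trivial, trivial, le_rfl, fun _ => rfl⟩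
  | .cons s Y t, h, ha => by
    simp only [CL.good_cons] at h
    simp only [CL.al_cons] at ha
    obtain ⟨i1, i2, i3, i4⟩ := filtR_spec hr h.2 ha.2
    have e : filtR (64 * r) (.cons s Y t) =
        Bool.rec (motive := fun _ => CL) (CL.cons s Y (filtR (64 * r) t)) (filtR (64 * r) t)
          (Nat.beq (dig s (64 * r)) 1048576) := rfl
    rw [e]
    cases hb : Nat.beq (dig s (64 * r)) 1048576 with
    | false =>
      exact ⟨⟨h.1, i1⟩, ⟨ha.1, i2⟩, by simpa using i3, fun b => by simp [i4 b]⟩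
    | true =>
      refine ⟨i1, i2, by simp; omega, fun b => ?_⟩
      have : ent Y r = 0 := by
        unfold ent
        rw [← ha.1 r hr, ← dig_eq, Nat.eq_of_beq_eq_true hb]; simp
      simp [i4 b, this]

theorem newCol_good (n sh a b : ℕ) : Gd 2097151 n (newCol (onesN n) sh a b) :=
  Gd_and 2097151 n _ (by norm_num)

namespace PL
noncomputable def len (p : PL) : ℕ := PL.rec (motive := fun _ => ℕ) 0 (fun _ _ _ ih => ih + 1) p
/-- the pairs are the packed rows `f r`, `f (r+1)`, … -/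
def Rep (n : ℕ) (f : ℕ → ℕ → ℤ) (p : PL) : ℕ → Prop :=
  PL.rec (motive := fun _ => ℕ → Prop) (fun _ => True)
    (fun a b _ ih r => (a : ℤ) - b = evz (f r) n ∧ ih (r + 1)) p
end PL

theorem newCols_spec {n w : ℕ} : ∀ (p : PL) (sh : ℕ) {N : CL}, N.Good n → N.Al w →
    (newCols (onesN n) (1 <<< (64 * w) - 1) p sh N).Good n ∧
    (newCols (onesN n) (1 <<< (64 * w) - 1) p sh N).Al w ∧
    (newCols (onesN n) (1 <<< (64 * w) - 1) p sh N).len = N.len + p.len
  | .nil, _, _, h, ha => ⟨h, ha, rfl⟩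
  | .cons a b t, sh, N, h, ha => by
    obtain ⟨i1, i2, i3⟩ := newCols_spec t (sh + 64)
      (N := CL.cons (newCol (onesN n) sh (a + gN (onesN n) sh N) (b + gP (onesN n) sh N) &&&
        (1 <<< (64 * w) - 1)) (newCol (onesN n) sh (a + gN (onesN n) sh N) (b + gP (onesN n) sh N)) N)
      (w := w) ⟨newCol_good _ _ _ _, h⟩ ⟨fun r hr => dg_mask _ _ _ hr, ha⟩
    refine ⟨i1, i2, i3.trans ?_⟩
    show N.len + 1 + t.len = N.len + (t.len + 1)
    omega

theorem brec_true {x c : Bool} (h : Bool.rec (motive := fun _ => Bool) false x c = true) :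
    c = true ∧ x = true := by
  cases c
  · exact absurd h (by simp)
  · exact ⟨rfl, h⟩

theorem allP_cons (f : ℕ → ℕ → ℕ → Bool) (a b : ℕ) (t : PL) (sh : ℕ)
    (h : allP f (.cons a b t) sh = true) : f a b sh = true ∧ allP f t (sh + 64) = true :=
  brec_true h

theorem chkRows_eq (ones eb : ℕ) (N : CL) (p : PL) : chkRows ones eb N p =
    allP (fun a b sh => small ones eb (Nat.add a (gN ones sh N)) (Nat.add b (gP ones sh N))) p :=
  rfl

theorem chkRows_cons {ones eb : ℕ} {N : CL} {a b : ℕ} {t : PL} {sh : ℕ}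
    (h : chkRows ones eb N (.cons a b t) sh = true) :
    small ones eb (Nat.add a (gN ones sh N)) (Nat.add b (gP ones sh N)) = true ∧
      chkRows ones eb N t (sh + 64) = true := by
  rw [chkRows_eq] at h ⊢
  exact allP_cons _ _ _ _ _ h

theorem chkRows_spec {n w eb : ℕ} {N : CL} {f : ℕ → ℕ → ℤ} (heb : eb ≤ 40) (hw : w ≤ n)
    (h : N.Good n) (ha : N.Al w) (hl : N.len ≤ 4096) (hf : ∀ r k, r < w → k < n → |f r k| ≤ 2 ^ 61) :
    ∀ (p : PL) (r : ℕ), p.Rep n f r → r + p.len ≤ w → chkRows (onesN n) eb N p (64 * r) = true →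
      ∀ j, r ≤ j → j < r + p.len → ∀ k, k < n → |f j k - N.gram j k| ≤ 2 ^ eb
  | .nil, r, _, _, _ => fun j h1 h2 => absurd h2 (by show ¬ j < r + 0; omega)
  | .cons a b t, r, hp, hr, hc => by
    have hr' : r + (t.len + 1) ≤ w := hr
    obtain ⟨hs, hc'⟩ := chkRows_cons hc
    have hp' : (a : ℤ) - b = evz (f r) n ∧ t.Rep n f (r + 1) := hp
    intro j h1 h2 k hk
    rcases h1.eq_or_lt with rfl | h1
    · refine small_sound (f := fun k => f r k - N.gram r k) heb ?_ (fun i hi => ?_) hs k hk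
      · rw [evz_sub, ← g_spec (w := w) (by omega) (by omega) h ha hl, Nat.add_eq, Nat.add_eq]
        have := hp'.1
        push_cast
        linarith
      · have h3 := gram_abs h r i
        have h4 := hf r i (by omega) hi
        have h5 : ((N.len : ℕ) : ℤ) ≤ 4096 := by exact_mod_cast hl
        refine (abs_sub _ _).trans ?_
        nlinarith
    · exact chkRows_spec heb hw h ha hl hf t (r + 1) hp'.2 (by omega)
        (by rw [show 64 * (r + 1) = 64 * r + 64 by ring]; exact hc') j h1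
        (by have : j < r + (t.len + 1) := h2; omega) k hk

end Crest.Agent.R347.Chk
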