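import Crest.Agent.R347.BasePsdA

/-! Row 347: rows, chunks and independent rows of the Cholesky check. -/

set_option autoImplicit false

namespace Crest.Agent.R347.Chk
open Finset

def tv (tab y : ℕ) : ℤ := (fld 40 tab y : ℤ) - 2 ^ 37
def tsum (tab : ℕ) (T : List (ℕ × ℕ)) (q : ℕ) : ℤ :=
  ((T.filter fun t => t.1 = q).map fun t => tv tab t.2).sum

theorem tsum_cons (tab : ℕ) (t : ℕ × ℕ) (T : List (ℕ × ℕ)) (q : ℕ) :
    tsum tab (t :: T) q = tsum tab T q + if t.1 = q then tv tab t.2 else 0 := by
  unfold tsum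
  by_cases h : t.1 = q <;> simp [h, add_comm]

theorem tsum_abs (tab : ℕ) (q : ℕ) : ∀ T : List (ℕ × ℕ), |tsum tab T q| ≤ T.length * 2 ^ 40
  | [] => by simp [tsum]
  | t :: T => by
    rw [tsum_cons]
    have h1 := tsum_abs tab q T
    have h2 : |tv tab t.2| ≤ 2 ^ 40 := by
      have h3 : fld 40 tab t.2 < 2 ^ 40 := Nat.mod_lt _ (by norm_num)
      have h4 : ((fld 40 tab t.2 : ℕ) : ℤ) < 2 ^ 40 := by exact_mod_cast h3
      have h5 : (0 : ℤ) ≤ (fld 40 tab t.2 : ℕ) := Int.natCast_nonneg _
      unfold tv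
      rw [abs_le]; constructor <;> linarith
    refine (abs_add_le _ _).trans ?_
    simp only [List.length_cons]
    push_cast
    split_ifs
    · linarith
    · simp only [abs_zero]; linarith

theorem fold_spec (tab lo hi : ℕ) : ∀ T : List (ℕ × ℕ),
    (foldT tab lo hi T : ℤ) - 2 ^ 37 * foldO lo hi T = evz (fun k => tsum tab T (lo + k)) (hi - lo)
  | [] => by
    show ((0 : ℕ) : ℤ) - 2 ^ 37 * ((0 : ℕ) : ℤ) = evz (fun _ => 0) _
    simp [evz_zero]
  | (q, y) :: T => by
    have ih := fold_spec tab lo hi T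
    have e1 : foldT tab lo hi ((q, y) :: T) = Bool.rec (motive := fun _ => ℕ) (foldT tab lo hi T)
        (Bool.rec (motive := fun _ => ℕ) (foldT tab lo hi T +
          ((tab >>> (40 * y)) &&& (2 ^ 40 - 1)) <<< (64 * (q - lo))) (foldT tab lo hi T)
          (Nat.ble hi q)) (Nat.ble lo q) := rfl
    have e2 : foldO lo hi ((q, y) :: T) = Bool.rec (motive := fun _ => ℕ) (foldO lo hi T)
        (Bool.rec (motive := fun _ => ℕ) (foldO lo hi T + 1 <<< (64 * (q - lo))) (foldO lo hi T)
          (Nat.ble hi q)) (Nat.ble lo q) := rfl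
    simp only [tsum_cons]
    rw [evz_add, ← ih, e1, e2]
    by_cases h1 : lo ≤ q
    · by_cases h2 : hi ≤ q
      · rw [Nat.ble_eq_true_of_le h1, Nat.ble_eq_true_of_le h2,
          evz_congr (g := fun _ => 0) (fun i hi => if_neg (by omega)), evz_zero, add_zero]
      · have h3 : Nat.ble hi q = false := by
          cases h : Nat.ble hi q
          · rfl
          · exact absurd (Nat.le_of_ble_eq_true h) h2
        rw [Nat.ble_eq_true_of_le h1, h3,
          evz_congr (g := fun i => if i = q - lo then tv tab y else 0)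
            (fun i hi => if_congr (by omega) rfl rfl), evz_single _ _ _ (by omega)]
        simp only [Nat.shiftLeft_eq, Nat.and_two_pow_sub_one_eq_mod, Nat.shiftRight_eq_div_pow]
        unfold tv fld
        rw [← pow_mul]
        push_cast
        ring
    · have h3 : Nat.ble lo q = false := by
        cases h : Nat.ble lo q
        · rfl
        · exact absurd (Nat.le_of_ble_eq_true h) h1
      rw [h3, evz_congr (g := fun _ => 0) (fun i hi => if_neg (by omega)), evz_zero, add_zero]

noncomputable def dz (es : ℕ) (r : Row) : ℤ := (diagP es r.G r.dno : ℤ) - 2 ^ 40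

theorem diagP_eq (es G dno : ℕ) : diagP es G dno = dno * 2 ^ 32 / 5 + es * G * 2 ^ 16 := by
  show dno <<< 32 / 5 + (es * G) <<< 16 = _
  rw [Nat.shiftLeft_eq, Nat.shiftLeft_eq]

/-- size conditions of one row -/
def RB (r : Row) : Prop := r.G ≤ 32 ∧ r.dno ≤ 4096 ∧ r.T.length ≤ 64

theorem dz_abs {es : ℕ} {r : Row} (hes : es ≤ 2 ^ 22) (h : RB r) : |dz es r| ≤ 2 ^ 46 := by
  have h1 : diagP es r.G r.dno ≤ 2 ^ 45 := by
    rw [diagP_eq]
    have := Nat.mul_le_mul hes h.1
    have := h.2.1
    omega
  have h2 : ((diagP es r.G r.dno : ℕ) : ℤ) ≤ 2 ^ 45 := by exact_mod_cast h1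
  have h3 : (0 : ℤ) ≤ (diagP es r.G r.dno : ℕ) := Int.natCast_nonneg _
  unfold dz
  rw [abs_le]; constructor <;> linarith

theorem row_eq (act : ℕ → Bool) (tab es lo hi sh shT : ℕ) (r : Row) :
    (rowP act tab es lo hi sh shT r : ℤ) - rowN act lo hi sh shT r =
      if act r.d = true then
        evz (fun k => tsum tab r.T (lo + k)) (hi - lo) * 2 ^ shT + dz es r * 2 ^ sh
      else 2 ^ 32 * 2 ^ sh := by
  obtain ⟨d, G, dno, T⟩ := r
  have e1 : rowP act tab es lo hi sh shT ⟨d, G, dno, T⟩ = Bool.rec (motive := fun _ => ℕ)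
      (4294967296 <<< sh) (foldT tab lo hi T <<< shT + diagP es G dno <<< sh) (act d) := rfl
  have e2 : rowN act lo hi sh shT ⟨d, G, dno, T⟩ = Bool.rec (motive := fun _ => ℕ)
      0 (foldO lo hi T <<< (shT + 37) + 1099511627776 <<< sh) (act d) := rfl
  rw [e1, e2, ← fold_spec]
  cases act d
  · simp only [Nat.shiftLeft_eq]
    push_cast
    simp
  · simp only [Nat.shiftLeft_eq, dz]
    push_cast
    ring

/-- entries of a row of the first kind (relative indices) -/
noncomputable def AD (act : ℕ → Bool) (tab es : ℕ) (r : Row) (lo j k : ℕ) : ℤ :=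
  if act r.d = true then tsum tab r.T (lo + k) + (if k = j then dz es r else 0)
  else if k = j then 2 ^ 32 else 0

/-- entries of an independent row -/
noncomputable def AI (act : ℕ → Bool) (tab es : ℕ) (r : Row) (k : ℕ) : ℤ :=
  if act r.d = true then (if k = 0 then dz es r else tsum tab r.T (k - 1))
  else if k = 0 then 2 ^ 32 else 0

theorem AD_abs (act : ℕ → Bool) (tab : ℕ) {es : ℕ} {r : Row} (hes : es ≤ 2 ^ 22) (h : RB r)
    (lo j k : ℕ) : |AD act tab es r lo j k| ≤ 2 ^ 47 := by
  have h1 := tsum_abs tab (lo + k) r.T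
  have h2 := dz_abs hes h
  have h3 : ((r.T.length : ℕ) : ℤ) ≤ 64 := by exact_mod_cast h.2.2
  unfold AD
  split_ifs
  · refine (abs_add_le _ _).trans ?_; nlinarith
  · rw [add_zero]; nlinarith
  · norm_num
  · norm_num

theorem AI_abs (act : ℕ → Bool) (tab : ℕ) {es : ℕ} {r : Row} (hes : es ≤ 2 ^ 22) (h : RB r)
    (k : ℕ) : |AI act tab es r k| ≤ 2 ^ 47 := by
  have h1 := tsum_abs tab (k - 1) r.T
  have h2 := dz_abs hes h
  have h3 : ((r.T.length : ℕ) : ℤ) ≤ 64 := by exact_mod_cast h.2.2
  unfold AI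
  split_ifs
  · linarith
  · nlinarith
  · norm_num
  · norm_num

theorem rowD_spec (act : ℕ → Bool) (tab es lo hi j : ℕ) (r : Row) (hj : j < hi - lo) :
    (rowP act tab es lo hi (64 * j) 0 r : ℤ) - rowN act lo hi (64 * j) 0 r =
      evz (AD act tab es r lo j) (hi - lo) := by
  rw [row_eq]
  unfold AD
  split_ifs
  · rw [evz_add, evz_single _ _ _ hj, ← pow_mul]; simp
  · rw [evz_single _ _ _ hj, ← pow_mul]

theorem rowI_spec (act : ℕ → Bool) (tab es hi : ℕ) (r : Row) :
    (rowP act tab es 0 hi 0 64 r : ℤ) - rowN act 0 hi 0 64 r =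
      evz (AI act tab es r) (hi + 1) := by
  rw [row_eq, evz_succ']
  unfold AI
  split_ifs <;> simp_all [evz_zero]
  ring

theorem pairs_spec {act : ℕ → Bool} {tab es lo hi w : ℕ} {C F V : CL} (hw : w ≤ hi - lo)
    (c1 : C.Good (hi - lo)) (c2 : C.Al w) (c3 : C.len ≤ 4096)
    (f1 : F.Good (hi - lo)) (f2 : F.Al w) (f3 : F.len ≤ 4096)
    (v1 : V.Good (hi - lo)) (v2 : V.Al w) (v3 : V.len ≤ 4096) (g : ℕ → Row) :
    ∀ (rows : List Row) (r : ℕ), r + rows.length ≤ w →
      (∀ i, i < rows.length → g (r + i) = rows.getD i default) →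
      (pairs act tab es lo hi (onesN (hi - lo)) C F V rows (64 * r)).len = rows.length ∧
      (pairs act tab es lo hi (onesN (hi - lo)) C F V rows (64 * r)).Rep (hi - lo)
        (fun j k => AD act tab es (g j) lo j k - C.gram j k - F.gram j k + V.gram j k) r
  | [], _, _, _ => ⟨rfl, trivial⟩
  | x :: rows, r, hr, hg => by
    simp only [List.length_cons] at hr hg
    obtain ⟨i1, i2⟩ := pairs_spec (act := act) (tab := tab) (es := es) hw c1 c2 c3 f1 f2 f3 v1 v2 v3
      g rows (r + 1) (by omega) (fun i hi => by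
        have := hg (i + 1) (by omega)
        rw [show r + 1 + i = r + (i + 1) by omega, this]; rfl)
    rw [show 64 * (r + 1) = 64 * r + 64 by ring] at i1 i2
    have hx : g r = x := hg 0 (by omega)
    obtain ⟨g1, g2, g3, g4⟩ := filtR_spec (r := r) (w := w) (by omega) f1 f2
    refine ⟨congrArg (· + 1) i1, ?_, i2⟩
    have e0 := rowD_spec act tab es lo hi r x (by omega)
    have e1 := g_spec (r := r) (by omega) (by omega) c1 c2 c3
    have e2 := g_spec (r := r) (by omega) (by omega) g1 g2 (g3.trans f3)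
    have e3 := g_spec (r := r) (by omega) (by omega) v1 v2 v3
    rw [evz_congr (g := F.gram r) (fun i _ => g4 i)] at e2
    show ((rowP act tab es lo hi (64 * r) 0 x + gN (onesN (hi - lo)) (64 * r) C +
        gN (onesN (hi - lo)) (64 * r) (filtR (64 * r) F) + gP (onesN (hi - lo)) (64 * r) V : ℕ) : ℤ) -
      ((rowN act lo hi (64 * r) 0 x + gP (onesN (hi - lo)) (64 * r) C +
        gP (onesN (hi - lo)) (64 * r) (filtR (64 * r) F) + gN (onesN (hi - lo)) (64 * r) V : ℕ) : ℤ) =
      evz (fun k => AD act tab es (g r) lo r k - C.gram r k - F.gram r k + V.gram r k) (hi - lo)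
    rw [evz_add, evz_sub, evz_sub, hx]
    push_cast
    have e0' : evz (fun k => AD act tab es x lo r k) (hi - lo) = _ := e0.symm
    have e1' : evz (fun k => C.gram r k) (hi - lo) = _ := e1.symm
    have e2' : evz (fun k => F.gram r k) (hi - lo) = _ := e2.symm
    have e3' : evz (fun k => V.gram r k) (hi - lo) = _ := e3.symm
    rw [e0', e1', e2', e3']
    ring

theorem lenR_eq : ∀ l : List Row, lenR l = l.length
  | [] => rfl
  | _ :: l => congrArg (· + 1) (lenR_eq l)

def gl (Ls : List (ℕ → ℤ)) (a b : ℕ) : ℤ := (Ls.map fun l => l a * l b).sum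

theorem gram_gl : ∀ c : CL, ∃ Ls : List (ℕ → ℤ), ∀ a b, c.gram a b = gl Ls a b
  | .nil => ⟨[], fun _ _ => rfl⟩
  | .cons _ Y t => by
    obtain ⟨Ls, h⟩ := gram_gl t
    exact ⟨ent Y :: Ls, fun a b => by simp [gl, h a b, add_comm]⟩

theorem os_spec {n w : ℕ} (hw : w ≤ n) (r : ℕ) (hr : r < w) :
    dg (1048576 * (onesN n &&& (1 <<< (64 * w) - 1))) r = 2 ^ 20 := by
  have h1 := dg_of_evz (onesN_eq n) (fun _ _ => by norm_num) (fun _ _ => by norm_num)
  have h2 : onesN n &&& (1 <<< (64 * w) - 1) < 2 ^ (64 * w) := by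
    rw [Nat.shiftLeft_eq, one_mul, Nat.and_two_pow_sub_one_eq_mod]
    exact Nat.mod_lt _ (by positivity)
  have h3 : ((1048576 * (onesN n &&& (1 <<< (64 * w) - 1)) : ℕ) : ℤ) = evz (fun _ => 2 ^ 20 * 1) w := by
    rw [evz_mul, Nat.cast_mul, evz_dg w _ h2]
    congr 1
    exact evz_congr fun i hi => by rw [dg_mask _ _ _ hi, h1.2 i (by omega)]
  have h4 := (dg_of_evz h3 (fun _ _ => by norm_num) (fun _ _ => by norm_num)).2 r hr
  exact_mod_cast h4

theorem chunkStep_true {act : ℕ → Bool} {tab es eb hi : ℕ} {rows : List Row}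
    {k : ℕ → ℕ → CL → CL → CL → CL → Bool} {lo psh : ℕ} {N C S V : CL}
    (h : chunkStep act tab es eb hi rows k lo psh N C S V = true) :
    ∃ msk ones C' S' V' p N', msk = 1 <<< (64 * lenR rows) - 1 ∧ ones = onesN (hi - lo) ∧
      C' = shiftC psh msk N (shiftC psh msk C CL.nil) ∧ S' = shiftC psh msk S CL.nil ∧
      V' = shiftC psh msk V CL.nil ∧
      p = pairs act tab es lo hi ones C' (filtC (1048576 * (ones &&& msk)) S') V' rows 0 ∧
      N' = newCols ones msk p 0 CL.nil ∧ chkRows ones eb N' p 0 = true ∧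
      k (lo + lenR rows) (64 * lenR rows) N' C' S' V' = true :=
  ⟨_, _, _, _, _, _, _, rfl, rfl, rfl, rfl, rfl, rfl, rfl, brec_true h⟩

theorem chkD_cons (act : ℕ → Bool) (tab es eb hi : ℕ) (rows : List Row) (D : List (List Row)) :
    chkD act tab es eb hi (rows :: D) =
      chunkStep act tab es eb hi rows (chkD act tab es eb hi D) := rfl

theorem chkD_spec {act : ℕ → Bool} {tab es eb hi : ℕ} (heb : eb ≤ 40) (hes : es ≤ 2 ^ 22) :
    ∀ (D : List (List Row)) (lo j n : ℕ) (N C S V : CL), lo + D.flatten.length = hi →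
      n - j = hi - lo → (∀ r ∈ D.flatten, RB r) → N.Good n → C.Good n → S.Good n → V.Good n →
      N.len + C.len + D.flatten.length ≤ 4096 → S.len ≤ 4096 → V.len ≤ 4096 →
      chkD act tab es eb hi D lo (64 * j) N C S V = true →
      ∃ Ls : List (ℕ → ℤ), ∀ a b, a ≤ b → b < hi - lo →
        |AD act tab es (D.flatten.getD a default) lo a b - N.gram (a + j) (b + j) -
          C.gram (a + j) (b + j) - S.gram (a + j) (b + j) + V.gram (a + j) (b + j) - gl Ls a b| ≤
          2 ^ eb
  | [], lo, _, _, _, _, _, _, h, _, _, _, _, _, _, _, _, _, _ =>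
    ⟨[], fun a b _ hb => absurd hb (by simp at h; omega)⟩
  | rows :: D, lo, j, n, N, C, S, V, hlo, hn, hRB, gN, gC, gS, gV, l1, l2, l3, h => by
    rw [chkD_cons] at h
    obtain ⟨msk, ones, C', S', V', p, N', hm, ho, hC, hS, hV, hp, hN, h1, h2⟩ := chunkStep_true h
    clear h
    rw [lenR_eq] at hm h2
    subst hm ho
    simp only [List.flatten_cons, List.length_append] at hlo l1 hRB ⊢
    have hw : rows.length ≤ hi - lo := by omega
    obtain ⟨a1, a2, a3, a4⟩ := shiftC_spec (n := n) (j := j) (w := rows.length) (tl := CL.nil)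
      trivial trivial gC
    obtain ⟨c1, c2, c3, c4⟩ := shiftC_spec (n := n) (j := j) (w := rows.length) a1 a2 gN
    obtain ⟨s1, s2, s3, s4⟩ := shiftC_spec (n := n) (j := j) (w := rows.length) (tl := CL.nil)
      trivial trivial gS
    obtain ⟨v1, v2, v3, v4⟩ := shiftC_spec (n := n) (j := j) (w := rows.length) (tl := CL.nil)
      trivial trivial gV
    rw [← hC] at c1 c2 c3 c4
    rw [← hS] at s1 s2 s3 s4
    rw [← hV] at v1 v2 v3 v4
    rw [hn] at c1 s1 v1
    simp only [a3, a4, CL.len_nil, CL.gram_nil, add_zero] at c3 c4 s3 s4 v3 v4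
    obtain ⟨f1, f2, f3, f4⟩ := filtC_spec (os_spec hw) s1 s2
    obtain ⟨p1, p2⟩ := pairs_spec (act := act) (tab := tab) (es := es) hw c1 c2 (by omega) f1 f2
      (by omega) v1 v2 (by omega) (fun i => rows.getD i default) rows 0 (by omega)
      (fun i _ => by rw [Nat.zero_add])
    rw [Nat.mul_zero, ← hp] at p1 p2
    obtain ⟨n1, n2, n3⟩ := newCols_spec (n := hi - lo) (w := rows.length) p 0 (N := CL.nil)
      trivial trivial
    rw [← hN] at n1 n2 n3
    simp only [CL.len_nil, Nat.zero_add, p1] at n3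
    have r1 := chkRows_spec heb hw n1 n2 (by omega) (fun r k hr _ => by
      have b1 := AD_abs act tab hes (hRB (rows.getD r default) (by
        rw [List.getD_eq_getElem _ _ hr]; exact List.mem_append_left _ (List.getElem_mem _))) lo r k
      have b2 := gram_abs c1 r k
      have b3 := gram_abs f1 r k
      have b4 := gram_abs v1 r k
      have d2 : ((C'.len : ℕ) : ℤ) ≤ 4096 := by exact_mod_cast (by omega : C'.len ≤ 4096)
      have d3 : (((filtC (1048576 * (onesN (hi - lo) &&& (1 <<< (64 * rows.length) - 1))) S').len :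
        ℕ) : ℤ) ≤ 4096 := by exact_mod_cast f3.trans (by omega)
      have d4 : ((V'.len : ℕ) : ℤ) ≤ 4096 := by exact_mod_cast (by omega : V'.len ≤ 4096)
      rw [abs_le] at b1 b2 b3 b4 ⊢
      constructor <;> nlinarith [b1.1, b1.2, b2.1, b2.2, b3.1, b3.2, b4.1, b4.2])
      p 0 p2 (by omega) h1
    obtain ⟨Ls, hL⟩ := chkD_spec heb hes D (lo + rows.length) rows.length (hi - lo) N' C' S' V'
      (by omega) (by omega) (fun r hr => hRB r (List.mem_append_right _ hr)) n1 c1 s1 v1
      (by omega) (by omega) (by omega) h2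
    obtain ⟨L0, hL0⟩ := gram_gl N'
    refine ⟨L0 ++ Ls.map fun l k => if k < rows.length then 0 else l (k - rows.length),
      fun a b hab hb => ?_⟩
    have eg : gl (L0 ++ Ls.map fun l k => if k < rows.length then 0 else l (k - rows.length)) a b =
        N'.gram a b + if a < rows.length then 0 else gl Ls (a - rows.length) (b - rows.length) := by
      rw [hL0]
      unfold gl
      rw [List.map_append, List.sum_append, List.map_map]
      congr 1
      split_ifs with ha
      · exact List.sum_eq_zero fun x hx => by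
          obtain ⟨l, _, rfl⟩ := List.mem_map.1 hx
          simp [ha]
      · congr 1
        refine List.map_congr_left fun l _ => ?_
        simp [ha, show ¬ b < rows.length by omega]
    rw [eg]
    split_ifs with ha
    · have := r1 a (by omega) (by omega) b hb
      simp only [c4, f4 a ha, s4, v4] at this
      rw [List.getD_append _ _ _ _ ha]
      convert this using 2
      ring
    · have := hL (a - rows.length) (b - rows.length) (by omega) (by omega)
      rw [show a - rows.length + rows.length = a by omega,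
        show b - rows.length + rows.length = b by omega, c4, s4, v4] at this
      rw [List.getD_append_right _ _ _ _ (by omega)]
      have e : AD act tab es (D.flatten.getD (a - rows.length) default) (lo + rows.length)
          (a - rows.length) (b - rows.length) =
          AD act tab es (D.flatten.getD (a - rows.length) default) lo a b := by
        unfold AD
        rw [show lo + rows.length + (b - rows.length) = lo + b by omega]
        simp only [show (b - rows.length = a - rows.length) = (b = a) by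
          apply propext; omega]
      rw [e] at this
      convert this using 2
      ring

theorem allR_spec {f : Row → Bool} : ∀ {I : List Row}, allR f I = true → ∀ r ∈ I, f r = true
  | [], _, _, h => absurd h (by simp)
  | x :: I, h, r, hr => by
    have h' : f x = true ∧ allR f I = true := brec_true h
    rcases List.mem_cons.1 hr with rfl | hr
    · exact h'.1
    · exact allR_spec h'.2 r hr

theorem chkRowI_spec {act : ℕ → Bool} {tab es eb hi y : ℕ} {r : Row} (heb : eb ≤ 40)
    (hes : es ≤ 2 ^ 22) (hr : RB r) (hy : Gd 2097151 (hi + 1) y)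
    (h : chkRowI act tab es eb hi (onesN (hi + 1)) r y = true) (k : ℕ) (hk : k < hi + 1) :
    |AI act tab es r k - ent y 0 * ent y k| ≤ 2 ^ eb := by
  have g1 : (CL.cons y y CL.nil).Good (hi + 1) := ⟨hy, trivial⟩
  have g2 : (CL.cons y y CL.nil).Al 1 := ⟨fun _ _ => rfl, trivial⟩
  have e := g_spec (r := 0) (w := 1) (by omega) (by omega) g1 g2 (by simp)
  rw [Nat.mul_zero] at e
  have := small_sound (f := fun k => AI act tab es r k - (CL.cons y y CL.nil).gram 0 k) heb ?_
    (fun i _ => ?_) h k hk
  · simpa using this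
  · rw [evz_sub, Nat.add_eq, Nat.add_eq]
    have e1 : evz (fun k => AI act tab es r k) (hi + 1) = _ := (rowI_spec act tab es hi r).symm
    have e2 : evz (fun k => (CL.cons y y CL.nil).gram 0 k) (hi + 1) = _ := e.symm
    rw [e1, e2]
    push_cast
    ring
  · have b1 := AI_abs act tab hes hr i
    have b2 := gram_abs g1 0 i
    simp only [CL.len_cons, CL.len_nil] at b2
    refine (abs_sub _ _).trans ?_
    push_cast at b2
    linarith

theorem colI_good (act : ℕ → Bool) (tab es hi n : ℕ) (r : Row) :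
    Gd 2097151 n (colI act tab es hi (onesN n) r) := newCol_good _ _ _ _

theorem cols_spec {α : Type} [Inhabited α] (n : ℕ) (f : α → ℕ) (hf : ∀ x, Gd 2097151 n (f x)) :
    ∀ I : List α,
      (List.rec (motive := fun _ => CL) CL.nil (fun r _ ih => CL.cons 0 (f r) ih) I).Good n ∧
      (List.rec (motive := fun _ => CL) CL.nil (fun r _ ih => CL.cons 0 (f r) ih) I).len =
        I.length ∧
      ∀ a b, (List.rec (motive := fun _ => CL) CL.nil (fun r _ ih => CL.cons 0 (f r) ih) I).gram a b =
        ∑ i ∈ range I.length, ent (f (I.getD i default)) a * ent (f (I.getD i default)) b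
  | [] => ⟨trivial, rfl, fun _ _ => rfl⟩
  | x :: I => by
    obtain ⟨h1, h2, h3⟩ := cols_spec n f hf I
    refine ⟨⟨hf x, h1⟩, congrArg (· + 1) h2, fun a b => ?_⟩
    rw [List.length_cons, sum_range_succ']
    exact congrArg (· + ent (f x) a * ent (f x) b) (h3 a b)

theorem psdCheck_true {act : ℕ → Bool} {tab es eb hi : ℕ} {D : List (List Row)} {I : List Row}
    {V : List ℕ} (h : psdCheck act tab es eb hi D I V = true) :
    chkI act tab es eb hi (onesN (hi + 1)) I = true ∧
      chkD act tab es eb hi D 0 (64 * 1) CL.nil CL.nil (colsI act tab es hi (onesN (hi + 1)) I)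
        (colsV (onesN (hi + 1)) V) = true :=
  brec_true h

/-- integer form of the result -/
theorem psd_int {act : ℕ → Bool} {tab es eb hi : ℕ} {D : List (List Row)} {I : List Row}
    {V : List ℕ} (heb : eb ≤ 40) (hes : es ≤ 2 ^ 22) (hD : D.flatten.length = hi)
    (hn : hi + I.length ≤ 2048) (hV : V.length ≤ 16) (h1 : ∀ r ∈ D.flatten, RB r)
    (h2 : ∀ r ∈ I, RB r) (h : psdCheck act tab es eb hi D I V = true) :
    ∃ (Ls : List (ℕ → ℤ)) (s v : ℕ → ℕ → ℤ),
      (∀ a b, a ≤ b → b < hi → |AD act tab es (D.flatten.getD a default) 0 a b -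
        ∑ i ∈ range I.length, s i (a + 1) * s i (b + 1) +
        ∑ i ∈ range V.length, v i a * v i b - gl Ls a b| ≤ 2 ^ eb) ∧
      ∀ i, i < I.length → ∀ k, k < hi + 1 →
        |AI act tab es (I.getD i default) k - s i 0 * s i k| ≤ 2 ^ eb := by
  obtain ⟨c1, c2⟩ := psdCheck_true h
  obtain ⟨s1, s2, s3⟩ := cols_spec (hi + 1) (colI act tab es hi (onesN (hi + 1)))
    (colI_good act tab es hi (hi + 1)) I
  obtain ⟨v1, v2, v3⟩ := cols_spec (hi + 1) (fun y => y &&& (2097151 * onesN (hi + 1)))
    (fun y => Gd_and _ _ _ (by norm_num)) V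
  obtain ⟨Ls, hL⟩ := chkD_spec heb hes D 0 1 (hi + 1) CL.nil CL.nil
    (colsI act tab es hi (onesN (hi + 1)) I) (colsV (onesN (hi + 1)) V) (by omega) (by omega) h1
    trivial trivial s1 v1 (by simp only [CL.len_nil]; omega) (s2.trans_le (by omega))
    (v2.trans_le (by omega)) c2
  refine ⟨Ls, fun i => ent (colI act tab es hi (onesN (hi + 1)) (I.getD i default)),
    fun i a => ent (V.getD i default &&& (2097151 * onesN (hi + 1))) (a + 1),
    fun a b hab hb => ?_, fun i hi' k hk => ?_⟩
  · have := hL a b hab (by omega)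
    have s3' : (colsI act tab es hi (onesN (hi + 1)) I).gram (a + 1) (b + 1) = _ := s3 _ _
    have v3' : (colsV (onesN (hi + 1)) V).gram (a + 1) (b + 1) = _ := v3 _ _
    rw [s3', v3'] at this
    simpa only [CL.gram_nil, sub_zero] using this
  · have hm : I.getD i default ∈ I := by
      rw [List.getD_eq_getElem _ _ hi']; exact List.getElem_mem _
    exact chkRowI_spec heb hes (h2 _ hm) (colI_good _ _ _ _ _ _) (allR_spec c1 _ hm) k hk

end Crest.Agent.R347.Chk
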