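import Crest.Agent.R347.BaseTabO

/-! Row 347: lists of certificates. -/

set_option autoImplicit false

namespace Crest.Agent.R347.Chk

instance : Inhabited BD := ⟨⟨0, 0, 0, [], []⟩⟩

noncomputable def rchk (L a k m : ℕ) (b : BD) : Bool :=
  ringCheck L (slR L) (ctR L) a k (RTr L m) (nR L m) (hiR L m) b
noncomputable def ochk (τ : Bool) (N mm : ℕ) (b : BD) : Bool :=
  openCheck (RTo τ N mm) (nO N mm) (hiO N mm) b

/-- check the certificates `l` for the indices `m, m+1, …` -/
noncomputable def rangeChk (f : ℕ → BD → Bool) (l : List BD) : ℕ → Bool :=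
  List.rec (motive := fun _ => ℕ → Bool) (fun _ => true) (fun b _ ih m =>
    Bool.rec (motive := fun _ => Bool) false (ih (Nat.add m 1)) (f m b)) l

def RR (f : ℕ → BD → Bool) (m : ℕ) (l : List BD) : Prop :=
  ∀ i, i < l.length → f (m + i) (l.getD i default) = true

theorem RR.cons {f : ℕ → BD → Bool} {m m' : ℕ} {b : BD} {l : List BD} (h : f m b = true)
    (h' : RR f m' l) (e : m' = m + 1 := by norm_num) : RR f m (b :: l) := by
  intro i hi
  cases i with
  | zero => simpa using h
  | succ i =>
    have := h' i (by simpa using hi)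
    rw [e, show m + 1 + i = m + (i + 1) by omega] at this
    simpa using this

theorem RR.of_range {f : ℕ → BD → Bool} : ∀ {l : List BD} {m : ℕ}, rangeChk f l m = true → RR f m l
  | [], _, _ => fun i hi => absurd hi (by simp)
  | b :: l, m, h => by
    have h' : Bool.rec (motive := fun _ => Bool) false (rangeChk f l (m + 1)) (f m b) = true := h
    cases hb : f m b with
    | false => rw [hb] at h'; exact absurd h' (by simp)
    | true => rw [hb] at h'; exact RR.cons hb (RR.of_range h') rfl

def dbl {α : Type} (m : ℕ) (l : List α) : List α := if m = 0 then l else l ++ l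

def levR (L : ℕ) (BL : ℕ → List BD) : List ℕ :=
  (List.range (L + 1)).flatMap fun m => (List.range L).flatMap fun k =>
    dbl m (((BL k).getD m default).lev.map Prod.fst)
def tailR (L : ℕ) (BL : ℕ → List BD) : List (ℕ × ℕ) :=
  (List.range (L + 1)).flatMap fun m => (List.range L).flatMap fun k =>
    dbl m [(nR L m, ((BL k).getD m default).ef)]
def levO (N : ℕ) (B : List BD) : List ℕ :=
  (List.range (2 * N + 1)).flatMap fun mm => (B.getD mm default).lev.map Prod.fst
def tailO (N : ℕ) (B : List BD) : List (ℕ × ℕ) :=
  (List.range (2 * N + 1)).flatMap fun mm => [(nO N mm, (B.getD mm default).ef)]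

/-- all certificates of one ring -/
def SysR (L a : ℕ) (BL : ℕ → List BD) : Prop :=
  ∀ k, k < L → RR (rchk L a k) 0 (BL k) ∧ (BL k).length = L + 1
/-- all certificates of one open chain -/
def SysO (τ : Bool) (N : ℕ) (B : List BD) : Prop :=
  RR (ochk τ N) 0 B ∧ B.length = 2 * N + 1

end Crest.Agent.R347.Chk
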