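import Crest.Agent.R347.BaseDefs

/-! Row 347: symmetries of the ring (auxiliary lemmas for `BaseRing`). -/

set_option autoImplicit false

namespace Crest.Agent.R347
open Crest.MathPhysics.SpinChain Matrix Finset

section
variable {L : ℕ}

/-! ### the dihedral action on configurations -/

theorem br_rot_rev (j : Fin L) : finRotate L (Fin.rev (finRotate L j)) = Fin.rev j := by
  obtain ⟨n, rfl⟩ : ∃ n, L = n + 1 := ⟨L - 1, by have := j.pos; omega⟩
  apply Fin.ext
  have hj := j.isLt
  rw [coe_finRotate]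
  have h1 : (Fin.rev (finRotate (n + 1) j) : ℕ) = n + 1 - ((finRotate (n + 1) j : ℕ) + 1) :=
    Fin.val_rev _
  rw [coe_finRotate] at h1
  simp only [Fin.ext_iff, Fin.val_last, Fin.val_rev] at h1 ⊢
  rw [coe_finRotate]
  simp only [Fin.ext_iff, Fin.val_last]
  split_ifs <;> omega

theorem br_rot_pow : ((finRotate L).symm)^[L] = id := by
  rcases Nat.eq_zero_or_pos L with rfl | hL
  · rfl
  obtain ⟨n, rfl⟩ : ∃ n, L = n + 1 := ⟨L - 1, by omega⟩
  have h : ∀ t : ℕ, ∀ j : Fin (n + 1), ((finRotate (n + 1)).symm)^[t] j = j - (t : ℕ) • 1 := by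
    intro t
    induction t with
    | zero => simp
    | succ t ih =>
      intro j
      rw [Function.iterate_succ_apply', ih, finRotate_symm_apply, succ_nsmul, sub_sub]
  funext j
  have h2 : (n + 1) • (1 : Fin (n + 1)) = 0 := by
    have := card_nsmul_eq_zero (G := Fin (n + 1)) (x := 1)
    simpa using this
  rw [h, h2, sub_zero, id]

theorem br_tr_iter (t : ℕ) (σ : Cfg L) (j : Fin L) :
    tr^[t] σ j = σ (((finRotate L).symm)^[t] j) := by
  induction t generalizing j with
  | zero => rfl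
  | succ t ih => rw [Function.iterate_succ_apply', tr, ih, Function.iterate_succ_apply]

theorem br_tr_L (σ : Cfg L) : tr^[L] σ = σ := by
  funext j
  rw [br_tr_iter, br_rot_pow, id]

theorem br_tr_mul (n : ℕ) (σ : Cfg L) : tr^[L * n] σ = σ := by
  induction n with
  | zero => rfl
  | succ n ih => rw [Nat.mul_succ, Function.iterate_add_apply, br_tr_L, ih]

theorem br_tr_mod (t : ℕ) (σ : Cfg L) : tr^[t % L] σ = tr^[t] σ := by
  conv_rhs => rw [← Nat.mod_add_div t L, Function.iterate_add_apply, br_tr_mul]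

/-- translation as a bijection -/
def brTrE (L : ℕ) : Cfg L ≃ Cfg L where
  toFun := tr
  invFun σ := fun j => σ (finRotate L j)
  left_inv σ := by funext j; simp only [tr, Equiv.symm_apply_apply]
  right_inv σ := by funext j; simp only [tr, Equiv.apply_symm_apply]

theorem br_tr_inj : Function.Injective (tr : Cfg L → Cfg L) := (brTrE L).injective

theorem br_rf_rf (σ : Cfg L) : rf (rf σ) = σ := by
  funext j; simp [rf]

theorem br_fl_fl (σ : Cfg L) : fl (fl σ) = σ := by
  funext j; simp [fl]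

/-- reflection as a bijection -/
def brRfE (L : ℕ) : Cfg L ≃ Cfg L := ⟨rf, rf, br_rf_rf, br_rf_rf⟩
/-- spin flip as a bijection -/
def brFlE (L : ℕ) : Cfg L ≃ Cfg L := ⟨fl, fl, br_fl_fl, br_fl_fl⟩

theorem br_tr_rf_tr (σ : Cfg L) : tr (rf (tr σ)) = rf σ := by
  funext j
  simp only [tr, rf]
  congr 1
  rw [Equiv.symm_apply_eq]
  conv_rhs => rw [← (finRotate L).apply_symm_apply j]
  rw [br_rot_rev]

theorem br_iter_rf (t : ℕ) (σ : Cfg L) : tr^[t] (rf (tr^[t] σ)) = rf σ := by
  induction t with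
  | zero => rfl
  | succ t ih =>
    rw [Function.iterate_succ_apply, Function.iterate_succ_apply', br_tr_rf_tr, ih]

theorem br_mag_tr (σ : Cfg L) : mag (tr σ) = mag σ :=
  Equiv.sum_comp (finRotate L).symm fun j => magneticNumber (σ j)

theorem br_mag_iter (t : ℕ) (σ : Cfg L) : mag (tr^[t] σ) = mag σ := by
  induction t with
  | zero => rfl
  | succ t ih => rw [Function.iterate_succ_apply', br_mag_tr, ih]

theorem br_mag_rf (σ : Cfg L) : mag (rf σ) = mag σ :=
  Equiv.sum_comp Fin.revPerm fun j => magneticNumber (σ j)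

theorem br_mag_fl (σ : Cfg L) : mag (fl σ) = -mag σ := by
  simp only [mag, fl, ← Finset.sum_neg_distrib]
  refine Finset.sum_congr rfl fun j _ => ?_
  generalize σ j = a
  fin_cases a <;> simp [magneticNumber]

/-! ### roots of unity -/

theorem br_om_prim (hL : 0 < L) : IsPrimitiveRoot (om L) (24 * L) := by
  have := Complex.isPrimitiveRoot_exp (24 * L) (by omega)
  simpa [om] using this

theorem br_om_star (hL : 0 < L) (n : ℕ) : star (om L ^ n) * om L ^ n = 1 := by
  have h : ‖om L‖ = 1 := (br_om_prim hL).norm'_eq_one (by omega)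
  rw [Complex.star_def, Complex.conj_mul', norm_pow, h]
  simp

theorem br_om_mul (hL : 0 < L) (n : ℕ) : om L ^ (24 * L * n) = 1 := by
  rw [pow_mul, (br_om_prim hL).pow_eq_one, one_pow]

theorem br_om_I (hL : 0 < L) : om L ^ (6 * L) = Complex.I := by
  have : (L : ℂ) ≠ 0 := by exact_mod_cast hL.ne'
  have h : ((6 * L : ℕ) : ℂ) * (2 * Real.pi * Complex.I / (24 * L)) =
      Real.pi / 2 * Complex.I := by
    push_cast
    field_simp
    ring
  rw [om, ← Complex.exp_nat_mul, h, Complex.exp_pi_div_two_mul_I]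

/-! ### covariant vectors -/

theorem br_sum_shift {M : Type} [AddCommGroup M] (f : ℕ → M) (h : f L = f 0) :
    ∑ t ∈ range L, f (t + 1) = ∑ t ∈ range L, f t := by
  have h1 := Finset.sum_range_succ f L
  rw [Finset.sum_range_succ', h] at h1
  exact add_right_cancel h1

theorem br_uvec_tr {κ : ℂ} (hκ : κ ^ L = 1) (s σ : Cfg L) :
    uvec κ s (tr σ) = κ * uvec κ s σ := by
  unfold uvec
  rw [← br_sum_shift (fun t => if tr^[t] s = tr σ then κ ^ t else 0)
    (by simp only [br_tr_L, hκ, Function.iterate_zero, id, pow_zero]), Finset.mul_sum]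
  refine Finset.sum_congr rfl fun t _ => ?_
  simp only [Function.iterate_succ_apply', br_tr_inj.eq_iff]
  split_ifs <;> ring

theorem br_uvec_rf {κ : ℂ} (hκ : κ ^ L = 1) (hs : star κ * κ = 1) (s σ : Cfg L) :
    uvec κ s (rf σ) = star (uvec κ (rf s) σ) := by
  unfold uvec
  rw [← br_sum_shift (fun t => if tr^[t] s = rf σ then κ ^ t else 0)
    (by simp only [br_tr_L, hκ, Function.iterate_zero, id, pow_zero]), star_sum,
    ← Finset.sum_range_reflect]
  refine Finset.sum_congr rfl fun t ht => ?_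
  have ht' := Finset.mem_range.1 ht
  obtain ⟨u, hu⟩ : ∃ u, L - 1 - t + 1 = u ∧ t + u = L := ⟨_, rfl, by omega⟩
  rw [hu.1]
  have h1 : tr^[u] s = rf σ ↔ tr^[t] (rf s) = σ := by
    constructor
    · intro h
      rw [← br_iter_rf u s, h, br_rf_rf, ← Function.iterate_add_apply, hu.2, br_tr_L]
    · intro h
      rw [← h]
      conv_lhs => rw [← br_rf_rf s, ← br_iter_rf t (rf s), ← Function.iterate_add_apply,
        add_comm, hu.2, br_tr_L]
  have h2 : κ ^ u = star (κ ^ t) := by
    have h3 : star (κ ^ t) * κ ^ t = 1 := by rw [star_pow, ← mul_pow, hs, one_pow]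
    calc κ ^ u = star (κ ^ t) * κ ^ t * κ ^ u := by rw [h3, one_mul]
      _ = star (κ ^ t) := by rw [mul_assoc, ← pow_add, hu.2, hκ, mul_one]
  simp only [h1, h2]
  split_ifs <;> simp

/-- translation covariance -/
def CovT (κ : ℂ) (φ : Cfg L → ℂ) : Prop := ∀ σ, φ (tr σ) = κ * φ σ
/-- invariance under reflection composed with complex conjugation -/
def CovR (φ : Cfg L → ℂ) : Prop := ∀ σ, φ (rf σ) = star (φ σ)

theorem CovT.iter {κ : ℂ} {φ : Cfg L → ℂ} (h : CovT κ φ) (t : ℕ) (σ : Cfg L) :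
    φ (tr^[t] σ) = κ ^ t * φ σ := by
  induction t with
  | zero => simp
  | succ t ih => rw [Function.iterate_succ_apply', h, ih]; ring

theorem br_wvec_T {κ : ℂ} (hκ : κ ^ L = 1) (z : ℂ) (s : Cfg L) : CovT κ (wvec κ z s) := by
  intro σ
  simp only [wvec, br_uvec_tr hκ]
  ring

theorem br_wvec_R {κ : ℂ} (hκ : κ ^ L = 1) (hs : star κ * κ = 1) (z : ℂ) (s : Cfg L) :
    CovR (wvec κ z s) := by
  intro σ
  simp only [wvec, br_uvec_rf hκ hs, br_rf_rf, star_add, star_mul', star_star]
  ring

theorem br_uvec_dot {κ : ℂ} (hs : star κ * κ = 1) (s : Cfg L) {φ : Cfg L → ℂ} (h : CovT κ φ) :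
    star (uvec κ s) ⬝ᵥ φ = L * φ s := by
  simp only [dotProduct, Pi.star_apply, uvec, star_sum, Finset.sum_mul]
  rw [Finset.sum_comm]
  have : ∀ t ∈ range L, ∑ σ, star (if tr^[t] s = σ then κ ^ t else 0) * φ σ = φ s := by
    intro t _
    rw [Finset.sum_eq_single (tr^[t] s)]
    · rw [if_pos rfl, h.iter, ← mul_assoc, star_pow, ← mul_pow, hs, one_pow, one_mul]
    · intro σ _ hσ
      rw [if_neg (Ne.symm hσ), star_zero, zero_mul]
    · simp
  rw [Finset.sum_congr rfl this]
  simp

theorem br_wvec_dot {κ : ℂ} (hs : star κ * κ = 1) (z : ℂ) (s : Cfg L) {φ : Cfg L → ℂ}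
    (h : CovT κ φ) (h' : CovR φ) :
    star (wvec κ z s) ⬝ᵥ φ = ((2 * L * (star z * φ s).re : ℝ) : ℂ) := by
  have h1 : star (wvec κ z s) = star z • star (uvec κ s) + z • star (uvec κ (rf s)) := by
    funext σ
    simp [wvec]
  rw [h1, add_dotProduct, smul_dotProduct, smul_dotProduct, br_uvec_dot hs _ h,
    br_uvec_dot hs _ h, h']
  have h2 := Complex.add_conj (star z * φ s)
  push_cast at h2 ⊢
  simp only [smul_eq_mul, Complex.star_def, map_mul, Complex.conj_conj] at h2 ⊢
  linear_combination (L : ℂ) * h2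

theorem br_dot_T {κ κ' : ℂ} (hne : star κ * κ' ≠ 1) {φ ψ : Cfg L → ℂ} (h : CovT κ φ)
    (h' : CovT κ' ψ) : star φ ⬝ᵥ ψ = 0 := by
  have h1 : star φ ⬝ᵥ ψ = star κ * κ' * (star φ ⬝ᵥ ψ) := by
    simp only [dotProduct, Pi.star_apply, Finset.mul_sum]
    rw [← Equiv.sum_comp (brTrE L)]
    refine Finset.sum_congr rfl fun σ _ => ?_
    change star (φ (tr σ)) * ψ (tr σ) = _
    rw [h, h', star_mul']
    ring
  by_contra h0
  exact hne (mul_right_cancel₀ h0 (h1.symm.trans (one_mul _).symm))

theorem br_wvec_mag {κ z : ℂ} {s σ : Cfg L} (h : wvec κ z s σ ≠ 0) : mag σ = mag s := by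
  by_contra hne
  apply h
  have : ∀ s' : Cfg L, mag s' = mag s → uvec κ s' σ = 0 := by
    intro s' hs'
    refine Finset.sum_eq_zero fun t _ => if_neg fun h => hne ?_
    rw [← h, br_mag_iter, hs']
  simp [wvec, this s rfl, this (rf s) (br_mag_rf s)]

/-! ### symmetric operators -/

/-- the symmetries shared by the identity and the ring Hamiltonian -/
structure SymOp (A : Matrix (Cfg L) (Cfg L) ℂ) : Prop where
  t : ∀ σ τ, A (tr σ) (tr τ) = A σ τ
  r : ∀ σ τ, A (rf σ) (rf τ) = star (A σ τ)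
  f : ∀ σ τ, A (fl σ) (fl τ) = star (A σ τ)
  m : ∀ σ τ, A σ τ ≠ 0 → mag σ = mag τ

theorem SymOp.covT {A : Matrix (Cfg L) (Cfg L) ℂ} (hA : SymOp A) {κ : ℂ} {φ : Cfg L → ℂ}
    (h : CovT κ φ) : CovT κ (A *ᵥ φ) := by
  intro σ
  simp only [mulVec, dotProduct, Finset.mul_sum]
  rw [← Equiv.sum_comp (brTrE L)]
  refine Finset.sum_congr rfl fun τ _ => ?_
  change A (tr σ) (tr τ) * φ (tr τ) = _
  rw [hA.t, h]
  ring

theorem SymOp.covR {A : Matrix (Cfg L) (Cfg L) ℂ} (hA : SymOp A) {φ : Cfg L → ℂ}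
    (h : CovR φ) : CovR (A *ᵥ φ) := by
  intro σ
  simp only [mulVec, dotProduct, star_sum]
  rw [← Equiv.sum_comp (brRfE L)]
  refine Finset.sum_congr rfl fun τ _ => ?_
  change A (rf σ) (rf τ) * φ (rf τ) = _
  rw [hA.r, h, star_mul']

theorem br_sym_one : SymOp (1 : Matrix (Cfg L) (Cfg L) ℂ) where
  t σ τ := by simp only [one_apply, br_tr_inj.eq_iff]
  r σ τ := by
    have : rf σ = rf τ ↔ σ = τ := (brRfE L).injective.eq_iff
    simp only [one_apply, this]
    split_ifs <;> simp
  f σ τ := by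
    have : fl σ = fl τ ↔ σ = τ := (brFlE L).injective.eq_iff
    simp only [one_apply, this]
    split_ifs <;> simp
  m σ τ h := by
    by_cases h' : σ = τ
    · rw [h']
    · exact absurd (one_apply_ne h') h

theorem br_onBond_perm (B : Matrix (Fin 3 × Fin 3) (Fin 3 × Fin 3) ℂ) (π : Equiv.Perm (Fin L))
    (j k : Fin L) (σ τ : Cfg L) :
    onBond B j k (fun i => σ (π i)) (fun i => τ (π i)) = onBond B (π j) (π k) σ τ := by
  simp only [onBond, of_apply]
  congr 1
  apply propext
  constructor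
  · intro h i hj hk
    have := h (π.symm i) (fun h' => hj (by rw [← h']; simp)) (fun h' => hk (by rw [← h']; simp))
    simpa using this
  · intro h i hj hk
    exact h (π i) (fun h' => hj (π.injective h')) (fun h' => hk (π.injective h'))

theorem br_hloc_swap (ζ : ℂ) (a b c d : Fin 3) :
    hloc ζ (b, a) (d, c) = star (hloc ζ (a, b) (c, d)) := by
  fin_cases a <;> fin_cases b <;> fin_cases c <;> fin_cases d <;> simp [hloc, magneticNumber]

theorem br_hloc_flip (ζ : ℂ) (a b c d : Fin 3) :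
    hloc ζ (a.rev, b.rev) (c.rev, d.rev) = star (hloc ζ (a, b) (c, d)) := by
  fin_cases a <;> fin_cases b <;> fin_cases c <;> fin_cases d <;>
    simp [hloc, magneticNumber, Fin.rev] <;> norm_num

theorem br_hloc_mag (ζ : ℂ) (a b c d : Fin 3) (h : hloc ζ (a, b) (c, d) ≠ 0) :
    magneticNumber a + magneticNumber b = magneticNumber c + magneticNumber d := by
  revert h
  fin_cases a <;> fin_cases b <;> fin_cases c <;> fin_cases d <;> simp [hloc, magneticNumber]

theorem br_onBond_swap (ζ : ℂ) (j k : Fin L) (σ τ : Cfg L) :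
    onBond (hloc ζ) k j σ τ = star (onBond (hloc ζ) j k σ τ) := by
  simp only [onBond, of_apply]
  have : (∀ i, i ≠ k → i ≠ j → σ i = τ i) ↔ (∀ i, i ≠ j → i ≠ k → σ i = τ i) :=
    ⟨fun h i a b => h i b a, fun h i a b => h i b a⟩
  simp only [this]
  split_ifs
  · exact br_hloc_swap _ _ _ _ _
  · simp

theorem br_Hring_apply (hL : 2 ≤ L) (ζ : ℂ) (σ τ : Cfg L) :
    Hring L ζ σ τ = ∑ j, onBond (hloc ζ) j (finRotate L j) σ τ := by
  rw [Hring, Matrix.sum_apply]
  refine Finset.sum_congr rfl fun j _ => ?_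
  rw [tbond_eq_onBond _ _ _ (finRotate_ne hL j)]

theorem br_sym_H (hL : 2 ≤ L) (ζ : ℂ) : SymOp (Hring L ζ) where
  t σ τ := by
    rw [br_Hring_apply hL, br_Hring_apply hL, ← Equiv.sum_comp (finRotate L)]
    refine Finset.sum_congr rfl fun j _ => ?_
    have := br_onBond_perm (hloc ζ) (finRotate L).symm (finRotate L j)
      (finRotate L (finRotate L j)) σ τ
    rw [Equiv.symm_apply_apply, Equiv.symm_apply_apply] at this
    exact this
  r σ τ := by
    rw [br_Hring_apply hL, br_Hring_apply hL, star_sum,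
      ← Equiv.sum_comp ((finRotate L).trans Fin.revPerm) (fun j => star _)]
    refine Finset.sum_congr rfl fun j _ => ?_
    have := br_onBond_perm (hloc ζ) Fin.revPerm j (finRotate L j) σ τ
    rw [← br_onBond_swap]
    simp only [Equiv.trans_apply, Fin.revPerm_apply, br_rot_rev] at this ⊢
    exact this
  f σ τ := by
    rw [br_Hring_apply hL, br_Hring_apply hL, star_sum]
    refine Finset.sum_congr rfl fun j _ => ?_
    simp only [onBond, of_apply, fl, Fin.rev_inj]
    split_ifs
    · exact br_hloc_flip _ _ _ _ _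
    · simp
  m σ τ h := by
    rw [br_Hring_apply hL] at h
    obtain ⟨j, -, hj⟩ := Finset.exists_ne_zero_of_sum_ne_zero h
    have hjk := finRotate_ne hL j
    generalize finRotate L j = k at hj hjk
    simp only [onBond, of_apply] at hj
    split_ifs at hj with h1
    · have h2 := br_hloc_mag _ _ _ _ _ hj
      unfold mag
      rw [← Finset.add_sum_erase _ _ (Finset.mem_univ k),
        ← Finset.add_sum_erase _ _ (Finset.mem_erase.2 ⟨hjk, Finset.mem_univ j⟩),
        ← Finset.add_sum_erase _ _ (Finset.mem_univ k),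
        ← Finset.add_sum_erase _ _ (Finset.mem_erase.2 ⟨hjk, Finset.mem_univ j⟩),
        Finset.sum_congr rfl (g := fun i => magneticNumber (τ i)) fun i hi => by
          simp only [Finset.mem_erase] at hi
          rw [h1 i hi.1 hi.2.1]]
      linarith
    · exact absurd rfl hj

theorem br_onBond_mulVec (B : Matrix (Fin 3 × Fin 3) (Fin 3 × Fin 3) ℂ) (j k : Fin L)
    (hjk : j ≠ k) (ψ : Cfg L → ℂ) (σ : Cfg L) :
    (onBond B j k *ᵥ ψ) σ = ∑ c, ∑ d, B (σ j, σ k) (c, d) *
      ψ (Function.update (Function.update σ j c) k d) := by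
  rw [← Fintype.sum_prod_type']
  simp only [mulVec, dotProduct, onBond, of_apply]
  symm
  refine Finset.sum_of_injOn (fun x : Fin 3 × Fin 3 =>
    Function.update (Function.update σ j x.1) k x.2) ?_ (fun _ _ => Finset.mem_univ _) ?_ ?_
  · intro x _ y _ h
    have h1 := congrFun h j
    have h2 := congrFun h k
    simp only [Function.update_of_ne hjk, Function.update_self] at h1 h2
    exact Prod.ext h1 h2
  · intro τ _ hτ
    rw [if_neg, zero_mul]
    intro h
    apply hτ
    refine ⟨(τ j, τ k), by simp, ?_⟩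
    funext i
    by_cases hk : i = k
    · subst hk; simp
    · by_cases hj : i = j
      · subst hj; simp [Function.update_of_ne hk]
      · simp [Function.update_of_ne hk, Function.update_of_ne hj, h i hj hk]
  · intro x _
    rw [if_pos]
    · simp [Function.update_of_ne hjk]
    · intro i hj hk
      simp [Function.update_of_ne hk, Function.update_of_ne hj]

theorem br_hloc_sum (ζ : ℂ) (a b : Fin 3) (f : Fin 3 → Fin 3 → ℂ) :
    ∑ c, ∑ d, hloc ζ (a, b) (c, d) * f c d =
      ((magneticNumber a * magneticNumber b : ℤ) : ℂ) * f a b +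
      ((if a.val < 2 ∧ 0 < b.val then ζ * f (a + 1) (b - 1) else 0) +
        (if 0 < a.val ∧ b.val < 2 then star ζ * f (a - 1) (b + 1) else 0)) := by
  fin_cases a <;> fin_cases b <;> simp [hloc, magneticNumber, Fin.sum_univ_three] <;> ring

end

end Crest.Agent.R347
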