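import Crest.Agent.R347.BaseChk
import Crest.Agent.R347.BaseRingAux

/-! Row 347: symmetries of the ring and its block decomposition. -/

set_option autoImplicit false

namespace Crest.Agent.R347
open Crest.MathPhysics.SpinChain Matrix Finset Chk

/-- raise the digit at `j`, lower the digit at `j'` -/
def hop {L : ℕ} (σ : Cfg L) (j j' : Fin L) : Cfg L :=
  Function.update (Function.update σ j (σ j + 1)) j' (σ j' - 1)

/-- action of the Hamiltonian, row by row -/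
theorem Hring_mulVec (L : ℕ) (hL : 3 ≤ L) (ζ : ℂ) (ψ : Cfg L → ℂ) (σ : Cfg L) :
    (Hring L ζ).mulVec ψ σ =
      ((∑ j, magneticNumber (σ j) * magneticNumber (σ (finRotate L j)) : ℤ) : ℂ) * ψ σ +
      ∑ j, ((if (σ j).val < 2 ∧ 0 < (σ (finRotate L j)).val then
          ζ * ψ (hop σ j (finRotate L j)) else 0) +
        (if 0 < (σ j).val ∧ (σ (finRotate L j)).val < 2 then
          star ζ * ψ (hop σ (finRotate L j) j) else 0)) := by
  rw [Hring, Matrix.sum_mulVec, Finset.sum_apply, Int.cast_sum, Finset.sum_mul,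
    ← Finset.sum_add_distrib]
  refine Finset.sum_congr rfl fun j _ => ?_
  have hjk := finRotate_ne (by omega : 2 ≤ L) j
  rw [tbond_eq_onBond _ _ _ hjk, br_onBond_mulVec _ _ _ hjk,
    br_hloc_sum ζ _ _ (fun c d => ψ (Function.update (Function.update σ j c) (finRotate L j) d))]
  simp only [Function.update_eq_self, hop]
  rw [Function.update_comm hjk.symm]

variable {L m k : ℕ} {P Q : Pos}

theorem br_kap_L (hL : 3 ≤ L) (k : ℕ) : (om L ^ (24 * k)) ^ L = 1 := by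
  rw [← pow_mul, show 24 * k * L = 24 * L * k by ring, br_om_mul (by omega)]

theorem br_w_T (hL : 3 ≤ L) (k : ℕ) (Q : Pos) : CovT (om L ^ (24 * k)) (Q.w L k) :=
  br_wvec_T (br_kap_L hL k) _ _

theorem br_w_R (hL : 3 ≤ L) (k : ℕ) (Q : Pos) : CovR (Q.w L k) :=
  br_wvec_R (br_kap_L hL k) (br_om_star (by omega) _) _ _

theorem br_uvec_self (hL : 3 ≤ L) (hQ : Q.Valid L m) (ha : actR L k Q.d = true) :
    uvec (om L ^ (24 * k)) (cfg L Q.c) (cfg L Q.c) = ((L / Q.d : ℕ) : ℂ) := by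
  obtain ⟨-, -, hd, hdL, hper, -, -⟩ := hQ
  have ha' : L ∣ k * Q.d := Nat.dvd_of_mod_eq_zero (Nat.eq_of_beq_eq_true ha)
  obtain ⟨e, he⟩ := ha'
  have h1 : ∀ t ∈ range L, (if tr^[t] (cfg L Q.c) = cfg L Q.c then (om L ^ (24 * k)) ^ t else 0) =
      if Q.d ∣ t then (1 : ℂ) else 0 := by
    intro t ht
    simp only [hper t (Finset.mem_range.1 ht)]
    split_ifs with h
    · obtain ⟨u, rfl⟩ := h
      rw [← pow_mul, show 24 * k * (Q.d * u) = 24 * (k * Q.d) * u by ring, he,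
        show 24 * (L * e) * u = 24 * L * (e * u) by ring, br_om_mul (by omega)]
    · rfl
  rw [uvec, Finset.sum_congr rfl h1, Finset.sum_boole, ← Nat.count_eq_card_filter_range]
  obtain ⟨n, hn⟩ := hdL
  congr 1
  conv_lhs => rw [hn]
  rw [hn, Nat.mul_div_cancel_left _ hd]
  have : ∀ n, Nat.count (fun t => Q.d ∣ t) (Q.d * n) = n := by
    intro n
    induction n with
    | zero => simp
    | succ n ih =>
      rw [Nat.mul_succ, Nat.count_add, ih]
      congr 1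
      obtain ⟨d, hd'⟩ : ∃ d, Q.d = d + 1 := ⟨Q.d - 1, by omega⟩
      simp only [Nat.dvd_add_right (dvd_mul_right Q.d n)]
      rw [hd', Nat.count_succ', if_pos (dvd_zero _), Nat.count_of_forall_not]
      intro t ht h
      have := Nat.le_of_dvd (Nat.succ_pos t) h
      omega
  exact this n

theorem br_w_self (hL : 3 ≤ L) (hQ : Q.Valid L m) (ha : actR L k Q.d = true) :
    Q.w L k (cfg L Q.c) = (Q.G L : ℂ) * Q.z L k := by
  have h1 := br_uvec_self hL hQ ha
  have hκ := br_kap_L hL k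
  have hs := br_om_star (by omega : 0 < L) (24 * k)
  have h2 : uvec (om L ^ (24 * k)) (rf (cfg L Q.c)) (cfg L Q.c) =
      star (uvec (om L ^ (24 * k)) (cfg L Q.c) (rf (cfg L Q.c))) := by
    rw [br_uvec_rf hκ hs, star_star]
  obtain ⟨-, -, -, -, -, -, h | h⟩ := hQ
  · obtain ⟨h3, h4, h5, h6⟩ := h
    have h7 : uvec (om L ^ (24 * k)) (cfg L Q.c) (rf (cfg L Q.c)) =
        (om L ^ (24 * k)) ^ Q.r * ((L / Q.d : ℕ) : ℂ) := by
      rw [← h6, CovT.iter (fun σ => br_uvec_tr hκ _ σ), h1]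
    have h8 : Q.z L k * (Q.z L k * (om L ^ (24 * k)) ^ Q.r) = 1 := by
      rw [Pos.z, h4, ← pow_mul, ← pow_add, ← pow_add]
      obtain ⟨u, hu⟩ : ∃ u, 2 * L - Q.r = u ∧ u + Q.r = 2 * L := ⟨_, rfl, by omega⟩
      rw [hu.1, show 6 * L * 0 + 12 * k * u + (6 * L * 0 + 12 * k * u + 24 * k * Q.r) =
        24 * k * (u + Q.r) by ring, hu.2, show 24 * k * (2 * L) = 24 * L * (2 * k) by ring,
        br_om_mul (by omega)]
    have h9 : star (Q.z L k * (om L ^ (24 * k)) ^ Q.r) * (Q.z L k * (om L ^ (24 * k)) ^ Q.r) = 1 := by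
      rw [Pos.z, ← pow_mul, ← pow_add]
      exact br_om_star (by omega) _
    have h10 : star (Q.z L k * (om L ^ (24 * k)) ^ Q.r) = Q.z L k := by
      have hne : Q.z L k * (om L ^ (24 * k)) ^ Q.r ≠ 0 := right_ne_zero_of_mul_eq_one h8
      exact mul_right_cancel₀ hne (h9.trans h8.symm)
    rw [Pos.w, wvec, h2, h1, h7, Pos.G, h3, star_mul', star_natCast, ← mul_assoc, ← star_mul', h10]
    push_cast
    ring
  · obtain ⟨h3, -, -, h6⟩ := h
    have h7 : uvec (om L ^ (24 * k)) (cfg L Q.c) (rf (cfg L Q.c)) = 0 :=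
      Finset.sum_eq_zero fun t ht => if_neg (h6 t (Finset.mem_range.1 ht))
    rw [Pos.w, wvec, h2, h1, h7, Pos.G, h3]
    simp [mul_comm]

/-- value of a basis vector on its own translation orbit -/
theorem w_orb (hL : 3 ≤ L) (hQ : Q.Valid L m) (ha : actR L k Q.d = true) (t : ℕ) :
    Q.w L k (tr^[t] (cfg L Q.c)) = (Q.G L : ℂ) * Q.z L k * om L ^ (24 * k * t) := by
  rw [(br_w_T hL k Q).iter, br_w_self hL hQ ha, ← pow_mul, mul_comm]

/-- value on the reflected orbit -/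
theorem w_refl (hL : 3 ≤ L) (hQ : Q.Valid L m) (ha : actR L k Q.d = true) (hs : Q.slf = 0)
    (t : ℕ) :
    Q.w L k (tr^[t] (rf (cfg L Q.c))) = (Q.G L : ℂ) * star (Q.z L k) * om L ^ (24 * k * t) := by
  have _ := hs
  rw [(br_w_T hL k Q).iter, br_w_R hL k Q, br_w_self hL hQ ha, ← pow_mul, mul_comm, star_mul',
    star_natCast]

/-- a basis vector vanishes on the dihedral orbit of another canonical code -/
theorem w_other (hL : 3 ≤ L) (hP : P.Valid L m) (hQ : Q.Valid L m) (hc : P.c ≠ Q.c) (t : ℕ) :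
    Q.w L k (tr^[t] (cfg L P.c)) = 0 ∧ Q.w L k (tr^[t] (rf (cfg L P.c))) = 0 := by
  have h0 : Q.w L k (cfg L P.c) = 0 := by
    have h1 : uvec (om L ^ (24 * k)) (cfg L Q.c) (cfg L P.c) = 0 := by
      refine Finset.sum_eq_zero fun u hu => if_neg fun h => hc (le_antisymm ?_ ?_)
      · have hu' := Finset.mem_range.1 hu
        refine hP.2.2.2.2.2.1 ((L - u) % L) (Nat.mod_lt _ (by omega)) Q.c hQ.1 (Or.inl ?_)
        rw [br_tr_mod, ← h, ← Function.iterate_add_apply, show L - u + u = L by omega, br_tr_L]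
      · exact hQ.2.2.2.2.2.1 u (Finset.mem_range.1 hu) P.c hP.1 (Or.inl h.symm)
    have h2 : uvec (om L ^ (24 * k)) (rf (cfg L Q.c)) (cfg L P.c) = 0 := by
      refine Finset.sum_eq_zero fun u hu => if_neg fun h => hc (le_antisymm ?_ ?_)
      · refine hP.2.2.2.2.2.1 u (Finset.mem_range.1 hu) Q.c hQ.1 (Or.inr ?_)
        rw [← h, br_iter_rf, br_rf_rf]
      · exact hQ.2.2.2.2.2.1 u (Finset.mem_range.1 hu) P.c hP.1 (Or.inr h.symm)
    rw [Pos.w, wvec, h1, h2]
    simp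
  rw [(br_w_T hL k Q).iter, (br_w_T hL k Q).iter, br_w_R hL k Q, h0]
  simp

/-- valid positions with the same code have the same period and type -/
theorem valid_same (hL : 3 ≤ L) (hP : P.Valid L m) (hQ : Q.Valid L m) (hc : P.c = Q.c) :
    P.d = Q.d ∧ P.slf = Q.slf := by
  have key : ∀ {P Q : Pos}, P.Valid L m → Q.Valid L m → P.c = Q.c → Q.d ∣ P.d := by
    intro P Q hP hQ hc
    rcases (Nat.le_of_dvd (by omega) hP.2.2.2.1).lt_or_eq with h | h
    · rw [← hQ.2.2.2.2.1 _ h, ← hc, hP.2.2.2.2.1 _ h]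
    · rw [h]; exact hQ.2.2.2.1
  refine ⟨Nat.dvd_antisymm (key hQ hP hc.symm) (key hP hQ hc), ?_⟩
  rcases hP.2.2.2.2.2.2 with h | h <;> rcases hQ.2.2.2.2.2.2 with h' | h'
  · rw [h.1, h'.1]
  · exact absurd (hc ▸ h.2.2.2) (h'.2.2.2 _ h.2.2.1)
  · exact absurd (hc ▸ h'.2.2.2) (h.2.2.2 _ h'.2.2.1)
  · rw [h.1, h'.1]

/-- Gram matrix -/
theorem w_gram (hL : 3 ≤ L) (hP : P.Valid L m) (hQ : Q.Valid L m) (ha : actR L k Q.d = true)
    (h : P = Q ∨ P.c ≠ Q.c ∨ P.v ≠ Q.v) :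
    (star (P.z L k) * Q.w L k (cfg L P.c)).re = if P.c = Q.c ∧ P.v = Q.v then (P.G L : ℝ) else 0 := by
  by_cases hc : P.c = Q.c
  · by_cases hv : P.v = Q.v
    · obtain rfl : P = Q := by tauto
      rw [if_pos ⟨rfl, rfl⟩, br_w_self hL hP ha, mul_left_comm, Pos.z, br_om_star (by omega)]
      simp
    · rw [if_neg (fun h => hv h.2), hc, br_w_self hL hQ ha]
      have hs := (valid_same hL hP hQ hc).2
      have hz : ∀ X : Pos, X.r = 0 → X.z L k = Complex.I ^ X.v := by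
        intro X hX
        rw [Pos.z, hX, pow_add, pow_mul _ (6 * L), br_om_I (by omega),
          show 12 * k * (2 * L - 0) = 24 * L * k by rw [Nat.sub_zero]; ring,
          br_om_mul (by omega), mul_one]
      rcases hP.2.2.2.2.2.2 with h1 | h1 <;> rcases hQ.2.2.2.2.2.2 with h2 | h2
      · exact absurd (h1.2.1.trans h2.2.1.symm) hv
      · omega
      · omega
      · rw [hz P h1.2.2.1, hz Q h2.2.2.1]
        have h3 := h1.2.1
        have h4 := h2.2.1
        have : (P.v = 0 ∧ Q.v = 1) ∨ (P.v = 1 ∧ Q.v = 0) := by omega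
        rcases this with ⟨h5, h6⟩ | ⟨h5, h6⟩ <;> rw [h5, h6] <;> simp
  · have := (w_other (k := k) hL hP hQ hc 0).1
    rw [Function.iterate_zero, id] at this
    rw [if_neg (fun h => hc h.1), this]
    simp

theorem br_w_dot (hL : 3 ≤ L) {A : Matrix (Cfg L) (Cfg L) ℂ} (hA : SymOp A) (k : ℕ) (P Q : Pos) :
    star (P.w L k) ⬝ᵥ A *ᵥ (Q.w L k) =
      ((2 * L * (star (P.z L k) * (A *ᵥ (Q.w L k)) (cfg L P.c)).re : ℝ) : ℂ) :=
  br_wvec_dot (br_om_star (by omega) _) _ _ (hA.covT (br_w_T hL k Q)) (hA.covR (br_w_R hL k Q))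

theorem Chat_symm (hL : 3 ≤ L) (a : ℕ) (P Q : Pos) : Chat L a k P Q = Chat L a k Q P := by
  have hA := br_sym_H (by omega : 2 ≤ L) (zeta L a)
  have h1 := br_w_dot hL hA k P Q
  have h2 := br_w_dot hL hA k Q P
  have hH := Hring_herm L (by omega) (zeta L a)
  have h3 : star (star (P.w L k) ⬝ᵥ Hring L (zeta L a) *ᵥ (Q.w L k)) =
      star (Q.w L k) ⬝ᵥ Hring L (zeta L a) *ᵥ (P.w L k) := by
    rw [← star_dotProduct_star, star_star, star_mulVec, hH.eq, dotProduct_mulVec]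
  rw [h1, h2, Complex.star_def, Complex.conj_ofReal, Complex.ofReal_inj] at h3
  have hL' : (2 * L : ℝ) ≠ 0 := by positivity
  exact mul_left_cancel₀ hL' h3

theorem br_ptr_blocks {κ B : Type} [Fintype κ] [DecidableEq κ] [Fintype B] [DecidableEq B]
    (ι : B → Type) [∀ b, Fintype (ι b)] [∀ b, DecidableEq (ι b)] (H : Matrix κ κ ℂ)
    (hH : H.IsHermitian) (V : ∀ b, Matrix κ (ι b) ℂ) (hV : ∀ b, (V b)ᴴ * V b = 1)
    (hV' : ∀ b b', b ≠ b' → (V b)ᴴ * V b' = 0) (hH' : ∀ b b', b ≠ b' → (V b)ᴴ * H * V b' = 0)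
    (hd : ∑ b, Fintype.card (ι b) = Fintype.card κ) (β : ℝ) :
    ptr H β = ∑ b, ptr ((V b)ᴴ * H * V b) β := by
  let e := fun b => (Fintype.equivFin (ι b)).symm
  have h1 : ∀ (A : Matrix κ κ ℂ) b b', ((V b).submatrix id (e b))ᴴ * A * (V b').submatrix id (e b') =
      ((V b)ᴴ * A * V b').submatrix (e b) (e b') := fun A b b' => rfl
  have h2 : ∀ b b', ((V b).submatrix id (e b))ᴴ * (V b').submatrix id (e b') =
      ((V b)ᴴ * V b').submatrix (e b) (e b') := fun b b' => rfl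
  rw [ptr_blocks (fun b => Fintype.card (ι b)) H hH (fun b => (V b).submatrix id (e b))
    (fun b => by rw [h2, hV, submatrix_one_equiv]) (fun b b' h => by rw [h2, hV' b b' h]; rfl)
    (fun b b' h => by rw [h1, hH' b b' h]; rfl) hd β]
  refine Finset.sum_congr rfl fun b _ => ?_
  rw [h1, ptr_submatrix _ (isHermitian_conjTranspose_mul_mul _ hH)]

theorem br_entry {κ ι ι' : Type} [Fintype κ] (V : Matrix κ ι ℂ) (A : Matrix κ κ ℂ)
    (V' : Matrix κ ι' ℂ) (p : ι) (q : ι') :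
    (Vᴴ * A * V') p q = star (fun σ => V σ p) ⬝ᵥ A *ᵥ (fun σ => V' σ q) := by
  rw [Matrix.mul_assoc]
  rfl

theorem br_cnt (R : RT) (act : ℕ → Bool) :
    Fintype.card (Idx R.n fun p => act (R.row p).d) = R.cnt act := by
  rw [Fintype.card_subtype, Finset.card_filter, RT.cnt, ← List.countP_eq_length_filter]
  unfold RT.n RT.row
  generalize R.rows = l
  induction l with
  | nil => simp
  | cons r l ih =>
    simp only [List.length_cons, Fin.sum_univ_succ, List.countP_cons, Fin.val_zero, Fin.val_succ,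
      List.getD_cons_zero, List.getD_cons_succ, ih]
    ring

/-- absolute value of the magnetisation of a sector -/
def brM {L : ℕ} : Fin (L + 1) ⊕ Fin L → ℕ := Sum.elim (fun m => m.val) (fun m => m.val + 1)
/-- magnetisation of a sector -/
def brS {L : ℕ} : Fin (L + 1) ⊕ Fin L → ℤ :=
  Sum.elim (fun m => (m.val : ℤ)) (fun m => -((m.val + 1 : ℕ) : ℤ))
/-- the symmetry mapping a sector to the one with non-negative magnetisation -/
def brE {L : ℕ} : Fin (L + 1) ⊕ Fin L → Cfg L ≃ Cfg L :=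
  Sum.elim (fun _ => Equiv.refl _) (fun _ => (brRfE L).trans (brFlE L))

theorem brM_le (x : Fin (L + 1) ⊕ Fin L) : brM x ≤ L := by
  rcases x with x | x <;> have := x.isLt <;> simp only [brM, Sum.elim_inl, Sum.elim_inr] <;> omega

theorem brS_inj : Function.Injective (brS : Fin (L + 1) ⊕ Fin L → ℤ) := by
  rintro (x | x) (y | y) h <;> simp only [brS, Sum.elim_inl, Sum.elim_inr] at h
  · congr 1; ext; omega
  · omega
  · omega
  · congr 1; ext; omega

theorem brE_mag (x : Fin (L + 1) ⊕ Fin L) (σ : Cfg L) (h : mag (brE x σ) = brM x) :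
    mag σ = brS x := by
  rcases x with x | x
  · exact h
  · have h' : mag (fl (rf σ)) = ((x.val + 1 : ℕ) : ℤ) := h
    rw [br_mag_fl, br_mag_rf] at h'
    change mag σ = -((x.val + 1 : ℕ) : ℤ)
    omega

theorem brE_sym {A : Matrix (Cfg L) (Cfg L) ℂ} (hA : SymOp A) (x : Fin (L + 1) ⊕ Fin L)
    (σ τ : Cfg L) : A (brE x σ) (brE x τ) = A σ τ := by
  rcases x with x | x
  · rfl
  · change A (fl (rf σ)) (fl (rf τ)) = _
    rw [hA.f, hA.r, star_star]

theorem br_sum_M {M : Type} [Semiring M] (g : ℕ → M) :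
    ∑ x : Fin (L + 1) ⊕ Fin L, g (brM x) = ∑ m ∈ range (L + 1), (if m = 0 then 1 else 2) * g m := by
  rw [Fintype.sum_sum_type]
  simp only [brM, Sum.elim_inl, Sum.elim_inr]
  rw [Fin.sum_univ_eq_sum_range g, Fin.sum_univ_eq_sum_range (fun m => g (m + 1)),
    Finset.sum_range_succ', Finset.sum_range_succ']
  simp only [Nat.succ_ne_zero, if_false, if_true, two_mul, one_mul, Finset.sum_add_distrib]
  abel

theorem br_dot_E {A : Matrix (Cfg L) (Cfg L) ℂ} (e : Cfg L ≃ Cfg L)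
    (he : ∀ σ τ, A (e σ) (e τ) = A σ τ) (φ ψ : Cfg L → ℂ) :
    star (fun σ => φ (e σ)) ⬝ᵥ A *ᵥ (fun σ => ψ (e σ)) = star φ ⬝ᵥ A *ᵥ ψ := by
  simp only [dotProduct, mulVec, Pi.star_apply]
  rw [← Equiv.sum_comp e (fun σ => star (φ σ) * ∑ τ, A σ τ * ψ τ)]
  refine Finset.sum_congr rfl fun σ _ => ?_
  rw [← Equiv.sum_comp e (fun τ => A (e σ) τ * ψ τ)]
  simp only [he]

theorem br_dot_mag {A : Matrix (Cfg L) (Cfg L) ℂ} (hA : SymOp A) {φ ψ : Cfg L → ℂ} {a b : ℤ}
    (hab : a ≠ b) (h : ∀ σ, φ σ ≠ 0 → mag σ = a) (h' : ∀ σ, ψ σ ≠ 0 → mag σ = b) :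
    star φ ⬝ᵥ A *ᵥ ψ = 0 := by
  simp only [dotProduct, mulVec, Pi.star_apply, Finset.mul_sum]
  refine Finset.sum_eq_zero fun σ _ => Finset.sum_eq_zero fun τ _ => ?_
  by_contra h0
  have h1 := mul_ne_zero_iff.1 h0
  have h2 := mul_ne_zero_iff.1 h1.2
  exact hab ((h σ (star_ne_zero.1 h1.1)).symm.trans ((hA.m σ τ h2.1).trans (h' τ h2.2)))

/-- normalisation of the basis vectors -/
noncomputable def brC (L G : ℕ) : ℂ := (((Real.sqrt (2 * L) * Real.sqrt G)⁻¹ : ℝ) : ℂ)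

/-- the isometry of a block -/
noncomputable def brV (L : ℕ) (PT : ℕ → ℕ) (R : ℕ → RT) (b : (Fin (L + 1) ⊕ Fin L) × Fin L) :
    Matrix (Cfg L) (Idx (R (brM b.1)).n fun p => actR L b.2 ((R (brM b.1)).row p).d) ℂ :=
  Matrix.of fun σ p => (brC L ((R (brM b.1)).row p.1.val).G •
    (posAt (PT (brM b.1)) p.1.val).w L b.2) (brE b.1 σ)

theorem br_V_off (hL : 3 ≤ L) {sl : List ℕ} {PT : ℕ → ℕ} {R : ℕ → RT}
    (h : ∀ m, m ≤ L → RingTab L m sl (PT m) (R m)) {A : Matrix (Cfg L) (Cfg L) ℂ} (hA : SymOp A)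
    (b b' : (Fin (L + 1) ⊕ Fin L) × Fin L) (hb : b ≠ b') :
    (brV L PT R b)ᴴ * A * brV L PT R b' = 0 := by
  ext p q
  rw [br_entry, Matrix.zero_apply]
  obtain ⟨x, k⟩ := b
  obtain ⟨x', k'⟩ := b'
  by_cases hx : x = x'
  · subst hx
    have hk : k ≠ k' := fun h => hb (by rw [h])
    simp only [brV, of_apply]
    rw [br_dot_E _ (brE_sym hA x), star_smul, smul_dotProduct, mulVec_smul, dotProduct_smul,
      br_dot_T _ (br_w_T hL k _) (hA.covT (br_w_T hL k' _)), smul_zero, smul_zero]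
    intro h1
    have h2 := br_om_star (by omega : 0 < L) (24 * k)
    have h3 : om L ^ (24 * k'.val) = om L ^ (24 * k.val) :=
      mul_left_cancel₀ (left_ne_zero_of_mul_eq_one h2) (h1.trans h2.symm)
    have h4 := (br_om_prim (by omega : 0 < L)).pow_inj (by have := k'.isLt; omega)
      (by have := k.isLt; omega) h3
    exact hk (Fin.ext (by omega))
  · have key : ∀ (b : (Fin (L + 1) ⊕ Fin L) × Fin L) p σ, brV L PT R b σ p ≠ 0 →
        mag σ = brS b.1 := by
      intro b p σ h0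
      apply brE_mag
      have h1 : (posAt (PT (brM b.1)) p.1.val).w L b.2 (brE b.1 σ) ≠ 0 :=
        (mul_ne_zero_iff.1 h0).2
      rw [br_wvec_mag h1]
      exact ((h _ (brM_le b.1)).1 _ p.1.isLt).1.2.1
    exact br_dot_mag hA (brS_inj.ne hx) (key (x, k) p) (key (x', k') q)

theorem br_V_on (hL : 3 ≤ L) (PT : ℕ → ℕ) (R : ℕ → RT) {A : Matrix (Cfg L) (Cfg L) ℂ}
    (hA : SymOp A) (b : (Fin (L + 1) ⊕ Fin L) × Fin L) :
    (brV L PT R b)ᴴ * A * brV L PT R b =
      pencil _ _ (fun p => ((R (brM b.1)).row p).G) fun p q =>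
        (star ((posAt (PT (brM b.1)) p).z L b.2) * (A *ᵥ (posAt (PT (brM b.1)) q).w L b.2)
          (cfg L (posAt (PT (brM b.1)) p).c)).re := by
  ext p q
  rw [br_entry]
  simp only [brV, of_apply, pencil]
  rw [br_dot_E _ (brE_sym hA b.1), star_smul, smul_dotProduct, mulVec_smul, dotProduct_smul,
    br_w_dot hL hA, brC, brC, Complex.star_def, Complex.conj_ofReal, smul_eq_mul, smul_eq_mul,
    ← Complex.ofReal_mul, ← Complex.ofReal_mul]
  congr 1
  have h1 : Real.sqrt (2 * L) * Real.sqrt (2 * L) = 2 * L := Real.mul_self_sqrt (by positivity)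
  have h2 : Real.sqrt (2 * L) ≠ 0 := by
    have : (0 : ℝ) < L := by exact_mod_cast (by omega : 0 < L)
    positivity
  generalize Real.sqrt (2 * L) = s at h1 h2
  rw [← h1, mul_inv, mul_inv, div_eq_mul_inv, mul_inv]
  field_simp

theorem br_V_one (hL : 3 ≤ L) {sl : List ℕ} {PT : ℕ → ℕ} {R : ℕ → RT}
    (h : ∀ m, m ≤ L → RingTab L m sl (PT m) (R m)) (b : (Fin (L + 1) ⊕ Fin L) × Fin L) :
    (brV L PT R b)ᴴ * brV L PT R b = 1 := by
  rw [← Matrix.mul_one (brV L PT R b)ᴴ, br_V_on hL PT R br_sym_one]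
  obtain ⟨h1, h2, -⟩ := h _ (brM_le b.1)
  ext p q
  simp only [pencil, of_apply, one_mulVec]
  obtain ⟨hp, hpd, hpG⟩ := h1 _ p.1.isLt
  obtain ⟨hq, hqd, hqG⟩ := h1 _ q.1.isLt
  have ha : actR L b.2 (posAt (PT (brM b.1)) q.1.val).d = true := hqd ▸ q.2
  by_cases hpq : p = q
  · subst hpq
    rw [w_gram hL hp hp ha (Or.inl rfl), if_pos ⟨rfl, rfl⟩, one_apply_eq, hpG,
      Real.mul_self_sqrt (Nat.cast_nonneg _), div_self, Complex.ofReal_one]
    have h3 : 0 < L / (posAt (PT (brM b.1)) p.1.val).d :=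
      Nat.div_pos (Nat.le_of_dvd (by omega) hp.2.2.2.1) hp.2.2.1
    rw [Pos.G]
    positivity
  · have h3 : ¬((posAt (PT (brM b.1)) p.1.val).c = (posAt (PT (brM b.1)) q.1.val).c ∧
        (posAt (PT (brM b.1)) p.1.val).v = (posAt (PT (brM b.1)) q.1.val).v) := fun h3 =>
      hpq (Subtype.ext (Fin.ext (h2 _ _ p.1.isLt q.1.isLt h3.1 h3.2)))
    rw [w_gram hL hp hq ha (Or.inr (not_and_or.1 h3)), if_neg h3, one_apply_ne hpq]
    simp

theorem ring_blocks (L a : ℕ) (hL : 3 ≤ L) (sl : List ℕ) (PT : ℕ → ℕ) (R : ℕ → RT)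
    (h : ∀ m, m ≤ L → RingTab L m sl (PT m) (R m))
    (hc : ∑ m ∈ range (L + 1), ∑ k ∈ range L, (if m = 0 then 1 else 2) * (R m).cnt (actR L k) =
      3 ^ L) (β : ℝ) :
    Zr a L β = ∑ m ∈ range (L + 1), ∑ k ∈ range L,
      (if m = 0 then 1 else 2 : ℝ) * ptr (Kring L a k (PT m) (R m)) β := by
  have hA := br_sym_H (by omega : 2 ≤ L) (zeta L a)
  rw [Zr, br_ptr_blocks _ _ (Hring_herm L (by omega) _) (brV L PT R) (br_V_one hL h)
    (fun b b' hb => by
      rw [← Matrix.mul_one (brV L PT R b)ᴴ]; exact br_V_off hL h br_sym_one b b' hb)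
    (br_V_off hL h hA)]
  · simp only [← Finset.mul_sum]
    rw [← br_sum_M (fun m => ∑ k ∈ range L, ptr (Kring L a k (PT m) (R m)) β),
      Fintype.sum_prod_type]
    refine Finset.sum_congr rfl fun x _ => ?_
    rw [← Fin.sum_univ_eq_sum_range (fun k => ptr (Kring L a k (PT (brM x)) (R (brM x))) β)]
    refine Finset.sum_congr rfl fun k _ => ?_
    rw [br_V_on hL PT R hA]
    rfl
  · simp only [br_cnt, Fintype.card_pi, Fintype.card_fin, Finset.prod_const, Finset.card_univ]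
    simp only [← Finset.mul_sum] at hc
    rw [← hc, ← br_sum_M (fun m => ∑ k ∈ range L, (R m).cnt (actR L k)), Fintype.sum_prod_type]
    refine Finset.sum_congr rfl fun x _ => ?_
    rw [← Fin.sum_univ_eq_sum_range (fun k => (R (brM x)).cnt (actR L k))]

end Crest.Agent.R347
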