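import Crest.Agent.R347.BaseRingTabAux3
import Crest.Agent.R347.BaseTabR

/-! Row 347: verification of the ring tables. -/

set_option autoImplicit false
set_option Elab.async false

namespace Crest.Agent.R347
open Crest.MathPhysics.SpinChain Matrix Finset Chk

namespace RTab

theorem tab6_0 : tabC 6 0 (slR 6) (PTr 6 0) (nR 6 0) (RTr 6 0) = true := by
  decide +kernel
theorem tab6_1 : tabC 6 1 (slR 6) (PTr 6 1) (nR 6 1) (RTr 6 1) = true := by
  decide +kernel
theorem tab6_2 : tabC 6 2 (slR 6) (PTr 6 2) (nR 6 2) (RTr 6 2) = true := by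
  decide +kernel
theorem tab6_3 : tabC 6 3 (slR 6) (PTr 6 3) (nR 6 3) (RTr 6 3) = true := by
  decide +kernel
theorem tab6_4 : tabC 6 4 (slR 6) (PTr 6 4) (nR 6 4) (RTr 6 4) = true := by
  decide +kernel
theorem tab6_5 : tabC 6 5 (slR 6) (PTr 6 5) (nR 6 5) (RTr 6 5) = true := by
  decide +kernel
theorem tab6_6 : tabC 6 6 (slR 6) (PTr 6 6) (nR 6 6) (RTr 6 6) = true := by
  decide +kernel
theorem tab7_0 : tabC 7 0 (slR 7) (PTr 7 0) (nR 7 0) (RTr 7 0) = true := by
  decide +kernel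
theorem tab7_1 : tabC 7 1 (slR 7) (PTr 7 1) (nR 7 1) (RTr 7 1) = true := by
  decide +kernel
theorem tab7_2 : tabC 7 2 (slR 7) (PTr 7 2) (nR 7 2) (RTr 7 2) = true := by
  decide +kernel
theorem tab7_3 : tabC 7 3 (slR 7) (PTr 7 3) (nR 7 3) (RTr 7 3) = true := by
  decide +kernel
theorem tab7_4 : tabC 7 4 (slR 7) (PTr 7 4) (nR 7 4) (RTr 7 4) = true := by
  decide +kernel
theorem tab7_5 : tabC 7 5 (slR 7) (PTr 7 5) (nR 7 5) (RTr 7 5) = true := by
  decide +kernel
theorem tab7_6 : tabC 7 6 (slR 7) (PTr 7 6) (nR 7 6) (RTr 7 6) = true := by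
  decide +kernel
theorem tab7_7 : tabC 7 7 (slR 7) (PTr 7 7) (nR 7 7) (RTr 7 7) = true := by
  decide +kernel
theorem tab8_0 : tabC 8 0 (slR 8) (PTr 8 0) (nR 8 0) (RTr 8 0) = true := by
  decide +kernel
theorem tab8_1 : tabC 8 1 (slR 8) (PTr 8 1) (nR 8 1) (RTr 8 1) = true := by
  decide +kernel
theorem tab8_2 : tabC 8 2 (slR 8) (PTr 8 2) (nR 8 2) (RTr 8 2) = true := by
  decide +kernel
theorem tab8_3 : tabC 8 3 (slR 8) (PTr 8 3) (nR 8 3) (RTr 8 3) = true := by
  decide +kernel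
theorem tab8_4 : tabC 8 4 (slR 8) (PTr 8 4) (nR 8 4) (RTr 8 4) = true := by
  decide +kernel
theorem tab8_5 : tabC 8 5 (slR 8) (PTr 8 5) (nR 8 5) (RTr 8 5) = true := by
  decide +kernel
theorem tab8_6 : tabC 8 6 (slR 8) (PTr 8 6) (nR 8 6) (RTr 8 6) = true := by
  decide +kernel
theorem tab8_7 : tabC 8 7 (slR 8) (PTr 8 7) (nR 8 7) (RTr 8 7) = true := by
  decide +kernel
theorem tab8_8 : tabC 8 8 (slR 8) (PTr 8 8) (nR 8 8) (RTr 8 8) = true := by
  decide +kernel
theorem tab9_0 : tabC 9 0 (slR 9) (PTr 9 0) (nR 9 0) (RTr 9 0) = true := by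
  decide +kernel
theorem tab9_1 : tabC 9 1 (slR 9) (PTr 9 1) (nR 9 1) (RTr 9 1) = true := by
  decide +kernel
theorem tab9_2 : tabC 9 2 (slR 9) (PTr 9 2) (nR 9 2) (RTr 9 2) = true := by
  decide +kernel
theorem tab9_3 : tabC 9 3 (slR 9) (PTr 9 3) (nR 9 3) (RTr 9 3) = true := by
  decide +kernel
theorem tab9_4 : tabC 9 4 (slR 9) (PTr 9 4) (nR 9 4) (RTr 9 4) = true := by
  decide +kernel
theorem tab9_5 : tabC 9 5 (slR 9) (PTr 9 5) (nR 9 5) (RTr 9 5) = true := by
  decide +kernel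
theorem tab9_6 : tabC 9 6 (slR 9) (PTr 9 6) (nR 9 6) (RTr 9 6) = true := by
  decide +kernel
theorem tab9_7 : tabC 9 7 (slR 9) (PTr 9 7) (nR 9 7) (RTr 9 7) = true := by
  decide +kernel
theorem tab9_8 : tabC 9 8 (slR 9) (PTr 9 8) (nR 9 8) (RTr 9 8) = true := by
  decide +kernel
theorem tab9_9 : tabC 9 9 (slR 9) (PTr 9 9) (nR 9 9) (RTr 9 9) = true := by
  decide +kernel
theorem tab10_0 : tabC 10 0 (slR 10) (PTr 10 0) (nR 10 0) (RTr 10 0) = true := by
  decide +kernel
theorem tab10_1 : tabC 10 1 (slR 10) (PTr 10 1) (nR 10 1) (RTr 10 1) = true := by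
  decide +kernel
theorem tab10_2 : tabC 10 2 (slR 10) (PTr 10 2) (nR 10 2) (RTr 10 2) = true := by
  decide +kernel
theorem tab10_3 : tabC 10 3 (slR 10) (PTr 10 3) (nR 10 3) (RTr 10 3) = true := by
  decide +kernel
theorem tab10_4 : tabC 10 4 (slR 10) (PTr 10 4) (nR 10 4) (RTr 10 4) = true := by
  decide +kernel
theorem tab10_5 : tabC 10 5 (slR 10) (PTr 10 5) (nR 10 5) (RTr 10 5) = true := by
  decide +kernel
theorem tab10_6 : tabC 10 6 (slR 10) (PTr 10 6) (nR 10 6) (RTr 10 6) = true := by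
  decide +kernel
theorem tab10_7 : tabC 10 7 (slR 10) (PTr 10 7) (nR 10 7) (RTr 10 7) = true := by
  decide +kernel
theorem tab10_8 : tabC 10 8 (slR 10) (PTr 10 8) (nR 10 8) (RTr 10 8) = true := by
  decide +kernel
theorem tab10_9 : tabC 10 9 (slR 10) (PTr 10 9) (nR 10 9) (RTr 10 9) = true := by
  decide +kernel
theorem tab10_10 : tabC 10 10 (slR 10) (PTr 10 10) (nR 10 10) (RTr 10 10) = true := by
  decide +kernel
theorem str6_0 :
    structOK (RTr 6 0) (nR 6 0) (hiR 6 0) (32 * 6 * (slR 6).length) = true := by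
  decide +kernel
theorem str6_1 :
    structOK (RTr 6 1) (nR 6 1) (hiR 6 1) (32 * 6 * (slR 6).length) = true := by
  decide +kernel
theorem str6_2 :
    structOK (RTr 6 2) (nR 6 2) (hiR 6 2) (32 * 6 * (slR 6).length) = true := by
  decide +kernel
theorem str6_3 :
    structOK (RTr 6 3) (nR 6 3) (hiR 6 3) (32 * 6 * (slR 6).length) = true := by
  decide +kernel
theorem str6_4 :
    structOK (RTr 6 4) (nR 6 4) (hiR 6 4) (32 * 6 * (slR 6).length) = true := by
  decide +kernel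
theorem str6_5 :
    structOK (RTr 6 5) (nR 6 5) (hiR 6 5) (32 * 6 * (slR 6).length) = true := by
  decide +kernel
theorem str6_6 :
    structOK (RTr 6 6) (nR 6 6) (hiR 6 6) (32 * 6 * (slR 6).length) = true := by
  decide +kernel
theorem str7_0 :
    structOK (RTr 7 0) (nR 7 0) (hiR 7 0) (32 * 7 * (slR 7).length) = true := by
  decide +kernel
theorem str7_1 :
    structOK (RTr 7 1) (nR 7 1) (hiR 7 1) (32 * 7 * (slR 7).length) = true := by
  decide +kernel
theorem str7_2 :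
    structOK (RTr 7 2) (nR 7 2) (hiR 7 2) (32 * 7 * (slR 7).length) = true := by
  decide +kernel
theorem str7_3 :
    structOK (RTr 7 3) (nR 7 3) (hiR 7 3) (32 * 7 * (slR 7).length) = true := by
  decide +kernel
theorem str7_4 :
    structOK (RTr 7 4) (nR 7 4) (hiR 7 4) (32 * 7 * (slR 7).length) = true := by
  decide +kernel
theorem str7_5 :
    structOK (RTr 7 5) (nR 7 5) (hiR 7 5) (32 * 7 * (slR 7).length) = true := by
  decide +kernel
theorem str7_6 :
    structOK (RTr 7 6) (nR 7 6) (hiR 7 6) (32 * 7 * (slR 7).length) = true := by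
  decide +kernel
theorem str7_7 :
    structOK (RTr 7 7) (nR 7 7) (hiR 7 7) (32 * 7 * (slR 7).length) = true := by
  decide +kernel
theorem str8_0 :
    structOK (RTr 8 0) (nR 8 0) (hiR 8 0) (32 * 8 * (slR 8).length) = true := by
  decide +kernel
theorem str8_1 :
    structOK (RTr 8 1) (nR 8 1) (hiR 8 1) (32 * 8 * (slR 8).length) = true := by
  decide +kernel
theorem str8_2 :
    structOK (RTr 8 2) (nR 8 2) (hiR 8 2) (32 * 8 * (slR 8).length) = true := by
  decide +kernel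
theorem str8_3 :
    structOK (RTr 8 3) (nR 8 3) (hiR 8 3) (32 * 8 * (slR 8).length) = true := by
  decide +kernel
theorem str8_4 :
    structOK (RTr 8 4) (nR 8 4) (hiR 8 4) (32 * 8 * (slR 8).length) = true := by
  decide +kernel
theorem str8_5 :
    structOK (RTr 8 5) (nR 8 5) (hiR 8 5) (32 * 8 * (slR 8).length) = true := by
  decide +kernel
theorem str8_6 :
    structOK (RTr 8 6) (nR 8 6) (hiR 8 6) (32 * 8 * (slR 8).length) = true := by
  decide +kernel
theorem str8_7 :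
    structOK (RTr 8 7) (nR 8 7) (hiR 8 7) (32 * 8 * (slR 8).length) = true := by
  decide +kernel
theorem str8_8 :
    structOK (RTr 8 8) (nR 8 8) (hiR 8 8) (32 * 8 * (slR 8).length) = true := by
  decide +kernel
theorem str9_0 :
    structOK (RTr 9 0) (nR 9 0) (hiR 9 0) (32 * 9 * (slR 9).length) = true := by
  decide +kernel
theorem str9_1 :
    structOK (RTr 9 1) (nR 9 1) (hiR 9 1) (32 * 9 * (slR 9).length) = true := by
  decide +kernel
theorem str9_2 :
    structOK (RTr 9 2) (nR 9 2) (hiR 9 2) (32 * 9 * (slR 9).length) = true := by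
  decide +kernel
theorem str9_3 :
    structOK (RTr 9 3) (nR 9 3) (hiR 9 3) (32 * 9 * (slR 9).length) = true := by
  decide +kernel
theorem str9_4 :
    structOK (RTr 9 4) (nR 9 4) (hiR 9 4) (32 * 9 * (slR 9).length) = true := by
  decide +kernel
theorem str9_5 :
    structOK (RTr 9 5) (nR 9 5) (hiR 9 5) (32 * 9 * (slR 9).length) = true := by
  decide +kernel
theorem str9_6 :
    structOK (RTr 9 6) (nR 9 6) (hiR 9 6) (32 * 9 * (slR 9).length) = true := by
  decide +kernel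
theorem str9_7 :
    structOK (RTr 9 7) (nR 9 7) (hiR 9 7) (32 * 9 * (slR 9).length) = true := by
  decide +kernel
theorem str9_8 :
    structOK (RTr 9 8) (nR 9 8) (hiR 9 8) (32 * 9 * (slR 9).length) = true := by
  decide +kernel
theorem str9_9 :
    structOK (RTr 9 9) (nR 9 9) (hiR 9 9) (32 * 9 * (slR 9).length) = true := by
  decide +kernel
theorem str10_0 :
    structOK (RTr 10 0) (nR 10 0) (hiR 10 0) (32 * 10 * (slR 10).length) = true := by
  decide +kernel
theorem str10_1 :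
    structOK (RTr 10 1) (nR 10 1) (hiR 10 1) (32 * 10 * (slR 10).length) = true := by
  decide +kernel
theorem str10_2 :
    structOK (RTr 10 2) (nR 10 2) (hiR 10 2) (32 * 10 * (slR 10).length) = true := by
  decide +kernel
theorem str10_3 :
    structOK (RTr 10 3) (nR 10 3) (hiR 10 3) (32 * 10 * (slR 10).length) = true := by
  decide +kernel
theorem str10_4 :
    structOK (RTr 10 4) (nR 10 4) (hiR 10 4) (32 * 10 * (slR 10).length) = true := by
  decide +kernel
theorem str10_5 :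
    structOK (RTr 10 5) (nR 10 5) (hiR 10 5) (32 * 10 * (slR 10).length) = true := by
  decide +kernel
theorem str10_6 :
    structOK (RTr 10 6) (nR 10 6) (hiR 10 6) (32 * 10 * (slR 10).length) = true := by
  decide +kernel
theorem str10_7 :
    structOK (RTr 10 7) (nR 10 7) (hiR 10 7) (32 * 10 * (slR 10).length) = true := by
  decide +kernel
theorem str10_8 :
    structOK (RTr 10 8) (nR 10 8) (hiR 10 8) (32 * 10 * (slR 10).length) = true := by
  decide +kernel
theorem str10_9 :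
    structOK (RTr 10 9) (nR 10 9) (hiR 10 9) (32 * 10 * (slR 10).length) = true := by
  decide +kernel
theorem str10_10 :
    structOK (RTr 10 10) (nR 10 10) (hiR 10 10) (32 * 10 * (slR 10).length) = true := by
  decide +kernel

end RTab

theorem ring_tab (L : ℕ) (h6 : 6 ≤ L) (h10 : L ≤ 10) (m : ℕ) (hm : m ≤ L) :
    RingTab L m (slR L) (PTr L m) (RTr L m) := by
  refine RTab.tab_sound (n := nR L m) (by omega) ?_
  interval_cases L <;> interval_cases m
  exacts [RTab.tab6_0, RTab.tab6_1, RTab.tab6_2, RTab.tab6_3, RTab.tab6_4, RTab.tab6_5, RTab.tab6_6,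
    RTab.tab7_0, RTab.tab7_1, RTab.tab7_2, RTab.tab7_3, RTab.tab7_4, RTab.tab7_5, RTab.tab7_6, RTab.tab7_7,
    RTab.tab8_0, RTab.tab8_1, RTab.tab8_2, RTab.tab8_3, RTab.tab8_4, RTab.tab8_5, RTab.tab8_6, RTab.tab8_7, RTab.tab8_8,
    RTab.tab9_0, RTab.tab9_1, RTab.tab9_2, RTab.tab9_3, RTab.tab9_4, RTab.tab9_5, RTab.tab9_6, RTab.tab9_7, RTab.tab9_8, RTab.tab9_9,
    RTab.tab10_0, RTab.tab10_1, RTab.tab10_2, RTab.tab10_3, RTab.tab10_4, RTab.tab10_5, RTab.tab10_6, RTab.tab10_7, RTab.tab10_8, RTab.tab10_9, RTab.tab10_10]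

theorem ring_struct (L : ℕ) (h6 : 6 ≤ L) (h10 : L ≤ 10) (m : ℕ) (hm : m ≤ L) :
    structOK (RTr L m) (nR L m) (hiR L m) (32 * L * (slR L).length) = true := by
  interval_cases L <;> interval_cases m
  exacts [RTab.str6_0, RTab.str6_1, RTab.str6_2, RTab.str6_3, RTab.str6_4, RTab.str6_5, RTab.str6_6,
    RTab.str7_0, RTab.str7_1, RTab.str7_2, RTab.str7_3, RTab.str7_4, RTab.str7_5, RTab.str7_6, RTab.str7_7,
    RTab.str8_0, RTab.str8_1, RTab.str8_2, RTab.str8_3, RTab.str8_4, RTab.str8_5, RTab.str8_6, RTab.str8_7, RTab.str8_8,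
    RTab.str9_0, RTab.str9_1, RTab.str9_2, RTab.str9_3, RTab.str9_4, RTab.str9_5, RTab.str9_6, RTab.str9_7, RTab.str9_8, RTab.str9_9,
    RTab.str10_0, RTab.str10_1, RTab.str10_2, RTab.str10_3, RTab.str10_4, RTab.str10_5, RTab.str10_6, RTab.str10_7, RTab.str10_8, RTab.str10_9, RTab.str10_10]

theorem ring_count (L : ℕ) (h6 : 6 ≤ L) (h10 : L ≤ 10) :
    ∑ m ∈ range (L + 1), ∑ k ∈ range L, (if m = 0 then 1 else 2) * (RTr L m).cnt (actR L k) =
      3 ^ L := by
  interval_cases L <;> decide +kernel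

end Crest.Agent.R347
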