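import Crest.Agent.R347.BaseRing

/-! Row 347: checker for the ring tables (definitions and digit lemmas). -/

set_option autoImplicit false

namespace Crest.Agent.R347.RTab
open Crest.MathPhysics.SpinChain Matrix Finset Chk

/-! ### the checker -/

def dg (c j : ℕ) : ℕ := Nat.mod (Nat.div c (Nat.pow 3 j)) 3
def rotN (L t c : ℕ) : ℕ :=
  Nat.add (Nat.mul (Nat.mod c (Nat.pow 3 (Nat.sub L t))) (Nat.pow 3 t))
    (Nat.div c (Nat.pow 3 (Nat.sub L t)))
noncomputable def revN (L c : ℕ) : ℕ :=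
  Nat.rec (motive := fun _ => ℕ) 0 (fun j ih => Nat.add (Nat.mul ih 3) (dg c j)) L
noncomputable def allB (f : ℕ → Bool) (n : ℕ) : Bool :=
  Nat.rec (motive := fun _ => Bool) true (fun j ih => and (f j) ih) n
noncomputable def sumN (f : ℕ → ℕ) (n : ℕ) : ℕ :=
  Nat.rec (motive := fun _ => ℕ) 0 (fun j ih => Nat.add ih (f j)) n

def word (PT p : ℕ) : ℕ :=
  Nat.land (Nat.shiftRight PT (Nat.mul (nat_lit 32) p)) (nat_lit 4294967295)
def pc (x : ℕ) : ℕ := Nat.mod x (nat_lit 65536)
def pv (x : ℕ) : ℕ := Nat.mod (Nat.div x (nat_lit 65536)) (nat_lit 2)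
def pd (x : ℕ) : ℕ := Nat.mod (Nat.div x (nat_lit 262144)) (nat_lit 16)
def ps (x : ℕ) : ℕ := Nat.mod (Nat.div x (nat_lit 131072)) (nat_lit 2)
def pr (x : ℕ) : ℕ := Nat.div x (nat_lit 4194304)

noncomputable def validC (L m c v d s r rc : ℕ) : Bool :=
  and (and (and (Nat.blt c (Nat.pow 3 L)) (Nat.beq (Nat.add (sumN (dg c) L) m) L))
      (and (Nat.blt 0 d) (Nat.beq (Nat.mod L d) 0)))
    (and (allB (fun t => (fun u =>
        and (and (Bool.rec (motive := fun _ => Bool) (not (Nat.beq u c)) (Nat.beq u c)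
            (Nat.beq (Nat.mod t d) 0)) (Nat.ble c u))
          (and (Nat.ble c (rotN L t rc)) (or (Nat.beq s 1) (not (Nat.beq u rc))))) (rotN L t c)) L)
      (or (and (and (Nat.beq s 1) (Nat.beq v 0)) (and (Nat.blt r L) (Nat.beq (rotN L r c) rc)))
        (and (Nat.beq s 0) (Nat.beq r 0))))

noncomputable def termC (L : ℕ) (sl : List ℕ) (vP rP xa tgt c v d s r y : ℕ) : Bool :=
  (fun L2 =>
    (fun xk x0 =>
      (fun t =>
        and (and (and (Nat.beq (Nat.mod (Nat.div y (Nat.mul 8 L)) 2) xa)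
            (Nat.beq (sl.getD (Nat.div y (Nat.mul 32 L)) 1) (Nat.div L d)))
          (and (Nat.beq (Nat.add (Nat.mod (Nat.div y (Nat.mul 16 L)) 2) s) 1)
            (Nat.beq (Nat.mod (Nat.add rP (Nat.mul 2 t)) L2) (Nat.mod (Nat.add xk r) L2))))
          (or (and (Nat.beq (rotN L t c) tgt) (Nat.beq (Nat.mod (Nat.add x0 vP) 4) v))
            (and (and (Nat.beq s 0) (Nat.beq (Nat.mod (Nat.add (Nat.add x0 vP) v) 4) 0))
              (Nat.beq (rotN L t (revN L c)) tgt))))
        (Nat.div (Nat.mod (Nat.sub (Nat.add (Nat.add xk r) L2) rP) L2) 2))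
      (Nat.mod y L2) (Nat.mod (Nat.div y L2) 4))
    (Nat.mul 2 L)

noncomputable def termX (L : ℕ) (sl : List ℕ) (n vP rP xa tgt q x y : ℕ) : Bool :=
  and (Nat.blt q n) (termC L sl vP rP xa tgt (pc x) (pv x) (pd x) (ps x) (pr x) y)

/-- consume the terms of one hop -/
noncomputable def grp (L : ℕ) (sl : List ℕ) (PT n vP rP xa tgt : ℕ)
    (k : List (ℕ × ℕ) → Bool) (T : List (ℕ × ℕ)) : Bool :=
  List.rec (motive := fun _ => Bool) false (fun t T' _ =>
    Prod.rec (motive := fun _ => Bool) (fun q y =>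
      (fun x => and (termX L sl n vP rP xa tgt q x y)
        (Bool.rec (motive := fun _ => Bool)
          (List.rec (motive := fun _ => Bool) false (fun t' T'' _ =>
            Prod.rec (motive := fun _ => Bool) (fun q' y' =>
              (fun x' => and (and (termX L sl n vP rP xa tgt q' x' y')
                (and (Nat.beq (pc x') (pc x)) (and (Nat.beq (pv x) 0) (Nat.beq (pv x') 1)))) (k T''))
                (word PT q')) t') T')
          (k T') (Nat.beq (ps x) 1))) (word PT q)) t) T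

/-- the two hops of the bond `j` -/
noncomputable def step (L : ℕ) (sl : List ℕ) (PT n c vP rP j : ℕ)
    (k : List (ℕ × ℕ) → Bool) (T : List (ℕ × ℕ)) : Bool :=
  (fun j' =>
    (fun k' : List (ℕ × ℕ) → Bool => Bool.rec (motive := fun _ => Bool) (k' T)
      (grp L sl PT n vP rP 0 (Nat.sub (Nat.add c (Nat.pow 3 j)) (Nat.pow 3 j')) k' T)
      (and (Nat.blt (dg c j) 2) (Nat.blt 0 (dg c j'))))
    (fun T' => Bool.rec (motive := fun _ => Bool) (k T')
      (grp L sl PT n vP rP 1 (Nat.sub (Nat.add c (Nat.pow 3 j')) (Nat.pow 3 j)) k T')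
      (and (Nat.blt 0 (dg c j)) (Nat.blt (dg c j') 2))))
    (Nat.mod (Nat.add j 1) L)

noncomputable def hops (L : ℕ) (sl : List ℕ) (PT n c vP rP i : ℕ) : List (ℕ × ℕ) → Bool :=
  Nat.rec (motive := fun _ => List (ℕ × ℕ) → Bool)
    (fun T => List.rec (motive := fun _ => Bool) true (fun _ _ _ => false) T)
    (fun i ih T => step L sl PT n c vP rP (Nat.sub (Nat.sub L 1) i) ih T) i

def ee (a b : ℕ) : ℕ := Nat.sub (Nat.add (Nat.mul a b) 2) (Nat.add a b)

noncomputable def rowC (L m : ℕ) (sl : List ℕ) (PT n p : ℕ) (r : Row) : Bool :=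
  Row.rec (motive := fun _ => Bool) (fun d G dno T =>
    (fun x => (fun c =>
      and (and (validC L m c (pv x) (pd x) (ps x) (pr x) (revN L c))
          (and (Nat.beq d (pd x)) (Nat.beq G (Nat.mul (Nat.div L (pd x)) (Nat.add 1 (ps x))))))
        (and (Nat.beq (Nat.add dno (Nat.mul (Nat.mul 5 G) L))
            (Nat.add 1280 (Nat.mul (Nat.mul 5 G)
              (sumN (fun j => ee (dg c j) (dg c (Nat.mod (Nat.add j 1) L))) L))))
          (hops L sl PT n c (pv x) (pr x) L T))) (pc x)) (word PT p)) r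

noncomputable def allRows (f : ℕ → Row → Bool) (n : ℕ) (l : List Row) : ℕ → Bool :=
  List.rec (motive := fun _ => ℕ → Bool) (fun p => Nat.beq p n)
    (fun r _ ih p => and (f p r) (ih (Nat.add p 1))) l

noncomputable def distinct (key : ℕ → ℕ) (n : ℕ) : ℕ → Bool :=
  Nat.rec (motive := fun _ => ℕ → Bool) (fun _ => true)
    (fun p ih B => and (Nat.beq (Nat.land (Nat.shiftRight B (key p)) 1) 0)
      (ih (Nat.lor B (Nat.shiftLeft 1 (key p))))) n

def keyP (PT p : ℕ) : ℕ := (fun x => Nat.add (Nat.mul 2 (pc x)) (pv x)) (word PT p)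

noncomputable def tabC (L m : ℕ) (sl : List ℕ) (PT n : ℕ) (R : RT) : Bool :=
  and (distinct (keyP PT) n 0) (allRows (rowC L m sl PT n) n R.rows 0)

end Crest.Agent.R347.RTab
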