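import Crest.Agent.R347.BaseRingTabAux

/-! Row 347: digit lemmas for the ring table checker. -/

set_option autoImplicit false

namespace Crest.Agent.R347.RTab
open Crest.MathPhysics.SpinChain Matrix Finset Chk

theorem dg_eq (c j : ℕ) : dg c j = c / 3 ^ j % 3 := rfl
theorem dg_lt (c j : ℕ) : dg c j < 3 := Nat.mod_lt _ (by norm_num)
theorem cfg_val (L c : ℕ) (j : Fin L) : (cfg L c j).val = dg c j := rfl
theorem rotN_eq (L t c : ℕ) : rotN L t c = c % 3 ^ (L - t) * 3 ^ t + c / 3 ^ (L - t) := rfl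
theorem revN_succ (L c : ℕ) : revN (L + 1) c = revN L c * 3 + dg c L := rfl

theorem allB_iff {f : ℕ → Bool} {n : ℕ} : allB f n = true ↔ ∀ j, j < n → f j = true := by
  induction n with
  | zero => simp [allB]
  | succ n ih =>
    have : allB f (n + 1) = (f n && allB f n) := rfl
    rw [this, Bool.and_eq_true, ih]
    constructor
    · rintro ⟨h1, h2⟩ j hj
      rcases Nat.lt_succ_iff_lt_or_eq.1 hj with h | rfl
      exacts [h2 j h, h1]
    · exact fun h => ⟨h n (Nat.lt_succ_self n), fun j hj => h j (Nat.lt_succ_of_lt hj)⟩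

theorem sumN_eq (f : ℕ → ℕ) (n : ℕ) : sumN f n = ∑ j ∈ range n, f j := by
  induction n with
  | zero => rfl
  | succ n ih => rw [sum_range_succ, ← ih]; rfl

theorem dg_zero_eq (c : ℕ) : dg c 0 = c % 3 := by simp [dg_eq]
theorem dg_succ (c j : ℕ) : dg c (j + 1) = dg (c / 3) j := by
  rw [dg_eq, dg_eq, pow_succ', Nat.div_div_eq_div_mul]
theorem dg_div (c i j : ℕ) : dg (c / 3 ^ i) j = dg c (j + i) := by
  rw [dg_eq, dg_eq, Nat.div_div_eq_div_mul, ← pow_add, add_comm]

theorem eq_of_dg {L a b : ℕ} (ha : a < 3 ^ L) (hb : b < 3 ^ L) (h : ∀ j, j < L → dg a j = dg b j) :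
    a = b := by
  induction L generalizing a b with
  | zero => simp at ha hb; omega
  | succ L ih =>
    have h0 := h 0 (Nat.succ_pos _)
    rw [dg_zero_eq, dg_zero_eq] at h0
    have h1 := ih (a := a / 3) (b := b / 3) (by rw [pow_succ] at ha; omega)
      (by rw [pow_succ] at hb; omega) fun j hj => by
        rw [← dg_succ, ← dg_succ]; exact h _ (by omega)
    omega

theorem cfg_inj {L a b : ℕ} (ha : a < 3 ^ L) (hb : b < 3 ^ L) (h : cfg L a = cfg L b) : a = b :=
  eq_of_dg ha hb fun j hj => congrArg Fin.val (congrFun h ⟨j, hj⟩)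

theorem dg_mul_add_lo {t j : ℕ} (A B : ℕ) (hj : j < t) : dg (A * 3 ^ t + B) j = dg B j := by
  obtain ⟨s, rfl⟩ := Nat.exists_eq_add_of_lt hj
  rw [dg_eq, dg_eq, show A * 3 ^ (j + s + 1) + B = B + 3 ^ j * (3 * (A * 3 ^ s)) by ring,
    Nat.add_mul_div_left _ _ (by positivity), Nat.add_mul_mod_self_left]

theorem dg_mul_add_hi {t B : ℕ} (A i : ℕ) (hB : B < 3 ^ t) : dg (A * 3 ^ t + B) (i + t) = dg A i := by
  rw [← dg_div, add_comm, Nat.add_mul_div_right _ _ (by positivity), Nat.div_eq_of_lt hB, zero_add]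

theorem dg_mod {s i : ℕ} (c : ℕ) (hi : i < s) : dg (c % 3 ^ s) i = dg c i := by
  conv_rhs => rw [← Nat.div_add_mod' c (3 ^ s)]
  rw [dg_mul_add_lo _ _ hi]

theorem div_lt {L t c : ℕ} (ht : t ≤ L) (hc : c < 3 ^ L) : c / 3 ^ (L - t) < 3 ^ t := by
  rw [Nat.div_lt_iff_lt_mul (by positivity), ← pow_add, Nat.add_sub_cancel' ht]
  exact hc

theorem rotN_lt {L t c : ℕ} (ht : t ≤ L) (hc : c < 3 ^ L) : rotN L t c < 3 ^ L := by
  have h1 := div_lt ht hc
  have h2 : c % 3 ^ (L - t) + 1 ≤ 3 ^ (L - t) := Nat.mod_lt _ (by positivity)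
  have h3 : 3 ^ L = 3 ^ (L - t) * 3 ^ t := by rw [← pow_add, Nat.sub_add_cancel ht]
  have h4 := Nat.mul_le_mul_right (3 ^ t) h2
  rw [rotN_eq, h3]
  rw [add_mul, one_mul] at h4
  omega

theorem dg_rotN {L t c j : ℕ} (ht : t ≤ L) (hc : c < 3 ^ L) (hj : j < L) :
    dg (rotN L t c) j = dg c ((j + L - t) % L) := by
  rw [rotN_eq]
  rcases lt_or_ge j t with h | h
  · rw [dg_mul_add_lo _ _ h, dg_div, Nat.mod_eq_of_lt (by omega)]
    congr 1
    omega
  · obtain ⟨i, rfl⟩ := Nat.exists_eq_add_of_le' h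
    rw [dg_mul_add_hi _ _ (div_lt ht hc), dg_mod _ (by omega),
      show i + t + L - t = i + L by omega, Nat.add_mod_right, Nat.mod_eq_of_lt (by omega)]

theorem finRotate_val {L : ℕ} (j : Fin L) : (finRotate L j).val = (j.val + 1) % L := by
  obtain ⟨n, rfl⟩ := Nat.exists_eq_succ_of_ne_zero (show L ≠ 0 from j.pos.ne')
  rw [finRotate_apply, Fin.val_add]
  simp

theorem tr_iter {L : ℕ} (σ : Cfg L) (t : ℕ) (ht : t ≤ L) (j : Fin L) :
    tr^[t] σ j = σ ⟨(j.val + L - t) % L, Nat.mod_lt _ j.pos⟩ := by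
  induction t generalizing j with
  | zero =>
    simp only [Function.iterate_zero, id]
    congr 1
    refine Fin.ext ?_
    simp [Nat.mod_eq_of_lt j.2]
  | succ t ih =>
    rw [Function.iterate_succ_apply', tr, ih (by omega)]
    congr 1
    refine Fin.ext ?_
    obtain ⟨i, rfl⟩ := (finRotate L).surjective j
    simp only [Equiv.symm_apply_apply, finRotate_val]
    have hi := i.2
    rcases Nat.lt_or_ge (i.val + 1) L with h | h
    · rw [Nat.mod_eq_of_lt h]
      congr 1
      omega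
    · rw [show i.val + 1 = L by omega, Nat.mod_self,
        show i.val + L - t = (0 + L - (t + 1)) + L by omega, Nat.add_mod_right]

theorem cfg_rotN {L t c : ℕ} (ht : t ≤ L) (hc : c < 3 ^ L) :
    cfg L (rotN L t c) = tr^[t] (cfg L c) := by
  funext j
  rw [tr_iter _ _ ht]
  exact Fin.ext (dg_rotN ht hc j.2)

theorem revN_lt (L c : ℕ) : revN L c < 3 ^ L := by
  induction L with
  | zero => simp [revN]
  | succ L ih =>
    have := dg_lt c L
    rw [revN_succ, pow_succ]
    omega

theorem dg_revN {L c j : ℕ} (hj : j < L) : dg (revN L c) j = dg c (L - 1 - j) := by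
  induction L generalizing j with
  | zero => omega
  | succ L ih =>
    have := dg_lt c L
    rw [revN_succ]
    rcases j with _ | j
    · rw [dg_zero_eq, show L + 1 - 1 - 0 = L by omega]
      omega
    · rw [dg_succ, show (revN L c * 3 + dg c L) / 3 = revN L c by omega, ih (by omega)]
      congr 1
      omega

theorem cfg_revN (L c : ℕ) : cfg L (revN L c) = rf (cfg L c) := by
  funext j
  refine Fin.ext ?_
  rw [cfg_val, dg_revN j.2, rf, cfg_val, Fin.val_rev]
  congr 1
  omega

theorem dg_inc {c j : ℕ} (h : dg c j < 2) (i : ℕ) :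
    dg (c + 3 ^ j) i = if i = j then dg c j + 1 else dg c i := by
  split_ifs with hij
  · subst hij
    rw [dg_eq, dg_eq, Nat.add_div_right _ (by positivity)] at *
    omega
  · rcases lt_or_gt_of_ne hij with h1 | h1
    · rw [add_comm, ← one_mul (3 ^ j), dg_mul_add_lo _ _ h1]
    · obtain ⟨s, rfl⟩ := Nat.exists_eq_add_of_lt h1
      rw [show j + s + 1 = (s + 1) + j by ring, ← dg_div _ j, ← dg_div _ j, dg_succ, dg_succ,
        Nat.add_div_right _ (by positivity)]
      rw [dg_eq] at h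
      congr 1
      omega

theorem dg_dec {c j : ℕ} (h : 0 < dg c j) (i : ℕ) :
    dg (c - 3 ^ j) i = if i = j then dg c j - 1 else dg c i := by
  have h1 : 3 ^ j ≤ c := by
    by_contra h2
    rw [dg_eq, Nat.div_eq_of_lt (not_le.1 h2)] at h
    simp at h
  obtain ⟨c', rfl⟩ := Nat.exists_eq_add_of_le' h1
  have h2 : dg (c' + 3 ^ j) j = (dg c' j + 1) % 3 := by
    rw [dg_eq, dg_eq, Nat.add_div_right _ (by positivity)]
    omega
  have h3 : dg c' j < 2 := by
    have := dg_lt c' j
    omega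
  rw [Nat.add_sub_cancel, dg_inc h3, dg_inc h3, if_pos rfl]
  split_ifs with hij
  · rw [hij]; omega
  · rfl

theorem cfg_hop {L c : ℕ} {j j' : Fin L} (hne : j ≠ j') (h1 : dg c j < 2) (h2 : 0 < dg c j') :
    cfg L (c + 3 ^ j.val - 3 ^ j'.val) = hop (cfg L c) j j' := by
  have hne' : j'.val ≠ j.val := fun h => hne (Fin.ext h.symm)
  have h3 : dg (c + 3 ^ j.val) j' = dg c j' := by rw [dg_inc h1, if_neg hne']
  funext i
  refine Fin.ext ?_
  rw [cfg_val, dg_dec (h3 ▸ h2), h3, dg_inc h1, hop]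
  by_cases hi : i = j'
  · subst hi
    rw [if_pos rfl, Function.update_self, ← cfg_val L c i] at *
    revert h2
    generalize cfg L c i = x
    revert x
    decide
  · rw [if_neg (fun h => hi (Fin.ext h)), Function.update_of_ne hi]
    by_cases hi' : i = j
    · subst hi'
      rw [if_pos rfl, Function.update_self, ← cfg_val L c i] at *
      revert h1
      generalize cfg L c i = x
      revert x
      decide
    · rw [if_neg (fun h => hi' (Fin.ext h)), Function.update_of_ne hi', cfg_val]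

theorem mag_cfg (L c : ℕ) : mag (cfg L c) = L - (sumN (dg c) L : ℕ) := by
  rw [sumN_eq, mag, ← Fin.sum_univ_eq_sum_range]
  simp [magneticNumber, cfg_val]

theorem diag_cfg (L c : ℕ) :
    (∑ j, magneticNumber (cfg L c j) * magneticNumber (cfg L c (finRotate L j)) : ℤ) =
      (sumN (fun j => ee (dg c j) (dg c (Nat.mod (Nat.add j 1) L))) L : ℕ) - L := by
  have h : ∀ a b : Fin 3, magneticNumber a * magneticNumber b = (ee a b : ℕ) - 1 := by decide
  rw [sumN_eq, ← Fin.sum_univ_eq_sum_range]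
  simp only [h, cfg_val, finRotate_val, sum_sub_distrib]
  simp
  rfl

theorem word_eq (PT p : ℕ) : word PT p = fld 32 PT p := by
  change (PT >>> (32 * p)) &&& (2 ^ 32 - 1) = _
  rw [Nat.and_two_pow_sub_one_eq_mod, Nat.shiftRight_eq_div_pow, fld]

theorem posAt_eq (PT p : ℕ) : posAt PT p =
    ⟨pc (word PT p), pv (word PT p), pd (word PT p), ps (word PT p), pr (word PT p)⟩ := by
  rw [word_eq]; rfl

theorem valid_of {L m c v d s r : ℕ} (hv : v ≤ 1) (h : validC L m c v d s r (revN L c) = true) :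
    (⟨c, v, d, s, r⟩ : Pos).Valid L m := by
  simp only [validC, Bool.and_eq_true, Bool.or_eq_true, Nat.blt_eq, Nat.beq_eq, allB_iff,
    Nat.ble_eq, Bool.not_eq_true', Nat.add_eq, Nat.pow_eq] at h
  obtain ⟨⟨⟨hc, hm⟩, hd, hdL⟩, hall, hs⟩ := h
  have hrc := revN_lt L c
  refine ⟨hc, ?_, hd, Nat.dvd_of_mod_eq_zero hdL, fun t ht => ?_, fun t ht c' hc' h => ?_, ?_⟩
  · rw [mag_cfg]
    simp only
    omega
  · obtain ⟨⟨h1, -⟩, -⟩ := hall t ht
    simp only
    rw [← cfg_rotN ht.le hc, Nat.dvd_iff_mod_eq_zero]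
    have h2 : cfg L (rotN L t c) = cfg L c ↔ rotN L t c = c :=
      ⟨cfg_inj (rotN_lt ht.le hc) hc, fun h => by rw [h]⟩
    rw [h2]
    change Bool.rec (motive := fun _ => Bool) _ _ (Nat.beq (t % d) 0) = true at h1
    by_cases h3 : t % d = 0
    · rw [Nat.beq_eq.mpr h3] at h1
      simp only [h3, iff_true]
      exact Nat.eq_of_beq_eq_true h1
    · have h4 : Nat.beq (t % d) 0 = false := by
        rw [← Bool.not_eq_true, Nat.beq_eq]; exact h3
      rw [h4] at h1
      simp only [h3, iff_false]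
      exact Nat.ne_of_beq_eq_false (by simpa using h1)
  · obtain ⟨⟨-, h1⟩, h2, -⟩ := hall t ht
    simp only at h ⊢
    rw [← cfg_revN, ← cfg_rotN ht.le hc, ← cfg_rotN ht.le hrc] at h
    rcases h with h | h
    · rw [cfg_inj hc' (rotN_lt ht.le hc) h]; exact h1
    · rw [cfg_inj hc' (rotN_lt ht.le hrc) h]; exact h2
  · simp only
    rcases hs with ⟨⟨h1, h2⟩, h3, h4⟩ | ⟨h1, h2⟩
    · exact Or.inl ⟨h1, h2, h3, by rw [← cfg_rotN h3.le hc, h4, cfg_revN]⟩
    · refine Or.inr ⟨h1, hv, h2, fun t ht h => ?_⟩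
      obtain ⟨-, -, h5 | h5⟩ := hall t ht
      · omega
      · rw [← cfg_revN, ← cfg_rotN ht.le hc] at h
        exact Nat.ne_of_beq_eq_false h5 (cfg_inj (rotN_lt ht.le hc) hrc h)

theorem allRows_sound {f : ℕ → Row → Bool} {n : ℕ} {l : List Row} {p : ℕ}
    (h : allRows f n l p = true) :
    p + l.length = n ∧ ∀ i, i < l.length → f (p + i) (l.getD i default) = true := by
  induction l generalizing p with
  | nil => exact ⟨Nat.eq_of_beq_eq_true h, fun i hi => absurd hi (Nat.not_lt_zero i)⟩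
  | cons r l ih =>
    change (f p r && allRows f n l (p + 1)) = true at h
    rw [Bool.and_eq_true] at h
    obtain ⟨h1, h2⟩ := ih h.2
    refine ⟨by rw [List.length_cons]; omega, fun i hi => ?_⟩
    rcases i with _ | i
    · exact h.1
    · have := h2 i (by simpa using hi)
      rwa [show p + 1 + i = p + (i + 1) by ring] at this

theorem distinct_sound {key : ℕ → ℕ} {n B : ℕ} (h : distinct key n B = true) :
    (∀ p, p < n → B.testBit (key p) = false) ∧
      ∀ p q, p < n → q < n → key p = key q → p = q := by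
  induction n generalizing B with
  | zero => exact ⟨fun p hp => absurd hp (Nat.not_lt_zero p), fun p _ hp => absurd hp (Nat.not_lt_zero p)⟩
  | succ n ih =>
    change (Nat.beq ((B >>> key n) &&& 1) 0 && distinct key n (B ||| (1 <<< key n))) = true at h
    rw [Bool.and_eq_true, Nat.beq_eq] at h
    obtain ⟨h1, h2⟩ := ih h.2
    have h3 : B.testBit (key n) = false := by
      rw [Nat.testBit, Nat.and_comm, h.1]; rfl
    have h4 : ∀ p, p < n → B.testBit (key p) = false ∧ key p ≠ key n := fun p hp => by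
      have := h1 p hp
      rw [Nat.testBit_or, Bool.or_eq_false_iff, Nat.one_shiftLeft, Nat.testBit_two_pow] at this
      exact ⟨this.1, fun h' => by simp [h'] at this⟩
    refine ⟨fun p hp => ?_, fun p q hp hq hpq => ?_⟩
    · rcases Nat.lt_succ_iff_lt_or_eq.1 hp with h' | rfl
      exacts [(h4 p h').1, h3]
    · rcases Nat.lt_succ_iff_lt_or_eq.1 hp with h' | rfl <;>
        rcases Nat.lt_succ_iff_lt_or_eq.1 hq with h'' | rfl
      · exact h2 p q h' h'' hpq
      · exact absurd hpq (h4 p h').2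
      · exact absurd hpq.symm (h4 q h'').2
      · rfl

end Crest.Agent.R347.RTab
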