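import Crest.Agent.R347.BaseRingTabAux2

/-! Row 347: soundness of the ring table checker. -/

set_option autoImplicit false

namespace Crest.Agent.R347.RTab
open Crest.MathPhysics.SpinChain Matrix Finset Chk

theorem om_ne (L : ℕ) : om L ≠ 0 := Complex.exp_ne_zero _

theorem om_pow_L {L : ℕ} (hL : 0 < L) : om L ^ (24 * L) = 1 := by
  have : (L : ℂ) ≠ 0 := by exact_mod_cast hL.ne'
  rw [om, ← Complex.exp_nat_mul, ← Complex.exp_two_pi_mul_I]
  congr 1
  push_cast
  field_simp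

theorem star_om (L : ℕ) : star (om L) = (om L)⁻¹ := by
  rw [om, ← Complex.exp_neg, Complex.star_def, ← Complex.exp_conj]
  congr 1
  simp [neg_div, map_ofNat]

theorem star_om_pow (L e : ℕ) : star (om L ^ e) = om L ^ (-(e : ℤ)) := by
  rw [star_pow, star_om, inv_pow, _root_.zpow_neg, zpow_natCast]

theorem re_om_pow (L e : ℕ) :
    (om L ^ e).re = Real.cos (2 * Real.pi * (e : ℝ) / (24 * L)) := by
  rw [om, ← Complex.exp_nat_mul, ← Complex.exp_ofReal_mul_I_re]
  congr 2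
  push_cast
  ring

theorem re_om_zpow {L : ℕ} (hL : 0 < L) (e : ℕ) (e' : ℤ) (h : ((24 * L : ℕ) : ℤ) ∣ e' - e) :
    (om L ^ e').re = Real.cos (2 * Real.pi * (e : ℝ) / (24 * L)) := by
  obtain ⟨u, hu⟩ := h
  rw [show e' = e + (24 * L : ℕ) * u by omega, zpow_add₀ (om_ne L), _root_.zpow_mul,
    zpow_natCast, zpow_natCast, om_pow_L hL, _root_.one_zpow, mul_one, re_om_pow]

/-- phase of a hop -/
noncomputable def zx (L a xa : ℕ) : ℂ := if xa = 0 then zeta L a else star (zeta L a)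

theorem zx_eq (L a xa : ℕ) :
    zx L a xa = om L ^ (if xa = 0 then ((2 * a : ℕ) : ℤ) else -((2 * a : ℕ) : ℤ)) := by
  unfold zx zeta
  split_ifs
  · rw [zpow_natCast]
  · rw [star_om_pow]

/-- contribution of a hop with target `σ` to the matrix element `(P, Q)` -/
noncomputable def X (L a k : ℕ) (P Q : Pos) (xa : ℕ) (σ : Cfg L) : ℝ :=
  if actR L k Q.d = true then (star (P.z L k) * (zx L a xa * Q.w L k σ)).re else 0

variable {L m a k n PT : ℕ} {sl : List ℕ} {P : Pos}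

theorem Valid_r {P : Pos} (hP : P.Valid L m) : P.r ≤ L := by
  rcases hP.2.2.2.2.2.2 with h | h <;> omega

theorem term_sound (hL : 3 ≤ L) (ha : a ≤ 12) (hP : P.Valid L m) {Q : Pos} (hQ : Q.Valid L m)
    {xa tgt y : ℕ} (h : termC L sl P.v P.r xa tgt Q.c Q.v Q.d Q.slf Q.r y = true) :
    (∃ t, cfg L tgt = tr^[t] (cfg L Q.c) ∨ cfg L tgt = tr^[t] (rf (cfg L Q.c))) ∧
      ringVal L sl a k y = X L a k P Q xa (cfg L tgt) := by
  simp only [termC, Bool.and_eq_true, Bool.or_eq_true, Nat.beq_eq, Nat.add_eq, Nat.mul_eq,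
    Nat.sub_eq] at h
  change (((y / (8 * L) % 2 = xa ∧ sl.getD (y / (32 * L)) 1 = L / Q.d) ∧
    y / (16 * L) % 2 + Q.slf = 1 ∧
      (P.r + 2 * ((y % (2 * L) + Q.r + 2 * L - P.r) % (2 * L) / 2)) % (2 * L) =
        (y % (2 * L) + Q.r) % (2 * L)) ∧
    ((rotN L ((y % (2 * L) + Q.r + 2 * L - P.r) % (2 * L) / 2) Q.c = tgt ∧
      (y / (2 * L) % 4 + P.v) % 4 = Q.v) ∨
      (Q.slf = 0 ∧ (y / (2 * L) % 4 + P.v + Q.v) % 4 = 0) ∧
        rotN L ((y % (2 * L) + Q.r + 2 * L - P.r) % (2 * L) / 2) (revN L Q.c) = tgt)) at h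
  have ht : (y % (2 * L) + Q.r + 2 * L - P.r) % (2 * L) / 2 ≤ L := by
    have := Nat.mod_lt (y % (2 * L) + Q.r + 2 * L - P.r) (show 0 < 2 * L by omega)
    omega
  generalize (y % (2 * L) + Q.r + 2 * L - P.r) % (2 * L) / 2 = t at h ht
  obtain ⟨⟨⟨hxa, hsl⟩, hb, hxk⟩, hcase⟩ := h
  have hd : L / (L / Q.d) = Q.d := Nat.div_div_self hQ.2.2.2.1 (by omega)
  have hG : ((L / Q.d * (2 - y / (16 * L) % 2) : ℕ) : ℝ) = (Q.G L : ℝ) := by
    rw [Pos.G, show 2 - y / (16 * L) % 2 = 1 + Q.slf by omega]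
  have hPr := Valid_r hP
  have hQr := Valid_r hQ
  obtain ⟨w, hw⟩ : ((2 * L : ℕ) : ℤ) ∣ ((y % (2 * L) + Q.r : ℕ) : ℤ) - ((P.r + 2 * t : ℕ) : ℤ) :=
    Nat.ModEq.dvd hxk
  have hz : ∀ R : Pos, R.r ≤ L → R.z L k = om L ^ (6 * L * R.v + 12 * k * (2 * L - R.r) : ℤ) := by
    intro R hR
    rw [Pos.z, ← zpow_natCast]
    congr 1
    push_cast [Nat.cast_sub (show R.r ≤ 2 * L by omega)]
    ring
  have hz' : ∀ R : Pos, R.r ≤ L →
      star (R.z L k) = om L ^ (-(6 * L * R.v + 12 * k * (2 * L - R.r) : ℤ)) := by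
    intro R hR
    rw [Pos.z, star_om_pow]
    congr 2
    push_cast [Nat.cast_sub (show R.r ≤ 2 * L by omega)]
    ring
  have hea : ∃ u : ℤ, (if xa = 0 then ((2 * a : ℕ) : ℤ) else -((2 * a : ℕ) : ℤ)) =
      ((if xa = 0 then 2 * a else 24 * L - 2 * a : ℕ) : ℤ) + 24 * L * u := by
    split_ifs
    · exact ⟨0, by simp⟩
    · exact ⟨-1, by omega⟩
  obtain ⟨u, hu⟩ := hea
  unfold ringVal X
  rw [hsl, hd, hG, hxa]
  have hzx := zx_eq L a xa
  rw [hu] at hzx
  generalize (if xa = 0 then 2 * a else 24 * L - 2 * a : ℕ) = ea at hzx ⊢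
  rcases hcase with ⟨h1, h2⟩ | ⟨⟨h0, h2⟩, h1⟩
  · have hσ : cfg L tgt = tr^[t] (cfg L Q.c) := by rw [← h1, cfg_rotN ht hQ.1]
    refine ⟨⟨t, Or.inl hσ⟩, ?_⟩
    split_ifs with hact
    · rw [hσ, w_orb hL hQ hact, hz' P hPr, hz Q hQr, hzx, ← zpow_natCast (om L) (24 * k * t),
        mul_assoc (Q.G L : ℂ), mul_left_comm _ (Q.G L : ℂ), mul_left_comm _ (Q.G L : ℂ),
        ← zpow_add₀ (om_ne L), ← zpow_add₀ (om_ne L), ← zpow_add₀ (om_ne L),
        ← Complex.ofReal_natCast, Complex.re_ofReal_mul, re_om_zpow (by omega)]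
      obtain ⟨v, hv⟩ : ∃ v : ℤ, ((y / (2 * L) % 4 : ℕ) : ℤ) + P.v = Q.v + 4 * v :=
        ⟨((y / (2 * L) % 4 + P.v) / 4 : ℕ), by omega⟩
      refine ⟨u - v - k * w, ?_⟩
      generalize y / (2 * L) % 4 = x0 at hv ⊢
      generalize y % (2 * L) = xk at hw ⊢
      push_cast at hw ⊢
      linear_combination (-6 * L) * hv - 12 * k * hw
    · rfl
  · have hσ : cfg L tgt = tr^[t] (rf (cfg L Q.c)) := by
      rw [← h1, cfg_rotN ht (revN_lt _ _), cfg_revN]
    have hr0 : Q.r = 0 := by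
      rcases hQ.2.2.2.2.2.2 with h | h <;> omega
    refine ⟨⟨t, Or.inr hσ⟩, ?_⟩
    split_ifs with hact
    · rw [hσ, w_refl hL hQ hact h0, hz' P hPr, hz' Q hQr, hzx,
        ← zpow_natCast (om L) (24 * k * t),
        mul_assoc (Q.G L : ℂ), mul_left_comm _ (Q.G L : ℂ), mul_left_comm _ (Q.G L : ℂ),
        ← zpow_add₀ (om_ne L), ← zpow_add₀ (om_ne L), ← zpow_add₀ (om_ne L),
        ← Complex.ofReal_natCast, Complex.re_ofReal_mul, re_om_zpow (by omega)]
      obtain ⟨v, hv⟩ : ∃ v : ℤ, ((y / (2 * L) % 4 : ℕ) : ℤ) + P.v + Q.v = 4 * v :=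
        ⟨((y / (2 * L) % 4 + P.v + Q.v) / 4 : ℕ), by omega⟩
      refine ⟨u - v - k * w - 2 * k, ?_⟩
      rw [hr0] at hw ⊢
      generalize y / (2 * L) % 4 = x0 at hv ⊢
      generalize y % (2 * L) = xk at hw ⊢
      push_cast at hw ⊢
      linear_combination (-6 * L) * hv - 12 * k * hw
    · rfl

/-- sum of the terms at position `q` -/
noncomputable def S (L : ℕ) (sl : List ℕ) (a k q : ℕ) (T : List (ℕ × ℕ)) : ℝ :=
  ((T.filter fun t => t.1 = q).map fun t => ringVal L sl a k t.2).sum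

theorem S_cons (q q' y : ℕ) (T : List (ℕ × ℕ)) :
    S L sl a k q ((q', y) :: T) = (if q' = q then ringVal L sl a k y else 0) + S L sl a k q T := by
  unfold S
  by_cases h : q' = q <;> simp [h]

theorem termX_sound (hL : 3 ≤ L) (ha : a ≤ 12) (hP : P.Valid L m)
    (hV : ∀ p, p < n → (posAt PT p).Valid L m) {xa tgt q y : ℕ}
    (h : termX L sl n P.v P.r xa tgt q (word PT q) y = true) :
    q < n ∧ (∃ t, cfg L tgt = tr^[t] (cfg L (posAt PT q).c) ∨
      cfg L tgt = tr^[t] (rf (cfg L (posAt PT q).c))) ∧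
      ringVal L sl a k y = X L a k P (posAt PT q) xa (cfg L tgt) := by
  rw [termX, Bool.and_eq_true, Nat.blt_eq] at h
  refine ⟨h.1, term_sound hL ha hP (hV q h.1) ?_⟩
  rw [posAt_eq]
  exact h.2

theorem X_other (hL : 3 ≤ L) {Q Q' : Pos} (hQ : Q.Valid L m) (hQ' : Q'.Valid L m)
    (hc : Q.c ≠ Q'.c) {σ : Cfg L}
    (h : ∃ t, σ = tr^[t] (cfg L Q.c) ∨ σ = tr^[t] (rf (cfg L Q.c))) (xa : ℕ) :
    X L a k P Q' xa σ = 0 := by
  obtain ⟨t, h⟩ := h
  have h1 := w_other (k := k) hL hQ hQ' hc t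
  have h2 : Q'.w L k σ = 0 := by
    rcases h with rfl | rfl
    exacts [h1.1, h1.2]
  simp [X, h2]

theorem grp_sound (hL : 3 ≤ L) (ha : a ≤ 12) (hP : P.Valid L m)
    (hV : ∀ p, p < n → (posAt PT p).Valid L m)
    (hD : ∀ p q, p < n → q < n → (posAt PT p).c = (posAt PT q).c →
      (posAt PT p).v = (posAt PT q).v → p = q) {q : ℕ} (hq : q < n) {xa tgt : ℕ}
    {kk : List (ℕ × ℕ) → Bool} {T : List (ℕ × ℕ)}
    (h : grp L sl PT n P.v P.r xa tgt kk T = true) :
    ∃ T', kk T' = true ∧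
      S L sl a k q T = X L a k P (posAt PT q) xa (cfg L tgt) + S L sl a k q T' := by
  rcases T with _ | ⟨⟨q0, y0⟩, T⟩
  · exact absurd h (by simp [grp])
  simp only [grp, Bool.and_eq_true] at h
  obtain ⟨h0, h⟩ := h
  obtain ⟨hq0, ht0, hy0⟩ := termX_sound (k := k) hL ha hP hV h0
  have hs : (posAt PT q0).slf = ps (word PT q0) := by rw [posAt_eq]
  by_cases h1 : ps (word PT q0) = 1
  · rw [Nat.beq_eq.mpr h1] at h
    refine ⟨T, h, ?_⟩
    rw [S_cons]
    congr 1
    split_ifs with hqq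
    · rw [hy0, hqq]
    · refine (X_other hL (hV q0 hq0) (hV q hq) (fun hc => hqq ?_) ht0 xa).symm
      have h2 := (valid_same hL (hV q0 hq0) (hV q hq) hc).2
      refine hD _ _ hq0 hq hc ?_
      rcases (hV q0 hq0).2.2.2.2.2.2 with h3 | h3 <;> rcases (hV q hq).2.2.2.2.2.2 with h4 | h4 <;>
        omega
  · have h4 : Nat.beq (ps (word PT q0)) 1 = false := by
      rw [← Bool.not_eq_true, Nat.beq_eq]; exact h1
    rw [h4] at h
    rcases T with _ | ⟨⟨q1, y1⟩, T⟩
    · exact absurd h (by simp)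
    simp only [Bool.and_eq_true, Nat.beq_eq] at h
    obtain ⟨⟨h2, hc, hv0, hv1⟩, h⟩ := h
    obtain ⟨hq1, -, hy1⟩ := termX_sound (k := k) hL ha hP hV h2
    have hc' : (posAt PT q1).c = (posAt PT q0).c := by rw [posAt_eq, posAt_eq]; exact hc
    have hv0' : (posAt PT q0).v = 0 := by rw [posAt_eq]; exact hv0
    have hv1' : (posAt PT q1).v = 1 := by rw [posAt_eq]; exact hv1
    have hne : q0 ≠ q1 := by
      rintro rfl
      omega
    refine ⟨T, h, ?_⟩
    rw [S_cons, S_cons, ← add_assoc]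
    congr 1
    by_cases hqq : q0 = q
    · rw [if_pos hqq, if_neg (hqq ▸ hne.symm), add_zero, hy0, hqq]
    · rw [if_neg hqq, zero_add]
      split_ifs with hqq'
      · rw [hy1, hqq']
      · refine (X_other hL (hV q0 hq0) (hV q hq) (fun hc => ?_) ht0 xa).symm
        have h5 : (posAt PT q).v ≤ 1 := by
          rcases (hV q hq).2.2.2.2.2.2 with h4 | h4 <;> omega
        rcases Nat.le_one_iff_eq_zero_or_eq_one.1 h5 with h6 | h6
        · exact hqq (hD _ _ hq0 hq hc (by omega))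
        · exact hqq' (hD _ _ hq1 hq (hc'.trans hc) (by omega))

/-- contribution of the bond `j` -/
noncomputable def F (L a k : ℕ) (P Q : Pos) (j : Fin L) : ℝ :=
  (if dg P.c j < 2 ∧ 0 < dg P.c (finRotate L j) then
    X L a k P Q 0 (hop (cfg L P.c) j (finRotate L j)) else 0) +
  (if 0 < dg P.c j ∧ dg P.c (finRotate L j) < 2 then
    X L a k P Q 1 (hop (cfg L P.c) (finRotate L j) j) else 0)

theorem cond_sound {b : Bool} {u v : Bool} (h : Bool.rec (motive := fun _ => Bool) u v b = true) :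
    (b = true ∧ v = true) ∨ (¬ b = true ∧ u = true) := by
  cases b
  · exact Or.inr ⟨by simp, h⟩
  · exact Or.inl ⟨rfl, h⟩

theorem step_sound (hL : 3 ≤ L) (ha : a ≤ 12) (hP : P.Valid L m)
    (hV : ∀ p, p < n → (posAt PT p).Valid L m)
    (hD : ∀ p q, p < n → q < n → (posAt PT p).c = (posAt PT q).c →
      (posAt PT p).v = (posAt PT q).v → p = q) {q : ℕ} (hq : q < n) (j : Fin L)
    {kk : List (ℕ × ℕ) → Bool} {T : List (ℕ × ℕ)}
    (h : step L sl PT n P.c P.v P.r j kk T = true) :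
    ∃ T', kk T' = true ∧ S L sl a k q T = F L a k P (posAt PT q) j + S L sl a k q T' := by
  have hj' : Nat.mod (Nat.add j 1) L = (finRotate L j).val := (finRotate_val j).symm
  have hne : j ≠ finRotate L j := by
    intro h
    have h1 := congrArg Fin.val h
    have h2 := j.2
    rw [finRotate_val] at h1
    rcases Nat.lt_or_ge (j.val + 1) L with h3 | h3
    · rw [Nat.mod_eq_of_lt h3] at h1; omega
    · rw [show j.val + 1 = L by omega, Nat.mod_self] at h1; omega
  unfold step at h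
  rw [hj'] at h
  have key : ∀ T' : List (ℕ × ℕ), Bool.rec (motive := fun _ => Bool) (kk T')
      (grp L sl PT n P.v P.r 1 (Nat.sub (Nat.add P.c (Nat.pow 3 (finRotate L j).val))
        (Nat.pow 3 j)) kk T')
      (and (Nat.blt 0 (dg P.c j)) (Nat.blt (dg P.c (finRotate L j).val) 2)) = true →
      ∃ T'', kk T'' = true ∧ S L sl a k q T' =
        (if 0 < dg P.c j ∧ dg P.c (finRotate L j) < 2 then
          X L a k P (posAt PT q) 1 (hop (cfg L P.c) (finRotate L j) j) else 0) +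
            S L sl a k q T'' := by
    intro T' h
    rcases cond_sound h with ⟨h1, h2⟩ | ⟨h1, h2⟩ <;>
      simp only [Bool.and_eq_true, Nat.blt_eq] at h1
    · obtain ⟨T'', h3, h4⟩ := grp_sound (k := k) hL ha hP hV hD hq h2
      refine ⟨T'', h3, ?_⟩
      rw [if_pos h1, h4, ← cfg_hop hne.symm h1.2 h1.1]
      rfl
    · exact ⟨T', h2, by rw [if_neg h1, zero_add]⟩
  rcases cond_sound h with ⟨h1, h2⟩ | ⟨h1, h2⟩ <;>
    simp only [Bool.and_eq_true, Nat.blt_eq] at h1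
  · obtain ⟨T', h3, h4⟩ := grp_sound (k := k) hL ha hP hV hD hq h2
    obtain ⟨T'', h5, h6⟩ := key T' h3
    refine ⟨T'', h5, ?_⟩
    rw [F, if_pos h1, h4, h6, ← cfg_hop hne h1.1 h1.2, add_assoc]
    rfl
  · obtain ⟨T'', h5, h6⟩ := key T h2
    exact ⟨T'', h5, by rw [F, if_neg h1, zero_add, h6]⟩

theorem hops_sound (hL : 3 ≤ L) (ha : a ≤ 12) (hP : P.Valid L m)
    (hV : ∀ p, p < n → (posAt PT p).Valid L m)
    (hD : ∀ p q, p < n → q < n → (posAt PT p).c = (posAt PT q).c →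
      (posAt PT p).v = (posAt PT q).v → p = q) {q : ℕ} (hq : q < n) (i : ℕ) (hi : i ≤ L)
    {T : List (ℕ × ℕ)} (h : hops L sl PT n P.c P.v P.r i T = true) :
    S L sl a k q T = ∑ s ∈ range i,
      F L a k P (posAt PT q) ⟨L - 1 - s, by omega⟩ := by
  induction i generalizing T with
  | zero =>
    rcases T with _ | ⟨t, T⟩
    · simp [S]
    · exact absurd h (by simp [hops])
  | succ i ih =>
    obtain ⟨T', h1, h2⟩ := step_sound (k := k) hL ha hP hV hD hq ⟨L - 1 - i, by omega⟩ h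
    rw [sum_range_succ, h2, ih (by omega) h1, add_comm]

theorem sum_F (hL : 3 ≤ L) (f : Fin L → ℝ) :
    ∑ s ∈ range L, f ⟨L - 1 - s, by omega⟩ = ∑ j, f j := by
  rw [Finset.sum_range, ← Equiv.sum_comp Fin.revPerm f]
  refine sum_congr rfl fun j _ => congrArg f (Fin.ext ?_)
  simp only [Fin.revPerm_apply, Fin.val_rev]
  omega

theorem tab_sound (hL : 3 ≤ L) {R : RT} (h : tabC L m sl PT n R = true) :
    RingTab L m sl PT R := by
  rw [tabC, Bool.and_eq_true] at h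
  obtain ⟨hn, hrow⟩ := allRows_sound h.2
  rw [zero_add] at hn
  have hn' : R.n = n := hn
  have hrow' : ∀ p, p < n → rowC L m sl PT n p (R.row p) = true := fun p hp => by
    have := hrow p (hn ▸ hp)
    rwa [zero_add] at this
  have hrow2 : ∀ p, p < n → (posAt PT p).Valid L m ∧ (R.row p).d = (posAt PT p).d ∧
      (R.row p).G = (posAt PT p).G L ∧
      (R.row p).dno + 5 * (R.row p).G * L = 1280 + 5 * (R.row p).G *
        sumN (fun j => ee (dg (posAt PT p).c j) (dg (posAt PT p).c (Nat.mod (Nat.add j 1) L))) L ∧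
      hops L sl PT n (posAt PT p).c (posAt PT p).v (posAt PT p).r L (R.row p).T = true := by
    intro p hp
    have h1 := hrow' p hp
    generalize R.row p = r at h1 ⊢
    obtain ⟨d, G, dno, T⟩ := r
    simp only [rowC, Bool.and_eq_true, Nat.beq_eq] at h1
    obtain ⟨⟨h1, h2, h3⟩, h4, h5⟩ := h1
    rw [posAt_eq]
    exact ⟨valid_of (Nat.lt_succ_iff.1 (Nat.mod_lt _ (by norm_num))) h1, h2, h3, h4, h5⟩
  have hV : ∀ p, p < n → (posAt PT p).Valid L m := fun p hp => (hrow2 p hp).1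
  have hD : ∀ p q, p < n → q < n → (posAt PT p).c = (posAt PT q).c →
      (posAt PT p).v = (posAt PT q).v → p = q := by
    intro p q hp hq hc hv
    refine (distinct_sound h.1).2 p q hp hq ?_
    rw [posAt_eq, posAt_eq] at hc hv
    simp only at hc hv
    simp only [keyP, hc, hv]
  rw [RingTab, hn']
  refine ⟨fun p hp => ⟨hV p hp, (hrow2 p hp).2.1, (hrow2 p hp).2.2.1⟩, hD,
    fun a k ha hk p hp hact q hq => ?_⟩
  rw [hn'] at hp hq
  obtain ⟨hP, hd, hG, hdno, hh⟩ := hrow2 p hp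
  have h1 := hops_sound (k := k) hL ha hP hV hD hq L le_rfl hh
  rw [sum_F hL, S] at h1
  rw [h1, (hrow2 q hq).2.1]
  split_ifs with hq' hpq hpq
  · subst hpq
    have h2 := w_gram hL hP hP hq' (Or.inl rfl)
    rw [if_pos ⟨rfl, rfl⟩] at h2
    have h3 : (((R.row p).dno : ℝ) - 1280) / 5 =
        ((∑ j, magneticNumber (cfg L (posAt PT p).c j) *
          magneticNumber (cfg L (posAt PT p).c (finRotate L j)) : ℤ) : ℝ) * (posAt PT p).G L := by
      rw [diag_cfg, ← hG]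
      have h4 := congrArg (Nat.cast : ℕ → ℝ) hdno
      push_cast at h4 ⊢
      linarith
    beta_reduce
    rw [h3, Chat, Hring_mulVec L hL, mul_add, Complex.add_re, mul_left_comm,
      ← Complex.ofReal_intCast, Complex.re_ofReal_mul, h2, mul_sum, Complex.re_sum]
    congr 1
    refine sum_congr rfl fun j _ => ?_
    rw [F, X, X, if_pos hq', if_pos hq', mul_add, Complex.add_re, mul_ite, mul_ite, mul_zero,
      apply_ite Complex.re, apply_ite Complex.re, Complex.zero_re]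
    rfl
  · have h2 := w_gram hL hP (hV q hq) hq' (Or.inr (by
      by_contra h3
      push Not at h3
      exact hpq (hD _ _ hp hq h3.1 h3.2)))
    rw [if_neg fun h3 => hpq (hD _ _ hp hq h3.1 h3.2)] at h2
    beta_reduce
    rw [Chat, Hring_mulVec L hL, mul_add, Complex.add_re, mul_left_comm,
      ← Complex.ofReal_intCast, Complex.re_ofReal_mul, h2, mul_sum, Complex.re_sum, mul_zero]
    congr 1
    refine sum_congr rfl fun j _ => ?_
    rw [F, X, X, if_pos hq', if_pos hq', mul_add, Complex.add_re, mul_ite, mul_ite, mul_zero,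
      apply_ite Complex.re, apply_ite Complex.re, Complex.zero_re]
    rfl
  · subst hpq
    rw [hd] at hact
    exact absurd hact hq'
  · simp [F, X, hq']

end Crest.Agent.R347.RTab
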