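import Crest.Agent.R347.BaseGen
import Crest.Agent.R347.BaseCos
import Crest.Agent.R347.BaseRingTab
import Crest.Agent.R347.BaseOpen
import Crest.Agent.R347.BaseFin
import Crest.Agent.R347.BaseRR

/-! Row 347: enclosures of whole systems from the certificates. -/

set_option autoImplicit false

namespace Crest.Agent.R347
open Crest.MathPhysics.SpinChain Matrix Finset Chk

theorem slR_le (L : ℕ) (h6 : 6 ≤ L) (h10 : L ≤ 10) : ∀ s ∈ slR L, s ≤ 15 := by
  interval_cases L <;> decide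

theorem ring_sys (L a : ℕ) (h6 : 6 ≤ L) (h10 : L ≤ 10) (ha : a ≤ 12) (BL : ℕ → List BD)
    (h : SysR L a BL) : EnclN (Zr a L) (levR L BL) (tailR L BL) := by
  have e : Zr a L = fun β => ∑ m ∈ range (L + 1), ∑ k ∈ range L,
      (if m = 0 then 1 else 2 : ℝ) * ptr (Kring L a k (PTr L m) (RTr L m)) β := by
    funext β
    exact ring_blocks L a (by omega) (slR L) (PTr L) (RTr L) (fun m hm => ring_tab L h6 h10 m hm)
      (ring_count L h6 h10) β
  rw [e]
  refine EnclN_sum (L + 1) _ _ _ fun m hm => EnclN_sum L _ _ _ fun k hk => EnclN_mult m ?_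
  have hc := (h k hk).1 m (by rw [(h k hk).2]; exact hm)
  rw [Nat.zero_add] at hc
  have hm' : m ≤ L := by omega
  exact gen_encl (RTr L m) (nR L m) (hiR L m) _ (actR L k) (ringVal L (slR L) a k)
    (fun p q => Chat L a k (posAt (PTr L m) p) (posAt (PTr L m) q)) _ _ _
    (ring_struct L h6 h10 m hm')
    (tab_spec L (slR L) (ctR L) a k 32 (by omega) ha (slR_le L h6 h10) (Or.inl rfl)
      (cos_spec L h6 h10))
    (tab_spec L (slR L) (ctR L) a k 40 (by omega) ha (slR_le L h6 h10) (Or.inr rfl)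
      (cos_spec L h6 h10))
    ((ring_tab L h6 h10 m hm').2.2 a k ha hk)
    (fun p q _ _ _ _ => Chat_symm (by omega) a _ _) hc

theorem structOK_n {R : RT} {n hi ny : ℕ} (h : structOK R n hi ny = true) : R.n = n := by
  simp only [structOK, Bool.and_eq_true, decide_eq_true_eq] at h
  simp only [RT.n, RT.rows, List.length_append]
  omega

theorem open_sys (τ : Bool) (N : ℕ) (h4 : 4 ≤ N) (h8 : N ≤ 8) (B : List BD) (h : SysO τ N B) :
    EnclN (Zo τ N) (levO N B) (tailO N B) := by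
  obtain ⟨n, rfl⟩ : ∃ n, N = n + 1 := ⟨N - 1, by omega⟩
  have e : Zo τ (n + 1) = fun β => ∑ mm ∈ range (2 * (n + 1) + 1),
      ptr (Kopen n τ (CTo (n + 1) mm) (RTo τ (n + 1) mm)) β := by
    funext β
    refine open_blocks n τ (CTo (n + 1)) (RTo τ (n + 1))
      (fun mm hm => open_tab n (by omega) (by omega) τ mm hm) ?_ β
    rw [← open_count (n + 1) h4 h8]
    exact Finset.sum_congr rfl fun mm hm =>
      structOK_n (open_struct (n + 1) h4 h8 τ mm (by simpa [Nat.lt_succ_iff] using hm))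
  rw [e]
  refine EnclN_sum (2 * (n + 1) + 1) _ _ _ fun mm hm => ?_
  have hc := h.1 mm (by rw [h.2]; exact hm)
  rw [Nat.zero_add] at hc
  have hm' : mm ≤ 2 * (n + 1) := by omega
  exact gen_encl (RTo τ (n + 1) mm) (nO (n + 1) mm) (hiO (n + 1) mm) 1 (fun _ => true) (fun _ => 1)
    (Copen n τ (CTo (n + 1) mm)) _ _ _ (open_struct (n + 1) h4 h8 τ mm hm') tab_open32 tab_open40
    (open_tab n (by omega) (by omega) τ mm hm').2.2 (fun p q _ _ _ _ => Copen_symm n τ _ p q) hc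

def entR (a L : ℕ) : List (ℕ × ℕ × ℕ) :=
  (tabR.filter fun t => t.1 = a ∧ t.2.1 = L).map fun t => t.2.2
def entO (τ : Bool) (N : ℕ) : List (ℕ × ℕ × ℕ) :=
  (tabO.filter fun t => t.1 = τ ∧ t.2.1 = N).map fun t => t.2.2

theorem ring_ent (L a : ℕ) (h6 : 6 ≤ L) (h10 : L ≤ 10) (ha : a ≤ 12) (BL : ℕ → List BD)
    (h : SysR L a BL) (hc : finCheck L (10 ^ 8) (levR L BL) (tailR L BL) (entR a L) = true)
    (x : ℕ × ℕ × ℕ) (hx : (a, L, x) ∈ tabR) : EncR Zr (a, L, x) := by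
  have := fin_sound L (10 ^ 8) (entR a L) (ring_sys L a h6 h10 ha BL h) hc x
    (List.mem_map.2 ⟨(a, L, x), List.mem_filter.2 ⟨hx, by simp⟩, rfl⟩)
  rw [Nat.cast_pow, Nat.cast_ofNat] at this
  exact this

theorem open_ent (τ : Bool) (N : ℕ) (h4 : 4 ≤ N) (h8 : N ≤ 8) (B : List BD)
    (h : SysO τ N B) (hc : finCheck N (10 ^ 14) (levO N B) (tailO N B) (entO τ N) = true)
    (x : ℕ × ℕ × ℕ) (hx : (τ, N, x) ∈ tabO) : EncO Zo (τ, N, x) := by
  have := fin_sound N (10 ^ 14) (entO τ N) (open_sys τ N h4 h8 B h) hc x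
    (List.mem_map.2 ⟨(τ, N, x), List.mem_filter.2 ⟨hx, by simp⟩, rfl⟩)
  rw [Nat.cast_pow, Nat.cast_ofNat] at this
  exact this

end Crest.Agent.R347
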