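import Crest.Agent.R347.TDefs
import Crest.Agent.R347.Tensor
import Crest.Agent.R347.Spec

/-! Row 347: Cartesian basis versus `S^z` basis. -/

set_option autoImplicit false

namespace Crest.Agent.R347
open Crest.MathPhysics.SpinChain Matrix Filter Topology

/-- the singlet form in the `S^z` basis -/
def basisJ : Matrix (Fin 3) (Fin 3) ℂ := !![0, 0, -1; 0, 1, 0; -1, 0, 0]

/-- rotation about the quantisation axis -/
noncomputable def basisD (u : ℂ) : Matrix (Fin 3) (Fin 3) ℂ := diagonal ![u, 1, star u]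

def basisRep : Fin 24 → Fin 24 := ![0, 3, 3, 3, 10, 10, 8, 8, 8, 10, 10, 8, 12, 12, 12, 12, 12, 12, 12, 12, 10, 8, 10, 8]

def basisH : Fin 24 → Matrix (Fin 3) (Fin 3) ℤ :=
  ![!![1, 0, 0; 0, 1, 0; 0, 0, 1],
    !![0, 0, 1; 1, 0, 0; 0, 1, 0],
    !![1, 0, 0; 0, 0, 1; 0, 1, 0],
    !![1, 0, 0; 0, 1, 0; 0, 0, 1],
    !![0, 0, 1; 1, 0, 0; 0, -1, 0],
    !![0, 0, 1; 1, 0, 0; 0, 1, 0],
    !![0, 0, 1; 1, 0, 0; 0, 1, 0],
    !![0, 0, 1; 1, 0, 0; 0, -1, 0],
    !![1, 0, 0; 0, 1, 0; 0, 0, 1],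
    !![1, 0, 0; 0, -1, 0; 0, 0, 1],
    !![1, 0, 0; 0, 1, 0; 0, 0, 1],
    !![1, 0, 0; 0, -1, 0; 0, 0, 1],
    !![1, 0, 0; 0, 1, 0; 0, 0, 1],
    !![1, 0, 0; 0, 1, 0; 0, 0, -1],
    !![1, 0, 0; 0, -1, 0; 0, 0, -1],
    !![1, 0, 0; 0, -1, 0; 0, 0, 1],
    !![1, 0, 0; 0, 0, 1; 0, 1, 0],
    !![1, 0, 0; 0, 0, -1; 0, 1, 0],
    !![1, 0, 0; 0, 0, 1; 0, -1, 0],
    !![1, 0, 0; 0, 0, -1; 0, -1, 0],
    !![1, 0, 0; 0, 0, 1; 0, -1, 0],
    !![1, 0, 0; 0, 0, 1; 0, 1, 0],
    !![1, 0, 0; 0, 0, 1; 0, 1, 0],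
    !![1, 0, 0; 0, 0, 1; 0, -1, 0]]

theorem basis_dec1 : ∀ i : Fin 24, (basisH i)ᵀ * basisH i = 1 ∧
    Og i * basisH i = basisH i * Og (basisRep i) ∧ cls (basisRep i) = cls i ∧
    (basisRep i = 0 ∨ basisRep i = 3 ∨ basisRep i = 8 ∨ basisRep i = 10 ∨ basisRep i = 12) := by
  decide +kernel

theorem basis_dec2 : ∀ (i : Fin 24) (a b c d : Fin 3),
    ∑ α, ∑ β, Og i α β * (Lz α a c * Lz β b d) = Og i a b * Og i c d - Og i c b * Og i a d := by
  decide +kernel

theorem basis_dec3 : ∀ α a b : Fin 3, Lz α a b = -Lz α b a := by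
  decide +kernel

theorem basis_Og0 : (Og 0).map (Int.cast : ℤ → ℂ) = 1 := by
  rw [show Og 0 = 1 by decide +kernel]
  exact Matrix.map_one _ Int.cast_zero Int.cast_one

theorem basis_LL_apply (i : Fin 24) (s t : Fin 3 × Fin 3) :
    LL ((Og i).map (Int.cast : ℤ → ℂ)) s t =
      (Og i s.1 s.2 : ℂ) * Og i t.1 t.2 - (Og i t.1 s.2 : ℂ) * Og i s.1 t.2 := by
  have := congrArg (Int.cast : ℤ → ℂ) (basis_dec2 i s.1 s.2 t.1 t.2)
  push_cast at this
  rw [← this]
  simp only [LL, Lc, Matrix.sum_apply, Matrix.smul_apply, kroneckerMap_apply, map_apply,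
    smul_eq_mul]

theorem basis_Lc_herm (α : Fin 3) : (Lc ℂ α)ᴴ = -Lc ℂ α := by
  ext a b
  simp only [Lc, conjTranspose_apply, map_apply, Matrix.neg_apply, star_intCast]
  rw [basis_dec3]
  push_cast
  rfl

theorem basis_onSite_herm {ι : Type} [Fintype ι] [DecidableEq ι] (A : Matrix (Fin 3) (Fin 3) ℂ)
    (j : ι) : (onSite A j)ᴴ = onSite Aᴴ j := by
  ext σ τ
  simp only [onSite, conjTranspose_apply, of_apply]
  by_cases h : ∀ k, k ≠ j → σ k = τ k
  · rw [if_pos h, if_pos fun k hk => (h k hk).symm]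
  · rw [if_neg h, if_neg fun h' => h fun k hk => (h' k hk).symm, star_zero]

theorem basis_onSite_smul {ι : Type} [Fintype ι] [DecidableEq ι] (c : ℂ)
    (A : Matrix (Fin 3) (Fin 3) ℂ) (j : ι) : onSite (c • A) j = c • onSite A j := by
  ext σ τ
  simp only [onSite, of_apply, Matrix.smul_apply, smul_ite, smul_zero]

theorem basis_herm (L : ℕ) (g : Fin L → Matrix (Fin 3) (Fin 3) ℂ) (κ : Fin L → ℂ)
    (hg : ∀ j α β, star (g j α β) = g j α β) (hκ : ∀ j, star (κ j) = -κ j) :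
    (Hc L g κ).IsHermitian := by
  have h1 : ∀ j, (LL (g j))ᴴ = LL (g j) := by
    intro j
    simp only [LL, conjTranspose_sum, conjTranspose_smul, hg]
    refine Finset.sum_congr rfl fun α _ => Finset.sum_congr rfl fun β _ => ?_
    rw [conjTranspose_kronecker, basis_Lc_herm, basis_Lc_herm]
    congr 1
    ext s t
    simp only [kroneckerMap_apply, Matrix.neg_apply, neg_mul_neg]
  have h2 : (onSite (ι := Fin L) (-Lc ℂ 2)) = fun j => -onSite (Lc ℂ 2) j := by
    funext j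
    rw [← neg_one_smul ℂ, basis_onSite_smul, neg_one_smul]
  unfold IsHermitian Hc
  simp only [conjTranspose_neg, conjTranspose_add, conjTranspose_sum, onBond_conjTranspose, h1,
    conjTranspose_smul, basis_onSite_herm, basis_Lc_herm, hκ, h2, neg_smul, smul_neg, neg_neg]

theorem basis_conj (L : ℕ) (hL : 2 ≤ L) (g : Fin L → Matrix (Fin 3) (Fin 3) ℂ) (κ : Fin L → ℂ)
    (W : Fin L → Matrix (Fin 3) (Fin 3) ℂ) (hW : ∀ j, (W j)ᴴ * W j = 1) :
    (piKron W)ᴴ * Hc L g κ * piKron W =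
      (∑ j, onBond (-((kroneckerMap (· * ·) (W j) (W (finRotate L j)))ᴴ * LL (g j) *
        kroneckerMap (· * ·) (W j) (W (finRotate L j)))) j (finRotate L j)) -
      ∑ j, κ j • onSite ((W j)ᴴ * Lc ℂ 2 * W j) j := by
  simp only [Hc, neg_add, Matrix.mul_add, Matrix.add_mul, Matrix.mul_neg, Matrix.neg_mul,
    Matrix.mul_sum, Matrix.sum_mul, Matrix.mul_smul, Matrix.smul_mul, conj_onSite W hW,
    sub_eq_add_neg, ← Finset.sum_neg_distrib]
  congr 1
  refine Finset.sum_congr rfl fun j _ => ?_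
  rw [conj_onBond W hW _ _ _ (finRotate_ne hL j), ← neg_one_smul ℂ (_ * _ * _), onBond_smul,
    neg_one_smul]

theorem basis_ptr (L : ℕ) (H : Matrix (Cfg L) (Cfg L) ℂ) (hH : H.IsHermitian)
    (W : Fin L → Matrix (Fin 3) (Fin 3) ℂ) (hW : ∀ j, (W j)ᴴ * W j = 1) (β : ℝ) :
    ptr H β = ptr ((piKron W)ᴴ * H * piKron W) β := by
  refine (ptr_conj H _ hH ?_ β).symm
  rw [piKron_conjTranspose, piKron_mul]
  simp only [hW, piKron_one]

theorem basis_entry (i : Fin 24) (X Y : Matrix (Fin 3) (Fin 3) ℂ) (s t : Fin 3 × Fin 3) :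
    (-((kroneckerMap (· * ·) X Y)ᴴ * LL ((Og i).map (Int.cast : ℤ → ℂ)) *
      kroneckerMap (· * ·) X Y)) s t =
      (Xᴴ * ((Og i).map (Int.cast : ℤ → ℂ) * Y)) s.1 t.2 *
        star ((Xᴴ * ((Og i).map (Int.cast : ℤ → ℂ) * Y)) t.1 s.2) -
      star ((Xᵀ * ((Og i).map (Int.cast : ℤ → ℂ) * Y)) s.1 s.2) *
        (Xᵀ * ((Og i).map (Int.cast : ℤ → ℂ) * Y)) t.1 t.2 := by
  simp only [Matrix.neg_apply, mul_apply, Fintype.sum_prod_type, Fin.sum_univ_three, basis_LL_apply,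
    conjTranspose_apply, transpose_apply, kroneckerMap_apply, map_apply, star_add, star_mul',
    star_star, star_intCast]
  ring

theorem basis_D_mul (u v : ℂ) : basisD u * basisD v = basisD (u * v) := by
  rw [basisD, basisD, basisD, diagonal_mul_diagonal]
  congr 1
  funext k
  fin_cases k <;> simp

theorem basis_D_unit {u : ℂ} (hu : star u * u = 1) : (basisD u)ᴴ * basisD u = 1 := by
  rw [basisD, diagonal_conjTranspose, diagonal_mul_diagonal, ← diagonal_one]
  congr 1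
  funext k
  have hu' : u * star u = 1 := by rw [mul_comm, hu]
  fin_cases k
  · exact hu
  · simp
  · simpa using hu'

theorem basis_bond (i : Fin 24) {W : Matrix (Fin 3) (Fin 3) ℂ} (h1 : Wᴴ * W = 1)
    (h2 : Wᵀ * W = basisJ) {w u v : ℂ} (h3 : (Og i).map (Int.cast : ℤ → ℂ) * W = W * basisD w)
    (hu : star u * u = 1) (hv : star (w * v) * (w * v) = 1) :
    -((kroneckerMap (· * ·) (W * basisD u) (W * basisD v))ᴴ * LL ((Og i).map (Int.cast : ℤ → ℂ)) *
      kroneckerMap (· * ·) (W * basisD u) (W * basisD v)) = hloc (star u * (w * v)) := by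
  ext s t
  rw [basis_entry, ← Matrix.mul_assoc _ W, h3, Matrix.mul_assoc W, basis_D_mul,
    conjTranspose_mul, transpose_mul, Matrix.mul_assoc, ← Matrix.mul_assoc Wᴴ, h1, Matrix.one_mul,
    Matrix.mul_assoc, ← Matrix.mul_assoc Wᵀ, h2]
  generalize w * v = x at hv
  simp only [basisD, diagonal_conjTranspose, diagonal_transpose, diagonal_mul, mul_diagonal]
  rw [Complex.star_def] at hu hv
  obtain ⟨a, b⟩ := s
  obtain ⟨c, d⟩ := t
  fin_cases a <;> fin_cases b <;> fin_cases c <;> fin_cases d <;>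
    simp [hloc, basisJ, magneticNumber] <;> grind

theorem basis_frame (f n : Fin 3 → ℂ) (hn : star n = n) (h1 : f ⬝ᵥ f = 0) (h2 : star f ⬝ᵥ f = 1)
    (h3 : n ⬝ᵥ n = 1) (h4 : n ⬝ᵥ f = 0) :
    ∃ W : Matrix (Fin 3) (Fin 3) ℂ, Wᴴ * W = 1 ∧ Wᵀ * W = basisJ ∧
      ∀ (g : Matrix (Fin 3) (Fin 3) ℤ) (w c : ℂ), g.map (Int.cast : ℤ → ℂ) *ᵥ f = w • f →
        g.map (Int.cast : ℤ → ℂ) *ᵥ n = c • n →
        g.map (Int.cast : ℤ → ℂ) * W = W * diagonal ![w, c, star w] := by
  have k1 : star f ⬝ᵥ star f = 0 := by rw [star_dotProduct_star, h1, star_zero]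
  have k2 : f ⬝ᵥ star f = 1 := by rw [dotProduct_comm, h2]
  have k4 : f ⬝ᵥ n = 0 := by rw [dotProduct_comm, h4]
  have k5 : star f ⬝ᵥ n = 0 := by rw [← hn, star_dotProduct_star, h4, star_zero]
  have k6 : n ⬝ᵥ star f = 0 := by rw [dotProduct_comm, k5]
  refine ⟨(Matrix.of ![f, n, -star f])ᵀ, ?_, ?_, fun g w c h5 h6 => ?_⟩
  · ext a b
    change star (![f, n, -star f] a) ⬝ᵥ ![f, n, -star f] b = _
    fin_cases a <;> fin_cases b <;> simp [*]
  · ext a b
    change ![f, n, -star f] a ⬝ᵥ ![f, n, -star f] b = _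
    fin_cases a <;> fin_cases b <;> simp [*, basisJ]
  · have h7 : g.map (Int.cast : ℤ → ℂ) *ᵥ star f = star w • star f := by
      rw [← star_smul, ← h5]
      funext a
      simp [mulVec, dotProduct]
    ext a b
    rw [mul_diagonal]
    change (g.map (Int.cast : ℤ → ℂ) *ᵥ ![f, n, -star f] b) a = ![f, n, -star f] b a * _
    fin_cases b
    · simp [h5, mul_comm]
    · simp [h6, mul_comm]
    · simp [mulVec_neg, h7, mul_comm]

theorem basis_z : ∃ W : Matrix (Fin 3) (Fin 3) ℂ, Wᴴ * W = 1 ∧ Wᵀ * W = basisJ ∧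
    ∀ (g : Matrix (Fin 3) (Fin 3) ℤ) (w c : ℂ),
      g.map (Int.cast : ℤ → ℂ) *ᵥ ![1, -Complex.I, 0] = w • ![1, -Complex.I, 0] →
      g.map (Int.cast : ℤ → ℂ) *ᵥ ![0, 0, 1] = c • ![0, 0, 1] →
      g.map (Int.cast : ℤ → ℂ) * W = W * diagonal ![w, c, star w] := by
  have hr : ((√(1 / 2) : ℝ) : ℂ) * (√(1 / 2) : ℝ) = 1 / 2 := by
    rw [← Complex.ofReal_mul, Real.mul_self_sqrt (by norm_num)]; push_cast; rfl
  generalize √(1 / 2) = r at hr
  obtain ⟨W, h1, h2, h3⟩ := basis_frame ((r : ℂ) • ![1, -Complex.I, 0]) ![0, 0, 1]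
    (by funext a; fin_cases a <;> simp)
    (by simp [dotProduct, Fin.sum_univ_three]; linear_combination (r : ℂ) ^ 2 * Complex.I_mul_I)
    (by
      simp [dotProduct, Fin.sum_univ_three]
      linear_combination 2 * hr - (r : ℂ) ^ 2 * Complex.I_mul_I)
    (by simp [dotProduct, Fin.sum_univ_three]) (by simp [dotProduct, Fin.sum_univ_three])
  exact ⟨W, h1, h2, fun g w c a b => h3 g w c (by rw [mulVec_smul, a, smul_comm]) b⟩

theorem basis_good (i : Fin 24) : ∃ W : Matrix (Fin 3) (Fin 3) ℂ, Wᴴ * W = 1 ∧ Wᵀ * W = basisJ ∧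
    (Og i).map (Int.cast : ℤ → ℂ) * W =
      W * basisD (Complex.exp (2 * Real.pi * Complex.I * cls i / 12)) := by
  obtain ⟨a1, a2, a3, a4⟩ := basis_dec1 i
  suffices h : ∃ W : Matrix (Fin 3) (Fin 3) ℂ, Wᴴ * W = 1 ∧ Wᵀ * W = basisJ ∧
      (Og (basisRep i)).map (Int.cast : ℤ → ℂ) * W =
        W * basisD (Complex.exp (2 * Real.pi * Complex.I * cls (basisRep i) / 12)) by
    obtain ⟨W, h1, h2, h3⟩ := h
    have b1 := congrArg (Int.castRingHom ℂ).mapMatrix a1
    have b2 := congrArg (Int.castRingHom ℂ).mapMatrix a2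
    simp only [map_mul, map_one, RingHom.mapMatrix_apply, Int.coe_castRingHom, transpose_map]
      at b1 b2
    have b3 : ((basisH i).map (Int.cast : ℤ → ℂ))ᴴ = ((basisH i).map (Int.cast : ℤ → ℂ))ᵀ := by
      ext a b
      simp
    refine ⟨(basisH i).map Int.cast * W, ?_, ?_, ?_⟩
    · rw [conjTranspose_mul, b3, Matrix.mul_assoc, ← Matrix.mul_assoc _ _ W, b1, Matrix.one_mul, h1]
    · rw [transpose_mul, Matrix.mul_assoc, ← Matrix.mul_assoc _ _ W, b1, Matrix.one_mul, h2]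
    · rw [← Matrix.mul_assoc, b2, Matrix.mul_assoc, h3, a3, Matrix.mul_assoc]
  obtain ⟨W, h1, h2, h3⟩ := basis_z
  rcases a4 with h | h | h | h | h <;> rw [h]
  · refine ⟨W, h1, h2, h3 _ _ 1 ?_ ?_⟩
    · rw [basis_Og0, show cls 0 = 0 from rfl]; simp
    · rw [basis_Og0]; simp
  · have e : Complex.exp (2 * Real.pi * Complex.I * cls 3 / 12) = -1 := by
      rw [show cls 3 = 6 from rfl, ← Complex.exp_pi_mul_I]; congr 1; push_cast; ring
    rw [e]
    refine ⟨W, h1, h2, h3 _ _ 1 ?_ ?_⟩ <;> rw [show Og 3 = !![-1, 0, 0; 0, -1, 0; 0, 0, 1] from rfl] <;>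
      funext a <;> fin_cases a <;> simp [mulVec, dotProduct, Fin.sum_univ_three]
  · have e : Complex.exp (2 * Real.pi * Complex.I * cls 8 / 12) = -1 := by
      rw [show cls 8 = 6 from rfl, ← Complex.exp_pi_mul_I]; congr 1; push_cast; ring
    rw [e]
    have hr : ((√(1 / 2) : ℝ) : ℂ) * (√(1 / 2) : ℝ) = 1 / 2 := by
      rw [← Complex.ofReal_mul, Real.mul_self_sqrt (by norm_num)]; push_cast; rfl
    generalize √(1 / 2) = r at hr
    obtain ⟨W, h1, h2, h3⟩ := basis_frame ![1 / 2, -1 / 2, r * Complex.I] ![r, r, 0]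
      (by funext a; fin_cases a <;> simp)
      (by
        simp [dotProduct, Fin.sum_univ_three]
        linear_combination -hr + (r : ℂ) ^ 2 * Complex.I_mul_I)
      (by
        simp [dotProduct, Fin.sum_univ_three, map_ofNat]
        linear_combination hr - (r : ℂ) ^ 2 * Complex.I_mul_I)
      (by simp [dotProduct, Fin.sum_univ_three]; linear_combination 2 * hr)
      (by simp [dotProduct, Fin.sum_univ_three]; ring)
    refine ⟨W, h1, h2, h3 _ _ 1 ?_ ?_⟩ <;> rw [show Og 8 = !![0, 1, 0; 1, 0, 0; 0, 0, -1] from rfl] <;>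
      funext a <;> fin_cases a <;> simp [mulVec, dotProduct, Fin.sum_univ_three] <;> ring
  · have e : Complex.exp (2 * Real.pi * Complex.I * cls 10 / 12) = Complex.I := by
      rw [show cls 10 = 3 from rfl]
      conv_rhs => rw [← Complex.exp_pi_div_two_mul_I]
      congr 1; push_cast; ring
    rw [e]
    refine ⟨W, h1, h2, h3 _ _ 1 ?_ ?_⟩ <;> rw [show Og 10 = !![0, -1, 0; 1, 0, 0; 0, 0, 1] from rfl] <;>
      funext a <;> fin_cases a <;> simp [mulVec, dotProduct, Fin.sum_univ_three]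
  · have e : Complex.exp (2 * Real.pi * Complex.I * cls 12 / 12) =
        Complex.exp (2 * Real.pi * Complex.I / (3 : ℕ)) := by
      rw [show cls 12 = 4 from rfl]; congr 1; push_cast; ring
    rw [e]
    have hp := Complex.isPrimitiveRoot_exp 3 (by norm_num)
    have e1 := hp.geom_sum_eq_zero (by norm_num)
    have e2 := hp.pow_eq_one
    have e3 : (starRingEnd ℂ) (Complex.exp (2 * Real.pi * Complex.I / (3 : ℕ))) *
        Complex.exp (2 * Real.pi * Complex.I / (3 : ℕ)) = 1 := by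
      rw [Complex.conj_mul', hp.norm'_eq_one (by norm_num)]; simp
    generalize Complex.exp (2 * Real.pi * Complex.I / (3 : ℕ)) = ω at e1 e2 e3
    simp only [Finset.sum_range_succ, Finset.sum_range_zero] at e1
    have e4 : (starRingEnd ℂ) ω = ω ^ 2 := by
      linear_combination ω ^ 2 * e3 - (starRingEnd ℂ) ω * e2
    have hr : ((√(1 / 3) : ℝ) : ℂ) * (√(1 / 3) : ℝ) = 1 / 3 := by
      rw [← Complex.ofReal_mul, Real.mul_self_sqrt (by norm_num)]; push_cast; rfl
    generalize √(1 / 3) = r at hr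
    obtain ⟨W, h1, h2, h3⟩ := basis_frame ![r, r * ω, r * ω ^ 2] ![r, r, r]
      (by funext a; fin_cases a <;> simp)
      (by
        simp [dotProduct, Fin.sum_univ_three]
        linear_combination (r : ℂ) ^ 2 * e1 + (r : ℂ) ^ 2 * ω * e2)
      (by
        simp [dotProduct, Fin.sum_univ_three, e4]
        linear_combination 3 * hr + (r : ℂ) ^ 2 * (ω ^ 3 + 2) * e2)
      (by simp [dotProduct, Fin.sum_univ_three]; linear_combination 3 * hr)
      (by simp [dotProduct, Fin.sum_univ_three]; linear_combination (r : ℂ) ^ 2 * e1)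
    refine ⟨W, h1, h2, h3 _ _ 1 ?_ ?_⟩ <;> rw [show Og 12 = !![0, 1, 0; 0, 0, 1; 1, 0, 0] from rfl] <;>
      funext a <;> fin_cases a <;> simp [mulVec, dotProduct, Fin.sum_univ_three]
    · ring
    · ring
    · linear_combination -(r : ℂ) * e2

theorem basis_zeta_unit (L a k : ℕ) : star (zeta L a ^ k) * zeta L a ^ k = 1 := by
  have h : star (om L) * om L = 1 := by
    rw [om, Complex.star_def, ← Complex.exp_conj, ← Complex.exp_add, ← Complex.exp_zero]
    congr 1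
    simp only [map_div₀, map_mul, Complex.conj_I, Complex.conj_ofReal, map_natCast, map_ofNat]
    ring
  rw [zeta, ← pow_mul, star_pow, ← mul_pow, h, one_pow]

theorem basis_zeta_pow {L : ℕ} (hL : L ≠ 0) (a : ℕ) :
    zeta L a ^ L = Complex.exp (2 * Real.pi * Complex.I * a / 12) := by
  rw [zeta, om, ← pow_mul, ← Complex.exp_nat_mul]
  congr 1
  have : (L : ℂ) ≠ 0 := Nat.cast_ne_zero.2 hL
  push_cast
  field_simp
  ring

theorem Hc_ring_herm (L : ℕ) (i : Fin 24) :
    (Hc L (seam L ((Og i).map (Int.cast : ℤ → ℂ))) 0).IsHermitian := by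
  refine basis_herm L _ _ (fun j α β => ?_) (by simp)
  unfold seam
  split_ifs
  · simp
  · rw [← basis_Og0]; simp

theorem Hc_open_herm (N : ℕ) (τ : Bool) : (Hc N (seam N 0) (endF N τ)).IsHermitian := by
  refine basis_herm N _ _ (fun j α β => ?_) fun j => ?_
  · unfold seam
    split_ifs
    · simp
    · rw [← basis_Og0]; simp
  · unfold endF
    split_ifs <;> simp

theorem basis_ring (L : ℕ) (hL : 2 ≤ L) (i : Fin 24) (β : ℝ) :
    ptr (Hc L (seam L ((Og i).map (Int.cast : ℤ → ℂ))) 0) β = Zr (cls i) L β := by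
  obtain ⟨W, h1, h2, h3⟩ := basis_good i
  rw [← basis_zeta_pow (L := L) (by omega)] at h3
  have hW : ∀ j : Fin L, (W * basisD (zeta L (cls i) ^ j.val))ᴴ *
      (W * basisD (zeta L (cls i) ^ j.val)) = 1 := fun j => by
    rw [conjTranspose_mul, Matrix.mul_assoc, ← Matrix.mul_assoc Wᴴ, h1, Matrix.one_mul,
      basis_D_unit (basis_zeta_unit _ _ _)]
  rw [basis_ptr L _ (Hc_ring_herm L i) _ hW, basis_conj L hL _ _ _ hW, Zr, Hring]
  congr 1
  simp only [Pi.zero_apply, zero_smul, Finset.sum_const_zero, sub_zero]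
  refine Finset.sum_congr rfl fun j _ => ?_
  rw [tbond_eq_onBond _ _ _ (finRotate_ne hL j)]
  congr 1
  obtain ⟨n, rfl⟩ := Nat.exists_eq_succ_of_ne_zero (show L ≠ 0 by omega)
  have hu := basis_zeta_unit (n + 1) (cls i) j.val
  unfold seam
  split_ifs with hj
  · rw [basis_bond i h1 h2 h3 hu (by rw [← pow_add]; exact basis_zeta_unit _ _ _)]
    obtain rfl : j = Fin.last n := Fin.ext (by simpa using hj)
    rw [finRotate_last, Fin.val_zero, pow_zero, mul_one, pow_succ, ← mul_assoc]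
    rw [Fin.val_last] at hu ⊢
    rw [hu, one_mul]
  · rw [← basis_Og0, basis_bond 0 h1 h2 (w := 1) (by
      rw [basis_Og0, basisD, Matrix.one_mul]
      conv_lhs => rw [← Matrix.mul_one W, ← diagonal_one]
      congr 2
      funext k
      fin_cases k <;> simp) hu (by rw [one_mul]; exact basis_zeta_unit _ _ _)]
    rw [one_mul, coe_finRotate_of_ne_last (fun h => hj (by rw [h]; rfl)), pow_succ, ← mul_assoc, hu,
      one_mul]

theorem basis_open (N : ℕ) (hN : 2 ≤ N) (τ : Bool) (β : ℝ) :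
    ptr (Hc N (seam N 0) (endF N τ)) β = Zo τ N β := by
  obtain ⟨W, h1, h2, h3⟩ := basis_z
  have hD : basisD 1 = 1 := by
    rw [basisD, ← diagonal_one]
    congr 1
    funext k
    fin_cases k <;> simp
  have h4 : Wᴴ * Lc ℂ 2 * W = (-Complex.I) • spinZ := by
    rw [Matrix.mul_assoc, Lc, h3 (Lz 2) (-Complex.I) 0, ← Matrix.mul_assoc, h1, Matrix.one_mul]
    · ext a b
      fin_cases a <;> fin_cases b <;> simp [spinZ, magneticNumber]
      ring
    all_goals
      rw [show Lz 2 = !![0, 1, 0; -1, 0, 0; 0, 0, 0] from rfl]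
      funext a
      fin_cases a <;> simp [mulVec, dotProduct, Fin.sum_univ_three]
  have h5 := basis_bond 0 h1 h2 (w := 1) (u := 1) (v := 1)
    (by rw [basis_Og0, hD, Matrix.one_mul, Matrix.mul_one]) (by simp) (by simp)
  simp only [hD, Matrix.mul_one, basis_Og0, star_one, mul_one] at h5
  rw [basis_ptr N _ (Hc_open_herm N τ) (fun _ => W) fun _ => h1, basis_conj N hN _ _ _ fun _ => h1]
  obtain ⟨n, rfl⟩ := Nat.exists_eq_succ_of_ne_zero (show N ≠ 0 by omega)
  change _ = ptr (Hopen n τ) β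
  congr 1
  rw [Hopen]
  congr 1
  · rw [Fin.sum_univ_castSucc]
    have e0 : seam (n + 1) (0 : Matrix (Fin 3) (Fin 3) ℂ) (Fin.last n) = 0 := if_pos rfl
    have e1 : LL 0 = 0 := by simp [LL]
    have e2 : ∀ j k : Fin (n + 1), onBond (0 : Matrix (Fin 3 × Fin 3) (Fin 3 × Fin 3) ℂ) j k = 0 := by
      intro j k
      rw [← zero_smul ℂ (0 : Matrix (Fin 3 × Fin 3) (Fin 3 × Fin 3) ℂ), onBond_smul, zero_smul]
    rw [e0, e1, Matrix.mul_zero, Matrix.zero_mul, neg_zero, e2, add_zero]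
    refine Finset.sum_congr rfl fun j _ => ?_
    have e3 : seam (n + 1) (0 : Matrix (Fin 3) (Fin 3) ℂ) j.castSucc = 1 :=
      if_neg (by have := j.2; simp; omega)
    have e4 : finRotate (n + 1) j.castSucc = j.succ := by
      rw [finRotate_succ_apply, Fin.coeSucc_eq_succ]
    rw [e3, e4, h5, bond_eq_tbond, tbond_eq_onBond _ _ _ (Fin.castSucc_lt_succ (i := j)).ne]
  · simp only [h4, basis_onSite_smul, endF, add_smul, Finset.sum_add_distrib]
    rw [Finset.sum_eq_single 0, Finset.sum_eq_single (Fin.last n), if_pos (Fin.val_zero _),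
      if_pos (by simp), smul_add, smul_smul, smul_smul, smul_smul]
    · congr 2
      · push_cast
        linear_combination -(3 / 5) * Complex.I_mul_I
      · push_cast
        linear_combination -(3 / 5) * (if τ then (1 : ℂ) else -1) * Complex.I_mul_I
    · intro j _ hj
      rw [if_neg fun h => hj (Fin.ext (by simpa using h)), zero_smul]
    · simp
    · intro j _ hj
      rw [if_neg fun h : j.val = 0 => hj (Fin.ext h), zero_smul]
    · simp

end Crest.Agent.R347
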