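import Crest.Agent.R347.BootTab

/-! Row 347: asymptotic part of the ring bootstrap. -/

set_option autoImplicit false

namespace Crest.Agent.R347

theorem asym_bern {t : ℝ} (ht : 0 ≤ t) {n : ℕ} (hn : 1 ≤ n) : 1 + t ≤ (1 + t / n) ^ n := by
  have hn' : (0 : ℝ) < n := by exact_mod_cast hn
  have h := one_add_mul_le_pow (a := t / n) (by linarith [div_nonneg ht hn'.le]) n
  rwa [mul_div_cancel₀ _ hn'.ne'] at h

theorem asym_pow_le {x z : ℝ} (hx : 0 ≤ x) {n : ℕ} (hz : n * x ≤ z) (hz1 : z ≤ 1) :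
    (1 + x) ^ n ≤ 1 + z + z ^ 2 := by
  have h0 : 0 ≤ z := le_trans (by positivity) hz
  have h1 : (1 + x) ^ n ≤ Real.exp x ^ n :=
    pow_le_pow_left₀ (by linarith) (by linarith [Real.add_one_le_exp x]) n
  rw [← Real.exp_nat_mul] at h1
  have h2 := Real.exp_le_exp.2 hz
  have h3 := Real.abs_exp_sub_one_sub_id_le (x := z) (by rwa [abs_of_nonneg h0])
  linarith [(abs_le.1 h3).2]

theorem asym_four {t : ℝ} (ht : 0 ≤ t) (ht1 : t ≤ 1 / 16) {n m : ℕ} (hn : 1 ≤ n)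
    (hm : m ≤ 2 * n) : (1 + t) * (1 + t / n) ^ m ≤ 1 + 4 * t := by
  have hn' : (0 : ℝ) < n := by exact_mod_cast hn
  have hm' : (m : ℝ) ≤ 2 * n := by exact_mod_cast hm
  have h1 : m * (t / n) ≤ 2 * t := by
    rw [← mul_div_assoc, div_le_iff₀ hn']
    nlinarith
  have h2 := asym_pow_le (div_nonneg ht hn'.le) h1 (by linarith)
  have h3 := mul_le_mul_of_nonneg_left h2 (by linarith : 0 ≤ 1 + t)
  nlinarith [mul_nonneg ht ht]

theorem th_pos (j : ℕ) : 0 < th j := by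
  unfold th
  positivity

theorem th_eq (j : ℕ) : th j = (1 / 256) ^ (2 ^ j) / (2 ^ 16 * 2 ^ j) := by
  unfold th
  rw [pow_add, pow_add, pow_mul, one_div_pow]
  norm_num
  field_simp

theorem th_le (j : ℕ) : th j ≤ (1 / 256) ^ (2 ^ j) / 2 ^ 16 := by
  rw [th_eq]
  have : (1 : ℝ) ≤ 2 ^ j := one_le_pow₀ one_le_two
  exact div_le_div_of_nonneg_left (by positivity) (by positivity) (by nlinarith)

theorem th_le' (j : ℕ) : th j ≤ 1 / 2 ^ 16 := by
  refine (th_le j).trans (div_le_div_of_nonneg_right ?_ (by positivity))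
  exact pow_le_one₀ (by norm_num) (by norm_num)

theorem th_succ (j : ℕ) : th (j + 1) = 2 ^ 15 * 2 ^ j * th j ^ 2 := by
  rw [th_eq, th_eq, pow_succ 2 j, pow_mul, pow_succ (2 : ℝ) j]
  field_simp

theorem four_th (j : ℕ) : 4 * th j = (1 / 2) ^ (8 * 2 ^ j + j + 14) := by
  unfold th
  rw [one_div_pow, show 8 * 2 ^ j + j + 16 = (8 * 2 ^ j + j + 14) + 2 from rfl, pow_add]
  field_simp
  norm_num

theorem asym_EK {n : ℕ} (hn : 1 ≤ n) : EK (1200 * n) := ⟨by omega, by omega⟩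

/-- enlarging the ring -/
theorem asym_xt (S : Sys) {j : ℕ} (h : S.Phi (1200 * 2 ^ j) (400 * 2 ^ j) (1 + th j)) {K' : ℕ}
    (hK' : EK K') (h1 : 1200 * 2 ^ j ≤ K') (h2 : K' ≤ 2 * (1200 * 2 ^ j)) :
    S.Xt K' (400 * 2 ^ j) (4 * th j) := by
  have hn : 1 ≤ 2 ^ j := Nat.one_le_two_pow
  have hK := asym_EK hn
  have hb : 1 ≤ 400 * 2 ^ j := by omega
  have ht := (th_pos j).le
  have ht1 := th_le' j
  have hs := Sys.xs_phi h hK hb le_rfl
  have hp := Sys.p_phi h hK hb (by positivity) (asym_bern ht (by omega : 1 ≤ 1200 * 2 ^ j))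
  have hs' := Sys.xs_pow0 hs hK hK' hb h1 ht
    (pow_le_pow_of_le_one ht (by linarith) h1)
  exact Sys.xt_phi (Sys.phi_s hs' hp hK' hb (asym_four ht (by linarith) (by omega) h2)) hK' le_rfl

theorem asym_step (S : Sys) {j : ℕ} (h : S.Phi (1200 * 2 ^ j) (400 * 2 ^ j) (1 + th j)) :
    S.Phi (1200 * 2 ^ (j + 1)) (400 * 2 ^ (j + 1)) (1 + th (j + 1)) := by
  have hn : 1 ≤ 2 ^ j := Nat.one_le_two_pow
  have hj : j < 2 ^ j := Nat.lt_two_pow_self
  have hK := asym_EK hn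
  have hK2 : EK (2 * (1200 * 2 ^ j)) := ⟨by omega, by omega⟩
  have hb : 1 ≤ 400 * 2 ^ j := by omega
  have ht := (th_pos j).le
  have ht1 := th_le' j
  have hx := asym_xt S h hK2 (by omega) le_rfl
  -- lowering the temperature
  have hxt := Sys.xt_phi h hK le_rfl
  have hd := Sys.d_phi h hK hb (by positivity) (asym_bern ht hb)
  have hxt' : S.Xt (1200 * 2 ^ j) (2 * (400 * 2 ^ j)) (th j) :=
    Sys.xt_pow hxt hK hb (by omega) ht (pow_le_pow_of_le_one ht (by linarith) (by omega))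
  have hxs : S.Xs (1200 * 2 ^ j) (2 * (400 * 2 ^ j)) (4 * th j) :=
    Sys.xs_phi (Sys.phi_t hxt' hd hK (asym_four ht (by linarith) hb le_rfl)) hK (by omega) le_rfl
  have hxs2 : S.Xs (2 * (1200 * 2 ^ j)) (2 * (400 * 2 ^ j)) ((4 * th j) ^ 2) :=
    Sys.xs_pow0 hxs hK hK2 (by omega) (by omega) (by positivity) (by rw [← pow_mul])
  have hxt2 : S.Xt (2 * (1200 * 2 ^ j)) (2 * (400 * 2 ^ j)) ((4 * th j) ^ 2) :=
    Sys.xt_pow hx hK2 hb (by omega) (by positivity) (by rw [← pow_mul])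
  have hy : S.Xt (2 * (1200 * 2 ^ j)) (2 * (400 * 2 ^ j) - 50) (8 * (4 * th j) ^ 2) := by
    refine Sys.xt_pow hx hK2 hb (by omega) (by positivity) ?_
    have e : 8 * (4 * th j) ^ 2 = (1 / 2) ^ (2 * (8 * 2 ^ j + j + 14) - 3) := by
      rw [four_th, ← pow_mul, show (8 * 2 ^ j + j + 14) * 2 = (2 * (8 * 2 ^ j + j + 14) - 3) + 3 by
        omega, pow_add]
      ring
    rw [e, four_th, ← pow_mul, ← pow_mul]
    refine pow_le_pow_of_le_one (by norm_num) (by norm_num) ?_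
    generalize 2 ^ j = n at hn hj
    obtain ⟨m, hm⟩ : ∃ m, 2 * (8 * n + j + 14) = m + 3 := ⟨2 * (8 * n + j + 14) - 3, by omega⟩
    obtain ⟨c, hc⟩ : ∃ c, 2 * (400 * n) = c + 50 := ⟨2 * (400 * n) - 50, by omega⟩
    rw [hm, hc, Nat.add_sub_cancel, Nat.add_sub_cancel]
    nlinarith
  set y := 8 * (4 * th j) ^ 2 with hydef
  have hy0 : 0 ≤ y := by positivity
  have hy1 : y ≤ 1 := by nlinarith
  have hD : S.Dk (2 * (1200 * 2 ^ j)) (1 + 3 * y / (50 : ℕ)) := by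
    refine Sys.d_rule hy hxs2 hK2 (by omega) (by omega) (by positivity) ?_
    rw [show 2 * (400 * 2 ^ j) - (2 * (400 * 2 ^ j) - 50) = 50 by omega]
    refine le_trans ?_ (asym_bern (by positivity) (by norm_num))
    have : (4 * th j) ^ 2 = y / 8 := by rw [hydef]; ring
    rw [this]
    nlinarith
  rw [show 1200 * 2 ^ (j + 1) = 2 * (1200 * 2 ^ j) by ring,
    show 400 * 2 ^ (j + 1) = 2 * (400 * 2 ^ j) by ring]
  refine Sys.phi_t hxt2 hD hK2 ?_
  have hs := th_succ j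
  have hs0 := (th_pos (j + 1)).le
  have hs1 := th_le' (j + 1)
  have hn' : (1 : ℝ) ≤ 2 ^ j := one_le_pow₀ one_le_two
  have h1 : ((2 * (400 * 2 ^ j) : ℕ) : ℝ) * (3 * y / (50 : ℕ)) ≤ th (j + 1) / 4 := by
    rw [hs, hydef]
    push_cast
    nlinarith [mul_nonneg (by positivity : (0 : ℝ) ≤ 2 ^ j) (sq_nonneg (th j))]
  have h2 := asym_pow_le (by positivity) h1 (by linarith)
  have h3 : (4 * th j) ^ 2 ≤ th (j + 1) / 4 := by
    rw [hs]
    nlinarith [sq_nonneg (th j)]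
  have h4 := mul_le_mul (by linarith : 1 + (4 * th j) ^ 2 ≤ 1 + th (j + 1) / 4) h2 (by positivity)
    (by positivity)
  refine h4.trans ?_
  nlinarith [mul_nonneg hs0 hs0]

theorem asym_phi (S : Sys) (h : S.Phi 1200 400 (1 + 1 / 2 ^ 24)) (j : ℕ) :
    S.Phi (1200 * 2 ^ j) (400 * 2 ^ j) (1 + th j) := by
  induction j with
  | zero => simpa [th] using h
  | succ j ih => exact asym_step S ih

theorem asym_pm (S : Sys) (h : S.Phi 1200 400 (1 + 1 / 2 ^ 24)) (j : ℕ) :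
    S.Pb (400 * 2 ^ j) (1 + th j / (1200 * 2 ^ j)) ∧ S.MA (400 * 2 ^ j) (9954 / 10000) ∧
      S.MB (400 * 2 ^ j) (9954 / 10000) := by
  have h := asym_phi S h j
  have hn : 1 ≤ 2 ^ j := Nat.one_le_two_pow
  have hK := asym_EK hn
  have hb : 1 ≤ 400 * 2 ^ j := by omega
  have ht := (th_pos j).le
  have ht1 := th_le' j
  have hs := Sys.xs_phi h hK hb le_rfl
  have hp := Sys.p_phi h hK hb (by positivity) (asym_bern ht (by omega : 1 ≤ 1200 * 2 ^ j))
  have hm : th j ≤ (9954 / 10000 : ℝ) ^ (1200 * 2 ^ j) := by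
    have h1 : (3969 / 10000 : ℝ) ≤ (9954 / 10000) ^ 200 := by norm_num
    have h2 : (1 / 256 : ℝ) ≤ (9954 / 10000) ^ 1200 := by
      rw [show 1200 = 200 * 6 from rfl, pow_mul]
      exact le_trans (by norm_num) (pow_le_pow_left₀ (by norm_num) h1 6)
    rw [pow_mul]
    refine le_trans ?_ (pow_le_pow_left₀ (by norm_num) h2 _)
    refine (th_le j).trans (div_le_self (by positivity) (by norm_num))
  refine ⟨by simpa using hp, Sys.ma_ss hs (Sys.ss_xs hs hK hb) hK hb (by linarith) (by norm_num) hm,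
    Sys.mb_xs hs hK hb (by linarith) (by norm_num) (by linarith)⟩

theorem asym_ring (S : Sys) (h : S.Phi 1200 400 (1 + 1 / 2 ^ 24)) (L : ℕ) (hL : Even L)
    (h' : 1200 ≤ L) : GapAt (S.Z 0 L) (S.E0 L) (1 / 200) := by
  obtain ⟨j, h1, h2⟩ : ∃ j, 1200 * 2 ^ j ≤ L ∧ L ≤ 2 * (1200 * 2 ^ j) := by
    refine ⟨Nat.log 2 (L / 1200), ?_, ?_⟩
    · have := Nat.pow_log_le_self 2 (x := L / 1200) (by omega)
      omega
    · have := Nat.lt_pow_succ_log_self (b := 2) (by norm_num) (L / 1200)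
      rw [pow_succ] at this
      omega
  have hn : 1 ≤ 2 ^ j := Nat.one_le_two_pow
  have hE : EK L := ⟨Nat.even_iff.1 hL, by omega⟩
  refine Sys.gap_xt (asym_xt S (asym_phi S h j) hE h1 h2) (by omega) _ ?_
  have e : -(1 / 200 : ℝ) * ((400 * 2 ^ j : ℕ) : ℝ) = ((2 ^ j : ℕ) : ℝ) * (-2) := by
    push_cast
    ring
  rw [e, Real.exp_nat_mul]
  have h3 : (1 / 256 : ℝ) ≤ Real.exp (-2) := by
    have h4 : Real.exp 2 ≤ 256 := by
      have := Real.exp_one_lt_d9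
      have h5 : Real.exp 2 = Real.exp 1 * Real.exp 1 := by rw [← Real.exp_add]; norm_num
      nlinarith [Real.exp_pos 1]
    rw [Real.exp_neg, one_div]
    exact inv_anti₀ (Real.exp_pos 2) h4
  have h6 := pow_le_pow_left₀ (by norm_num) h3 (2 ^ j)
  have h7 := th_le j
  have h8 : (0 : ℝ) < (1 / 256) ^ (2 ^ j) := by positivity
  linarith

end Crest.Agent.R347
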