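import Crest.Agent.R347.BootTab

/-! Row 347: asymptotic part of the open-chain bootstrap. -/

set_option autoImplicit false

namespace Crest.Agent.R347

/-- the error of the open-chain induction -/
noncomputable def epsO (j : ℕ) : ℝ := 1 / 2 ^ (4 * 2 ^ j + 6)

theorem epsO_pos (j : ℕ) : 0 < epsO j := by
  unfold epsO
  positivity

theorem th_pos_o (j : ℕ) : 0 < th j := by
  unfold th
  positivity

theorem epsO_le (j : ℕ) : epsO j ≤ 1 / 1024 := by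
  have h1 : 1 ≤ 2 ^ j := Nat.one_le_two_pow
  have h2 : (2 : ℝ) ^ 10 ≤ 2 ^ (4 * 2 ^ j + 6) := pow_le_pow_right₀ (by norm_num) (by omega)
  unfold epsO
  exact one_div_le_one_div_of_le (by norm_num) (by linarith)

theorem th_le_epsO (j : ℕ) : th j ≤ epsO j / 2 ^ 14 := by
  have h1 : 1 ≤ 2 ^ j := Nat.one_le_two_pow
  unfold th epsO
  rw [div_div, ← pow_add]
  exact one_div_le_one_div_of_le (by positivity) (pow_le_pow_right₀ (by norm_num) (by omega))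

theorem eta_le_epsO (j : ℕ) : (1 / 2 : ℝ) ^ (400 * 2 ^ j) ≤ epsO j / 2 ^ 7 := by
  have h1 : 1 ≤ 2 ^ j := Nat.one_le_two_pow
  unfold epsO
  rw [div_div, ← pow_add, one_div_pow]
  exact one_div_le_one_div_of_le (by positivity) (pow_le_pow_right₀ (by norm_num) (by omega))

theorem pm_le_o (j : ℕ) : (1 + th j / (1200 * 2 ^ j)) * (9954 / 10000 : ℝ) ≤ 99541 / 100000 := by
  have h1 : (1 : ℝ) ≤ 2 ^ j := one_le_pow₀ (by norm_num)
  have h2 := th_le_epsO j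
  have h3 := epsO_le j
  have h4 : th j / (1200 * 2 ^ j) ≤ th j := div_le_self (th_pos_o j).le (by linarith)
  linarith

theorem crude_num : (55 : ℝ) ^ 2 * (99541 / 100000) ^ 1999 ≤ 1 / 2 := by
  have h1 : (99541 / 100000 : ℝ) ^ 151 ≤ 1 / 2 := by norm_num
  have h2 : (99541 / 100000 : ℝ) ^ 1999 ≤ (99541 / 100000) ^ (151 * 13) :=
    pow_le_pow_of_le_one (by norm_num) (by norm_num) (by norm_num)
  have h3 : (99541 / 100000 : ℝ) ^ (151 * 13) ≤ (1 / 2) ^ 13 := by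
    rw [pow_mul]
    exact pow_le_pow_left₀ (by positivity) h1 13
  have h4 : (99541 / 100000 : ℝ) ^ 1999 ≤ (1 / 2) ^ 13 := h2.trans h3
  calc (55 : ℝ) ^ 2 * (99541 / 100000) ^ 1999 ≤ 55 ^ 2 * (1 / 2) ^ 13 := by gcongr
    _ ≤ 1 / 2 := by norm_num

theorem crude_le {b β : ℕ} {r : ℝ} (hb : 8 ≤ b) (hβ : β ≤ 2 * b) (hr0 : 0 ≤ r)
    (hr : r ≤ 99541 / 100000) : 55 ^ β * r ^ (2000 * b - 8) ≤ (1 / 2 : ℝ) ^ b := by
  have h1 : (55 : ℝ) ^ β ≤ (55 ^ 2) ^ b := by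
    rw [← pow_mul]
    exact pow_le_pow_right₀ (by norm_num) hβ
  have h2 : r ^ (2000 * b - 8) ≤ ((99541 / 100000 : ℝ) ^ 1999) ^ b := by
    rw [← pow_mul]
    exact (pow_le_pow_left₀ hr0 hr _).trans
      (pow_le_pow_of_le_one (by norm_num) (by norm_num) (by omega))
  calc 55 ^ β * r ^ (2000 * b - 8) ≤ (55 ^ 2) ^ b * ((99541 / 100000 : ℝ) ^ 1999) ^ b := by
        gcongr
    _ = ((55 : ℝ) ^ 2 * (99541 / 100000) ^ 1999) ^ b := (mul_pow _ _ _).symm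
    _ ≤ (1 / 2) ^ b := pow_le_pow_left₀ (by positivity) crude_num b

theorem P_le_o (j k : ℕ) (hk : k ≤ 800000 * 2 ^ j) :
    (1 + th j / (1200 * 2 ^ j)) ^ k ≤ 1 + epsO j / 4 := by
  have h0 := th_pos_o j
  have h2 := th_le_epsO j
  have h3 := epsO_le j
  have hn : (0 : ℝ) < 2 ^ j := by positivity
  have hx : 0 ≤ th j / (1200 * 2 ^ j) := by positivity
  have hk' : (k : ℝ) ≤ 800000 * 2 ^ j := by exact_mod_cast hk
  have h4 : (k : ℝ) * (th j / (1200 * 2 ^ j)) ≤ 667 * th j := by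
    calc (k : ℝ) * (th j / (1200 * 2 ^ j)) ≤ (800000 * 2 ^ j) * (th j / (1200 * 2 ^ j)) := by gcongr
      _ = 2000 / 3 * th j := by field_simp; norm_num
      _ ≤ 667 * th j := by linarith
  have h5 : (1 + th j / (1200 * 2 ^ j)) ^ k ≤ Real.exp (667 * th j) := by
    calc (1 + th j / (1200 * 2 ^ j)) ^ k ≤ Real.exp (th j / (1200 * 2 ^ j)) ^ k :=
          pow_le_pow_left₀ (by linarith) (by linarith [Real.add_one_le_exp (th j / (1200 * 2 ^ j))]) k
      _ = Real.exp (k * (th j / (1200 * 2 ^ j))) := (Real.exp_nat_mul _ _).symm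
      _ ≤ Real.exp (667 * th j) := Real.exp_le_exp.2 h4
  have h6 : Real.exp (667 * th j) ≤ 1 / (1 - 667 * th j) :=
    Real.exp_bound_div_one_sub_of_interval (by positivity) (by linarith)
  have h7 : 1 / (1 - 667 * th j) ≤ 1 + 2 * (667 * th j) := by
    rw [div_le_iff₀ (by linarith)]
    nlinarith
  linarith

theorem side_o {e P η : ℝ} (he0 : 0 ≤ e) (he : e ≤ 1 / 1024) (hP0 : 0 ≤ P) (hP : P ≤ 1 + e / 4)
    (hη0 : 0 ≤ η) (hη : η ≤ e / 2 ^ 7) :
    ((1 + e) * P * (1 + 2 * η + 2 * η)) ^ 2 * (1 + 2 * η) ≤ (1 + 5 * e) * (1 - 2 * η - 2 * η) := by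
  have h1 : (1 + e) * P ≤ 1 + 13 / 10 * e := by nlinarith
  have h2 : (1 + e) * P * (1 + 2 * η + 2 * η) ≤ 1 + 14 / 10 * e := by
    calc (1 + e) * P * (1 + 2 * η + 2 * η) ≤ (1 + 13 / 10 * e) * (1 + e / 32) :=
          mul_le_mul h1 (by linarith) (by linarith) (by linarith)
      _ ≤ 1 + 14 / 10 * e := by nlinarith
  have h3 : ((1 + e) * P * (1 + 2 * η + 2 * η)) ^ 2 ≤ 1 + 3 * e := by
    calc ((1 + e) * P * (1 + 2 * η + 2 * η)) ^ 2 ≤ (1 + 14 / 10 * e) ^ 2 := by gcongr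
      _ ≤ 1 + 3 * e := by nlinarith
  calc ((1 + e) * P * (1 + 2 * η + 2 * η)) ^ 2 * (1 + 2 * η) ≤ (1 + 3 * e) * (1 + e / 64) := by
        gcongr
        linarith
    _ ≤ (1 + 5 * e) * (1 - e / 32) := by nlinarith
    _ ≤ (1 + 5 * e) * (1 - 2 * η - 2 * η) :=
        mul_le_mul_of_nonneg_left (by linarith) (by linarith)

theorem gap_o (j : ℕ) : 5 * epsO j < Real.exp (-(6 / 1000) * ((400 * 2 ^ j : ℕ) : ℝ)) := by
  have h1 : Real.exp (6 / 10) ≤ 2 := by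
    have := Real.log_two_gt_d9
    calc Real.exp (6 / 10) ≤ Real.exp (Real.log 2) := Real.exp_le_exp.2 (by linarith)
      _ = 2 := Real.exp_log (by norm_num)
  have h2 : Real.exp (6 / 10) ^ (4 * 2 ^ j) ≤ 2 ^ (4 * 2 ^ j) :=
    pow_le_pow_left₀ (Real.exp_pos _).le h1 _
  have h3 : Real.exp (-(6 / 1000) * ((400 * 2 ^ j : ℕ) : ℝ))
      = 1 / Real.exp (6 / 10) ^ (4 * 2 ^ j) := by
    rw [← Real.exp_nat_mul, one_div, ← Real.exp_neg]
    congr 1
    push_cast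
    ring
  rw [h3]
  have h4 : 5 * epsO j < 1 / 2 ^ (4 * 2 ^ j) := by
    unfold epsO
    rw [pow_add, mul_one_div, div_lt_div_iff₀ (by positivity) (by positivity)]
    have : (0 : ℝ) < 2 ^ (4 * 2 ^ j) := by positivity
    nlinarith
  exact h4.trans_le (one_div_le_one_div_of_le (by positivity) h2)

theorem step_o (S : Sys) (hup : ∀ τ β, 30 ≤ β → S.Up τ 8 β 1)
    (hpm : ∀ j : ℕ, S.Pb (400 * 2 ^ j) (1 + th j / (1200 * 2 ^ j)) ∧
      S.MA (400 * 2 ^ j) (9954 / 10000) ∧ S.MB (400 * 2 ^ j) (9954 / 10000))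
    (j : ℕ) (hal : S.Al (800000 * 2 ^ j) (400 * 2 ^ j) (epsO j)) (N : ℕ)
    (h1 : 800000 * 2 ^ j ≤ N) (h2 : N ≤ 800000 * 2 ^ (j + 1)) :
    S.Al N (400 * 2 ^ j) (5 * epsO j) := by
  have hn : 1 ≤ 2 ^ j := Nat.one_le_two_pow
  have hn' : 2 ^ (j + 1) = 2 * 2 ^ j := by ring
  have hEK : EK (800000 * 2 ^ j) := ⟨by omega, by omega⟩
  obtain ⟨η, hη⟩ : ∃ η : ℝ, η = (1 / 2 : ℝ) ^ (400 * 2 ^ j) := ⟨_, rfl⟩
  have hη0 : 0 ≤ η := by rw [hη]; positivity
  have hηe : η ≤ epsO j / 2 ^ 7 := by rw [hη]; exact eta_le_epsO j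
  have he := epsO_le j
  have he0 := epsO_pos j
  have hη2 : η ≤ 2 * η * (1 - η) := by nlinarith
  -- crude bounds at every `N' ≥ N_j`
  have hy : ∀ i, i = j ∨ i = j + 1 → ∀ N', 800000 * 2 ^ j ≤ N' →
      S.YA N' (400 * 2 ^ i) (2 * η) ∧ S.YB N' (400 * 2 ^ i) (2 * η) := by
    intro i hi N' hN'
    have hi1 : 1 ≤ 2 ^ i := Nat.one_le_two_pow
    have hi2 : 400 * 2 ^ i ≤ 2 * (400 * 2 ^ j) := by rcases hi with rfl | rfl <;> omega
    obtain ⟨p1, p2, p3⟩ := hpm i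
    have hc : 55 ^ (400 * 2 ^ i) * ((1 + th i / (1200 * 2 ^ i)) * (9954 / 10000 : ℝ))
        ^ (800000 * 2 ^ j - 8) ≤ η := by
      have := crude_le (b := 400 * 2 ^ j) (β := 400 * 2 ^ i) (by omega) hi2
        (by have := th_pos_o i; positivity) (pm_le_o i)
      rw [hη]
      convert this using 4
      ring
    obtain ⟨a1, a2⟩ := Sys.y_crude (hup true _ (by omega)) (hup false _ (by omega)) p1 p2 p3 hEK
      (by omega) (by omega) (by norm_num) (by norm_num) hc hc (by linarith : 0 ≤ 2 * η)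
      (by linarith : 0 ≤ 2 * η) hη2 hη2
    have hd : 2 * η * (9954 / 10000 : ℝ) ^ (N' - 800000 * 2 ^ j) ≤ 2 * η :=
      mul_le_of_le_one_right (by linarith) (pow_le_one₀ (by norm_num) (by norm_num))
    exact ⟨Sys.ya_decay a1 p2 (by omega) (by omega) hN' (by norm_num) (by linarith) hd,
      Sys.yb_decay a2 p3 (by omega) (by omega) hN' (by norm_num) (by linarith) hd⟩
  have hrat : S.Rat N (400 * 2 ^ j) (400 * 2 ^ (j + 1)) ((1 + 5 * epsO j) ^ (400 * 2 ^ j)) := by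
    refine Sys.rat_ext hal (hpm j).1 (hy (j + 1) (Or.inr rfl) _ le_rfl).1
      (hy j (Or.inl rfl) N h1).1 (hy j (Or.inl rfl) N h1).2 (hy (j + 1) (Or.inr rfl) N h1).1
      (hy (j + 1) (Or.inr rfl) N h1).2 hEK h1 (by omega) (by omega) (by linarith) ?_
    have hP0 : 0 ≤ (1 + th j / (1200 * 2 ^ j)) ^ (N - 800000 * 2 ^ j) := by
      have := th_pos_o j
      positivity
    have hs := side_o he0.le he hP0 (P_le_o j (N - 800000 * 2 ^ j) (by omega)) hη0 hηe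
    rw [show 400 * 2 ^ (j + 1) = 2 * (400 * 2 ^ j) by ring, pow_mul, ← mul_pow, ← mul_pow]
    exact pow_le_pow_left₀ (by positivity) hs _
  refine Sys.al_rat1 hrat (by omega) (by omega) (by omega) (by linarith) (le_of_eq ?_)
  congr 1
  omega

theorem asym_open (S : Sys) (hup : ∀ τ β, 30 ≤ β → S.Up τ 8 β 1)
    (hpm : ∀ j : ℕ, S.Pb (400 * 2 ^ j) (1 + th j / (1200 * 2 ^ j)) ∧
      S.MA (400 * 2 ^ j) (9954 / 10000) ∧ S.MB (400 * 2 ^ j) (9954 / 10000))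
    (hal : S.Al 800000 400 (1 / 2 ^ 10)) (N : ℕ) (h : 800000 ≤ N) :
    GapAt (S.Zo true N) (S.Eo true N) (6 / 1000) := by
  have hind : ∀ j, S.Al (800000 * 2 ^ j) (400 * 2 ^ j) (epsO j) := by
    intro j
    induction j with
    | zero => simpa [epsO] using hal
    | succ j ih =>
      have hn : 1 ≤ 2 ^ j := Nat.one_le_two_pow
      have hn' : 2 ^ (j + 1) = 2 * 2 ^ j := by ring
      refine Sys.al_pow (step_o S hup hpm j ih _ (by omega) le_rfl) (by omega) (by omega) (by omega)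
        (epsO_pos _).le ?_
      rw [show 400 * 2 ^ (j + 1) = 2 * (400 * 2 ^ j) by ring, pow_mul]
      refine pow_le_pow_left₀ (sq_nonneg _) ?_ _
      unfold epsO
      rw [show 4 * 2 ^ (j + 1) + 6 = (4 * 2 ^ j) * 2 + 6 by ring, pow_add, pow_add,
        pow_mul (2 : ℝ) (4 * 2 ^ j) 2]
      have : (0 : ℝ) < 2 ^ (4 * 2 ^ j) := by positivity
      generalize (2 : ℝ) ^ (4 * 2 ^ j) = t at this
      rw [mul_one_div, div_pow, div_le_div_iff₀ (by positivity) (by positivity)]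
      nlinarith [sq_nonneg t]
  have hM : N / 800000 ≠ 0 := by omega
  have h1 := Nat.pow_log_le_self 2 hM
  have h2 := Nat.lt_pow_succ_log_self (by norm_num : 1 < 2) (N / 800000)
  obtain ⟨j, hj⟩ : ∃ j, j = Nat.log 2 (N / 800000) := ⟨_, rfl⟩
  rw [← hj] at h1 h2
  have hn : 1 ≤ 2 ^ j := Nat.one_le_two_pow
  exact Sys.gap_al (step_o S hup hpm j (hind j) N (by omega) (by rw [Nat.succ_eq_add_one] at h2; omega))
    (by omega) _ (gap_o j)

end Crest.Agent.R347
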