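import Crest.Agent.R347.BootOChainAux

/-! Row 347: finite part of the open-chain bootstrap. -/

set_option autoImplicit false
set_option maxRecDepth 20000

namespace Crest.Agent.R347

theorem ochain_up (S : Sys) (hO : ∀ t ∈ tabO, EncO S.Zo t) (τ : Bool) (β : ℕ) (h : 30 ≤ β) :
    S.Up τ 8 β 1 := by
  have h1 : S.Up τ 8 30 ((1 : ℚ) : ℝ) := by
    cases τ
    · exact Sys.upQ hO false 30 5798959103 5798998814 1 (by decide +kernel)
    · exact Sys.upQ hO true 30 10197373 10202351 1 (by decide +kernel)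
  have h2 := Sys.uppowQ h1 β 1 ⟨by norm_num, h, by norm_num, by simp⟩
  simpa using h2

theorem ochain_al (S : Sys) (hO : ∀ t ∈ tabO, EncO S.Zo t) (hD : ∀ t ∈ tabD, EncD S.Eo t)
    (hA : ∀ t ∈ tabA, S.La t.1 t.2.1 ∧ S.MA' t.1 t.2.2.1 ∧ S.MB' t.1 t.2.2.2)
    (hP : ∀ t ∈ tabP, S.Pb t.1 t.2.1 ∧ S.MA t.1 t.2.2.1 ∧ S.MB t.1 t.2.2.2)
    (N : ℕ) (h : 1920 ≤ N) (h' : N ≤ 800000) : S.Al N 400 (1 / 2 ^ 10) := by
  have n1 := Sys.c0Q hO 10 (638 / 10 ^ 3) (-426 / 10 ^ 3) (183665 / 10 ^ 7) (by decide +kernel)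
  have a10 : S.La 10 ((1002418 / 1000000 : ℚ) : ℝ) ∧ S.MA' 10 ((7196 / 10000 : ℚ) : ℝ) ∧
      S.MB' 10 ((8755 / 10000 : ℚ) : ℝ) :=
    hA (10, 1002418 / 1000000, 7196 / 10000, 8755 / 10000) (by decide +kernel)
  have n2 := Sys.upQ hO true 10 484634507897 484652068269 (484653 / 10 ^ 8) (by decide +kernel)
  have n3 := Sys.upQ hO false 10 3876957787807 3876995702180 (3877 / 10 ^ 5) (by decide +kernel)
  have n4 := Sys.raQ n2 n3 a10.2.1 60 (80791 / 10 ^ 14) (by decide +kernel)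
  have n5 := Sys.rbQ n3 a10.2.2 60 (19266 / 10 ^ 9) (by decide +kernel)
  have d60 := Sys.duQ hD 60 (by decide +kernel)
  have n6 := Sys.albaseQ n1 a10.1 n4 n5 d60 (19577 / 10 ^ 5) (by decide +kernel)
  have n7 := Sys.alpowQ n6 12 (14129 / 10 ^ 5) (by decide +kernel)
  have p12 : S.Pb 12 ((1 + 1931 / 10 ^ 6 : ℚ) : ℝ) ∧ S.MA 12 ((7237 / 10000 : ℚ) : ℝ) ∧
      S.MB 12 ((8928 / 10000 : ℚ) : ℝ) :=
    hP (12, 1 + 1931 / 10 ^ 6, 7237 / 10000, 8928 / 10000) (by decide +kernel)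
  have n8 := Sys.upQ hO true 24 255241825 255297540 (255298 / 10 ^ 11) (by decide +kernel)
  have n9 := Sys.upQ hO false 24 40801832438 40802131433 (408022 / 10 ^ 9) (by decide +kernel)
  have a24 : S.La 24 ((1015029 / 1000000 : ℚ) : ℝ) ∧ S.MA' 24 ((8673 / 10000 : ℚ) : ℝ) ∧
      S.MB' 24 ((9872 / 10000 : ℚ) : ℝ) :=
    hA (24, 1015029 / 1000000, 8673 / 10000, 9872 / 10000) (by decide +kernel)
  have n10 := Sys.raQ n8 n9 a24.2.1 60 (12508 / 10 ^ 11) (by decide +kernel)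
  have n11 := Sys.rbQ n9 a24.2.2 60 (10441 / 10 ^ 8) (by decide +kernel)
  have n12 := Sys.yabsQ n10 n11 d60 (20128 / 10 ^ 7) (16802 / 10 ^ 4) (by decide +kernel)
  have n13 := Sys.upQ hO true 12 162692747153 162700307131 (162701 / 10 ^ 8) (by decide +kernel)
  have n14 := Sys.upQ hO false 12 2020732908271 2020751616523 (202076 / 10 ^ 7) (by decide +kernel)
  have a12 : S.La 12 ((1001974 / 1000000 : ℚ) : ℝ) ∧ S.MA' 12 ((7229 / 10000 : ℚ) : ℝ) ∧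
      S.MB' 12 ((8924 / 10000 : ℚ) : ℝ) :=
    hA (12, 1001974 / 1000000, 7229 / 10000, 8924 / 10000) (by decide +kernel)
  have n15 := Sys.raQ n13 n14 a12.2.1 40 (33777 / 10 ^ 11) (by decide +kernel)
  have n16 := Sys.rbQ n14 a12.2.2 40 (26448 / 10 ^ 8) (by decide +kernel)
  have d40 := Sys.duQ hD 40 (by decide +kernel)
  have n17 := Sys.yabsQ n15 n16 d40 (42807 / 10 ^ 9) (33519 / 10 ^ 6) (by decide +kernel)
  have n18 := Sys.yadQ n17.1 p12.2.1 110 (10001 / 10 ^ 9) (by decide +kernel)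
  have n19 := Sys.ybdQ n17.2 p12.2.2 110 (1197 / 10 ^ 8) (by decide +kernel)
  have n20 := Sys.raQ n8 n9 a24.2.1 40 (21567 / 10 ^ 10) (by decide +kernel)
  have n21 := Sys.rbQ n9 a24.2.2 40 (13509 / 10 ^ 8) (by decide +kernel)
  have n22 := Sys.yabsQ n20 n21 d40 (35879 / 10 ^ 6) (22474 / 10 ^ 4) (by decide +kernel)
  have p24 : S.Pb 24 ((1 + 5726 / 10 ^ 7 : ℚ) : ℝ) ∧ S.MA 24 ((8683 / 10000 : ℚ) : ℝ) ∧
      S.MB 24 ((9362 / 10000 : ℚ) : ℝ) :=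
    hP (24, 1 + 5726 / 10 ^ 7, 8683 / 10000, 9362 / 10000) (by decide +kernel)
  have n23 := Sys.yadQ n22.1 p24.2.1 110 (10001 / 10 ^ 9) (by decide +kernel)
  have n24 := Sys.raQ n2 n3 a10.2.1 40 (58283 / 10 ^ 11) (by decide +kernel)
  have n25 := Sys.rbQ n3 a10.2.2 40 (27521 / 10 ^ 8) (by decide +kernel)
  have n26 := Sys.albaseQ n1 a10.1 n24 n25 d40 (15395 / 10 ^ 5) (by decide +kernel)
  have n27 := Sys.alpowQ n26 24 (11213 / 10 ^ 6) (by decide +kernel)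
  have n28 := Sys.alpowQ n6 14 (10197 / 10 ^ 5) (by decide +kernel)
  have n29 := Sys.upQ hO true 14 55123790448 55127079493 (551271 / 10 ^ 9) (by decide +kernel)
  have n30 := Sys.upQ hO false 14 1054232636233 1054241919949 (105425 / 10 ^ 7) (by decide +kernel)
  have a14 : S.La 14 ((1002515 / 1000000 : ℚ) : ℝ) ∧ S.MA' 14 ((7498 / 10000 : ℚ) : ℝ) ∧
      S.MB' 14 ((9091 / 10000 : ℚ) : ℝ) :=
    hA (14, 1002515 / 1000000, 7498 / 10000, 9091 / 10000) (by decide +kernel)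
  have n31 := Sys.raQ n29 n30 a14.2.1 40 (55247 / 10 ^ 11) (by decide +kernel)
  have n32 := Sys.rbQ n30 a14.2.2 40 (24974 / 10 ^ 8) (by decide +kernel)
  have n33 := Sys.yabsQ n31 n32 d40 (15694 / 10 ^ 8) (70943 / 10 ^ 6) (by decide +kernel)
  have n34 := Sys.raQ n29 n30 a14.2.1 60 (17427 / 10 ^ 13) (by decide +kernel)
  have n35 := Sys.rbQ n30 a14.2.2 60 (3713 / 10 ^ 8) (by decide +kernel)
  have n36 := Sys.yabsQ n34 n35 d60 (10001 / 10 ^ 9) (10546 / 10 ^ 6) (by decide +kernel)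
  have n37 := Sys.du2Q n28 n33.1 n33.2 n36.1 n36.2 (1 + 1268 / 10 ^ 5) (by decide +kernel)
  have n38 := Sys.yrelQ n27 n37 p24.1 p24.2.1 p24.2.2 (138404 / 10 ^ 5) (82139 / 10 ^ 6) (37028 / 10 ^ 5) (8949 / 10 ^ 5) (40342 / 10 ^ 5) (by decide +kernel)
  have n39 := Sys.ybdQ n38.2 p24.2.2 110 (14935 / 10 ^ 6) (by decide +kernel)
  have n40 := Sys.alpowQ n6 11 (16632 / 10 ^ 5) (by decide +kernel)
  have p11 : S.Pb 11 ((1 + 2096 / 10 ^ 6 : ℚ) : ℝ) ∧ S.MA 11 ((7187 / 10000 : ℚ) : ℝ) ∧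
      S.MB 11 ((8843 / 10000 : ℚ) : ℝ) :=
    hP (11, 1 + 2096 / 10 ^ 6, 7187 / 10000, 8843 / 10000) (by decide +kernel)
  have n41 := Sys.upQ hO true 11 280342506272 280354010235 (280355 / 10 ^ 8) (by decide +kernel)
  have n42 := Sys.upQ hO false 11 2798385741692 2798412353959 (279842 / 10 ^ 7) (by decide +kernel)
  have a11 : S.La 11 ((1002036 / 1000000 : ℚ) : ℝ) ∧ S.MA' 11 ((7184 / 10000 : ℚ) : ℝ) ∧
      S.MB' 11 ((8839 / 10000 : ℚ) : ℝ) :=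
    hA (11, 1002036 / 1000000, 7184 / 10000, 8839 / 10000) (by decide +kernel)
  have n43 := Sys.raQ n41 n42 a11.2.1 40 (39001 / 10 ^ 11) (by decide +kernel)
  have n44 := Sys.rbQ n42 a11.2.2 40 (26964 / 10 ^ 8) (by decide +kernel)
  have n45 := Sys.yabsQ n43 n44 d40 (33016 / 10 ^ 9) (22826 / 10 ^ 6) (by decide +kernel)
  have n46 := Sys.yadQ n45.1 p11.2.1 110 (10001 / 10 ^ 9) (by decide +kernel)
  have n47 := Sys.ybdQ n45.2 p11.2.2 110 (10001 / 10 ^ 9) (by decide +kernel)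
  have n48 := Sys.ybdQ n22.2 p24.2.2 110 (22258 / 10 ^ 6) (by decide +kernel)
  have n49 := Sys.rat1Q n40 p11.1 n12.1 n46 n47 n23 n48 (1 + 295069 / 10 ^ 6) (64561 / 10 ^ 5) (by decide +kernel)
  have n50 := Sys.alpowQ n49 24 (38494 / 10 ^ 5) (by decide +kernel)
  have n51 := Sys.rat2Q n40 p11.1 n12.1 n46 n47 n23 n39 n50 (1 + 295069 / 10 ^ 6) (51536 / 10 ^ 5) (by decide +kernel)
  have n52 := Sys.alpowQ n51 24 (23544 / 10 ^ 5) (by decide +kernel)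
  have n53 := Sys.rat2Q n40 p11.1 n12.1 n46 n47 n23 n39 n52 (1 + 295069 / 10 ^ 6) (43806 / 10 ^ 5) (by decide +kernel)
  have n54 := Sys.alpowQ n53 24 (16516 / 10 ^ 5) (by decide +kernel)
  have n55 := Sys.rat2Q n40 p11.1 n12.1 n46 n47 n23 n39 n54 (1 + 295069 / 10 ^ 6) (39997 / 10 ^ 5) (by decide +kernel)
  have n56 := Sys.alpowQ n55 24 (13543 / 10 ^ 5) (by decide +kernel)
  have n57 := Sys.rat2Q n40 p11.1 n12.1 n46 n47 n23 n39 n56 (1 + 295069 / 10 ^ 6) (38348 / 10 ^ 5) (by decide +kernel)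
  have n58 := Sys.alpowQ n57 24 (12354 / 10 ^ 5) (by decide +kernel)
  have n59 := Sys.rat2Q n7 p12.1 n12.1 n18 n19 n23 n39 n58 (1 + 256888 / 10 ^ 6) (34369 / 10 ^ 5) (by decide +kernel)
  have n60 := Sys.alpowQ n59 24 (11813 / 10 ^ 5) (by decide +kernel)
  have n61 := Sys.alpowQ n26 52 (59481 / 10 ^ 9) (by decide +kernel)
  have n62 := Sys.raQ n2 n3 a10.2.1 80 (112 / 10 ^ 14) (by decide +kernel)
  have n63 := Sys.rbQ n3 a10.2.2 80 (13487 / 10 ^ 10) (by decide +kernel)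
  have d80 := Sys.duQ hD 80 (by decide +kernel)
  have n64 := Sys.albaseQ n1 a10.1 n62 n63 d80 (25388 / 10 ^ 5) (by decide +kernel)
  have n65 := Sys.alpowQ n64 14 (14672 / 10 ^ 5) (by decide +kernel)
  have n66 := Sys.raQ n29 n30 a14.2.1 80 (5497 / 10 ^ 15) (by decide +kernel)
  have n67 := Sys.rbQ n30 a14.2.2 80 (55202 / 10 ^ 10) (by decide +kernel)
  have n68 := Sys.yabsQ n66 n67 d80 (10001 / 10 ^ 9) (15679 / 10 ^ 7) (by decide +kernel)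
  have n69 := Sys.du2Q n65 n33.1 n33.2 n68.1 n68.2 (1 + 14908 / 10 ^ 6) (by decide +kernel)
  have p52 : S.Pb 52 ((1 + 7271 / 10 ^ 8 : ℚ) : ℝ) ∧ S.MA 52 ((9606 / 10000 : ℚ) : ℝ) ∧
      S.MB 52 ((9562 / 10000 : ℚ) : ℝ) :=
    hP (52, 1 + 7271 / 10 ^ 8, 9606 / 10000, 9562 / 10000) (by decide +kernel)
  have n70 := Sys.yrelQ n61 n69 p52.1 p52.2.1 p52.2.2 (21651 / 10 ^ 4) (4337 / 10 ^ 4) (36094 / 10 ^ 5) (76585 / 10 ^ 5) (63737 / 10 ^ 5) (by decide +kernel)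
  have n71 := Sys.yadQ n70.1 p52.2.1 110 (22931 / 10 ^ 5) (by decide +kernel)
  have n72 := Sys.yadQ n22.1 p24.2.1 240 (10001 / 10 ^ 9) (by decide +kernel)
  have n73 := Sys.ybdQ n22.2 p24.2.2 240 (10001 / 10 ^ 9) (by decide +kernel)
  have n74 := Sys.yadQ n70.1 p52.2.1 240 (1233 / 10 ^ 6) (by decide +kernel)
  have n75 := Sys.ybdQ n70.2 p52.2.2 240 (49226 / 10 ^ 8) (by decide +kernel)
  have n76 := Sys.alpowQ n59 20 (16864 / 10 ^ 5) (by decide +kernel)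
  have p20 : S.Pb 20 ((1 + 8241 / 10 ^ 7 : ℚ) : ℝ) ∧ S.MA 20 ((8239 / 10000 : ℚ) : ℝ) ∧
      S.MB 20 ((9313 / 10000 : ℚ) : ℝ) :=
    hP (20, 1 + 8241 / 10 ^ 7, 8239 / 10000, 9313 / 10000) (by decide +kernel)
  have n77 := Sys.upQ hO true 20 2185513780 2185795265 (21858 / 10 ^ 9) (by decide +kernel)
  have n78 := Sys.upQ hO false 20 149818888069 149820055357 (149821 / 10 ^ 8) (by decide +kernel)
  have a20 : S.La 20 ((1008067 / 1000000 : ℚ) : ℝ) ∧ S.MA' 20 ((8230 / 10000 : ℚ) : ℝ) ∧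
      S.MB' 20 ((9567 / 10000 : ℚ) : ℝ) :=
    hA (20, 1008067 / 1000000, 8230 / 10000, 9567 / 10000) (by decide +kernel)
  have n79 := Sys.raQ n77 n78 a20.2.1 40 (14916 / 10 ^ 10) (by decide +kernel)
  have n80 := Sys.rbQ n78 a20.2.2 40 (18171 / 10 ^ 8) (by decide +kernel)
  have n81 := Sys.yabsQ n79 n80 d40 (4792 / 10 ^ 6) (58377 / 10 ^ 5) (by decide +kernel)
  have n82 := Sys.yadQ n81.1 p20.2.1 240 (10001 / 10 ^ 9) (by decide +kernel)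
  have n83 := Sys.ybdQ n81.2 p20.2.2 240 (10001 / 10 ^ 9) (by decide +kernel)
  have n84 := Sys.alpowQ n57 20 (17506 / 10 ^ 5) (by decide +kernel)
  have n85 := Sys.alpowQ n55 20 (18898 / 10 ^ 5) (by decide +kernel)
  have n86 := Sys.rat1Q n54 p24.1 n71 n72 n73 n74 n75 (1 + 255201 / 10 ^ 6) (82315 / 10 ^ 5) (by decide +kernel)
  have n87 := Sys.alpowQ n86 52 (65596 / 10 ^ 5) (by decide +kernel)
  have n88 := Sys.rat2Q n85 p20.1 n71 n82 n83 n74 n75 n87 (1 + 323401 / 10 ^ 6) (74067 / 10 ^ 5) (by decide +kernel)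
  have n89 := Sys.alpowQ n88 52 (45817 / 10 ^ 5) (by decide +kernel)
  have n90 := Sys.rat2Q n84 p20.1 n71 n82 n83 n74 n75 n89 (1 + 307907 / 10 ^ 6) (63815 / 10 ^ 5) (by decide +kernel)
  have n91 := Sys.alpowQ n90 52 (31103 / 10 ^ 5) (by decide +kernel)
  have n92 := Sys.rat2Q n76 p20.1 n71 n82 n83 n74 n75 n91 (1 + 300762 / 10 ^ 6) (5639 / 10 ^ 4) (by decide +kernel)
  have n93 := Sys.alpowQ n92 52 (22549 / 10 ^ 5) (by decide +kernel)
  have n94 := Sys.rat2Q n76 p20.1 n71 n82 n83 n74 n75 n93 (1 + 300762 / 10 ^ 6) (52384 / 10 ^ 5) (by decide +kernel)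
  have n95 := Sys.alpowQ n94 52 (18618 / 10 ^ 5) (by decide +kernel)
  have n96 := Sys.rat2Q n60 p24.1 n71 n72 n73 n74 n75 n95 (1 + 204536 / 10 ^ 6) (43474 / 10 ^ 5) (by decide +kernel)
  have n97 := Sys.alpowQ n96 52 (1645 / 10 ^ 4) (by decide +kernel)
  have n98 := Sys.rat2Q n60 p24.1 n71 n72 n73 n74 n75 n97 (1 + 204536 / 10 ^ 6) (42258 / 10 ^ 5) (by decide +kernel)
  have n99 := Sys.alpowQ n98 52 (1547 / 10 ^ 4) (by decide +kernel)
  have n100 := Sys.alpowQ n55 140 (10001 / 10 ^ 9) (by decide +kernel)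
  have n101 := Sys.alpowQ n98 40 (23797 / 10 ^ 5) (by decide +kernel)
  have n102 := Sys.alpowQ n26 40 (56172 / 10 ^ 8) (by decide +kernel)
  have p40 : S.Pb 40 ((1 + 1655 / 10 ^ 7 : ℚ) : ℝ) ∧ S.MA 40 ((9532 / 10000 : ℚ) : ℝ) ∧
      S.MB 40 ((9512 / 10000 : ℚ) : ℝ) :=
    hP (40, 1 + 1655 / 10 ^ 7, 9532 / 10000, 9512 / 10000) (by decide +kernel)
  have n103 := Sys.yrelQ n102 n69 p40.1 p40.2.1 p40.2.2 (182048 / 10 ^ 5) (26764 / 10 ^ 5) (24608 / 10 ^ 5) (36545 / 10 ^ 5) (33601 / 10 ^ 5) (by decide +kernel)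
  have n104 := Sys.yadQ n103.1 p40.2.1 110 (86766 / 10 ^ 6) (by decide +kernel)
  have n105 := Sys.ybdQ n103.2 p40.2.2 110 (74905 / 10 ^ 6) (by decide +kernel)
  have n106 := Sys.yadQ n103.1 p40.2.1 240 (17072 / 10 ^ 8) (by decide +kernel)
  have n107 := Sys.ybdQ n103.2 p40.2.2 240 (11217 / 10 ^ 8) (by decide +kernel)
  have n108 := Sys.du2Q n101 n104 n105 n106 n107 (1 + 91319 / 10 ^ 7) (by decide +kernel)
  have p140 : S.Pb 140 ((1 + 5173 / 10 ^ 10 : ℚ) : ℝ) ∧ S.MA 140 ((9761 / 10000 : ℚ) : ℝ) ∧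
      S.MB 140 ((9681 / 10000 : ℚ) : ℝ) :=
    hP (140, 1 + 5173 / 10 ^ 10, 9761 / 10000, 9681 / 10000) (by decide +kernel)
  have n109 := Sys.yrelQ n100 n108 p140.1 p140.2.1 p140.2.2 (357063 / 10 ^ 5) (15382 / 10 ^ 5) (52769 / 10 ^ 6) (18179 / 10 ^ 5) (62362 / 10 ^ 6) (by decide +kernel)
  have n110 := Sys.yrelQ n61 n37 p52.1 p52.2.1 p52.2.2 (192848 / 10 ^ 5) (86312 / 10 ^ 5) (7874 / 10 ^ 4) (63057 / 10 ^ 4) (57525 / 10 ^ 4) (by decide +kernel)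
  have n111 := Sys.yadQ n110.1 p52.2.1 440 (10001 / 10 ^ 9) (by decide +kernel)
  have n112 := Sys.ybdQ n110.2 p52.2.2 440 (10001 / 10 ^ 9) (by decide +kernel)
  have n113 := Sys.alpowQ n96 40 (24949 / 10 ^ 5) (by decide +kernel)
  have n114 := Sys.du2Q n113 n104 n105 n106 n107 (1 + 93656 / 10 ^ 7) (by decide +kernel)
  have n115 := Sys.yrelQ n100 n114 p140.1 p140.2.1 p140.2.2 (368828 / 10 ^ 5) (15889 / 10 ^ 5) (54508 / 10 ^ 6) (18891 / 10 ^ 5) (64805 / 10 ^ 6) (by decide +kernel)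
  have n116 := Sys.yadQ n115.1 p140.2.1 440 (14967 / 10 ^ 7) (by decide +kernel)
  have n117 := Sys.ybdQ n115.2 p140.2.2 440 (99004 / 10 ^ 9) (by decide +kernel)
  have n118 := Sys.ybdQ n70.2 p52.2.2 110 (16629 / 10 ^ 5) (by decide +kernel)
  have n119 := Sys.du2Q n95 n71 n118 n74 n75 (1 + 97742 / 10 ^ 7) (by decide +kernel)
  have n120 := Sys.yrelQ n100 n119 p140.1 p140.2.1 p140.2.2 (39033 / 10 ^ 4) (16815 / 10 ^ 5) (57685 / 10 ^ 6) (20214 / 10 ^ 5) (69346 / 10 ^ 6) (by decide +kernel)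
  have n121 := Sys.yadQ n120.1 p140.2.1 440 (16015 / 10 ^ 7) (by decide +kernel)
  have n122 := Sys.ybdQ n120.2 p140.2.2 440 (10595 / 10 ^ 8) (by decide +kernel)
  have n123 := Sys.du2Q n93 n71 n118 n74 n75 (1 + 10408 / 10 ^ 6) (by decide +kernel)
  have n124 := Sys.yrelQ n100 n123 p140.1 p140.2.1 p140.2.2 (42617 / 10 ^ 4) (18359 / 10 ^ 5) (62982 / 10 ^ 6) (22488 / 10 ^ 5) (77146 / 10 ^ 6) (by decide +kernel)
  have n125 := Sys.yadQ n124.1 p140.2.1 440 (17817 / 10 ^ 7) (by decide +kernel)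
  have n126 := Sys.ybdQ n124.2 p140.2.2 440 (11786 / 10 ^ 8) (by decide +kernel)
  have n127 := Sys.du2Q n91 n71 n118 n74 n75 (1 + 1172 / 10 ^ 5) (by decide +kernel)
  have n128 := Sys.yrelQ n100 n127 p140.1 p140.2.1 p140.2.2 (511071 / 10 ^ 5) (22017 / 10 ^ 5) (75529 / 10 ^ 6) (28234 / 10 ^ 5) (96854 / 10 ^ 6) (by decide +kernel)
  have n129 := Sys.yadQ n128.1 p140.2.1 440 (22369 / 10 ^ 7) (by decide +kernel)
  have n130 := Sys.ybdQ n128.2 p140.2.2 440 (14797 / 10 ^ 8) (by decide +kernel)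
  have n131 := Sys.rat1Q n93 p52.1 n124.1 n111 n112 n129 n130 (1 + 243466 / 10 ^ 6) (5967 / 10 ^ 4) (by decide +kernel)
  have n132 := Sys.alpowQ n131 140 (24904 / 10 ^ 5) (by decide +kernel)
  have n133 := Sys.rat2Q n95 p52.1 n120.1 n111 n112 n125 n126 n132 (1 + 203579 / 10 ^ 6) (40072 / 10 ^ 5) (by decide +kernel)
  have n134 := Sys.alpowQ n133 140 (85257 / 10 ^ 6) (by decide +kernel)
  have n135 := Sys.rat2Q n97 p52.1 n115.1 n111 n112 n121 n122 n134 (1 + 181581 / 10 ^ 6) (29972 / 10 ^ 5) (by decide +kernel)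
  have n136 := Sys.alpowQ n135 140 (39009 / 10 ^ 6) (by decide +kernel)
  have n137 := Sys.rat2Q n99 p52.1 n109.1 n111 n112 n116 n117 n136 (1 + 171638 / 10 ^ 6) (26523 / 10 ^ 5) (by decide +kernel)
  have n138 := Sys.alpowQ n137 100 (77908 / 10 ^ 6) (by decide +kernel)
  have p100 : S.Pb 100 ((1 + 4156 / 10 ^ 9 : ℚ) : ℝ) ∧ S.MA 100 ((9731 / 10000 : ℚ) : ℝ) ∧
      S.MB 100 ((9650 / 10000 : ℚ) : ℝ) :=
    hP (100, 1 + 4156 / 10 ^ 9, 9731 / 10000, 9650 / 10000) (by decide +kernel)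
  have n139 := Sys.yadQ n45.1 p11.2.1 140 (10001 / 10 ^ 9) (by decide +kernel)
  have n140 := Sys.ybdQ n45.2 p11.2.2 140 (10001 / 10 ^ 9) (by decide +kernel)
  have n141 := Sys.yadQ n22.1 p24.2.1 140 (10001 / 10 ^ 9) (by decide +kernel)
  have n142 := Sys.ybdQ n38.2 p24.2.2 140 (20666 / 10 ^ 7) (by decide +kernel)
  have p14 : S.Pb 14 ((1 + 1554 / 10 ^ 6 : ℚ) : ℝ) ∧ S.MA 14 ((7507 / 10000 : ℚ) : ℝ) ∧
      S.MB 14 ((9095 / 10000 : ℚ) : ℝ) :=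
    hP (14, 1 + 1554 / 10 ^ 6, 7507 / 10000, 9095 / 10000) (by decide +kernel)
  have n143 := Sys.yadQ n33.1 p14.2.1 140 (10001 / 10 ^ 9) (by decide +kernel)
  have n144 := Sys.ybdQ n33.2 p14.2.2 140 (10001 / 10 ^ 9) (by decide +kernel)
  have n145 := Sys.yadQ n103.1 p40.2.1 140 (20601 / 10 ^ 6) (by decide +kernel)
  have n146 := Sys.ybdQ n103.2 p40.2.2 140 (16698 / 10 ^ 6) (by decide +kernel)
  have n147 := Sys.ybdQ n22.2 p24.2.2 140 (308 / 10 ^ 5) (by decide +kernel)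
  have n148 := Sys.rat1Q n28 p14.1 n12.1 n143 n144 n141 n147 (1 + 247752 / 10 ^ 6) (71322 / 10 ^ 5) (by decide +kernel)
  have n149 := Sys.alpowQ n148 40 (38075 / 10 ^ 5) (by decide +kernel)
  have n150 := Sys.rat2Q n65 p14.1 n103.1 n143 n144 n145 n146 n149 (1 + 258718 / 10 ^ 6) (59256 / 10 ^ 5) (by decide +kernel)
  have n151 := Sys.alpowQ n150 24 (40776 / 10 ^ 5) (by decide +kernel)
  have n152 := Sys.rat2Q n40 p11.1 n12.1 n139 n140 n141 n142 n151 (1 + 379027 / 10 ^ 6) (61608 / 10 ^ 5) (by decide +kernel)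
  have n153 := Sys.alpowQ n152 280 (10001 / 10 ^ 9) (by decide +kernel)
  have n154 := Sys.yadQ n70.1 p52.2.1 140 (6866 / 10 ^ 5) (by decide +kernel)
  have n155 := Sys.ybdQ n70.2 p52.2.2 140 (43383 / 10 ^ 6) (by decide +kernel)
  have n156 := Sys.du2Q n137 n154 n155 n111 n112 (1 + 65884 / 10 ^ 7) (by decide +kernel)
  have p280 : S.Pb 280 ((1 + 8483 / 10 ^ 13 : ℚ) : ℝ) ∧ S.MA 280 ((9803 / 10000 : ℚ) : ℝ) ∧
      S.MB 280 ((9736 / 10000 : ℚ) : ℝ) :=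
    hP (280, 1 + 8483 / 10 ^ 13, 9803 / 10000, 9736 / 10000) (by decide +kernel)
  have n157 := Sys.yrelQ n153 n156 p280.1 p280.2.1 p280.2.2 (628844 / 10 ^ 5) (16079 / 10 ^ 6) (20546 / 10 ^ 7) (16342 / 10 ^ 6) (20882 / 10 ^ 7) (by decide +kernel)
  have n158 := Sys.alpowQ n26 100 (10001 / 10 ^ 9) (by decide +kernel)
  have n159 := Sys.alpowQ n64 20 (64456 / 10 ^ 6) (by decide +kernel)
  have n160 := Sys.yadQ n81.1 p20.2.1 900 (10001 / 10 ^ 9) (by decide +kernel)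
  have n161 := Sys.ybdQ n81.2 p20.2.2 900 (10001 / 10 ^ 9) (by decide +kernel)
  have n162 := Sys.upQ hO true 30 10197373 10202351 (102024 / 10 ^ 12) (by decide +kernel)
  have n163 := Sys.uppowQ n162 40 (47673 / 10 ^ 14) (by decide +kernel)
  have n164 := Sys.upQ hO false 30 5798959103 5798998814 (5799 / 10 ^ 8) (by decide +kernel)
  have n165 := Sys.uppowQ n164 40 (22446 / 10 ^ 10) (by decide +kernel)
  have n166 := Sys.lapowQ a12.1 40 (1006596 / 10 ^ 6) (by decide +kernel)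
  have n167 := Sys.mapQ p40.2.1 n166 (959488 / 10 ^ 6) (by decide +kernel)
  have n168 := Sys.raQ n163 n165 n167 80 (57155 / 10 ^ 12) (by decide +kernel)
  have n169 := Sys.mbpQ p40.2.2 n166 (957475 / 10 ^ 6) (by decide +kernel)
  have n170 := Sys.rbQ n165 n169 80 (49123 / 10 ^ 12) (by decide +kernel)
  have n171 := Sys.yabsQ n168 n170 d80 (14055 / 10 ^ 4) (1208 / 10 ^ 3) (by decide +kernel)
  have n172 := Sys.yadQ n171.1 p40.2.1 900 (10001 / 10 ^ 9) (by decide +kernel)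
  have n173 := Sys.ybdQ n171.2 p40.2.2 900 (10001 / 10 ^ 9) (by decide +kernel)
  have n174 := Sys.rat1Q n159 p20.1 n103.1 n160 n161 n172 n173 (1 + 109169 / 10 ^ 5) (49742 / 10 ^ 4) (by decide +kernel)
  have n175 := Sys.du2Q n174 n81.1 n81.2 n160 n161 (1 + 11909 / 10 ^ 5) (by decide +kernel)
  have n176 := Sys.yrelQ n158 n175 p100.1 p100.2.1 p100.2.2 (772784 / 10 ^ 1) (50523 / 10 ^ 10) (1 / 10 ^ 6) (10001 / 10 ^ 9) (10001 / 10 ^ 9) (by decide +kernel)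
  have n177 := Sys.du2Q n93 n154 n155 n74 n75 (1 + 60039 / 10 ^ 7) (by decide +kernel)
  have n178 := Sys.yrelQ n153 n177 p280.1 p280.2.1 p280.2.2 (534455 / 10 ^ 5) (73083 / 10 ^ 5) (36811 / 10 ^ 5) (27152 / 10 ^ 4) (13676 / 10 ^ 4) (by decide +kernel)
  have n179 := Sys.yadQ n178.1 p280.2.1 900 (10001 / 10 ^ 9) (by decide +kernel)
  have p10 : S.Pb 10 ((1 + 2490 / 10 ^ 6 : ℚ) : ℝ) ∧ S.MA 10 ((7199 / 10000 : ℚ) : ℝ) ∧
      S.MB 10 ((8759 / 10000 : ℚ) : ℝ) :=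
    hP (10, 1 + 2490 / 10 ^ 6, 7199 / 10000, 8759 / 10000) (by decide +kernel)
  have n180 := Sys.yabsQ n24 n25 d40 (32957 / 10 ^ 9) (15563 / 10 ^ 6) (by decide +kernel)
  have n181 := Sys.yadQ n180.1 p10.2.1 110 (10001 / 10 ^ 9) (by decide +kernel)
  have n182 := Sys.ybdQ n180.2 p10.2.2 110 (10001 / 10 ^ 9) (by decide +kernel)
  have n183 := Sys.rat2Q n6 p10.1 n12.1 n181 n182 n23 n39 n50 (1 + 354126 / 10 ^ 6) (56199 / 10 ^ 5) (by decide +kernel)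
  have n184 := Sys.alpowQ n183 280 (10001 / 10 ^ 9) (by decide +kernel)
  have n185 := Sys.alpowQ n150 40 (22422 / 10 ^ 5) (by decide +kernel)
  have n186 := Sys.alpowQ n26 64 (10001 / 10 ^ 9) (by decide +kernel)
  have p64 : S.Pb 64 ((1 + 3415 / 10 ^ 8 : ℚ) : ℝ) ∧ S.MA 64 ((9654 / 10000 : ℚ) : ℝ) ∧
      S.MB 64 ((9598 / 10000 : ℚ) : ℝ) :=
    hP (64, 1 + 3415 / 10 ^ 8, 9654 / 10000, 9598 / 10000) (by decide +kernel)
  have n187 := Sys.yrelQ n186 n69 p64.1 p64.2.1 p64.2.2 (25817 / 10 ^ 4) (63125 / 10 ^ 5) (5002 / 10 ^ 4) (17119 / 10 ^ 4) (13565 / 10 ^ 4) (by decide +kernel)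
  have n188 := Sys.yadQ n187.1 p64.2.1 140 (20698 / 10 ^ 5) (by decide +kernel)
  have n189 := Sys.yadQ n187.1 p64.2.1 900 (10001 / 10 ^ 9) (by decide +kernel)
  have n190 := Sys.ybdQ n187.2 p64.2.2 900 (10001 / 10 ^ 9) (by decide +kernel)
  have n191 := Sys.rat1Q n185 p40.1 n188 n172 n173 n189 n190 (1 + 388319 / 10 ^ 6) (22822 / 10 ^ 4) (by decide +kernel)
  have n192 := Sys.du2Q n191 n104 n105 n172 n173 (1 + 34026 / 10 ^ 6) (by decide +kernel)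
  have n193 := Sys.yrelQ n184 n192 p280.1 p280.2.1 p280.2.2 11717 (17476 / 10 ^ 7) (77529 / 10 ^ 10) (17507 / 10 ^ 7) (10001 / 10 ^ 9) (by decide +kernel)
  have n194 := Sys.alpowQ n135 100 (98557 / 10 ^ 6) (by decide +kernel)
  have n195 := Sys.du2Q n135 n154 n155 n111 n112 (1 + 71092 / 10 ^ 7) (by decide +kernel)
  have n196 := Sys.yrelQ n153 n195 p280.1 p280.2.1 p280.2.2 (726846 / 10 ^ 5) (18585 / 10 ^ 6) (23748 / 10 ^ 7) (18937 / 10 ^ 6) (24198 / 10 ^ 7) (by decide +kernel)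
  have n197 := Sys.yadQ n110.1 p52.2.1 900 (10001 / 10 ^ 9) (by decide +kernel)
  have n198 := Sys.ybdQ n110.2 p52.2.2 900 (10001 / 10 ^ 9) (by decide +kernel)
  have n199 := Sys.alpowQ n64 140 (10001 / 10 ^ 9) (by decide +kernel)
  have n200 := Sys.alpowQ n64 24 (37249 / 10 ^ 6) (by decide +kernel)
  have n201 := Sys.yadQ n22.1 p24.2.1 440 (10001 / 10 ^ 9) (by decide +kernel)
  have n202 := Sys.ybdQ n22.2 p24.2.2 440 (10001 / 10 ^ 9) (by decide +kernel)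
  have n203 := Sys.yadQ n171.1 p40.2.1 440 (10001 / 10 ^ 9) (by decide +kernel)
  have n204 := Sys.ybdQ n171.2 p40.2.2 440 (10001 / 10 ^ 9) (by decide +kernel)
  have n205 := Sys.rat1Q n200 p24.1 n103.1 n201 n202 n203 n204 (1 + 274647 / 10 ^ 6) (19269 / 10 ^ 4) (by decide +kernel)
  have n206 := Sys.raQ n8 n9 a24.2.1 80 (72537 / 10 ^ 13) (by decide +kernel)
  have n207 := Sys.rbQ n9 a24.2.2 80 (80691 / 10 ^ 9) (by decide +kernel)
  have n208 := Sys.yabsQ n206 n207 d80 (11651 / 10 ^ 8) (12961 / 10 ^ 4) (by decide +kernel)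
  have n209 := Sys.yrelQ n27 n69 p24.1 p24.2.1 p24.2.2 (14758 / 10 ^ 4) (51978 / 10 ^ 7) (10563 / 10 ^ 5) (5225 / 10 ^ 6) (10619 / 10 ^ 5) (by decide +kernel)
  have n210 := Sys.du2Q n205 n208.1 n209.2 n201 n202 (1 + 50177 / 10 ^ 6) (by decide +kernel)
  have n211 := Sys.yrelQ n199 n210 p140.1 p140.2.1 p140.2.2 (94806 / 10 ^ 2) (1566 / 10 ^ 4) (80932 / 10 ^ 7) (18568 / 10 ^ 5) (9596 / 10 ^ 6) (by decide +kernel)
  have n212 := Sys.yadQ n211.1 p140.2.1 900 (10001 / 10 ^ 9) (by decide +kernel)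
  have n213 := Sys.alpowQ n26 140 (10001 / 10 ^ 9) (by decide +kernel)
  have n214 := Sys.yrelQ n213 n175 p140.1 p140.2.1 p140.2.2 6939045 (64034 / 10 ^ 7) (54037 / 10 ^ 10) (64447 / 10 ^ 7) (10001 / 10 ^ 9) (by decide +kernel)
  have n215 := Sys.rat1Q n93 p52.1 n124.1 n197 n198 n212 n214.2 (1 + 285757 / 10 ^ 6) (6816 / 10 ^ 4) (by decide +kernel)
  have n216 := Sys.alpowQ n215 140 (3563 / 10 ^ 4) (by decide +kernel)
  have n217 := Sys.rat2Q n95 p52.1 n120.1 n197 n198 n212 n214.2 n216 (1 + 244514 / 10 ^ 6) (49232 / 10 ^ 5) (by decide +kernel)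
  have n218 := Sys.alpowQ n217 140 (14841 / 10 ^ 5) (by decide +kernel)
  have n219 := Sys.rat2Q n97 p52.1 n115.1 n197 n198 n212 n214.2 n218 (1 + 221768 / 10 ^ 6) (3716 / 10 ^ 4) (by decide +kernel)
  have n220 := Sys.alpowQ n219 280 (4842 / 10 ^ 6) (by decide +kernel)
  have n221 := Sys.rat2Q n194 p100.1 n196.1 n176.1 n176.2 n179 n193.2 n220 (1 + 100682 / 10 ^ 6) (11001 / 10 ^ 5) (by decide +kernel)
  have n222 := Sys.alpowQ n221 280 (20702 / 10 ^ 7) (by decide +kernel)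
  have n223 := Sys.rat2Q n138 p100.1 n157.1 n176.1 n176.2 n179 n193.2 n222 (1 + 799923 / 10 ^ 7) (87074 / 10 ^ 6) (by decide +kernel)
  have n224 := Sys.alpowQ n223 280 (10757 / 10 ^ 7) (by decide +kernel)
  have n225 := Sys.yadQ n33.1 p14.2.1 180 (10001 / 10 ^ 9) (by decide +kernel)
  have n226 := Sys.ybdQ n33.2 p14.2.2 180 (10001 / 10 ^ 9) (by decide +kernel)
  have n227 := Sys.yadQ n103.1 p40.2.1 180 (30286 / 10 ^ 7) (by decide +kernel)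
  have n228 := Sys.ybdQ n103.2 p40.2.2 180 (22571 / 10 ^ 7) (by decide +kernel)
  have n229 := Sys.alpowQ n64 16 (11154 / 10 ^ 5) (by decide +kernel)
  have p16 : S.Pb 16 ((1 + 1246 / 10 ^ 6 : ℚ) : ℝ) ∧ S.MA 16 ((7762 / 10000 : ℚ) : ℝ) ∧
      S.MB 16 ((9258 / 10000 : ℚ) : ℝ) :=
    hP (16, 1 + 1246 / 10 ^ 6, 7762 / 10000, 9258 / 10000) (by decide +kernel)
  have n230 := Sys.upQ hO true 16 18761387261 18762829080 (187629 / 10 ^ 9) (by decide +kernel)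
  have n231 := Sys.upQ hO false 16 550126030325 550130660342 (550131 / 10 ^ 8) (by decide +kernel)
  have a16 : S.La 16 ((1003742 / 1000000 : ℚ) : ℝ) ∧ S.MA' 16 ((7753 / 10000 : ℚ) : ℝ) ∧
      S.MB' 16 ((9253 / 10000 : ℚ) : ℝ) :=
    hA (16, 1003742 / 1000000, 7753 / 10000, 9253 / 10000) (by decide +kernel)
  have n232 := Sys.raQ n230 n231 a16.2.1 40 (82611 / 10 ^ 11) (by decide +kernel)
  have n233 := Sys.rbQ n231 a16.2.2 40 (22934 / 10 ^ 8) (by decide +kernel)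
  have n234 := Sys.yabsQ n232 n233 d40 (52613 / 10 ^ 8) (14607 / 10 ^ 5) (by decide +kernel)
  have n235 := Sys.yadQ n234.1 p16.2.1 180 (10001 / 10 ^ 9) (by decide +kernel)
  have n236 := Sys.ybdQ n234.2 p16.2.2 180 (10001 / 10 ^ 9) (by decide +kernel)
  have n237 := Sys.yadQ n171.1 p40.2.1 180 (11648 / 10 ^ 6) (by decide +kernel)
  have n238 := Sys.ybdQ n171.2 p40.2.2 180 (81144 / 10 ^ 7) (by decide +kernel)
  have n239 := Sys.rat1Q n229 p16.1 n103.1 n235 n236 n237 n238 (1 + 258964 / 10 ^ 6) (83085 / 10 ^ 5) (by decide +kernel)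
  have n240 := Sys.alpowQ n239 40 (62923 / 10 ^ 5) (by decide +kernel)
  have n241 := Sys.rat2Q n229 p16.1 n103.1 n235 n236 n227 n228 n240 (1 + 258964 / 10 ^ 6) (73715 / 10 ^ 5) (by decide +kernel)
  have n242 := Sys.alpowQ n241 40 (46655 / 10 ^ 5) (by decide +kernel)
  have n243 := Sys.rat2Q n229 p16.1 n103.1 n235 n236 n227 n228 n242 (1 + 258964 / 10 ^ 6) (66558 / 10 ^ 5) (by decide +kernel)
  have n244 := Sys.alpowQ n243 40 (36142 / 10 ^ 5) (by decide +kernel)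
  have n245 := Sys.rat2Q n65 p14.1 n103.1 n225 n226 n227 n228 n244 (1 + 339378 / 10 ^ 6) (66707 / 10 ^ 5) (by decide +kernel)
  have n246 := Sys.alpowQ n245 400 (10001 / 10 ^ 9) (by decide +kernel)
  have n247 := Sys.alpowQ n135 64 (22697 / 10 ^ 5) (by decide +kernel)
  have n248 := Sys.alpowQ n59 16 (24075 / 10 ^ 5) (by decide +kernel)
  have n249 := Sys.yadQ n234.1 p16.2.1 110 (10001 / 10 ^ 9) (by decide +kernel)
  have n250 := Sys.raQ n230 n231 a16.2.1 80 (31321 / 10 ^ 15) (by decide +kernel)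
  have n251 := Sys.rbQ n231 a16.2.2 80 (10275 / 10 ^ 9) (by decide +kernel)
  have n252 := Sys.yabsQ n250 n251 d80 (10001 / 10 ^ 9) (65405 / 10 ^ 7) (by decide +kernel)
  have n253 := Sys.ybdQ n252.2 p16.2.2 110 (64734 / 10 ^ 8) (by decide +kernel)
  have n254 := Sys.du2Q n248 n234.1 n234.2 n249 n253 (1 + 22319 / 10 ^ 6) (by decide +kernel)
  have n255 := Sys.yrelQ n186 n254 p64.1 p64.2.1 p64.2.2 (411694 / 10 ^ 5) (35002 / 10 ^ 5) (23294 / 10 ^ 5) (53851 / 10 ^ 5) (35839 / 10 ^ 5) (by decide +kernel)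
  have n256 := Sys.yadQ n255.1 p64.2.1 180 (45784 / 10 ^ 6) (by decide +kernel)
  have n257 := Sys.ybdQ n255.2 p64.2.2 180 (20278 / 10 ^ 6) (by decide +kernel)
  have n258 := Sys.yadQ n187.1 p64.2.1 440 (10001 / 10 ^ 9) (by decide +kernel)
  have n259 := Sys.ybdQ n187.2 p64.2.2 440 (10001 / 10 ^ 9) (by decide +kernel)
  have n260 := Sys.du2Q n247 n256 n257 n258 n259 (1 + 42048 / 10 ^ 7) (by decide +kernel)
  have p400 : S.Pb 400 ((1 + 2454 / 10 ^ 14 : ℚ) : ℝ) ∧ S.MA 400 ((9817 / 10000 : ℚ) : ℝ) ∧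
      S.MB 400 ((9762 / 10000 : ℚ) : ℝ) :=
    hP (400, 1 + 2454 / 10 ^ 14, 9817 / 10000, 9762 / 10000) (by decide +kernel)
  have n261 := Sys.yrelQ n246 n260 p400.1 p400.2.1 p400.2.2 (5357 / 10 ^ 3) (43996 / 10 ^ 6) (1021 / 10 ^ 5) (46021 / 10 ^ 6) (1068 / 10 ^ 5) (by decide +kernel)
  have n262 := Sys.yadQ n261.1 p400.2.1 900 (10001 / 10 ^ 9) (by decide +kernel)
  have n263 := Sys.alpowQ n150 280 (28487 / 10 ^ 9) (by decide +kernel)
  have n264 := Sys.rat1Q n149 p40.1 n188 n172 n173 n189 n190 (1 + 565831 / 10 ^ 6) (35238 / 10 ^ 4) (by decide +kernel)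
  have n265 := Sys.du2Q n264 n145 n146 n172 n173 (1 + 39407 / 10 ^ 6) (by decide +kernel)
  have n266 := Sys.yrelQ n263 n265 p280.1 p280.2.1 p280.2.2 (501177 / 10 ^ 1) (13578 / 10 ^ 6) (73999 / 10 ^ 9) (13765 / 10 ^ 6) (75018 / 10 ^ 9) (by decide +kernel)
  have n267 := Sys.yadQ n266.1 p280.2.1 1920 (10001 / 10 ^ 9) (by decide +kernel)
  have n268 := Sys.du2Q n264 n104 n105 n172 n173 (1 + 42354 / 10 ^ 6) (by decide +kernel)
  have n269 := Sys.yrelQ n184 n268 p280.1 p280.2.1 p280.2.2 110732 (16516 / 10 ^ 6) (73269 / 10 ^ 9) (16794 / 10 ^ 6) (745 / 10 ^ 7) (by decide +kernel)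
  have n270 := Sys.ybdQ n269.2 p280.2.2 1920 (10001 / 10 ^ 9) (by decide +kernel)
  have p30 : S.Pb 30 ((1 + 3574 / 10 ^ 7 : ℚ) : ℝ) ∧ S.MA 30 ((9433 / 10000 : ℚ) : ℝ) ∧
      S.MB 30 ((9432 / 10000 : ℚ) : ℝ) :=
    hP (30, 1 + 3574 / 10 ^ 7, 9433 / 10000, 9432 / 10000) (by decide +kernel)
  have n271 := Sys.lapowQ a12.1 30 (1004943 / 10 ^ 6) (by decide +kernel)
  have n272 := Sys.mapQ p30.2.1 n271 (947963 / 10 ^ 6) (by decide +kernel)
  have n273 := Sys.raQ n162 n164 n272 80 (61954 / 10 ^ 11) (by decide +kernel)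
  have n274 := Sys.mbpQ p30.2.2 n271 (947863 / 10 ^ 6) (by decide +kernel)
  have n275 := Sys.rbQ n164 n274 80 (61377 / 10 ^ 11) (by decide +kernel)
  have n276 := Sys.yabsQ n273 n275 d80 (12614 / 10 ^ 5) (12496 / 10 ^ 5) (by decide +kernel)
  have n277 := Sys.yadQ n180.1 p10.2.1 140 (10001 / 10 ^ 9) (by decide +kernel)
  have n278 := Sys.ybdQ n180.2 p10.2.2 140 (10001 / 10 ^ 9) (by decide +kernel)
  have n279 := Sys.yadQ n276.1 p30.2.1 140 (38006 / 10 ^ 7) (by decide +kernel)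
  have n280 := Sys.ybdQ n276.2 p30.2.2 140 (37411 / 10 ^ 7) (by decide +kernel)
  have n281 := Sys.alpowQ n148 30 (48471 / 10 ^ 5) (by decide +kernel)
  have n282 := Sys.rat2Q n64 p10.1 n276.1 n277 n278 n279 n280 n281 (1 + 455686 / 10 ^ 6) (73211 / 10 ^ 5) (by decide +kernel)
  have n283 := Sys.alpowQ n282 400 (10001 / 10 ^ 9) (by decide +kernel)
  have n284 := Sys.yadQ n171.1 p40.2.1 1300 (10001 / 10 ^ 9) (by decide +kernel)
  have n285 := Sys.ybdQ n171.2 p40.2.2 1300 (10001 / 10 ^ 9) (by decide +kernel)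
  have n286 := Sys.yadQ n187.1 p64.2.1 1300 (10001 / 10 ^ 9) (by decide +kernel)
  have n287 := Sys.ybdQ n187.2 p64.2.2 1300 (10001 / 10 ^ 9) (by decide +kernel)
  have n288 := Sys.rat1Q n149 p40.1 n188 n284 n285 n286 n287 (1 + 672988 / 10 ^ 6) (43972 / 10 ^ 4) (by decide +kernel)
  have n289 := Sys.du2Q n288 n145 n146 n284 n285 (1 + 44004 / 10 ^ 6) (by decide +kernel)
  have n290 := Sys.yrelQ n283 n289 p400.1 p400.2.1 p400.2.2 30260034 (15007 / 10 ^ 6) (22176 / 10 ^ 9) (15236 / 10 ^ 6) (22514 / 10 ^ 9) (by decide +kernel)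
  have n291 := Sys.yadQ n290.1 p400.2.1 1920 (10001 / 10 ^ 9) (by decide +kernel)
  have n292 := Sys.ybdQ n290.2 p400.2.2 1920 (10001 / 10 ^ 9) (by decide +kernel)
  have fin := Sys.finQ n224 p280.1 n262 n267 n270 n291 n292 p280.2.1 p280.2.2 p400.2.1 p400.2.2 800000 (1 + 679101 / 10 ^ 9) (1 + 177557 / 10 ^ 8) (60013 / 10 ^ 7) (1 / 2 ^ 10)
    (by decide +kernel) N h h'
  have e : ((1 / 2 ^ 10 : ℚ) : ℝ) = 1 / 2 ^ 10 := by push_cast; rfl
  rwa [e] at fin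

end Crest.Agent.R347
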