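import Crest.Agent.R347.BootChain
import Crest.Agent.R347.BootAsym
import Crest.Agent.R347.BootOChain
import Crest.Agent.R347.BootOAsym

/-! Row 347: the bootstrap. -/

set_option autoImplicit false

namespace Crest.Agent.R347

theorem boot_ring (S : Sys) (hR : ∀ t ∈ tabR, EncR S.Z t) (L : ℕ) (hL : Even L) (h : 60 ≤ L) :
    GapAt (S.Z 0 L) (S.E0 L) (1 / 200) := by
  rcases lt_or_ge L 1200 with h' | h'
  · exact chain_gap S hR L hL h h'
  · exact asym_ring S (chain_phi S hR) L hL h'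

theorem boot_open (S : Sys) (hR : ∀ t ∈ tabR, EncR S.Z t) (hO : ∀ t ∈ tabO, EncO S.Zo t)
    (hD : ∀ t ∈ tabD, EncD S.Eo t) (N : ℕ) (h : 1921 ≤ N) :
    GapAt (S.Zo true N) (S.Eo true N) (6 / 1000) := by
  have hal := ochain_al S hO hD (chain_abs S hR) (chain_pm S hR)
  rcases lt_or_ge N 800000 with h' | h'
  · refine Sys.gap_al (hal N (by omega) h'.le) (by norm_num) _ ?_
    have h1 : (-(6 / 1000 : ℝ) * ((400 : ℕ) : ℝ)) = -(12 / 5) := by norm_num
    rw [h1, Real.exp_neg, one_div]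
    refine inv_strictAnti₀ (Real.exp_pos _) ?_
    have h2 : Real.exp (12 / 5) ≤ Real.exp 1 ^ 3 := by
      rw [← Real.exp_nat_mul]; exact Real.exp_le_exp.2 (by norm_num)
    have h3 : Real.exp 1 ^ 3 ≤ 3 ^ 3 :=
      pow_le_pow_left₀ (Real.exp_pos _).le (Real.exp_one_lt_d9.le.trans (by norm_num)) 3
    linarith
  · exact asym_open S (ochain_up S hO) (asym_pm S (chain_phi S hR))
      (hal 800000 (by norm_num) le_rfl) N h'

end Crest.Agent.R347
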