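import Crest.Agent.R347.BootChainAux4

/-! Row 347: finite part of the ring bootstrap. -/

set_option autoImplicit false

namespace Crest.Agent.R347

namespace Ch

theorem recP_ok : recP.all (fun p => fchk p.1 p.2) = true := by decide +kernel

theorem recs_eq : recs = recP.map Prod.fst := rfl

theorem recs_ok (S : Sys) (hR : ∀ t ∈ tabR, EncR S.Z t) : ∀ R ∈ recs, BaseOK S R := by
  intro R h
  rw [recs_eq] at h
  obtain ⟨p, hp, rfl⟩ := List.mem_map.mp h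
  exact baseOK_of S hR (List.all_eq_true.mp recP_ok p hp)

theorem cert_hold (S : Sys) (hR : ∀ t ∈ tabR, EncR S.Z t) (n : ℕ) (h : n < nM) :
    (cert.get n).H S :=
  all_hold (recs_ok S hR) cert_ok n h

theorem v_le {a : Tq} {x : ℚ} (h : a.q ≤ x) : a.v ≤ x := by
  rw [← Tq.q_cast]; exact_mod_cast h

theorem v_le1 {a : Tq} {x : ℚ} (h : 1 + a.q ≤ x) : 1 + a.v ≤ x := by
  rw [← Tq.q_cast]; exact_mod_cast h

theorem absA : tabA.all (fun t => recs.any fun R => Nat.beq R.b t.1 && decide (1 + R.la.q ≤ t.2.1) &&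
    decide (R.tA.q ≤ t.2.2.1) && decide (R.tE.q ≤ t.2.2.1) && decide (R.t1.q ≤ t.2.2.2)) = true := by
  decide +kernel

noncomputable def finP (t : ℕ × ℚ × ℚ × ℚ) (f : ℕ × ℕ × ℕ × ℕ) : Bool :=
  Nat.beq f.1 t.1 && (Nat.ble (f.2.1 + 1) nM && Nat.ble (f.2.2.1 + 1) nM && Nat.ble (f.2.2.2 + 1) nM &&
  Nat.beq (cert.get f.2.1).k 6 && Nat.ble (cert.get f.2.1).b t.1 &&
  decide (1 + (cert.get f.2.1).a.q ≤ t.2.1) &&
  Nat.beq (cert.get f.2.2.1).k 7 && Nat.beq (cert.get f.2.2.1).b t.1 &&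
  decide ((cert.get f.2.2.1).a.q ≤ t.2.2.1) &&
  Nat.beq (cert.get f.2.2.2).k 8 && Nat.beq (cert.get f.2.2.2).b t.1 &&
  decide ((cert.get f.2.2.2).a.q ≤ t.2.2.2))

theorem finP_ok : tabP.all (fun t => finI.any fun f => finP t f) = true := by decide +kernel

theorem phi_ok : (Nat.ble (iPhi + 1) nM && Nat.beq (cert.get iPhi).k 3 &&
    Nat.beq (cert.get iPhi).K 1200 && Nat.beq (cert.get iPhi).b 400 &&
    decide ((cert.get iPhi).a.q ≤ 1 / 2 ^ 24)) = true := by decide +kernel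

theorem gap_ok : (Nat.ble (iGap + 1) nM && Nat.ble (iP30 + 1) nM && isXs (cert.get iGap).k &&
    Nat.beq (cert.get iGap).K 60 && Nat.beq (cert.get iGap).b 30 && (cert.get iGap).a.ltn 1 &&
    Nat.beq (cert.get iP30).k 6 && Nat.ble (cert.get iP30).b 30 &&
    Tq.le (((cert.get iGap).a.s1).mul (((cert.get iP30).a.s1).pow 1200)) ⟨16, 2⟩) = true := by
  decide +kernel

end Ch

open Ch

theorem chain_abs (S : Sys) (hR : ∀ t ∈ tabR, EncR S.Z t) :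
    ∀ t ∈ tabA, S.La t.1 t.2.1 ∧ S.MA' t.1 t.2.2.1 ∧ S.MB' t.1 t.2.2.2 := by
  intro t ht
  obtain ⟨R, hm, h⟩ := List.any_eq_true.mp (List.all_eq_true.mp absA t ht)
  simp only [Bool.and_eq_true, Nat.beq_eq, decide_eq_true_eq] at h
  obtain ⟨⟨⟨⟨e, h1⟩, h2⟩, h3⟩, h4⟩ := h
  have B := recs_ok S hR R hm
  rw [← e]
  exact ⟨B.la _ (v_le1 h1), B.ma _ (v_le h2) (v_le h3), B.mb _ (v_le h4)⟩

theorem chain_pm (S : Sys) (hR : ∀ t ∈ tabR, EncR S.Z t) :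
    ∀ t ∈ tabP, S.Pb t.1 t.2.1 ∧ S.MA t.1 t.2.2.1 ∧ S.MB t.1 t.2.2.2 := by
  intro t ht
  obtain ⟨f, -, h⟩ := List.any_eq_true.mp (List.all_eq_true.mp finP_ok t ht)
  simp only [finP, Bool.and_eq_true, Nat.beq_eq, Nat.ble_eq, decide_eq_true_eq] at h
  obtain ⟨-, ⟨⟨⟨⟨⟨⟨⟨⟨⟨⟨⟨n1, n2⟩, n3⟩, p1⟩, p2⟩, p3⟩, a1⟩, a2⟩, a3⟩, b1⟩, b2⟩, b3⟩⟩ := h
  have HP := cert_hold S hR _ n1
  have HA := cert_hold S hR _ n2
  have HB := cert_hold S hR _ n3
  have hb : 1 ≤ t.1 := a2 ▸ HA.2.1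
  have hl := (S.lam_pos t.1 (by exact_mod_cast hb)).le
  have ma := HA.ma a1
  have mb := HB.mb b1
  rw [a2] at ma
  rw [b2] at mb
  refine ⟨le_trans (Sys.p_mono (HP.pb p1) HP.2.1 p2) (v_le1 p3), fun i => ⟨fun hi => ?_, fun hi => ?_⟩,
    fun i => ?_⟩
  · exact ((ma i).1 hi).trans (mul_le_mul_of_nonneg_right (v_le a3) hl)
  · exact ((ma i).2 hi).trans (mul_le_mul_of_nonneg_right (v_le a3) hl)
  · exact (mb i).trans (mul_le_mul_of_nonneg_right (v_le b3) hl)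

theorem chain_phi (S : Sys) (hR : ∀ t ∈ tabR, EncR S.Z t) : S.Phi 1200 400 (1 + 1 / 2 ^ 24) := by
  have h := phi_ok
  simp only [Bool.and_eq_true, Nat.beq_eq, Nat.ble_eq, decide_eq_true_eq] at h
  obtain ⟨⟨⟨⟨n1, k1⟩, k2⟩, k3⟩, k4⟩ := h
  have H := (cert_hold S hR _ n1).phi k1
  rw [k2, k3] at H
  have h1 := v_le k4
  push_cast at h1
  exact le_trans H (by linarith)

theorem chain_gap (S : Sys) (hR : ∀ t ∈ tabR, EncR S.Z t) (L : ℕ) (hL : Even L) (h : 60 ≤ L)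
    (h' : L < 1200) : GapAt (S.Z 0 L) (S.E0 L) (1 / 200) := by
  have g := gap_ok
  simp only [Bool.and_eq_true, Nat.beq_eq, Nat.ble_eq] at g
  obtain ⟨⟨⟨⟨⟨⟨⟨⟨n1, n2⟩, k1⟩, k2⟩, k3⟩, k4⟩, p1⟩, p2⟩, e⟩ := g
  have HX := cert_hold S hR _ n1
  have HP := cert_hold S hR _ n2
  have xs := HX.xs k1
  rw [k2, k3] at xs
  have pb := Sys.p_mono (HP.pb p1) HP.2.1 p2
  have e1 := Tq.of_le e
  simp only [Tq.v_mul, Tq.v_pow, Tq.v_s1] at e1
  have e2 : (⟨16, 2⟩ : Tq).v = 1 + 7 / 9 := by unfold Tq.v; norm_num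
  rw [e2] at e1
  have x0 := (cert.get iGap).a.v_nonneg
  have q0 := (cert.get iP30).a.v_nonneg
  have x1 : (cert.get iGap).a.v < 1 := by exact_mod_cast Tq.of_ltn k4
  generalize (cert.get iGap).a.v = x at *
  generalize (cert.get iP30).a.v = p at *
  have eL : EK L := ⟨Nat.even_iff.mp hL, by omega⟩
  have xL : S.Xs L 30 x := Sys.xs_pow0 xs (by decide) eL (by norm_num) h x0
    (pow_le_pow_of_le_one x0 x1.le h)
  have ph : S.Phi L 30 (1 + 7 / 9) := Sys.phi_s xL pb eL (by norm_num)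
    (le_trans (mul_le_mul_of_nonneg_left (pow_le_pow_right₀ (by linarith) h'.le) (by linarith)) e1)
  refine Sys.gap_xt (Sys.xt_phi ph eL le_rfl) (by norm_num) _ ?_
  have := Real.add_one_le_exp (-(1 / 200 : ℝ) * ((30 : ℕ) : ℝ))
  push_cast at this ⊢
  linarith

end Crest.Agent.R347
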