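import Crest.Agent.R347.BootTab

/-! Row 347: polynomial filters on the ring table (helper92). -/

set_option autoImplicit false

namespace Crest.Agent.R347
namespace Ch

/-- the filter polynomial -/
noncomputable def qf (a b x : ℝ) : ℝ := x ^ 6 * (x - a) ^ 2 * (x - b) ^ 2
def qq (a b x : ℚ) : ℚ := x ^ 6 * (x - a) ^ 2 * (x - b) ^ 2

theorem qq_cast (a b x : ℚ) : ((qq a b x : ℚ) : ℝ) = qf a b x := by
  unfold qq qf; push_cast; ring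

theorem qf_nonneg (a b x : ℝ) : 0 ≤ qf a b x := by unfold qf; positivity

theorem qf_mono {a b t x : ℝ} (h0 : 0 ≤ t) (ha : a ≤ t) (hb : b ≤ t) (h : t ≤ x) :
    qf a b t ≤ qf a b x := by
  unfold qf
  have h1 : 0 ≤ t - a := by linarith
  have h2 : 0 ≤ t - b := by linarith
  gcongr

theorem qf_neg (a b x : ℝ) : qf (-a) (-b) (-x) = qf a b x := by unfold qf; ring

/-- sector coefficients -/
structure Sec where
  c0 : ℚ
  c6 : ℚ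
  c3 : ℚ
  c4 : ℚ

noncomputable def W (z : ℕ → ℕ → ℝ) (c : Sec) (L : ℕ) : ℝ :=
  c.c0 * z 0 L + c.c6 * z 6 L + c.c3 * z 3 L + c.c4 * z 4 L

def ubq (k : ℚ) (p : ℕ × ℕ) : ℚ := max (k * ((p.1 : ℚ) / 10 ^ 8)) (k * ((p.2 : ℚ) / 10 ^ 8))

theorem le_ubq (k : ℚ) (p : ℕ × ℕ) (z : ℝ) (h1 : (p.1 : ℝ) / 10 ^ 8 ≤ z)
    (h2 : z ≤ (p.2 : ℝ) / 10 ^ 8) : (k : ℝ) * z ≤ ubq k p := by
  unfold ubq
  push_cast
  rcases le_total 0 (k : ℝ) with hk | hk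
  · exact le_max_of_le_right (mul_le_mul_of_nonneg_left h2 hk)
  · exact le_max_of_le_left (mul_le_mul_of_nonpos_left h1 hk)

def ubW (E : ℕ → ℕ → ℕ × ℕ) (c : Sec) (k : ℚ) (L : ℕ) : ℚ :=
  ubq (k * c.c0) (E 0 L) + ubq (k * c.c6) (E 6 L) + ubq (k * c.c3) (E 3 L) + ubq (k * c.c4) (E 4 L)

/-- `E` encloses `z` on the 20 relevant entries -/
def Enc (E : ℕ → ℕ → ℕ × ℕ) (z : ℕ → ℕ → ℝ) : Prop :=
  ∀ a ∈ [0, 6, 3, 4], ∀ L ∈ [6, 7, 8, 9, 10],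
    ((E a L).1 : ℝ) / 10 ^ 8 ≤ z a L ∧ z a L ≤ ((E a L).2 : ℝ) / 10 ^ 8

theorem le_ubW {E : ℕ → ℕ → ℕ × ℕ} {z : ℕ → ℕ → ℝ} (h : Enc E z) (c : Sec) (k : ℚ) (L : ℕ)
    (hL : L ∈ [6, 7, 8, 9, 10]) : (k : ℝ) * W z c L ≤ ubW E c k L := by
  have h0 := le_ubq (k * c.c0) _ _ (h 0 (by simp) L hL).1 (h 0 (by simp) L hL).2
  have h6 := le_ubq (k * c.c6) _ _ (h 6 (by simp) L hL).1 (h 6 (by simp) L hL).2
  have h3 := le_ubq (k * c.c3) _ _ (h 3 (by simp) L hL).1 (h 3 (by simp) L hL).2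
  have h4 := le_ubq (k * c.c4) _ _ (h 4 (by simp) L hL).1 (h 4 (by simp) L hL).2
  unfold ubW W
  push_cast at *
  linarith

def Fub (E : ℕ → ℕ → ℕ × ℕ) (c : Sec) (a b : ℚ) : ℚ :=
  ubW E c 1 10 + ubW E c (-2 * (a + b)) 9 + ubW E c ((a + b) ^ 2 + 2 * a * b) 8 +
    ubW E c (-2 * a * b * (a + b)) 7 + ubW E c ((a * b) ^ 2) 6

/-- the atoms `ν` have power sums `W z c L` -/
def Rep (z : ℕ → ℕ → ℝ) (c : Sec) (ν : ℕ → ℝ) : Prop :=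
  ∀ L, 5 ≤ L → HasSum (fun i => ν i ^ L) (W z c L)

theorem sum_qf_le {E : ℕ → ℕ → ℕ × ℕ} {z : ℕ → ℕ → ℝ} (h : Enc E z) {c : Sec} {ν : ℕ → ℝ}
    (hν : Rep z c ν) (a b : ℚ) (s : Finset ℕ) : ∑ i ∈ s, qf a b (ν i) ≤ Fub E c a b := by
  have hs := (((((hν 10 (by norm_num)).mul_left ((1 : ℚ) : ℝ)).add
    ((hν 9 (by norm_num)).mul_left ((-2 * (a + b) : ℚ) : ℝ))).add
    ((hν 8 (by norm_num)).mul_left (((a + b) ^ 2 + 2 * a * b : ℚ) : ℝ))).add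
    ((hν 7 (by norm_num)).mul_left ((-2 * a * b * (a + b) : ℚ) : ℝ))).add
    ((hν 6 (by norm_num)).mul_left (((a * b) ^ 2 : ℚ) : ℝ))
  have e : (fun i => ((1 : ℚ) : ℝ) * ν i ^ 10 + ((-2 * (a + b) : ℚ) : ℝ) * ν i ^ 9 +
      (((a + b) ^ 2 + 2 * a * b : ℚ) : ℝ) * ν i ^ 8 + ((-2 * a * b * (a + b) : ℚ) : ℝ) * ν i ^ 7 +
      (((a * b) ^ 2 : ℚ) : ℝ) * ν i ^ 6) = fun i => qf a b (ν i) := by
    funext i; unfold qf; push_cast; ring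
  rw [e] at hs
  have h1 := sum_le_hasSum s (fun i _ => qf_nonneg a b (ν i)) hs
  have t10 := le_ubW h c 1 10 (by simp)
  have t9 := le_ubW h c (-2 * (a + b)) 9 (by simp)
  have t8 := le_ubW h c ((a + b) ^ 2 + 2 * a * b) 8 (by simp)
  have t7 := le_ubW h c (-2 * a * b * (a + b)) 7 (by simp)
  have t6 := le_ubW h c ((a * b) ^ 2) 6 (by simp)
  unfold Fub
  simp only [Rat.cast_add (ubW _ _ _ _ + _ + _ + _), Rat.cast_add (ubW _ _ _ _ + _ + _),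
    Rat.cast_add (ubW _ _ _ _ + _), Rat.cast_add (ubW _ _ _ _)]
  linarith

def sideP (a b t G : ℚ) : Bool :=
  decide (0 ≤ t) && decide (a ≤ t) && decide (b ≤ t) && decide (G < qq a b t)

theorem lt_of_sideP {a b t G : ℚ} (h : sideP a b t G = true) {x : ℝ} (hx : qf a b x ≤ G) :
    x < t := by
  simp only [sideP, Bool.and_eq_true, decide_eq_true_eq] at h
  obtain ⟨⟨⟨h0, ha⟩, hb⟩, hG⟩ := h
  by_contra hc
  have h1 := qf_mono (a := a) (b := b) (t := t) (x := x) (by exact_mod_cast h0)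
    (by exact_mod_cast ha) (by exact_mod_cast hb) (not_lt.mp hc)
  have h2 : (G : ℝ) < qf a b t := by rw [← qq_cast]; exact_mod_cast hG
  linarith

theorem lt_of_sideN {a b t G : ℚ} (h : sideP (-a) (-b) t G = true) {x : ℝ} (hx : qf a b x ≤ G) :
    -x < t := by
  apply lt_of_sideP h
  push_cast
  rwa [qf_neg]

/-- filter parameters for both sides -/
structure Par where
  a1 : ℚ
  b1 : ℚ
  a2 : ℚ
  b2 : ℚ

def secOK (E : ℕ → ℕ → ℕ × ℕ) (c : Sec) (p : Par) (tp tn : ℚ) : Bool :=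
  sideP p.a1 p.b1 tp (Fub E c p.a1 p.b1) && sideP (-p.a2) (-p.b2) tn (Fub E c p.a2 p.b2)

theorem of_secOK {E : ℕ → ℕ → ℕ × ℕ} {z : ℕ → ℕ → ℝ} (h : Enc E z) {c : Sec} {ν : ℕ → ℝ}
    (hν : Rep z c ν) {p : Par} {tp tn : ℚ} (hk : secOK E c p tp tn = true) (i : ℕ) :
    ν i < tp ∧ -ν i < tn := by
  simp only [secOK, Bool.and_eq_true] at hk
  have h1 := sum_qf_le h hν p.a1 p.b1 {i}
  have h2 := sum_qf_le h hν p.a2 p.b2 {i}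
  rw [Finset.sum_singleton] at h1 h2
  exact ⟨lt_of_sideP hk.1 h1, lt_of_sideN hk.2 h2⟩

theorem abs_of_secOK {E : ℕ → ℕ → ℕ × ℕ} {z : ℕ → ℕ → ℝ} (h : Enc E z) {c : Sec} {ν : ℕ → ℝ}
    (hν : Rep z c ν) {p : Par} {t : ℚ} (hk : secOK E c p t t = true) (i : ℕ) : |ν i| < t := by
  obtain ⟨h1, h2⟩ := of_secOK h hν hk i
  exact abs_lt.mpr ⟨by linarith, h1⟩

def secOK2 (E : ℕ → ℕ → ℕ × ℕ) (c : Sec) (p : Par) (t : ℚ) : Bool :=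
  decide (p.a1 ≤ 1) && decide (p.b1 ≤ 1) && decide (p.a2 ≤ 1) && decide (p.b2 ≤ 1) &&
  sideP p.a1 p.b1 t (Fub E c p.a1 p.b1 - qq p.a1 p.b1 1) &&
    sideP (-p.a2) (-p.b2) t (Fub E c p.a2 p.b2 - qq p.a2 p.b2 1)

theorem abs_of_secOK2 {E : ℕ → ℕ → ℕ × ℕ} {z : ℕ → ℕ → ℝ} (h : Enc E z) {c : Sec} {ν : ℕ → ℝ}
    (hν : Rep z c ν) {p : Par} {t : ℚ} (hk : secOK2 E c p t = true) {i0 : ℕ} (h0 : 1 ≤ ν i0)
    (i : ℕ) (hi : i ≠ i0) : |ν i| < t := by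
  simp only [secOK2, Bool.and_eq_true, decide_eq_true_eq] at hk
  obtain ⟨⟨⟨⟨⟨k1, k2⟩, k3⟩, k4⟩, k5⟩, k6⟩ := hk
  have h1 := sum_qf_le h hν p.a1 p.b1 {i, i0}
  have h2 := sum_qf_le h hν p.a2 p.b2 {i, i0}
  rw [Finset.sum_pair hi] at h1 h2
  have m1 := qf_mono (a := p.a1) (b := p.b1) (t := 1) zero_le_one (by exact_mod_cast k1)
    (by exact_mod_cast k2) h0
  have m2 := qf_mono (a := p.a2) (b := p.b2) (t := 1) zero_le_one (by exact_mod_cast k3)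
    (by exact_mod_cast k4) h0
  have a1 : ν i < t := lt_of_sideP k5 (by
    rw [Rat.cast_sub, qq_cast, Rat.cast_one]; linarith)
  have a2 : -ν i < t := lt_of_sideN k6 (by
    rw [Rat.cast_sub, qq_cast, Rat.cast_one]; linarith)
  exact abs_lt.mpr ⟨by linarith, a1⟩

theorem pow_le_aux {x t : ℝ} (h : |x| ≤ t) {K : ℕ} (hK : 10 ≤ K) :
    x ^ K ≤ t ^ (K - 10) * x ^ 10 := by
  have e : x ^ K = x ^ (K - 10) * x ^ 10 := by rw [← pow_add]; congr 1; omega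
  rw [e]
  have h1 : x ^ (K - 10) ≤ t ^ (K - 10) :=
    (le_abs_self _).trans (by rw [abs_pow]; exact pow_le_pow_left₀ (abs_nonneg _) h _)
  exact mul_le_mul_of_nonneg_right h1 (by positivity)

theorem W_le {E : ℕ → ℕ → ℕ × ℕ} {z : ℕ → ℕ → ℝ} (h : Enc E z) {c : Sec} {ν : ℕ → ℝ}
    (hν : Rep z c ν) {t w : ℝ} (ht : ∀ i, |ν i| ≤ t) (hw : (ubW E c 1 10 : ℝ) ≤ w) {K : ℕ}
    (hK : 10 ≤ K) : W z c K ≤ w * t ^ (K - 10) := by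
  have t0 : 0 ≤ t := (abs_nonneg _).trans (ht 0)
  have h1 := hasSum_le (fun i => pow_le_aux (ht i) hK) (hν K (by omega))
    ((hν 10 (by norm_num)).mul_left (t ^ (K - 10)))
  have h2 := le_ubW h c 1 10 (by simp)
  rw [Rat.cast_one, one_mul] at h2
  calc W z c K ≤ t ^ (K - 10) * W z c 10 := h1
    _ ≤ t ^ (K - 10) * w := mul_le_mul_of_nonneg_left (h2.trans hw) (by positivity)
    _ = _ := mul_comm _ _

theorem W_le2 {E : ℕ → ℕ → ℕ × ℕ} {z : ℕ → ℕ → ℝ} (h : Enc E z) {c : Sec} {ν : ℕ → ℝ}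
    (hν : Rep z c ν) {t w : ℝ} {i0 : ℕ} (h0 : 1 ≤ ν i0) (t0 : 0 ≤ t)
    (ht : ∀ i, i ≠ i0 → |ν i| ≤ t) (hw : (ubW E c 1 10 : ℝ) ≤ 1 + w) {K : ℕ}
    (hK : 10 ≤ K) : W z c K ≤ ν i0 ^ K + w * t ^ (K - 10) := by
  have s1 := (hν K (by omega)).sub (hasSum_ite_eq i0 (ν i0 ^ K))
  have s2 := ((hν 10 (by norm_num)).sub (hasSum_ite_eq i0 (ν i0 ^ 10))).mul_left (t ^ (K - 10))
  have h1 := hasSum_le (fun i => by
    by_cases hi : i = i0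
    · subst hi; simp
    · simp only [hi, if_false, sub_zero]; exact pow_le_aux (ht i hi) hK) s1 s2
  have h2 := le_ubW h c 1 10 (by simp)
  rw [Rat.cast_one, one_mul] at h2
  have h3 : 1 ≤ ν i0 ^ 10 := one_le_pow₀ h0
  have h4 : t ^ (K - 10) * (W z c 10 - ν i0 ^ 10) ≤ t ^ (K - 10) * w :=
    mul_le_mul_of_nonneg_left (by linarith) (by positivity)
  linarith

end Ch
end Crest.Agent.R347
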