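import Crest.Agent.R347.BootChainAux1

/-! Row 347: triadic arithmetic and base facts from the filters (helper92). -/

set_option autoImplicit false

namespace Crest.Agent.R347
namespace Ch

/-- the number `m / 3 ^ e` -/
structure Tq where
  m : ℕ
  e : ℕ

namespace Tq
noncomputable def v (a : Tq) : ℝ := (a.m : ℝ) / 3 ^ a.e
def q (a : Tq) : ℚ := (a.m : ℚ) / 3 ^ a.e
def mul (a b : Tq) : Tq := ⟨a.m * b.m, a.e + b.e⟩
def add (a b : Tq) : Tq := ⟨a.m * 3 ^ b.e + b.m * 3 ^ a.e, a.e + b.e⟩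
def sub (a b : Tq) : Tq := ⟨a.m * 3 ^ b.e - b.m * 3 ^ a.e, a.e + b.e⟩
def pow (a : Tq) (k : ℕ) : Tq := ⟨a.m ^ k, a.e * k⟩
def sm (n : ℕ) (a : Tq) : Tq := ⟨n * a.m, a.e⟩
def third (a : Tq) : Tq := ⟨a.m, a.e + 1⟩
def s1 (a : Tq) : Tq := ⟨3 ^ a.e + a.m, a.e⟩
def le (a b : Tq) : Bool := Nat.ble (a.m * 3 ^ b.e) (b.m * 3 ^ a.e)
def ltn (a : Tq) (n : ℕ) : Bool := Nat.ble (a.m + 1) (n * 3 ^ a.e)
def powle (x : Tq) (n : ℕ) (y : Tq) (k : ℕ) : Bool :=
  le (pow x (n / Nat.gcd n k)) (pow y (k / Nat.gcd n k))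

theorem q_cast (a : Tq) : (a.q : ℝ) = a.v := by unfold q v; push_cast; rfl
theorem v_nonneg (a : Tq) : 0 ≤ a.v := by unfold v; positivity
theorem v_mul (a b : Tq) : (mul a b).v = a.v * b.v := by
  unfold mul v; push_cast; rw [pow_add]; field_simp
theorem v_add (a b : Tq) : (add a b).v = a.v + b.v := by
  unfold add v; push_cast; rw [pow_add]; field_simp
theorem v_pow (a : Tq) (k : ℕ) : (pow a k).v = a.v ^ k := by
  unfold pow v; push_cast; rw [pow_mul, div_pow]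
theorem v_sm (n : ℕ) (a : Tq) : (sm n a).v = n * a.v := by
  unfold sm v; push_cast; ring
theorem v_third (a : Tq) : (third a).v = a.v / 3 := by
  unfold third v; rw [pow_succ]; field_simp
theorem v_s1 (a : Tq) : (s1 a).v = 1 + a.v := by
  unfold s1 v; push_cast; field_simp
theorem of_le {a b : Tq} (h : le a b = true) : a.v ≤ b.v := by
  unfold le at h
  have h1 : a.m * 3 ^ b.e ≤ b.m * 3 ^ a.e := Nat.le_of_ble_eq_true h
  unfold v
  rw [div_le_div_iff₀ (by positivity) (by positivity)]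
  exact_mod_cast h1
theorem v_sub {a b : Tq} (h : le b a = true) : (sub a b).v = a.v - b.v := by
  unfold le at h
  have h1 : b.m * 3 ^ a.e ≤ a.m * 3 ^ b.e := Nat.le_of_ble_eq_true h
  unfold sub v
  rw [Nat.cast_sub h1]; push_cast; rw [pow_add]; field_simp
theorem of_ltn {a : Tq} {n : ℕ} (h : ltn a n = true) : a.v < n := by
  unfold ltn at h
  have h1 : a.m < n * 3 ^ a.e := Nat.le_of_ble_eq_true h
  unfold v
  rw [div_lt_iff₀ (by positivity)]
  exact_mod_cast h1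
theorem of_powle {x y : Tq} {n k : ℕ} (h : powle x n y k = true) : x.v ^ n ≤ y.v ^ k := by
  have h1 := of_le h
  rw [v_pow, v_pow] at h1
  have h2 := pow_le_pow_left₀ (pow_nonneg x.v_nonneg _) h1 (Nat.gcd n k)
  rwa [← pow_mul, ← pow_mul, Nat.div_mul_cancel (Nat.gcd_dvd_left n k),
    Nat.div_mul_cancel (Nat.gcd_dvd_right n k)] at h2
end Tq

/-- output of the filters at one temperature -/
structure BRec where
  b : ℕ
  la : Tq
  wA : Tq
  tA : Tq
  w2 : Tq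
  t2 : Tq
  wE : Tq
  tE : Tq
  w1 : Tq
  t1 : Tq
  wT : Tq
  tT : Tq

def BRec.sv (r : BRec) (K : ℕ) : Tq :=
  ((r.wA.mul (r.tA.pow (K - 10))).add (r.w2.mul (r.t2.pow (K - 10)))).add
    (Tq.sm 2 (r.wE.mul (r.tE.pow (K - 10))))
def BRec.xv (r : BRec) (K : ℕ) : Tq :=
  (r.sv K).add (Tq.sm 3 ((r.w1.mul (r.t1.pow (K - 10))).add (r.wT.mul (r.tT.pow (K - 10)))))

structure BaseOK (S : Sys) (r : BRec) : Prop where
  hb : 1 ≤ r.b
  la : ∀ q, 1 + r.la.v ≤ q → S.La r.b q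
  ma : ∀ m, r.tA.v ≤ m → r.tE.v ≤ m → S.MA' r.b m
  mb : ∀ m, r.t1.v ≤ m → S.MB' r.b m
  ss : ∀ K x, 10 ≤ K → (r.sv K).v ≤ x → S.Ss K r.b x
  xs : ∀ K x, 10 ≤ K → (r.xv K).v ≤ x → S.Xs K r.b x

def sA1 : Sec := ⟨1 / 24, 9 / 24, 6 / 24, 8 / 24⟩
def sA2 : Sec := ⟨1 / 24, -3 / 24, -6 / 24, 8 / 24⟩
def sE : Sec := ⟨1 / 12, 3 / 12, 0, -4 / 12⟩
def sT1 : Sec := ⟨1 / 8, -3 / 8, 2 / 8, 0⟩
def sT2 : Sec := ⟨1 / 8, 1 / 8, -2 / 8, 0⟩

/-- table lookup -/
def look (b a L : ℕ) : ℕ × ℕ :=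
  match tabR.find? (fun t => t.1 == a && t.2.1 == L && t.2.2.1 == b) with
  | some t => t.2.2.2
  | none => (0, 0)

def lookOK (b : ℕ) : Bool :=
  [0, 6, 3, 4].all fun a => [6, 7, 8, 9, 10].all fun L =>
    (tabR.find? (fun t => t.1 == a && t.2.1 == L && t.2.2.1 == b)).isSome

/-- normalised partition functions -/
noncomputable def zt (S : Sys) (b : ℕ) (a L : ℕ) : ℝ :=
  S.Z a L b * Real.exp (b * L * (ev : ℝ))

theorem enc_look (S : Sys) (hR : ∀ t ∈ tabR, EncR S.Z t) {b : ℕ} (h : lookOK b = true) :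
    Enc (look b) (zt S b) := by
  intro a ha L hL
  simp only [lookOK, List.all_eq_true] at h
  have h1 := h a ha L hL
  obtain ⟨t, ht⟩ := Option.isSome_iff_exists.mp h1
  have hm := List.mem_of_find?_eq_some ht
  have hp := List.find?_some ht
  simp only [Bool.and_eq_true, beq_iff_eq] at hp
  obtain ⟨⟨e1, e2⟩, e3⟩ := hp
  have h2 := hR t hm
  unfold EncR at h2
  rw [e1, e2, e3] at h2
  unfold look zt
  rw [ht]
  exact h2

structure FPar where
  pA : Par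
  pS : Par
  p2 : Par
  pE : Par
  p1 : Par
  pT : Par

def fchk (r : BRec) (f : FPar) : Bool :=
  decide (1 ≤ r.b) && lookOK r.b &&
  secOK (look r.b) sA1 f.pA (1 + r.la.q) 1 && secOK2 (look r.b) sA1 f.pS r.tA.q &&
  secOK (look r.b) sA2 f.p2 r.t2.q r.t2.q && secOK (look r.b) sE f.pE r.tE.q r.tE.q &&
  secOK (look r.b) sT1 f.p1 r.t1.q r.t1.q && secOK (look r.b) sT2 f.pT r.tT.q r.tT.q &&
  decide (r.t2.q ≤ 1) && decide (r.tE.q ≤ 1) && decide (r.t1.q ≤ 1) && decide (r.tT.q ≤ 1) &&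
  decide (ubW (look r.b) sA1 1 10 ≤ 1 + r.wA.q) && decide (ubW (look r.b) sA2 1 10 ≤ r.w2.q) &&
  decide (ubW (look r.b) sE 1 10 ≤ r.wE.q) && decide (ubW (look r.b) sT1 1 10 ≤ r.w1.q) &&
  decide (ubW (look r.b) sT2 1 10 ≤ r.wT.q)

theorem rep_scale (S : Sys) (b : ℕ) {c : Sec} {μ : ℕ → ℝ} {w : ℕ → ℝ}
    (h : ∀ L, 5 ≤ L → HasSum (fun i => μ i ^ L) (w L))
    (hw : ∀ L, w L = W (fun a L => S.Z a L b) c L) :
    Rep (zt S b) c (fun i => μ i * Real.exp (b * (ev : ℝ))) := by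
  intro L hL
  have h1 := (h L hL).mul_right (Real.exp (b * (ev : ℝ)) ^ L)
  have e1 : Real.exp (b * (ev : ℝ)) ^ L = Real.exp (b * L * (ev : ℝ)) := by
    rw [← Real.exp_nat_mul]; congr 1; ring
  have e2 : w L * Real.exp (b * (ev : ℝ)) ^ L = W (zt S b) c L := by
    rw [hw, e1]; unfold W zt; ring
  rw [e2] at h1
  simpa only [mul_pow] using h1

theorem baseOK_of (S : Sys) (hR : ∀ t ∈ tabR, EncR S.Z t) {r : BRec} {f : FPar}
    (h : fchk r f = true) : BaseOK S r := by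
  simp only [fchk, Bool.and_eq_true, decide_eq_true_eq] at h
  obtain ⟨⟨⟨⟨⟨⟨⟨⟨⟨⟨⟨⟨⟨⟨⟨⟨hb, hl⟩, kA⟩, kS⟩, k2⟩, kE⟩, k1⟩, kT⟩, l2⟩, lE⟩, l1⟩, lT⟩, uA⟩, u2⟩, uE⟩,
    u1⟩, uT⟩ := h
  have hE := enc_look S hR hl
  have hβ : (0 : ℝ) < r.b := by exact_mod_cast hb
  have G := S.fam_good r.b hβ
  set s := Real.exp (r.b * (ev : ℝ)) with hs
  have s0 : 0 < s := Real.exp_pos _
  have rA := rep_scale S r.b (c := sA1) G.sA (fun L => by unfold cA1 W sA1; push_cast; ring)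
  have r2 := rep_scale S r.b (c := sA2) G.s2 (fun L => by unfold cA2 W sA2; push_cast; ring)
  have rE := rep_scale S r.b (c := sE) G.sE (fun L => by unfold R347.cE W sE; push_cast; ring)
  have r1 := rep_scale S r.b (c := sT1) G.s1 (fun L => by unfold cT1 W sT1; push_cast; ring)
  have rT := rep_scale S r.b (c := sT2) G.sT (fun L => by unfold cT2 W sT2; push_cast; ring)
  rw [← hs] at rA r2 rE r1 rT
  have bA := of_secOK hE rA kA
  have b2 := abs_of_secOK hE r2 k2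
  have bE := abs_of_secOK hE rE kE
  have b1 := abs_of_secOK hE r1 k1
  have bT := abs_of_secOK hE rT kT
  simp only [Tq.q_cast, Rat.cast_add, Rat.cast_one] at bA b2 bE b1 bT
  have l2' : r.t2.v ≤ 1 := by rw [← Tq.q_cast]; exact_mod_cast l2
  have lE' : r.tE.v ≤ 1 := by rw [← Tq.q_cast]; exact_mod_cast lE
  have l1' : r.t1.v ≤ 1 := by rw [← Tq.q_cast]; exact_mod_cast l1
  have lT' : r.tT.v ≤ 1 := by rw [← Tq.q_cast]; exact_mod_cast lT
  have hp : 1 ≤ S.lam r.b * s := by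
    refine (S.one_le_p r.b hβ).trans (mul_le_mul_of_nonneg_left ?_ (S.lam_pos r.b hβ).le)
    exact Real.exp_le_exp.mpr (mul_le_mul_of_nonneg_left S.e_le_ev hβ.le)
  have habs : ∀ x : ℝ, |x * s| = |x| * s := fun x => by rw [abs_mul, abs_of_pos s0]
  obtain ⟨i0, hi0⟩ : ∃ i0, (S.fam r.b).μA i0 = S.lam r.b := by
    obtain ⟨i, hi⟩ := S.exists_top r.b hβ
    refine ⟨i, ?_⟩
    rcases hi with hi | hi | hi | hi | hi
    · rcases abs_eq (S.lam_pos r.b hβ).le |>.mp hi with h | h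
      · exact h
      · have := (bA i).2
        rw [h] at this; linarith
    · have := b2 i; rw [habs, hi] at this; linarith
    · have := bE i; rw [habs, hi] at this; linarith
    · have := b1 i; rw [habs, hi] at this; linarith
    · have := bT i; rw [habs, hi] at this; linarith
  have h0 : 1 ≤ (S.fam r.b).μA i0 * s := by rw [hi0]; exact hp
  have bS := abs_of_secOK2 hE rA kS (i0 := i0) h0
  simp only [Tq.q_cast] at bS
  have uA' : (ubW (look r.b) sA1 1 10 : ℝ) ≤ 1 + r.wA.v := by rw [← Tq.q_cast]; exact_mod_cast uA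
  have u2' : (ubW (look r.b) sA2 1 10 : ℝ) ≤ r.w2.v := by rw [← Tq.q_cast]; exact_mod_cast u2
  have uE' : (ubW (look r.b) sE 1 10 : ℝ) ≤ r.wE.v := by rw [← Tq.q_cast]; exact_mod_cast uE
  have u1' : (ubW (look r.b) sT1 1 10 : ℝ) ≤ r.w1.v := by rw [← Tq.q_cast]; exact_mod_cast u1
  have uT' : (ubW (look r.b) sT2 1 10 : ℝ) ≤ r.wT.v := by rw [← Tq.q_cast]; exact_mod_cast uT
  have wA := fun K (hK : 10 ≤ K) =>
    W_le2 hE rA (i0 := i0) h0 r.tA.v_nonneg (fun i hi => (bS i hi).le) uA' hK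
  have w2 := fun K (hK : 10 ≤ K) => W_le hE r2 (fun i => (b2 i).le) u2' hK
  have wE := fun K (hK : 10 ≤ K) => W_le hE rE (fun i => (bE i).le) uE' hK
  have w1 := fun K (hK : 10 ≤ K) => W_le hE r1 (fun i => (b1 i).le) u1' hK
  have wT := fun K (hK : 10 ≤ K) => W_le hE rT (fun i => (bT i).le) uT' hK
  have esK : ∀ K : ℕ, Real.exp (r.b * K * (ev : ℝ)) = s ^ K := fun K => by
    rw [hs, ← Real.exp_nat_mul]; congr 1; ring
  have fin : ∀ (K : ℕ) (Z x y : ℝ), 0 ≤ y → y ≤ x → Z * s ^ K ≤ (S.lam r.b * s) ^ K + y →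
      Z ≤ (1 + x) * S.lam r.b ^ K := by
    intro K Z x y hy hx hZ
    have h1 : 1 ≤ (S.lam r.b * s) ^ K := one_le_pow₀ hp
    have h2 : Z * s ^ K ≤ ((1 + x) * S.lam r.b ^ K) * s ^ K := by
      have : y ≤ x * (S.lam r.b * s) ^ K := by nlinarith
      rw [mul_assoc, ← mul_pow]; linarith
    exact le_of_mul_le_mul_right h2 (by positivity)
  refine ⟨hb, fun q hq => ?_, fun m h1 h2 i => ⟨fun hi => ?_, fun _ => ?_⟩, fun m h1 i => ?_,
    fun K x hK hx => ?_, fun K x hK hx => ?_⟩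
  · have := (bA i0).1
    rw [hi0] at this
    unfold Sys.La; rw [← hs]; linarith
  · have := bS i (fun e => hi (e ▸ hi0))
    rw [habs] at this; rw [← hs]; linarith
  · have := bE i
    rw [habs] at this; rw [← hs]; linarith
  · have := b1 i
    rw [habs] at this; rw [← hs]; linarith
  · refine fin K _ x _ (r.sv K).v_nonneg hx ?_
    have a1 := wA K hK
    have a2 := w2 K hK
    have a3 := wE K hK
    simp only [hi0] at a1
    simp only [BRec.sv, Tq.v_add, Tq.v_mul, Tq.v_pow, Tq.v_sm]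
    unfold W zt at a1 a2 a3
    simp only [sA1, sA2, sE, esK] at a1 a2 a3
    push_cast at a1 a2 a3 ⊢
    unfold Sys.D0
    linarith
  · refine fin K _ x _ (r.xv K).v_nonneg hx ?_
    have a1 := wA K hK
    have a2 := w2 K hK
    have a3 := wE K hK
    have a4 := w1 K hK
    have a5 := wT K hK
    simp only [hi0] at a1
    simp only [BRec.xv, BRec.sv, Tq.v_add, Tq.v_mul, Tq.v_pow, Tq.v_sm]
    unfold W zt at a1 a2 a3 a4 a5
    simp only [sA1, sA2, sE, sT1, sT2, esK] at a1 a2 a3 a4 a5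
    push_cast at a1 a2 a3 a4 a5 ⊢
    linarith

end Ch
end Crest.Agent.R347
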