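import Crest.Agent.R347.BootChainAux2

/-! Row 347: reflective checker for the finite ring chain (helper92). -/

set_option autoImplicit false

namespace Crest.Agent.R347
namespace Ch

/-- a fact (`k K b m e`) with its justification (`r i j m2 e2`) -/
structure Nd where
  k : ℕ
  K : ℕ
  b : ℕ
  m : ℕ
  e : ℕ
  r : ℕ
  i : ℕ
  j : ℕ
  m2 : ℕ
  e2 : ℕ

def Nd.a (N : Nd) : Tq := ⟨N.m, N.e⟩
def Nd.u (N : Nd) : Tq := ⟨N.m2, N.e2⟩

def fact (S : Sys) (k K b : ℕ) (x : ℝ) : Prop :=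
  (k = 0 → S.Xt K b x) ∧ (k = 1 → S.Xs K b x) ∧ (k = 2 → S.Ss K b x) ∧
  (k = 3 → S.Phi K b (1 + x)) ∧ (k = 4 → S.Xi K b (1 + x)) ∧ (k = 5 → S.Dk K (1 + x)) ∧
  (k = 6 → S.Pb b (1 + x)) ∧ (k = 7 → S.MA b x) ∧ (k = 8 → S.MB b x)

def Nd.H (S : Sys) (N : Nd) : Prop := EK N.K ∧ 1 ≤ N.b ∧ fact S N.k N.K N.b N.a.v

variable {S : Sys}

theorem fact_of {k K b : ℕ} {x : ℝ} (n : ℕ) (hk : k = n)
    (h : match n with
      | 0 => S.Xt K b x | 1 => S.Xs K b x | 2 => S.Ss K b x | 3 => S.Phi K b (1 + x)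
      | 4 => S.Xi K b (1 + x) | 5 => S.Dk K (1 + x) | 6 => S.Pb b (1 + x) | 7 => S.MA b x
      | 8 => S.MB b x | _ => True) : fact S k K b x := by
  subst hk
  refine ⟨?_, ?_, ?_, ?_, ?_, ?_, ?_, ?_, ?_⟩ <;> intro e <;> subst e <;> exact h

def isXt (k : ℕ) : Bool := Nat.beq k 0 || Nat.beq k 3
def isXs (k : ℕ) : Bool := Nat.beq k 1 || Nat.beq k 3
def isSs (k : ℕ) : Bool := Nat.beq k 2 || isXs k

theorem Nd.H.xt {N : Nd} (h : N.H S) (hk : isXt N.k = true) : S.Xt N.K N.b N.a.v := by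
  simp only [isXt, Bool.or_eq_true, Nat.beq_eq] at hk
  rcases hk with hk | hk
  · exact h.2.2.1 hk
  · exact Sys.xt_phi (h.2.2.2.2.2.1 hk) h.1 le_rfl
theorem Nd.H.xs {N : Nd} (h : N.H S) (hk : isXs N.k = true) : S.Xs N.K N.b N.a.v := by
  simp only [isXs, Bool.or_eq_true, Nat.beq_eq] at hk
  rcases hk with hk | hk
  · exact h.2.2.2.1 hk
  · exact Sys.xs_phi (h.2.2.2.2.2.1 hk) h.1 h.2.1 le_rfl
theorem Nd.H.ss {N : Nd} (h : N.H S) (hk : isSs N.k = true) : S.Ss N.K N.b N.a.v := by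
  simp only [isSs, Bool.or_eq_true, Nat.beq_eq] at hk
  rcases hk with hk | hk
  · exact h.2.2.2.2.1 hk
  · exact Sys.ss_xs (h.xs hk) h.1 h.2.1
theorem Nd.H.phi {N : Nd} (h : N.H S) (hk : N.k = 3) : S.Phi N.K N.b (1 + N.a.v) :=
  h.2.2.2.2.2.1 hk
theorem Nd.H.xi {N : Nd} (h : N.H S) (hk : N.k = 4) : S.Xi N.K N.b (1 + N.a.v) :=
  h.2.2.2.2.2.2.1 hk
theorem Nd.H.dk {N : Nd} (h : N.H S) (hk : N.k = 5) : S.Dk N.K (1 + N.a.v) :=
  h.2.2.2.2.2.2.2.1 hk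
theorem Nd.H.pb {N : Nd} (h : N.H S) (hk : N.k = 6) : S.Pb N.b (1 + N.a.v) :=
  h.2.2.2.2.2.2.2.2.1 hk
theorem Nd.H.ma {N : Nd} (h : N.H S) (hk : N.k = 7) : S.MA N.b N.a.v :=
  h.2.2.2.2.2.2.2.2.2.1 hk
theorem Nd.H.mb {N : Nd} (h : N.H S) (hk : N.k = 8) : S.MB N.b N.a.v :=
  h.2.2.2.2.2.2.2.2.2.2 hk

open Tq in
/-- rules with premises `A`, `B` -/
def step (N A B : Nd) : ℕ → Bool
  | 0 => Nat.beq N.k 3 && isXt A.k && Nat.beq B.k 5 && Nat.beq A.K N.K && Nat.beq A.b N.b &&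
      Nat.ble B.K N.K && le (mul (s1 A.a) (pow (s1 B.a) N.b)) (s1 N.a)
  | 1 => Nat.beq N.k 3 && isXs A.k && Nat.beq B.k 6 && Nat.beq A.K N.K && Nat.beq A.b N.b &&
      Nat.ble B.b N.b && le (mul (s1 A.a) (pow (s1 B.a) N.K)) (s1 N.a)
  | 2 => Nat.beq N.k 5 && Nat.beq A.k 3 && Nat.ble A.K N.K && le (s1 A.a) (pow (s1 N.a) A.b)
  | 3 => Nat.beq N.k 6 && Nat.beq A.k 3 && Nat.ble A.b N.b && le (s1 A.a) (pow (s1 N.a) A.K)
  | 4 => Nat.beq N.k 0 && isXt A.k && Nat.beq A.K N.K && Nat.ble A.b N.b &&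
      powle A.a N.b N.a A.b
  | 5 => Nat.beq N.k 4 && Nat.beq A.k 4 && Nat.beq A.K N.K && Nat.ble A.b N.b &&
      powle (s1 A.a) N.b (s1 N.a) A.b
  | 6 => Nat.beq N.k 1 && isXs A.k && isSs B.k && Nat.beq B.K A.K && Nat.beq A.b N.b &&
      Nat.beq B.b N.b && Nat.ble A.K N.K && ltn A.a 2 && le B.a A.a && le N.u N.a &&
      powle (third A.a) N.K (third N.a) A.K && powle B.a N.K N.u A.K &&
      powle (third (sub A.a B.a)) N.K (third (sub N.a N.u)) A.K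
  | 7 => Nat.beq N.k 2 && isXs A.k && isSs B.k && Nat.beq B.K A.K && Nat.beq A.b N.b &&
      Nat.beq B.b N.b && Nat.ble A.K N.K && ltn A.a 2 && powle B.a N.K N.a A.K
  | 8 => Nat.beq N.k 4 && isSs A.k && Nat.beq B.k 6 && Nat.beq A.K N.K && Nat.beq A.b N.b &&
      Nat.ble B.b N.b && le (mul (s1 A.a) (pow (s1 B.a) N.K)) (s1 N.a)
  | 9 => Nat.beq N.k 2 && Nat.beq A.k 3 && Nat.beq B.k 4 && Nat.beq A.K N.K && Nat.beq A.b N.b &&
      Nat.beq B.K N.K && Nat.beq B.b N.b && le (add A.a (sm 3 B.a)) (sm 4 N.a)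
  | 10 => Nat.beq N.k 5 && isXt A.k && isXs B.k && Nat.beq B.K A.K && Nat.ble A.K N.K &&
      Nat.ble (A.b + 1) B.b && le (mul (s1 A.a) (s1 B.a)) (pow (s1 N.a) (B.b - A.b))
  | 11 => Nat.beq N.k 6 && isXs A.k && isXt B.k && Nat.beq B.b A.b && Nat.ble A.b N.b &&
      Nat.ble (A.K + 1) B.K && le (mul (s1 A.a) (s1 B.a)) (pow (s1 N.a) (B.K - A.K))
  | 12 => Nat.beq N.k 7 && isXs A.k && isSs B.k && Nat.beq B.K A.K && Nat.beq A.b N.b &&
      Nat.beq B.b N.b && ltn A.a 1 && le B.a (pow N.a A.K)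
  | 13 => Nat.beq N.k 8 && isXs A.k && Nat.beq A.b N.b && ltn A.a 2 &&
      le (third A.a) (pow N.a A.K)
  | _ => false

open Tq in
theorem step_sound {N A B : Nd} (hK : EK N.K) (hb : 1 ≤ N.b) (hA : A.H S) (hB : B.H S) (r : ℕ)
    (h : step N A B r = true) : fact S N.k N.K N.b N.a.v := by
  have n0 := N.a.v_nonneg
  have n1 : 0 ≤ 1 + N.a.v := by linarith
  match r, h with
  | 0, h =>
    simp only [step, Bool.and_eq_true, Nat.beq_eq, Nat.ble_eq] at h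
    obtain ⟨⟨⟨⟨⟨⟨h1, h2⟩, h3⟩, h4⟩, h5⟩, h6⟩, h7⟩ := h
    have h8 := of_le h7
    simp only [v_mul, v_pow, v_s1] at h8
    have a := hA.xt h2
    rw [h4, h5] at a
    exact fact_of 3 h1 (Sys.phi_t a (Sys.d_mono (hB.dk h3) hB.1 hK h6) hK h8)
  | 1, h =>
    simp only [step, Bool.and_eq_true, Nat.beq_eq, Nat.ble_eq] at h
    obtain ⟨⟨⟨⟨⟨⟨h1, h2⟩, h3⟩, h4⟩, h5⟩, h6⟩, h7⟩ := h
    have h8 := of_le h7
    simp only [v_mul, v_pow, v_s1] at h8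
    have a := hA.xs h2
    rw [h4, h5] at a
    exact fact_of 3 h1 (Sys.phi_s a (Sys.p_mono (hB.pb h3) hB.2.1 h6) hK hb h8)
  | 2, h =>
    simp only [step, Bool.and_eq_true, Nat.beq_eq, Nat.ble_eq] at h
    obtain ⟨⟨⟨h1, h2⟩, h3⟩, h7⟩ := h
    have h8 := of_le h7
    simp only [v_pow, v_s1] at h8
    exact fact_of 5 h1 (Sys.d_mono (Sys.d_phi (hA.phi h2) hA.1 hA.2.1 n1 h8) hA.1 hK h3)
  | 3, h =>
    simp only [step, Bool.and_eq_true, Nat.beq_eq, Nat.ble_eq] at h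
    obtain ⟨⟨⟨h1, h2⟩, h3⟩, h7⟩ := h
    have h8 := of_le h7
    simp only [v_pow, v_s1] at h8
    exact fact_of 6 h1 (Sys.p_mono (Sys.p_phi (hA.phi h2) hA.1 hA.2.1 n1 h8) hA.2.1 h3)
  | 4, h =>
    simp only [step, Bool.and_eq_true, Nat.beq_eq, Nat.ble_eq] at h
    obtain ⟨⟨⟨⟨h1, h2⟩, h3⟩, h4⟩, h7⟩ := h
    have h8 := of_powle h7
    have a := hA.xt h2
    rw [h3] at a
    exact fact_of 0 h1 (Sys.xt_pow a hK hA.2.1 h4 n0 h8)
  | 5, h =>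
    simp only [step, Bool.and_eq_true, Nat.beq_eq, Nat.ble_eq] at h
    obtain ⟨⟨⟨⟨h1, h2⟩, h3⟩, h4⟩, h7⟩ := h
    have h8 := of_powle h7
    simp only [v_s1] at h8
    have a := hA.xi h2
    rw [h3] at a
    exact fact_of 4 h1 (Sys.xi_pow a hK hA.2.1 h4 n1 h8)
  | 6, h =>
    simp only [step, Bool.and_eq_true, Nat.beq_eq, Nat.ble_eq] at h
    obtain ⟨⟨⟨⟨⟨⟨⟨⟨⟨⟨⟨⟨h1, h2⟩, h3⟩, h4⟩, h5⟩, h6⟩, h7⟩, h8⟩, h9⟩, h10⟩, e1⟩, e2⟩, e3⟩ := h
    have a := hA.xs h2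
    have b := hB.ss h3
    rw [h5] at a
    rw [h4, h6] at b
    have e1' := of_powle e1
    have e2' := of_powle e2
    have e3' := of_powle e3
    simp only [v_third, v_sub h9, v_sub h10] at e1' e3'
    have l := of_le h10
    refine fact_of 1 h1 (Sys.xs_pow a b hA.1 hK hb h7 (by exact_mod_cast of_ltn h8) (of_le h9)
      (N.a.v / 3) N.u.v ((N.a.v - N.u.v) / 3) (by linarith) N.u.v_nonneg (by linarith)
      e1' e2' e3' (by linarith) (by linarith))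
  | 7, h =>
    simp only [step, Bool.and_eq_true, Nat.beq_eq, Nat.ble_eq] at h
    obtain ⟨⟨⟨⟨⟨⟨⟨⟨h1, h2⟩, h3⟩, h4⟩, h5⟩, h6⟩, h7⟩, h8⟩, e2⟩ := h
    have a := hA.xs h2
    have b := hB.ss h3
    rw [h5] at a
    rw [h4, h6] at b
    exact fact_of 2 h1 (Sys.ss_pow a b hA.1 hK hb h7 (by exact_mod_cast of_ltn h8) n0
      (of_powle e2))
  | 8, h =>
    simp only [step, Bool.and_eq_true, Nat.beq_eq, Nat.ble_eq] at h
    obtain ⟨⟨⟨⟨⟨⟨h1, h2⟩, h3⟩, h4⟩, h5⟩, h6⟩, h7⟩ := h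
    have h8 := of_le h7
    simp only [v_mul, v_pow, v_s1] at h8
    have a := hA.ss h2
    rw [h4, h5] at a
    exact fact_of 4 h1 (Sys.xi_s a (Sys.p_mono (hB.pb h3) hB.2.1 h6) hK hb h8)
  | 9, h =>
    simp only [step, Bool.and_eq_true, Nat.beq_eq, Nat.ble_eq] at h
    obtain ⟨⟨⟨⟨⟨⟨⟨h1, h2⟩, h3⟩, h4⟩, h5⟩, h6⟩, h6'⟩, h7⟩ := h
    have h8 := of_le h7
    simp only [v_add, v_sm] at h8
    have a := hA.phi h2
    have b := hB.xi h3
    rw [h4, h5] at a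
    rw [h6, h6'] at b
    push_cast at h8
    exact fact_of 2 h1 (Sys.ss_phi a b hK hb (by linarith))
  | 10, h =>
    simp only [step, Bool.and_eq_true, Nat.beq_eq, Nat.ble_eq] at h
    obtain ⟨⟨⟨⟨⟨⟨h1, h2⟩, h3⟩, h4⟩, h5⟩, h6⟩, h7⟩ := h
    have h8 := of_le h7
    simp only [v_mul, v_pow, v_s1] at h8
    have b := hB.xs h3
    rw [h4] at b
    exact fact_of 5 h1 (Sys.d_mono (Sys.d_rule (hA.xt h2) b hA.1 hA.2.1 h6 n1 h8) hA.1 hK h5)
  | 11, h =>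
    simp only [step, Bool.and_eq_true, Nat.beq_eq, Nat.ble_eq] at h
    obtain ⟨⟨⟨⟨⟨⟨h1, h2⟩, h3⟩, h4⟩, h5⟩, h6⟩, h7⟩ := h
    have h8 := of_le h7
    simp only [v_mul, v_pow, v_s1] at h8
    have b := hB.xt h3
    rw [h4] at b
    exact fact_of 6 h1 (Sys.p_mono (Sys.p_rule (hA.xs h2) b hA.1 hB.1 hA.2.1 h6 n1 h8) hA.2.1 h5)
  | 12, h =>
    simp only [step, Bool.and_eq_true, Nat.beq_eq, Nat.ble_eq] at h
    obtain ⟨⟨⟨⟨⟨⟨⟨h1, h2⟩, h3⟩, h4⟩, h5⟩, h6⟩, h8⟩, e2⟩ := h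
    have a := hA.xs h2
    have b := hB.ss h3
    rw [h5] at a
    rw [h4, h6] at b
    have e := of_le e2
    rw [v_pow] at e
    exact fact_of 7 h1 (Sys.ma_ss a b hA.1 hb (by exact_mod_cast of_ltn h8) n0 e)
  | 13, h =>
    simp only [step, Bool.and_eq_true, Nat.beq_eq, Nat.ble_eq] at h
    obtain ⟨⟨⟨⟨h1, h2⟩, h5⟩, h8⟩, e2⟩ := h
    have a := hA.xs h2
    rw [h5] at a
    have e := of_le e2
    rw [v_pow, v_third] at e
    exact fact_of 8 h1 (Sys.mb_xs a hA.1 hb (by exact_mod_cast of_ltn h8) n0 e)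
  | n + 14, h => simp [step] at h

open Tq in
/-- base rules -/
def bstep (N : Nd) (R : BRec) : Bool :=
  Nat.beq R.b N.b &&
  ((Nat.beq N.k 1 && Nat.ble 10 N.K && le (R.xv N.K) N.a) ||
   (Nat.beq N.k 2 && Nat.ble 10 N.K && le (R.sv N.K) N.a) ||
   (Nat.beq N.k 6 && le R.la N.a) ||
   (Nat.beq N.k 7 && le R.tA N.a && le R.tE N.a) ||
   (Nat.beq N.k 8 && le R.t1 N.a))

open Tq in
theorem bstep_sound {N : Nd} {R : BRec} (hR : BaseOK S R) (hb : 1 ≤ N.b)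
    (h : bstep N R = true) : fact S N.k N.K N.b N.a.v := by
  simp only [bstep, Bool.and_eq_true, Bool.or_eq_true, Nat.beq_eq, Nat.ble_eq] at h
  obtain ⟨e, h⟩ := h
  rw [← e] at hb ⊢
  rcases h with (((h | h) | h) | h) | h
  · exact fact_of 1 h.1.1 (hR.xs _ _ h.1.2 (of_le h.2))
  · exact fact_of 2 h.1.1 (hR.ss _ _ h.1.2 (of_le h.2))
  · exact fact_of 6 h.1 (Sys.p_la (hR.la _ (by linarith [of_le h.2])) hb)
  · exact fact_of 7 h.1.1 (Sys.ma_ma' (hR.ma _ (of_le h.1.2) (of_le h.2)) hb N.a.v_nonneg)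
  · exact fact_of 8 h.1 (Sys.mb_mb' (hR.mb _ (of_le h.2)) hb)

/-- the certificate as a binary tree -/
inductive Tr where
  | leaf : Nd → Tr
  | node : Tr → Tr → Tr

def Tr.get : Tr → ℕ → Nd
  | .leaf n, _ => n
  | .node l r, i => cond (Nat.beq (i % 2) 0) (l.get (i / 2)) (r.get (i / 2))

def chkN (recs : List BRec) (T : Tr) (n : ℕ) (N : Nd) : Bool :=
  Nat.beq (N.K % 2) 0 && Nat.ble 6 N.K && Nat.ble 1 N.b &&
  cond (Nat.beq N.r 14)
    (match recs[N.i]? with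
      | some R => bstep N R
      | none => false)
    (Nat.ble (N.i + 1) n && Nat.ble (N.j + 1) n && step N (T.get N.i) (T.get N.j) N.r)

def chkR (recs : List BRec) (T : Tr) (lo : ℕ) : ℕ → Bool
  | 0 => true
  | c + 1 => chkN recs T (lo + c) (T.get (lo + c)) && chkR recs T lo c

theorem of_chkR {recs : List BRec} {T : Tr} {lo c : ℕ} (h : chkR recs T lo c = true) (n : ℕ)
    (h1 : lo ≤ n) (h2 : n < lo + c) : chkN recs T n (T.get n) = true := by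
  induction c with
  | zero => omega
  | succ c ih =>
    simp only [chkR, Bool.and_eq_true] at h
    rcases Nat.lt_or_ge n (lo + c) with h3 | h3
    · exact ih h.2 h3
    · have : n = lo + c := by omega
      rw [this]; exact h.1

theorem all_hold {recs : List BRec} (hR : ∀ R ∈ recs, BaseOK S R) {T : Tr} {M : ℕ}
    (h : ∀ n, n < M → chkN recs T n (T.get n) = true) : ∀ n, n < M → (T.get n).H S := by
  intro n
  induction n using Nat.strong_induction_on with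
  | _ n ih =>
    intro hn
    have h1 := h n hn
    simp only [chkN, Bool.and_eq_true, Nat.beq_eq, Nat.ble_eq] at h1
    obtain ⟨⟨⟨k1, k2⟩, k3⟩, k4⟩ := h1
    refine ⟨⟨k1, k2⟩, k3, ?_⟩
    cases hr : Nat.beq (T.get n).r 14 with
    | true =>
      rw [hr, cond_true] at k4
      cases hl : recs[(T.get n).i]? with
      | none => rw [hl] at k4; simp at k4
      | some R =>
        rw [hl] at k4
        exact bstep_sound (hR R (List.mem_of_getElem? hl)) k3 k4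
    | false =>
      rw [hr, cond_false] at k4
      simp only [Bool.and_eq_true, Nat.ble_eq] at k4
      exact step_sound ⟨k1, k2⟩ k3 (ih _ k4.1.1 (by omega)) (ih _ k4.1.2 (by omega)) _ k4.2

end Ch
end Crest.Agent.R347
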