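import Crest.Agent.R347.Tab

/-! Row 347: definitions for the bootstrap (facts about an abstract system `S`).  Owner: helper8. -/

set_option autoImplicit false

namespace Crest.Agent.R347

/-- atoms and weights of the five sectors -/
structure Fam where
  μA : ℕ → ℝ
  cA : ℕ → ℝ
  μ2 : ℕ → ℝ
  μE : ℕ → ℝ
  cE : ℕ → ℝ
  μ1 : ℕ → ℝ
  c1 : ℕ → ℝ
  μT : ℕ → ℝ

instance : Nonempty Fam := ⟨⟨0, 0, 0, 0, 0, 0, 0, 0⟩⟩

/-- the family represents the partition functions `z`, `o` -/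
structure Fam.Good (F : Fam) (z : ℕ → ℕ → ℝ) (o : Bool → ℕ → ℝ) : Prop where
  cA_nonneg : ∀ i, 0 ≤ F.cA i
  cE_nonneg : ∀ i, 0 ≤ F.cE i
  c1_nonneg : ∀ i, 0 ≤ F.c1 i
  sA : ∀ L, 5 ≤ L → HasSum (fun i => F.μA i ^ L) (cA1 z L)
  s2 : ∀ L, 5 ≤ L → HasSum (fun i => F.μ2 i ^ L) (cA2 z L)
  sE : ∀ L, 5 ≤ L → HasSum (fun i => F.μE i ^ L) (R347.cE z L)
  s1 : ∀ L, 5 ≤ L → HasSum (fun i => F.μ1 i ^ L) (cT1 z L)
  sT : ∀ L, 5 ≤ L → HasSum (fun i => F.μT i ^ L) (cT2 z L)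
  wA : ∀ k, 1 ≤ k → Summable (fun i => F.cA i * F.μA i ^ k)
  wW : ∀ k, 1 ≤ k → HasSum (fun i => F.cA i * F.μA i ^ k + F.cE i * F.μE i ^ k)
    ((o true (k + 2) + o false (k + 2)) / 2)
  wB : ∀ k, 1 ≤ k → HasSum (fun i => F.c1 i * F.μ1 i ^ k) ((o false (k + 2) - o true (k + 2)) / 2)

namespace Sys
variable (S : Sys)

/-- bulk energy density -/
noncomputable def e : ℝ := ⨆ k : ℕ, S.E0 (2 * k + 6) / ((2 * k + 6 : ℕ) : ℝ)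

/-- spectral radius of the transfer matrix -/
noncomputable def lam (β : ℝ) : ℝ :=
  ⨅ k : ℕ, S.Z 0 (2 * k + 6) β ^ (1 / ((2 * k + 6 : ℕ) : ℝ))

/-- chosen spectral family at inverse temperature `β` -/
noncomputable def fam (β : ℝ) : Fam :=
  Classical.epsilon fun F : Fam => F.Good (fun a L => S.Z a L β) (fun τ N => S.Zo τ N β)

/-- `D₂`-trivial sector -/
noncomputable def D0 (K : ℕ) (β : ℝ) : ℝ := (S.Z 0 K β + 3 * S.Z 6 K β) / 4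

/-! ### ring facts (`K` even, `K ≥ 6`, `β ≥ 1`) -/
def Pb (β : ℕ) (q : ℝ) : Prop := S.lam β * Real.exp (β * S.e) ≤ q
def La (β : ℕ) (q : ℝ) : Prop := S.lam β * Real.exp (β * (ev : ℝ)) ≤ q
def Dk (K : ℕ) (q : ℝ) : Prop := Real.exp (K * S.e - S.E0 K) ≤ q
def Phi (K β : ℕ) (q : ℝ) : Prop := S.Z 0 K β * Real.exp (β * K * S.e) ≤ q
def Xi (K β : ℕ) (q : ℝ) : Prop := S.Z 6 K β * Real.exp (β * K * S.e) ≤ q
def Xt (K β : ℕ) (x : ℝ) : Prop := S.Z 0 K β ≤ (1 + x) * Real.exp (-(β : ℝ) * S.E0 K)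
def Xs (K β : ℕ) (x : ℝ) : Prop := S.Z 0 K β ≤ (1 + x) * S.lam β ^ K
def Ss (K β : ℕ) (x : ℝ) : Prop := S.D0 K β ≤ (1 + x) * S.lam β ^ K

/-- all atoms of the sectors `A1`, `E` other than `+lam` are at most `m · lam` -/
def MA (β : ℕ) (m : ℝ) : Prop :=
  ∀ i, ((S.fam β).μA i ≠ S.lam β → |(S.fam β).μA i| ≤ m * S.lam β) ∧
    ((S.fam β).μE i ≠ S.lam β → |(S.fam β).μE i| ≤ m * S.lam β)
def MB (β : ℕ) (m : ℝ) : Prop := ∀ i, |(S.fam β).μ1 i| ≤ m * S.lam β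
/-- absolute versions, normalised by `ev` -/
def MA' (β : ℕ) (m : ℝ) : Prop :=
  ∀ i, ((S.fam β).μA i ≠ S.lam β → |(S.fam β).μA i| * Real.exp (β * (ev : ℝ)) ≤ m) ∧
    ((S.fam β).μE i ≠ S.lam β → |(S.fam β).μE i| * Real.exp (β * (ev : ℝ)) ≤ m)
def MB' (β : ℕ) (m : ℝ) : Prop := ∀ i, |(S.fam β).μ1 i| * Real.exp (β * (ev : ℝ)) ≤ m

/-! ### open-chain facts -/
open Classical in
/-- weight of the top atom in the boundary vector -/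
noncomputable def c0 (β : ℝ) : ℝ :=
  ∑' i, ((if (S.fam β).μA i = S.lam β then (S.fam β).cA i else 0) +
    (if (S.fam β).μE i = S.lam β then (S.fam β).cE i else 0))
open Classical in
noncomputable def restA (N : ℕ) (β : ℝ) : ℝ :=
  ∑' i, ((if (S.fam β).μA i = S.lam β then 0 else (S.fam β).cA i * |(S.fam β).μA i| ^ (N - 2)) +
    (if (S.fam β).μE i = S.lam β then 0 else (S.fam β).cE i * |(S.fam β).μE i| ^ (N - 2)))
noncomputable def restB (N : ℕ) (β : ℝ) : ℝ :=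
  ∑' i, (S.fam β).c1 i * |(S.fam β).μ1 i| ^ (N - 2)

def C0 (β : ℕ) (q : ℝ) : Prop := S.c0 β * Real.exp (2 * β * (ev : ℝ)) ≤ q
def RA (N β : ℕ) (q : ℝ) : Prop := S.restA N β * Real.exp (β * N * (ev : ℝ)) ≤ q
def RB (N β : ℕ) (q : ℝ) : Prop := S.restB N β * Real.exp (β * N * (ev : ℝ)) ≤ q
def YA (N β : ℕ) (y : ℝ) : Prop := S.restA N β ≤ y * (S.c0 β * S.lam β ^ (N - 2))
def YB (N β : ℕ) (y : ℝ) : Prop := S.restB N β ≤ y * (S.c0 β * S.lam β ^ (N - 2))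
def Up (τ : Bool) (N β : ℕ) (z : ℝ) : Prop := S.Zo τ N β * Real.exp (β * N * (ev : ℝ)) ≤ z
def Du (N : ℕ) (g : ℝ) : Prop := ∀ τ, g ≤ Real.exp (N * (ev : ℝ) - S.Eo τ N)
def Du2 (N₁ N : ℕ) (q : ℝ) : Prop :=
  ∀ τ τ', Real.exp ((S.Eo τ N - N * S.e) - (S.Eo τ' N₁ - N₁ * S.e)) ≤ q
def Al (N β : ℕ) (x : ℝ) : Prop := ∀ τ, S.Zo τ N β ≤ (1 + x) * Real.exp (-(β : ℝ) * S.Eo τ N)
def Rat (N β β₂ : ℕ) (Q : ℝ) : Prop := ∀ τ, S.Zo τ N β ^ β₂ ≤ Q * S.Zo τ N β₂ ^ β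

end Sys

/-- even and at least 6 -/
def EK (K : ℕ) : Prop := K % 2 = 0 ∧ 6 ≤ K

instance (K : ℕ) : Decidable (EK K) := by unfold EK; infer_instance

end Crest.Agent.R347
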