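import Crest.Agent.R347.BootTab

/-! Row 347: the open-chain rules with rational data and decidable side conditions. -/

set_option autoImplicit false

namespace Crest.Agent.R347
namespace Sys
variable {S : Sys} {N N₀ N₁ β β₂ : ℕ} {τ : Bool}
  {x x₁ x₂ y y₁ a b c g m m' m₂ m₂' p q t z z' ya yb ya₁ yb₁ ya₂ yb₂ : ℚ}

theorem upQ (hO : ∀ t ∈ tabO, EncO S.Zo t) (τ : Bool) (β lo hi : ℕ) (z : ℚ)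
    (h : (τ, 8, β, lo, hi) ∈ tabO ∧ (hi : ℚ) / 10 ^ 14 ≤ z) : S.Up τ 8 β z := by
  have h1 := (hO _ h.1).2
  have h2 : ((hi : ℝ)) / 10 ^ 14 ≤ (z : ℝ) := by
    have h3 : (((hi : ℚ) / 10 ^ 14 : ℚ) : ℝ) ≤ (z : ℝ) := Rat.cast_le.2 h.2
    push_cast at h3
    exact h3
  exact h1.trans h2

theorem uppowQ (h1 : S.Up τ 8 β z) (β' : ℕ) (z' : ℚ)
    (h : 1 ≤ β ∧ β ≤ β' ∧ 0 ≤ z' ∧ z ^ β' ≤ z' ^ β) : S.Up τ 8 β' z' :=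
  up_pow h1 (by norm_num) h.1 h.2.1 (by exact_mod_cast h.2.2.1) (by exact_mod_cast h.2.2.2)

theorem lapowQ (h1 : S.La β p) (β' : ℕ) (q : ℚ)
    (h : 1 ≤ β ∧ β ≤ β' ∧ 0 ≤ q ∧ p ^ β' ≤ q ^ β) : S.La β' q :=
  la_pow h1 h.1 h.2.1 (by exact_mod_cast h.2.2.1) (by exact_mod_cast h.2.2.2)

theorem mapQ (h1 : S.MA β m) (h2 : S.La β p) (q : ℚ) (h : 1 ≤ β ∧ 0 ≤ m ∧ m * p ≤ q) :
    S.MA' β q :=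
  ma'_ma h1 h2 h.1 (by exact_mod_cast h.2.1) (by exact_mod_cast h.2.2)

theorem mbpQ (h1 : S.MB β m) (h2 : S.La β p) (q : ℚ) (h : 1 ≤ β ∧ 0 ≤ m ∧ m * p ≤ q) :
    S.MB' β q :=
  mb'_mb h1 h2 h.1 (by exact_mod_cast h.2.1) (by exact_mod_cast h.2.2)

theorem raQ (h1 : S.Up true 8 β z) (h2 : S.Up false 8 β z') (h3 : S.MA' β m) (N : ℕ) (q : ℚ)
    (h : 1 ≤ β ∧ 8 ≤ N ∧ 0 ≤ m ∧ (z + z') / 2 * m ^ (N - 8) ≤ q) : S.RA N β q :=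
  ra_decay (ra_up h1 h2 (by decide) h.1 le_rfl) h3 (by norm_num) h.1 h.2.1
    (by exact_mod_cast h.2.2.1) (by exact_mod_cast h.2.2.2)

theorem rbQ (h2 : S.Up false 8 β z') (h3 : S.MB' β m) (N : ℕ) (q : ℚ)
    (h : 1 ≤ β ∧ 8 ≤ N ∧ z' / 2 * m ^ (N - 8) ≤ q) : S.RB N β q :=
  rb_decay (rb_up h2 (by decide) h.1 le_rfl) h3 (by norm_num) h.1 h.2.1
    (by exact_mod_cast h.2.2)

theorem duQ (hD : ∀ t ∈ tabD, EncD S.Eo t) (N : ℕ)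
    (h : (true, N, 4035 / 10000) ∈ tabD ∧ (false, N, 4035 / 10000) ∈ tabD) :
    S.Du N ((667976 / 10 ^ 6 : ℚ) : ℝ) := by
  refine du_enc _ (hD _ h.1) (hD _ h.2) ?_
  have h1 := Real.exp_bound' (x := 4035 / 10000) (by norm_num) (by norm_num) (n := 8) (by norm_num)
  have h2 : ((4035 / 10000 : ℚ) : ℝ) = 4035 / 10000 := by norm_num
  rw [h2, Real.exp_neg, le_inv_comm₀ (by norm_num) (Real.exp_pos _)]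
  refine h1.trans ?_
  simp only [Finset.sum_range_succ, Finset.sum_range_zero, Nat.factorial]
  norm_num

theorem yabsQ (h1 : S.RA N β a) (h2 : S.RB N β b) (h3 : S.Du N g) (ya yb : ℚ)
    (h : 3 ≤ N ∧ 1 ≤ β ∧ 0 ≤ g ∧ 0 ≤ ya ∧ 0 ≤ yb ∧ a ≤ ya * (g ^ β - a) ∧
      b ≤ yb * (g ^ β - a)) : S.YA N β ya ∧ S.YB N β yb := by
  obtain ⟨c1, c2, c3, c4, c5, c6, c7⟩ := h
  exact y_abs h1 h2 h3 c1 c2 (by exact_mod_cast c3) (by exact_mod_cast c4) (by exact_mod_cast c5)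
    (by exact_mod_cast c6) (by exact_mod_cast c7)

/-- table look-up -/
def lk (τ : Bool) (N β : ℕ) : ℕ × ℕ :=
  ((tabO.find? (fun t => t.1 == τ && t.2.1 == N && t.2.2.1 == β)).map (fun t => t.2.2.2)).getD (0, 0)

def loQ (β k : ℕ) : ℚ := (((lk true (k + 2) β).1 : ℚ) / 10 ^ 14 + (lk false (k + 2) β).1 / 10 ^ 14) / 2
def hiQ (β k : ℕ) : ℚ := (((lk true (k + 2) β).2 : ℚ) / 10 ^ 14 + (lk false (k + 2) β).2 / 10 ^ 14) / 2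

theorem c0Q (hO : ∀ t ∈ tabO, EncO S.Zo t) (β : ℕ) (a b c : ℚ)
    (h : 1 ≤ β ∧ (∀ k ∈ [2, 3, 4, 5, 6], (true, k + 2, β, lk true (k + 2) β) ∈ tabO ∧
      (false, k + 2, β, lk false (k + 2) β) ∈ tabO) ∧ a < 1 ∧ b < 1 ∧ 0 ≤ c ∧
      hiQ β 6 + max (-2 * (a + b) * loQ β 5) (-2 * (a + b) * hiQ β 5) +
      max (((a + b) ^ 2 + 2 * a * b) * loQ β 4) (((a + b) ^ 2 + 2 * a * b) * hiQ β 4) +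
      max (-2 * a * b * (a + b) * loQ β 3) (-2 * a * b * (a + b) * hiQ β 3) + (a * b) ^ 2 * hiQ β 2 ≤
        c * ((1 - a) ^ 2 * (1 - b) ^ 2)) : S.C0 β c := by
  obtain ⟨c1, c2, c3, c4, c5, c6⟩ := h
  refine c0_filter (a := a) (b := b) (fun k => loQ β k) (fun k => hiQ β k) c1 ?_
    (by exact_mod_cast c3) (by exact_mod_cast c4) (by exact_mod_cast c5) (by exact_mod_cast c6)
  intro k h2 h6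
  have hk : k ∈ [2, 3, 4, 5, 6] := by interval_cases k <;> simp
  obtain ⟨d1, d2⟩ := hO _ (c2 k hk).1
  obtain ⟨d3, d4⟩ := hO _ (c2 k hk).2
  simp only [loQ, hiQ] at d1 d2 d3 d4 ⊢
  push_cast at d1 d2 d3 d4 ⊢
  constructor <;> linarith

theorem albaseQ (h1 : S.C0 β c) (h2 : S.La β t) (h3 : S.RA N β a) (h4 : S.RB N β b)
    (h5 : S.Du N g) (x : ℚ)
    (h : 3 ≤ N ∧ 1 ≤ β ∧ 0 ≤ g ∧ 0 ≤ x ∧ c * t ^ (N - 2) + a + b ≤ (1 + x) * g ^ β) :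
    S.Al N β x := by
  obtain ⟨c1, c2, c3, c4, c5⟩ := h
  exact al_base h1 h2 h3 h4 h5 c1 c2 (by exact_mod_cast c3) (by exact_mod_cast c4)
    (by exact_mod_cast c5)

theorem yadQ (h1 : S.YA N β y) (h2 : S.MA β m) (N' : ℕ) (y' : ℚ)
    (h : 3 ≤ N ∧ 1 ≤ β ∧ N ≤ N' ∧ 0 ≤ m ∧ 0 ≤ y ∧ y * m ^ (N' - N) ≤ y') : S.YA N' β y' := by
  obtain ⟨c1, c2, c3, c4, c5, c6⟩ := h
  exact ya_decay h1 h2 c1 c2 c3 (by exact_mod_cast c4) (by exact_mod_cast c5) (by exact_mod_cast c6)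

theorem ybdQ (h1 : S.YB N β y) (h2 : S.MB β m) (N' : ℕ) (y' : ℚ)
    (h : 3 ≤ N ∧ 1 ≤ β ∧ N ≤ N' ∧ 0 ≤ m ∧ 0 ≤ y ∧ y * m ^ (N' - N) ≤ y') : S.YB N' β y' := by
  obtain ⟨c1, c2, c3, c4, c5, c6⟩ := h
  exact yb_decay h1 h2 c1 c2 c3 (by exact_mod_cast c4) (by exact_mod_cast c5) (by exact_mod_cast c6)

theorem alpowQ (h1 : S.Al N β x) (β' : ℕ) (y : ℚ)
    (h : 2 ≤ N ∧ 1 ≤ β ∧ β ≤ β' ∧ 0 ≤ y ∧ x ^ β' ≤ y ^ β) : S.Al N β' y := by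
  obtain ⟨c1, c2, c3, c4, c5⟩ := h
  exact al_pow h1 c1 c2 c3 (by exact_mod_cast c4) (by exact_mod_cast c5)

theorem du2Q (h1 : S.Al N β x) (h2 : S.YA N₁ β ya₁) (h3 : S.YB N₁ β yb₁) (h4 : S.YA N β ya)
    (h5 : S.YB N β yb) (q : ℚ)
    (h : 3 ≤ N₁ ∧ N₁ ≤ N ∧ 1 ≤ β ∧ 0 ≤ q ∧ ya + yb < 1 ∧
      (1 + x) * (1 + ya₁ + yb₁) ≤ q ^ β * (1 - ya - yb)) : S.Du2 N₁ N q := by
  obtain ⟨c1, c2, c3, c4, c5, c6⟩ := h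
  exact du2_rule h1 h2 h3 h4 h5 c1 c2 c3 (by exact_mod_cast c4) (by exact_mod_cast c5)
    (by exact_mod_cast c6)

theorem yrelQ (h1 : S.Al N₁ β x₁) (h2 : S.Du2 N₁ N q) (h3 : S.Pb β p) (h4 : S.MA β m)
    (h5 : S.MB β m') (r a b ya yb : ℚ)
    (h : EK N₁ ∧ N₁ ≤ N ∧ 1 ≤ β ∧ 0 ≤ m ∧ 0 ≤ m' ∧ (1 + x₁) * q ^ β * p ^ (N - N₁) ≤ r ∧
      r * m ^ (N - N₁) ≤ a ∧ r * m' ^ (N - N₁) ≤ b ∧ 0 ≤ ya ∧ 0 ≤ yb ∧ a ≤ ya * (1 - a) ∧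
      b ≤ yb * (1 - a)) : S.YA N β ya ∧ S.YB N β yb := by
  obtain ⟨c1, c2, c3, c4, c5, c6, c7, c8, c9, c10, c11, c12⟩ := h
  exact y_rel (r := r) (a := a) (b := b) h1 h2 h3 h4 h5 c1 c2 c3 (by exact_mod_cast c4)
    (by exact_mod_cast c5) (by exact_mod_cast c6) (by exact_mod_cast c7) (by exact_mod_cast c8)
    (by exact_mod_cast c9) (by exact_mod_cast c10) (by exact_mod_cast c11) (by exact_mod_cast c12)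

theorem ratR {Q : ℝ} (h1 : S.Al N₁ β x₁) (h2 : S.Pb β p) (h3 : S.YA N₁ β₂ y₁) (h4 : S.YA N β ya)
    (h5 : S.YB N β yb) (h6 : S.YA N β₂ ya₂) (h7 : S.YB N β₂ yb₂) (r : ℚ) (hN : EK N₁)
    (hn : N₁ ≤ N) (hβ : 1 ≤ β) (hb : β ≤ β₂) (hy : ya₂ + yb₂ < 1) (c1 : 0 ≤ x₁) (c2 : 0 ≤ p)
    (c3 : 0 ≤ ya) (c4 : 0 ≤ yb) (c5 : 0 ≤ y₁)
    (hr : (1 + x₁) * p ^ (N - N₁) * (1 + ya + yb) ≤ r)
    (h : (r : ℝ) ^ β₂ * (1 + y₁) ^ β ≤ Q * (1 - ya₂ - yb₂) ^ β) : S.Rat N β β₂ Q := by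
  refine rat_ext h1 h2 h3 h4 h5 h6 h7 hN hn hβ hb (by exact_mod_cast hy) (le_trans ?_ h)
  have d1 : (0 : ℝ) ≤ x₁ := by exact_mod_cast c1
  have d2 : (0 : ℝ) ≤ p := by exact_mod_cast c2
  have d3 : (0 : ℝ) ≤ ya := by exact_mod_cast c3
  have d4 : (0 : ℝ) ≤ yb := by exact_mod_cast c4
  have d5 : (0 : ℝ) ≤ y₁ := by exact_mod_cast c5
  have d6 : ((1 + x₁) * p ^ (N - N₁) * (1 + ya + yb) : ℝ) ≤ r := by exact_mod_cast hr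
  gcongr

theorem rat1Q (h1 : S.Al N₁ β x₁) (h2 : S.Pb β p) (h3 : S.YA N₁ β₂ y₁) (h4 : S.YA N β ya)
    (h5 : S.YB N β yb) (h6 : S.YA N β₂ ya₂) (h7 : S.YB N β₂ yb₂) (r x : ℚ)
    (h : EK N₁ ∧ N₁ ≤ N ∧ 1 ≤ β ∧ β < β₂ ∧ ya₂ + yb₂ < 1 ∧ 0 ≤ x₁ ∧ 0 ≤ p ∧ 0 ≤ ya ∧ 0 ≤ yb ∧
      0 ≤ y₁ ∧ 0 ≤ x ∧ (1 + x₁) * p ^ (N - N₁) * (1 + ya + yb) ≤ r ∧
      r ^ β₂ * (1 + y₁) ^ β ≤ (1 + x) ^ (β₂ - β) * (1 - ya₂ - yb₂) ^ β) : S.Al N β x := by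
  obtain ⟨c1, c2, c3, c4, c5, c6, c7, c8, c9, c10, c11, c12, c13⟩ := h
  exact al_rat1 (ratR (Q := (1 + x) ^ (β₂ - β)) h1 h2 h3 h4 h5 h6 h7 r c1 c2 c3 c4.le c5 c6 c7 c8 c9
    c10 c12 (by exact_mod_cast c13)) (by have := c1.2; omega) c3 c4 (by exact_mod_cast c11) le_rfl

theorem rat2Q (h1 : S.Al N₁ β x₁) (h2 : S.Pb β p) (h3 : S.YA N₁ β₂ y₁) (h4 : S.YA N β ya)
    (h5 : S.YB N β yb) (h6 : S.YA N β₂ ya₂) (h7 : S.YB N β₂ yb₂) (h8 : S.Al N β₂ x₂) (r x : ℚ)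
    (h : EK N₁ ∧ N₁ ≤ N ∧ 1 ≤ β ∧ β ≤ β₂ ∧ ya₂ + yb₂ < 1 ∧ 0 ≤ x₁ ∧ 0 ≤ p ∧ 0 ≤ ya ∧ 0 ≤ yb ∧
      0 ≤ y₁ ∧ 0 ≤ x ∧ 0 ≤ x₂ ∧ (1 + x₁) * p ^ (N - N₁) * (1 + ya + yb) ≤ r ∧
      r ^ β₂ * (1 + y₁) ^ β * (1 + x₂) ^ β ≤ (1 + x) ^ β₂ * (1 - ya₂ - yb₂) ^ β) :
    S.Al N β x := by
  obtain ⟨c1, c2, c3, c4, c5, c6, c7, c8, c9, c10, c11, c12, c13, c14⟩ := h
  have d1 : (0 : ℝ) ≤ x₂ := by exact_mod_cast c12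
  have d2 : (0 : ℝ) < (1 + x₂) ^ β := by positivity
  have d3 : (r : ℝ) ^ β₂ * (1 + y₁) ^ β * (1 + x₂) ^ β ≤ (1 + x) ^ β₂ * (1 - ya₂ - yb₂) ^ β := by
    exact_mod_cast c14
  refine al_rat2 (ratR (Q := (1 + x) ^ β₂ / (1 + x₂) ^ β) h1 h2 h3 h4 h5 h6 h7 r c1 c2 c3 c4 c5 c6 c7
    c8 c9 c10 c13 ?_) h8 (by have := c1.2; omega) c3 c4 (by exact_mod_cast c11) ?_
  · rw [div_mul_eq_mul_div, le_div_iff₀ d2]; exact d3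
  · rw [div_mul_cancel₀ _ d2.ne']

theorem ochain_bern {u : ℚ} (hu : 0 ≤ u) (d : ℕ) : (1 + u) ^ d * (1 - d * u) ≤ 1 := by
  induction d with
  | zero => simp
  | succ d ih =>
    refine le_trans ?_ ih
    rw [pow_succ, mul_assoc]
    refine mul_le_mul_of_nonneg_left ?_ (by positivity)
    push_cast
    have : 0 ≤ ((d : ℚ) + 1) * u ^ 2 := by positivity
    nlinarith

/-- the last step, uniform in `N₀ ≤ N ≤ M` -/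
theorem finQ (h1 : S.Al N₁ β x₁) (h2 : S.Pb β p) (h3 : S.YA N₁ β₂ y₁) (h4 : S.YA N₀ β ya)
    (h5 : S.YB N₀ β yb) (h6 : S.YA N₀ β₂ ya₂) (h7 : S.YB N₀ β₂ yb₂) (g1 : S.MA β a)
    (g2 : S.MB β b) (g3 : S.MA β₂ m₂) (g4 : S.MB β₂ m₂') (M : ℕ) (P r x y : ℚ)
    (h : (EK N₁ ∧ N₁ ≤ N₀ ∧ 1 ≤ β ∧ β < β₂ ∧ ya₂ + yb₂ < 1 ∧ 0 ≤ x₁ ∧ 1 ≤ p ∧ 0 ≤ ya ∧ 0 ≤ yb ∧
      0 ≤ y₁ ∧ 0 ≤ x ∧ (1 + x₁) * P * (1 + ya + yb) ≤ r ∧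
      r ^ β₂ * (1 + y₁) ^ β ≤ (1 + x) ^ (β₂ - β) * (1 - ya₂ - yb₂) ^ β) ∧
      (0 ≤ ya₂ ∧ 0 ≤ yb₂ ∧ 0 ≤ a ∧ a ≤ 1 ∧ 0 ≤ b ∧ b ≤ 1 ∧ 0 ≤ m₂ ∧ m₂ ≤ 1 ∧ 0 ≤ m₂' ∧ m₂' ≤ 1) ∧
      0 < 1 - M * (p - 1) ∧ 1 ≤ P * (1 - M * (p - 1)) ∧ 0 ≤ y ∧ x ^ β₂ ≤ y ^ β)
    (N : ℕ) (hN : N₀ ≤ N) (hM : N ≤ M) : S.Al N β₂ y := by
  obtain ⟨⟨c1, c2, c3, c4, c5, c6, c7, c8, c9, c10, c11, c12, c13⟩,
    ⟨d1, d2, d3, d4, d5, d6, d7, d8, d9, d10⟩, e1, e2, e3, e4⟩ := h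
  have h6' := c1.2
  have dec : ∀ {y m : ℚ}, 0 ≤ y → 0 ≤ m → m ≤ 1 → y * m ^ (N - N₀) ≤ y := fun hy hm hm1 =>
    mul_le_of_le_one_right hy (pow_le_one₀ hm hm1)
  have k4 := yadQ h4 g1 N ya ⟨by omega, c3, hN, d3, c8, dec c8 d3 d4⟩
  have k5 := ybdQ h5 g2 N yb ⟨by omega, c3, hN, d5, c9, dec c9 d5 d6⟩
  have k6 := yadQ h6 g3 N ya₂ ⟨by omega, by omega, hN, d7, d1, dec d1 d7 d8⟩
  have k7 := ybdQ h7 g4 N yb₂ ⟨by omega, by omega, hN, d9, d2, dec d2 d9 d10⟩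
  have hp : p ^ (N - N₁) ≤ P := by
    refine (pow_le_pow_right₀ c7 (show N - N₁ ≤ M by omega)).trans ?_
    have := ochain_bern (u := p - 1) (by linarith) M
    rw [show 1 + (p - 1) = p by ring] at this
    exact le_of_mul_le_mul_right (this.trans e2) e1
  have k8 := rat1Q h1 h2 h3 k4 k5 k6 k7 r x ⟨c1, by omega, c3, c4, c5, c6, by linarith, c8, c9, c10,
    c11, le_trans (by gcongr) c12, c13⟩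
  exact alpowQ k8 β₂ y ⟨by omega, c3, c4.le, e3, e4⟩

end Sys
end Crest.Agent.R347
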