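import Crest.Agent.R347.BootOpenAux

/-! Row 347: derivation rules for the open chain. -/

set_option autoImplicit false

namespace Crest.Agent.R347
namespace Sys
variable {S : Sys} {N N' N₁ β β' β₂ : ℕ} {τ : Bool}
  {x x₁ x₂ y y' y₁ a b c g m m' p q r t z z' ya yb ya₁ yb₁ ya₂ yb₂ Q : ℝ}

theorem oa_cast_pos (hβ : 1 ≤ β) : (0 : ℝ) < β := by exact_mod_cast hβ

theorem oa_exp_shift (β N N' : ℕ) (hn : N ≤ N') (w : ℝ) :
    Real.exp (β * N' * w) = Real.exp (β * N * w) * Real.exp (β * w) ^ (N' - N) := by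
  rw [← Real.exp_nat_mul, ← Real.exp_add, Nat.cast_sub hn]; congr 1; ring

theorem oa_du (h3 : S.Du N g) (hg : 0 ≤ g) (β : ℕ) (τ : Bool) :
    g ^ β ≤ Real.exp (-(β : ℝ) * S.Eo τ N) * Real.exp (β * N * (ev : ℝ)) := by
  refine (pow_le_pow_left₀ hg (h3 τ) β).trans (le_of_eq ?_)
  rw [← Real.exp_nat_mul, ← Real.exp_add]; congr 1; ring

theorem oa_al_pos (h1 : S.Al N β x) (hN : 2 ≤ N) : 0 < 1 + x :=
  (mul_pos_iff_of_pos_right (Real.exp_pos _)).1 ((S.oa_Zo_pos hN true β).trans_le (h1 true))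

theorem oa_Zo_le_y (h4 : S.YA N β ya) (h5 : S.YB N β yb) (hN : 3 ≤ N) (hβ : 1 ≤ β) (τ : Bool) :
    S.Zo τ N β ≤ (1 + ya + yb) * S.oaT N β := by
  have h := S.oa_Zo_le (oa_cast_pos hβ) hN τ
  have h4' : S.restA N β ≤ ya * S.oaT N β := h4
  have h5' : S.restB N β ≤ yb * S.oaT N β := h5
  linarith

theorem oa_y_le_Zo (h4 : S.YA N β ya) (h5 : S.YB N β yb) (hN : 3 ≤ N) (hβ : 1 ≤ β) (τ : Bool) :
    (1 - ya - yb) * S.oaT N β ≤ S.Zo τ N β := by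
  have h := S.oa_le_Zo (oa_cast_pos hβ) hN τ
  have h4' : S.restA N β ≤ ya * S.oaT N β := h4
  have h5' : S.restB N β ≤ yb * S.oaT N β := h5
  linarith

theorem oa_exp_le_lam (hβ : 1 ≤ β) : Real.exp (-(β : ℝ) * S.e) ≤ S.lam β := by
  have h := S.one_le_p β (oa_cast_pos hβ)
  have h2 := mul_le_mul_of_nonneg_right h (Real.exp_pos (-(β : ℝ) * S.e)).le
  rwa [one_mul, mul_assoc, ← Real.exp_add, show (β : ℝ) * S.e + -(β : ℝ) * S.e = 0 by ring,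
    Real.exp_zero, mul_one] at h2

theorem up_pow (h1 : S.Up τ N β z) (hN : 2 ≤ N) (hβ : 1 ≤ β) (hb : β ≤ β') (hz : 0 ≤ z')
    (h : z ^ β' ≤ z' ^ β) : S.Up τ N β' z' := by
  unfold Up at *
  refine le_of_pow_le_pow_left₀ (n := β) (by omega) hz (le_trans ?_ h)
  refine le_trans ?_ (pow_le_pow_left₀
    (mul_pos (S.oa_Zo_pos hN τ β) (Real.exp_pos _)).le h1 β')
  rw [mul_pow, mul_pow, ← Real.exp_nat_mul, ← Real.exp_nat_mul,
    show (β : ℝ) * (β' * N * (ev : ℝ)) = β' * (β * N * (ev : ℝ)) by ring]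
  exact mul_le_mul_of_nonneg_right (OA.ts_pow (S.tso τ N hN) hβ hb) (Real.exp_pos _).le

theorem ra_up (h1 : S.Up true N β z) (h2 : S.Up false N β z') (hN : EK N) (hβ : 1 ≤ β)
    (h : (z + z') / 2 ≤ q) : S.RA N β q := by
  unfold Up at h1 h2
  unfold RA
  have h3 := mul_le_mul_of_nonneg_right (S.oa_restA_le_W (oa_cast_pos hβ) hN)
    (Real.exp_pos (β * N * (ev : ℝ))).le
  unfold oaW at h3
  linarith

theorem rb_up (h2 : S.Up false N β z') (hN : EK N) (hβ : 1 ≤ β) (h : z' / 2 ≤ q) :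
    S.RB N β q := by
  unfold Up at h2
  unfold RB
  rw [S.oa_B_even (oa_cast_pos hβ) hN]
  have := mul_pos (S.oa_Zo_pos (by have := hN.2; omega : 2 ≤ N) true β)
    (Real.exp_pos (β * N * (ev : ℝ)))
  unfold oaB
  linarith

theorem ra_decay (h1 : S.RA N β a) (h2 : S.MA' β m) (hN : 3 ≤ N) (hβ : 1 ≤ β) (hn : N ≤ N')
    (hm : 0 ≤ m) (h : a * m ^ (N' - N) ≤ q) : S.RA N' β q := by
  unfold RA at *
  have hE := Real.exp_pos (β * (ev : ℝ))
  have h3 := S.oa_restA_decay (oa_cast_pos hβ) hN hn (M := m / Real.exp (β * (ev : ℝ)))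
    (fun i => ⟨fun hi => (le_div_iff₀ hE).2 ((h2 i).1 hi), fun hi => (le_div_iff₀ hE).2 ((h2 i).2 hi)⟩)
  calc S.restA N' β * Real.exp (β * N' * (ev : ℝ))
      ≤ S.restA N β * (m / Real.exp (β * (ev : ℝ))) ^ (N' - N) * Real.exp (β * N' * (ev : ℝ)) :=
        mul_le_mul_of_nonneg_right h3 (Real.exp_pos _).le
    _ = S.restA N β * Real.exp (β * N * (ev : ℝ)) * m ^ (N' - N) := by
        rw [oa_exp_shift β N N' hn, div_pow]; field_simp
    _ ≤ a * m ^ (N' - N) := mul_le_mul_of_nonneg_right h1 (pow_nonneg hm _)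
    _ ≤ q := h

theorem rb_decay (h1 : S.RB N β a) (h2 : S.MB' β m) (hN : 3 ≤ N) (hβ : 1 ≤ β) (hn : N ≤ N')
    (h : a * m ^ (N' - N) ≤ q) : S.RB N' β q := by
  unfold RB at *
  have hE := Real.exp_pos (β * (ev : ℝ))
  have hm : 0 ≤ m := le_trans (mul_nonneg (abs_nonneg _) hE.le) (h2 0)
  have h3 := S.oa_restB_decay (oa_cast_pos hβ) hN hn (M := m / Real.exp (β * (ev : ℝ)))
    (fun i => (le_div_iff₀ hE).2 (h2 i))
  calc S.restB N' β * Real.exp (β * N' * (ev : ℝ))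
      ≤ S.restB N β * (m / Real.exp (β * (ev : ℝ))) ^ (N' - N) * Real.exp (β * N' * (ev : ℝ)) :=
        mul_le_mul_of_nonneg_right h3 (Real.exp_pos _).le
    _ = S.restB N β * Real.exp (β * N * (ev : ℝ)) * m ^ (N' - N) := by
        rw [oa_exp_shift β N N' hn, div_pow]; field_simp
    _ ≤ a * m ^ (N' - N) := mul_le_mul_of_nonneg_right h1 (pow_nonneg hm _)
    _ ≤ q := h

theorem ya_decay (h1 : S.YA N β y) (h2 : S.MA β m) (hN : 3 ≤ N) (hβ : 1 ≤ β) (hn : N ≤ N')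
    (hm : 0 ≤ m) (hy : 0 ≤ y) (h : y * m ^ (N' - N) ≤ y') : S.YA N' β y' := by
  have _ := hy
  have hb := oa_cast_pos hβ
  have h3 := S.oa_restA_decay hb hN hn h2
  have h1' : S.restA N β ≤ y * S.oaT N β := h1
  show S.restA N' β ≤ y' * S.oaT N' β
  calc S.restA N' β ≤ S.restA N β * (m * S.lam β) ^ (N' - N) := h3
    _ ≤ y * S.oaT N β * (m * S.lam β) ^ (N' - N) :=
        mul_le_mul_of_nonneg_right h1' (pow_nonneg (mul_nonneg hm (S.lam_pos _ hb).le) _)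
    _ = y * m ^ (N' - N) * S.oaT N' β := by
        rw [S.oa_T_shift (by omega : 2 ≤ N) hn, mul_pow]; ring
    _ ≤ _ := mul_le_mul_of_nonneg_right h (S.oa_T_nonneg hb _)

theorem yb_decay (h1 : S.YB N β y) (h2 : S.MB β m) (hN : 3 ≤ N) (hβ : 1 ≤ β) (hn : N ≤ N')
    (hm : 0 ≤ m) (hy : 0 ≤ y) (h : y * m ^ (N' - N) ≤ y') : S.YB N' β y' := by
  have _ := hy
  have hb := oa_cast_pos hβ
  have h3 := S.oa_restB_decay hb hN hn h2
  have h1' : S.restB N β ≤ y * S.oaT N β := h1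
  show S.restB N' β ≤ y' * S.oaT N' β
  calc S.restB N' β ≤ S.restB N β * (m * S.lam β) ^ (N' - N) := h3
    _ ≤ y * S.oaT N β * (m * S.lam β) ^ (N' - N) :=
        mul_le_mul_of_nonneg_right h1' (pow_nonneg (mul_nonneg hm (S.lam_pos _ hb).le) _)
    _ = y * m ^ (N' - N) * S.oaT N' β := by
        rw [S.oa_T_shift (by omega : 2 ≤ N) hn, mul_pow]; ring
    _ ≤ _ := mul_le_mul_of_nonneg_right h (S.oa_T_nonneg hb _)

theorem y_abs (h1 : S.RA N β a) (h2 : S.RB N β b) (h3 : S.Du N g) (hN : 3 ≤ N) (hβ : 1 ≤ β)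
    (hg : 0 ≤ g) (hya : 0 ≤ ya) (hyb : 0 ≤ yb) (ha : a ≤ ya * (g ^ β - a))
    (hb : b ≤ yb * (g ^ β - a)) : S.YA N β ya ∧ S.YB N β yb := by
  have hβ' := oa_cast_pos hβ
  unfold RA at h1
  unfold RB at h2
  set E := Real.exp (β * N * (ev : ℝ)) with hE
  have hE0 : 0 < E := Real.exp_pos _
  have k : ∀ τ, g ^ β ≤ S.Zo τ N β * E := fun τ =>
    (oa_du h3 hg β τ).trans
      (mul_le_mul_of_nonneg_right (OA.ts_ge (S.tso τ N (by omega)) β) hE0.le)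
  have hW := mul_le_mul_of_nonneg_right (S.oa_W_le hβ' hN) hE0.le
  have hT : g ^ β - a ≤ S.oaT N β * E := by
    have k1 := k true
    have k2 := k false
    unfold oaW at hW
    linarith
  constructor
  · show S.restA N β ≤ ya * S.oaT N β
    refine le_of_mul_le_mul_right ?_ hE0
    have := mul_le_mul_of_nonneg_left hT hya
    linarith
  · show S.restB N β ≤ yb * S.oaT N β
    refine le_of_mul_le_mul_right ?_ hE0
    have := mul_le_mul_of_nonneg_left hT hyb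
    linarith

theorem al_base (h1 : S.C0 β c) (h2 : S.La β t) (h3 : S.RA N β a) (h4 : S.RB N β b)
    (h5 : S.Du N g) (hN : 3 ≤ N) (hβ : 1 ≤ β) (hg : 0 ≤ g) (hx : 0 ≤ x)
    (h : c * t ^ (N - 2) + a + b ≤ (1 + x) * g ^ β) : S.Al N β x := by
  intro τ
  have hβ' := oa_cast_pos hβ
  unfold RA at h3
  unfold RB at h4
  unfold C0 at h1
  unfold La at h2
  have hE0 : 0 < Real.exp (β * N * (ev : ℝ)) := Real.exp_pos _
  refine le_of_mul_le_mul_right ?_ hE0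
  have hZ := mul_le_mul_of_nonneg_right (S.oa_Zo_le hβ' hN τ) hE0.le
  have hc0 : 0 ≤ S.c0 β * Real.exp (2 * β * (ev : ℝ)) :=
    mul_nonneg (S.oa_c0_nonneg hβ') (Real.exp_pos _).le
  have hl0 : 0 ≤ S.lam β * Real.exp (β * (ev : ℝ)) :=
    mul_nonneg (S.lam_pos _ hβ').le (Real.exp_pos _).le
  have hT : S.oaT N β * Real.exp (β * N * (ev : ℝ)) ≤ c * t ^ (N - 2) := by
    have e : S.oaT N β * Real.exp (β * N * (ev : ℝ)) =
        S.c0 β * Real.exp (2 * β * (ev : ℝ)) * (S.lam β * Real.exp (β * (ev : ℝ))) ^ (N - 2) := by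
      rw [oa_exp_shift β 2 N (by omega), mul_pow, mul_comm (2 : ℝ) β]
      unfold oaT
      push_cast
      ring
    rw [e]
    exact mul_le_mul h1 (pow_le_pow_left₀ hl0 h2 _) (pow_nonneg hl0 _) (hc0.trans h1)
  have hg' := mul_le_mul_of_nonneg_left (oa_du h5 hg β τ) (by linarith : 0 ≤ 1 + x)
  linarith

theorem al_pow (h1 : S.Al N β x) (hN : 2 ≤ N) (hβ : 1 ≤ β) (hb : β ≤ β') (hy : 0 ≤ y)
    (h : x ^ β' ≤ y ^ β) : S.Al N β' y := fun τ =>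
  OA.ts_tail_pow (S.tso τ N hN) hβ hb hy (h1 τ) h

theorem du2_rule (h1 : S.Al N β x) (h2 : S.YA N₁ β ya₁) (h3 : S.YB N₁ β yb₁) (h4 : S.YA N β ya)
    (h5 : S.YB N β yb) (hN : 3 ≤ N₁) (hn : N₁ ≤ N) (hβ : 1 ≤ β) (hq : 0 ≤ q) (hy : ya + yb < 1)
    (h : (1 + x) * (1 + ya₁ + yb₁) ≤ q ^ β * (1 - ya - yb)) : S.Du2 N₁ N q := by
  intro τ τ'
  have hβ' := oa_cast_pos hβ
  have hx := oa_al_pos h1 (by omega)
  have k1 := (oa_y_le_Zo h4 h5 (by omega) hβ τ).trans (h1 τ)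
  have k2 := (OA.ts_ge (S.tso τ' N₁ (by omega)) β).trans (oa_Zo_le_y h2 h3 hN hβ τ')
  have hT0 := S.oa_T_nonneg hβ' N₁
  have hT : 0 < S.oaT N₁ β := by
    rcases hT0.eq_or_lt with h0 | h0
    · rw [← h0, mul_zero] at k2
      exact absurd k2 (not_le.2 (Real.exp_pos _))
    · exact h0
  have hy' : 0 < 1 - ya - yb := by linarith
  rw [S.oa_T_shift (by omega : 2 ≤ N₁) hn] at k1
  have hl : Real.exp (-(β : ℝ) * S.e) ^ (N - N₁) ≤ S.lam β ^ (N - N₁) :=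
    pow_le_pow_left₀ (Real.exp_pos _).le (oa_exp_le_lam hβ) _
  refine le_of_pow_le_pow_left₀ (n := β) (by omega) hq ?_
  have e : Real.exp ((S.Eo τ N - N * S.e) - (S.Eo τ' N₁ - N₁ * S.e)) ^ β *
      Real.exp (-(β : ℝ) * S.Eo τ N) =
      Real.exp (-(β : ℝ) * S.Eo τ' N₁) * Real.exp (-(β : ℝ) * S.e) ^ (N - N₁) := by
    rw [← Real.exp_nat_mul, ← Real.exp_nat_mul, ← Real.exp_add, ← Real.exp_add, Nat.cast_sub hn]
    congr 1; ring
  refine le_of_mul_le_mul_right ?_ (Real.exp_pos (-(β : ℝ) * S.Eo τ N))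
  rw [e]
  refine le_of_mul_le_mul_left ?_ hx
  calc (1 + x) * (Real.exp (-(β : ℝ) * S.Eo τ' N₁) * Real.exp (-(β : ℝ) * S.e) ^ (N - N₁))
      ≤ (1 + x) * ((1 + ya₁ + yb₁) * S.oaT N₁ β * S.lam β ^ (N - N₁)) :=
        mul_le_mul_of_nonneg_left (mul_le_mul k2 hl (by positivity)
          ((Real.exp_pos _).le.trans k2)) hx.le
    _ = (1 + x) * (1 + ya₁ + yb₁) * (S.oaT N₁ β * S.lam β ^ (N - N₁)) := by ring
    _ ≤ q ^ β * (1 - ya - yb) * (S.oaT N₁ β * S.lam β ^ (N - N₁)) :=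
        mul_le_mul_of_nonneg_right h (mul_nonneg hT0 (pow_nonneg (S.lam_pos _ hβ').le _))
    _ = q ^ β * ((1 - ya - yb) * (S.oaT N₁ β * S.lam β ^ (N - N₁))) := by ring
    _ ≤ q ^ β * ((1 + x) * Real.exp (-(β : ℝ) * S.Eo τ N)) :=
        mul_le_mul_of_nonneg_left k1 (pow_nonneg hq _)
    _ = _ := by ring

/-- common end of `y_rel` and `y_crude` -/
theorem oa_y_fin (h3 : S.Pb β p) (h4 : S.MA β m) (h5 : S.MB β m') (hN : EK N₁) (hn : N₁ ≤ N)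
    (hβ : 1 ≤ β) (hm : 0 ≤ m) (hm' : 0 ≤ m') {s : ℝ} (hs : 0 ≤ s)
    (hW : S.oaW N₁ β ≤ s * Real.exp (β * S.e) ^ (N - N₁) * S.oaW N β)
    (ha : s * (p * m) ^ (N - N₁) ≤ a) (hb : s * (p * m') ^ (N - N₁) ≤ b)
    (hya : 0 ≤ ya) (hyb : 0 ≤ yb) (h : a ≤ ya * (1 - a))
    (h' : b ≤ yb * (1 - a)) : S.YA N β ya ∧ S.YB N β yb := by
  have hβ' := oa_cast_pos hβ
  have h6 := hN.2
  have hl := S.lam_pos _ hβ'
  have hWN := (S.oa_W_pos (by omega : 2 ≤ N) β).le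
  unfold Pb at h3
  have key : ∀ R μ w : ℝ, 0 ≤ μ → R ≤ S.oaW N₁ β → s * (p * μ) ^ (N - N₁) ≤ w →
      R * (μ * S.lam β) ^ (N - N₁) ≤ w * S.oaW N β := by
    intro R μ w hμ hR hw
    calc R * (μ * S.lam β) ^ (N - N₁)
        ≤ s * Real.exp (β * S.e) ^ (N - N₁) * S.oaW N β * (μ * S.lam β) ^ (N - N₁) :=
          mul_le_mul_of_nonneg_right (hR.trans hW) (by positivity)
      _ = s * (S.lam β * Real.exp (β * S.e) * μ) ^ (N - N₁) * S.oaW N β := by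
          simp only [mul_pow]; ring
      _ ≤ s * (p * μ) ^ (N - N₁) * S.oaW N β := by gcongr
      _ ≤ w * S.oaW N β := mul_le_mul_of_nonneg_right hw hWN
  exact S.oa_y_of_rel hβ' (by omega)
    ((S.oa_restA_decay hβ' (by omega) hn h4).trans (key _ _ _ hm (S.oa_restA_le_W hβ' hN) ha))
    ((S.oa_restB_decay hβ' (by omega) hn h5).trans (key _ _ _ hm' (S.oa_restB_le_W hβ' hN) hb))
    hya hyb h h'

theorem y_rel (h1 : S.Al N₁ β x₁) (h2 : S.Du2 N₁ N q) (h3 : S.Pb β p) (h4 : S.MA β m)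
    (h5 : S.MB β m') (hN : EK N₁) (hn : N₁ ≤ N) (hβ : 1 ≤ β) (hm : 0 ≤ m) (hm' : 0 ≤ m')
    (hr : (1 + x₁) * q ^ β * p ^ (N - N₁) ≤ r) (ha : r * m ^ (N - N₁) ≤ a)
    (hb : r * m' ^ (N - N₁) ≤ b) (hya : 0 ≤ ya) (hyb : 0 ≤ yb) (h : a ≤ ya * (1 - a))
    (h' : b ≤ yb * (1 - a)) : S.YA N β ya ∧ S.YB N β yb := by
  have h6 := hN.2
  have hx := oa_al_pos h1 (by omega)
  have hq : 0 ≤ q := (Real.exp_pos _).le.trans (h2 true true)
  have k : ∀ τ, S.Zo τ N₁ β ≤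
      (1 + x₁) * q ^ β * Real.exp (β * S.e) ^ (N - N₁) * S.Zo τ N β := by
    intro τ
    have e : Real.exp (-(β : ℝ) * S.Eo τ N₁) =
        Real.exp ((S.Eo τ N - N * S.e) - (S.Eo τ N₁ - N₁ * S.e)) ^ β *
        Real.exp (β * S.e) ^ (N - N₁) * Real.exp (-(β : ℝ) * S.Eo τ N) := by
      rw [← Real.exp_nat_mul, ← Real.exp_nat_mul, ← Real.exp_add, ← Real.exp_add, Nat.cast_sub hn]
      congr 1; ring
    have k1 := h1 τ
    rw [e] at k1
    have k2 := OA.ts_ge (S.tso τ N (by omega)) β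
    have k3 := h2 τ τ
    calc S.Zo τ N₁ β ≤ _ := k1
      _ ≤ (1 + x₁) * (q ^ β * Real.exp (β * S.e) ^ (N - N₁) * S.Zo τ N β) := by gcongr
      _ = _ := by ring
  refine oa_y_fin h3 h4 h5 hN hn hβ hm hm' (s := (1 + x₁) * q ^ β) (by positivity) ?_ ?_ ?_
    hya hyb h h'
  · have k1 := k true
    have k2 := k false
    unfold oaW
    linarith
  · rw [mul_pow, ← mul_assoc]
    exact (mul_le_mul_of_nonneg_right hr (pow_nonneg hm _)).trans ha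
  · rw [mul_pow, ← mul_assoc]
    exact (mul_le_mul_of_nonneg_right hr (pow_nonneg hm' _)).trans hb

theorem y_crude (h1 : S.Up true 8 β 1) (h2 : S.Up false 8 β 1) (h3 : S.Pb β p) (h4 : S.MA β m)
    (h5 : S.MB β m') (hN : EK N) (hn : 8 ≤ N) (hβ : 1 ≤ β) (hm : 0 ≤ m) (hm' : 0 ≤ m')
    (ha : 55 ^ β * (p * m) ^ (N - 8) ≤ a) (hb : 55 ^ β * (p * m') ^ (N - 8) ≤ b)
    (hya : 0 ≤ ya) (hyb : 0 ≤ yb) (h : a ≤ ya * (1 - a)) (h' : b ≤ yb * (1 - a)) :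
    S.YA N β ya ∧ S.YB N β yb := by
  have hβ' := oa_cast_pos hβ
  have k : ∀ τ, S.Up τ 8 β 1 → S.Zo τ 8 β ≤
      55 ^ β * Real.exp (β * S.e) ^ (N - 8) * S.Zo τ N β := by
    intro τ hu
    unfold Up at hu
    have k1 : S.Zo τ 8 β ≤ Real.exp (-(β * (8 : ℕ) * (ev : ℝ))) := by
      rw [Real.exp_neg, ← one_mul (Real.exp _)⁻¹, ← div_eq_mul_inv, le_div_iff₀ (Real.exp_pos _)]
      exact hu
    have k2 := OA.ts_ge (S.tso τ N (by omega)) β
    have k3 := S.crude τ N (by omega)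
    have k4 := S.E0_le N hN
    have k5 := S.e_le_ev
    calc S.Zo τ 8 β ≤ _ := k1
      _ ≤ Real.exp 4 ^ β * Real.exp (β * S.e) ^ (N - 8) * Real.exp (-(β : ℝ) * S.Eo τ N) := by
          rw [← Real.exp_nat_mul, ← Real.exp_nat_mul, ← Real.exp_add, ← Real.exp_add,
            Nat.cast_sub hn]
          refine Real.exp_le_exp.2 ?_
          push_cast
          have : 0 ≤ (β : ℝ) * (4 + N * S.e - S.Eo τ N + 8 * ((ev : ℝ) - S.e)) :=
            mul_nonneg hβ'.le (by linarith)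
          linarith
      _ ≤ _ := by gcongr; exact OA.exp_four_le
  refine oa_y_fin h3 h4 h5 (by decide : EK 8) hn hβ hm hm' (s := 55 ^ β) (by positivity) ?_ ha hb
    hya hyb h h'
  have k1 := k true h1
  have k2 := k false h2
  unfold oaW
  linarith

theorem rat_ext (h1 : S.Al N₁ β x₁) (h2 : S.Pb β p) (h3 : S.YA N₁ β₂ y₁) (h4 : S.YA N β ya)
    (h5 : S.YB N β yb) (h6 : S.YA N β₂ ya₂) (h7 : S.YB N β₂ yb₂) (hN : EK N₁) (hn : N₁ ≤ N)
    (hβ : 1 ≤ β) (hb : β ≤ β₂) (hy : ya₂ + yb₂ < 1)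
    (h : ((1 + x₁) * p ^ (N - N₁) * (1 + ya + yb)) ^ β₂ * (1 + y₁) ^ β ≤
      Q * (1 - ya₂ - yb₂) ^ β) : S.Rat N β β₂ Q := by
  intro τ
  have h66 := hN.2
  have hβ' := oa_cast_pos hβ
  have hβ2 : 1 ≤ β₂ := hβ.trans hb
  have hβ2' := oa_cast_pos hβ2
  have hx := oa_al_pos h1 (by omega)
  have hZ := S.oa_Zo_pos (by omega : 2 ≤ N) τ β
  have hl := S.lam_pos _ hβ'
  have hl2 := S.lam_pos _ hβ2'
  have k1 := oa_Zo_le_y h4 h5 (by omega) hβ τ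
  have hy1 : 0 ≤ 1 + ya + yb := by
    by_contra hc
    have := mul_nonpos_of_nonpos_of_nonneg (not_le.1 hc).le (S.oa_T_nonneg hβ' N)
    linarith
  set u := Real.exp (-S.Eo true N₁) with hu
  set v := Real.exp (-S.Eo false N₁) with hv
  have hu0 : 0 < u := Real.exp_pos _
  have hv0 : 0 < v := Real.exp_pos _
  have k2 : S.oaW N₁ β ≤ (1 + x₁) * ((u ^ β + v ^ β) / 2) := by
    have a1 := h1 true
    have a2 := h1 false
    rw [OA.exp_nat] at a1 a2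
    unfold oaW
    linarith
  have k3 : (u ^ β₂ + v ^ β₂) / 2 ≤ (1 + y₁) * S.oaT N₁ β₂ := by
    have a1 := OA.ts_ge (S.tso true N₁ (by omega)) β₂
    have a2 := OA.ts_ge (S.tso false N₁ (by omega)) β₂
    rw [OA.exp_nat] at a1 a2
    have a3 := S.oa_W_le hβ2' (by omega : 3 ≤ N₁)
    have a4 : S.restA N₁ β₂ ≤ y₁ * S.oaT N₁ β₂ := h3
    unfold oaW at a3
    linarith
  have hT1 := S.oa_T_nonneg hβ2' N₁
  have hT2 := S.oa_T_nonneg hβ2' N
  have hy2 : 0 ≤ 1 + y₁ := by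
    by_contra hc
    have := mul_nonpos_of_nonpos_of_nonneg (not_le.1 hc).le hT1
    have : 0 < (u ^ β₂ + v ^ β₂) / 2 := by positivity
    linarith
  have k4 : S.lam β ≤ p * Real.exp (-S.e) ^ β := by
    unfold Pb at h2
    rw [← OA.exp_nat, neg_mul, Real.exp_neg, ← div_eq_mul_inv, le_div_iff₀ (Real.exp_pos _)]
    exact h2
  have hp : 0 ≤ p := le_trans (mul_pos hl (Real.exp_pos _)).le h2
  have k5 : Real.exp (-S.e) ^ β₂ ≤ S.lam β₂ := by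
    rw [← OA.exp_nat]; exact oa_exp_le_lam hβ2
  have k6 := oa_y_le_Zo h6 h7 (by omega) hβ2 τ
  have hy3 : 0 < 1 - ya₂ - yb₂ := by linarith
  have hQ : 0 ≤ Q := by
    by_contra hc
    have a1 := mul_neg_of_neg_of_pos (not_le.1 hc) (pow_pos hy3 β)
    have a2 : 0 ≤ ((1 + x₁) * p ^ (N - N₁) * (1 + ya + yb)) ^ β₂ * (1 + y₁) ^ β := by positivity
    linarith
  have k7 : S.Zo τ N β ≤ (1 + x₁) * p ^ (N - N₁) * (1 + ya + yb) * ((u ^ β + v ^ β) / 2) *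
      (Real.exp (-S.e) ^ β) ^ (N - N₁) := by
    calc S.Zo τ N β ≤ (1 + ya + yb) * (S.oaT N₁ β * S.lam β ^ (N - N₁)) := by
          rw [← S.oa_T_shift (by omega : 2 ≤ N₁) hn]; exact k1
      _ ≤ (1 + ya + yb) * ((1 + x₁) * ((u ^ β + v ^ β) / 2) *
          (p * Real.exp (-S.e) ^ β) ^ (N - N₁)) := by
          gcongr
          exact (S.oa_T_le_W hβ' hN).trans k2
      _ = _ := by rw [mul_pow]; ring
  calc S.Zo τ N β ^ β₂ ≤ ((1 + x₁) * p ^ (N - N₁) * (1 + ya + yb) * ((u ^ β + v ^ β) / 2) *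
      (Real.exp (-S.e) ^ β) ^ (N - N₁)) ^ β₂ := pow_le_pow_left₀ hZ.le k7 _
    _ = ((1 + x₁) * p ^ (N - N₁) * (1 + ya + yb)) ^ β₂ * ((u ^ β + v ^ β) / 2) ^ β₂ *
      ((Real.exp (-S.e) ^ β₂) ^ (N - N₁)) ^ β := by
        rw [mul_pow, mul_pow _ ((u ^ β + v ^ β) / 2)]
        simp only [← pow_mul]
        congr 2; ring
    _ ≤ ((1 + x₁) * p ^ (N - N₁) * (1 + ya + yb)) ^ β₂ * ((1 + y₁) * S.oaT N₁ β₂) ^ β *
      (S.lam β₂ ^ (N - N₁)) ^ β := by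
        gcongr ?_ * ?_ * (?_ ^ _) ^ _
        exact (OA.mean_pow_le hu0.le hv0.le hβ hb).trans (pow_le_pow_left₀ (by positivity) k3 _)
    _ = ((1 + x₁) * p ^ (N - N₁) * (1 + ya + yb)) ^ β₂ * (1 + y₁) ^ β * S.oaT N β₂ ^ β := by
        rw [S.oa_T_shift (by omega : 2 ≤ N₁) hn, mul_pow (1 + y₁), mul_pow (S.oaT N₁ β₂)]; ring
    _ ≤ Q * (1 - ya₂ - yb₂) ^ β * S.oaT N β₂ ^ β :=
        mul_le_mul_of_nonneg_right h (pow_nonneg hT2 _)
    _ = Q * ((1 - ya₂ - yb₂) * S.oaT N β₂) ^ β := by rw [mul_pow]; ring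
    _ ≤ Q * S.Zo τ N β₂ ^ β := by gcongr

theorem oa_rat_nonneg (h1 : S.Rat N β β₂ Q) (hN : 2 ≤ N) : 0 ≤ Q := by
  have h := (pow_pos (S.oa_Zo_pos hN true β) β₂).trans_le (h1 true)
  exact ((mul_pos_iff_of_pos_right (pow_pos (S.oa_Zo_pos hN true β₂) β)).1 h).le

theorem al_rat1 (h1 : S.Rat N β β₂ Q) (hN : 2 ≤ N) (hβ : 1 ≤ β) (hb : β < β₂) (hx : 0 ≤ x)
    (h : Q ≤ (1 + x) ^ (β₂ - β)) : S.Al N β x := by
  have _ := hβ
  intro τ
  have hQ := oa_rat_nonneg h1 hN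
  have hZ := S.oa_Zo_pos hN τ β
  have hZ2 := S.oa_Zo_pos hN τ β₂
  have k1 := OA.ts_decay (S.tso τ N hN) (β := β) (β' := β₂) (by exact_mod_cast hb.le)
  refine le_of_pow_le_pow_left₀ (n := β₂ - β) (by omega) (by positivity) ?_
  refine le_of_mul_le_mul_right ?_ (pow_pos hZ β)
  calc S.Zo τ N β ^ (β₂ - β) * S.Zo τ N β ^ β = S.Zo τ N β ^ β₂ := by
        rw [← pow_add]; congr 1; omega
    _ ≤ Q * S.Zo τ N β₂ ^ β := h1 τ
    _ ≤ (1 + x) ^ (β₂ - β) * (S.Zo τ N β * Real.exp (-((β₂ : ℝ) - β) * S.Eo τ N)) ^ β := by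
        gcongr
    _ = _ := by
        rw [mul_pow, mul_pow, ← Real.exp_nat_mul, ← Real.exp_nat_mul, Nat.cast_sub hb.le,
          show (β : ℝ) * (-((β₂ : ℝ) - β) * S.Eo τ N) = (β₂ - β) * (-(β : ℝ) * S.Eo τ N) by ring]
        ring

theorem al_rat2 (h1 : S.Rat N β β₂ Q) (h2 : S.Al N β₂ x₂) (hN : 2 ≤ N) (hβ : 1 ≤ β)
    (hb : β ≤ β₂) (hx : 0 ≤ x) (h : Q * (1 + x₂) ^ β ≤ (1 + x) ^ β₂) : S.Al N β x := by
  intro τ
  have hQ := oa_rat_nonneg h1 hN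
  have hZ2 := S.oa_Zo_pos hN τ β₂
  have k := h2 τ
  refine le_of_pow_le_pow_left₀ (n := β₂) (by omega) (by positivity) ?_
  calc S.Zo τ N β ^ β₂ ≤ Q * S.Zo τ N β₂ ^ β := h1 τ
    _ ≤ Q * ((1 + x₂) * Real.exp (-(β₂ : ℝ) * S.Eo τ N)) ^ β := by gcongr
    _ = Q * (1 + x₂) ^ β * Real.exp (-(β : ℝ) * S.Eo τ N) ^ β₂ := by
        rw [mul_pow, ← Real.exp_nat_mul, ← Real.exp_nat_mul,
          show (β : ℝ) * (-(β₂ : ℝ) * S.Eo τ N) = β₂ * (-(β : ℝ) * S.Eo τ N) by ring]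
        ring
    _ ≤ (1 + x) ^ β₂ * Real.exp (-(β : ℝ) * S.Eo τ N) ^ β₂ := by gcongr
    _ = _ := by rw [mul_pow]

theorem gap_al (h1 : S.Al N β x) (hβ : 1 ≤ β) (γ : ℝ) (h : x < Real.exp (-γ * β)) :
    GapAt (S.Zo true N) (S.Eo true N) γ :=
  ⟨β, oa_cast_pos hβ, (h1 true).trans_lt
    (mul_lt_mul_of_pos_right (by linarith) (Real.exp_pos _))⟩

theorem du_enc (u : ℚ) (h1 : EncD S.Eo (true, N, u)) (h2 : EncD S.Eo (false, N, u))
    (h : g ≤ Real.exp (-(u : ℝ))) : S.Du N g := by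
  intro τ
  refine h.trans (Real.exp_le_exp.2 ?_)
  unfold EncD at h1 h2
  cases τ
  · simp only at h2; linarith
  · simp only at h1; linarith

/-- filter bound for the weight of the top atom: `q(μ) = μ² (μ-a)² (μ-b)²`, `a, b < 1`.
`lo k ≤ W(k+2) exp(β (k+2) ev) ≤ hi k`. -/
theorem c0_filter (lo hi : ℕ → ℝ) (hβ : 1 ≤ β)
    (hW : ∀ k, 2 ≤ k → k ≤ 6 →
      lo k ≤ (S.Zo true (k + 2) β + S.Zo false (k + 2) β) / 2 * Real.exp (β * (k + 2 : ℕ) * (ev : ℝ)) ∧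
      (S.Zo true (k + 2) β + S.Zo false (k + 2) β) / 2 * Real.exp (β * (k + 2 : ℕ) * (ev : ℝ)) ≤ hi k)
    (ha : a < 1) (hb : b < 1) (hc : 0 ≤ c)
    (h : hi 6 + max (-2 * (a + b) * lo 5) (-2 * (a + b) * hi 5) +
      max (((a + b) ^ 2 + 2 * a * b) * lo 4) (((a + b) ^ 2 + 2 * a * b) * hi 4) +
      max (-2 * a * b * (a + b) * lo 3) (-2 * a * b * (a + b) * hi 3) + (a * b) ^ 2 * hi 2 ≤
        c * ((1 - a) ^ 2 * (1 - b) ^ 2)) : S.C0 β c := by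
  have _ := hc
  have hβ' := oa_cast_pos hβ
  have G := S.fam_good β hβ'
  set s := Real.exp (β * (ev : ℝ)) with hs
  have hs0 : 0 < s := Real.exp_pos _
  set w : ℕ → ℝ := fun k => (S.Zo true (k + 2) β + S.Zo false (k + 2) β) / 2 *
    Real.exp (β * (k + 2 : ℕ) * (ev : ℝ)) with hw
  have hsum : ∀ k, 1 ≤ k → HasSum (fun i => s ^ 2 * ((S.fam β).cA i * ((S.fam β).μA i * s) ^ k +
      (S.fam β).cE i * ((S.fam β).μE i * s) ^ k)) (w k) := by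
    intro k hk
    have h1 := (G.wW k hk).mul_right (Real.exp (β * (k + 2 : ℕ) * (ev : ℝ)))
    have e : Real.exp (β * (k + 2 : ℕ) * (ev : ℝ)) = s ^ (k + 2) := by
      rw [hs, ← Real.exp_nat_mul]; congr 1; ring
    refine h1.congr' (Filter.Eventually.of_forall fun t => Finset.sum_congr rfl fun i _ => ?_)
    beta_reduce
    rw [e, mul_pow, mul_pow]; ring
  set qf : ℝ → ℝ := fun ν => ν ^ 2 * (ν - a) ^ 2 * (ν - b) ^ 2 with hq
  have hq0 : ∀ ν, 0 ≤ qf ν := fun ν => by simp only [hq]; positivity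
  have hS : HasSum (fun i => s ^ 2 * ((S.fam β).cA i * qf ((S.fam β).μA i * s) +
      (S.fam β).cE i * qf ((S.fam β).μE i * s)))
      (w 6 + -2 * (a + b) * w 5 + ((a + b) ^ 2 + 2 * a * b) * w 4 + -2 * a * b * (a + b) * w 3 +
        (a * b) ^ 2 * w 2) := by
    have h1 := (((((hsum 6 (by norm_num)).add ((hsum 5 (by norm_num)).mul_left (-2 * (a + b)))).add
      ((hsum 4 (by norm_num)).mul_left ((a + b) ^ 2 + 2 * a * b))).add
      ((hsum 3 (by norm_num)).mul_left (-2 * a * b * (a + b)))).add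
      ((hsum 2 (by norm_num)).mul_left ((a * b) ^ 2)))
    refine h1.congr' (Filter.Eventually.of_forall fun t => Finset.sum_congr rfl fun i _ => ?_)
    simp only [hq]
    ring
  have hmax : ∀ k κ, 2 ≤ k → k ≤ 6 → κ * w k ≤ max (κ * lo k) (κ * hi k) := by
    intro k κ h1 h2
    rcases le_total 0 κ with h0 | h0
    · exact le_max_of_le_right (mul_le_mul_of_nonneg_left (hW k h1 h2).2 h0)
    · exact le_max_of_le_left (mul_le_mul_of_nonpos_left (hW k h1 h2).1 h0)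
  have hup : w 6 + -2 * (a + b) * w 5 + ((a + b) ^ 2 + 2 * a * b) * w 4 +
      -2 * a * b * (a + b) * w 3 + (a * b) ^ 2 * w 2 ≤ c * ((1 - a) ^ 2 * (1 - b) ^ 2) := by
    have a6 : w 6 ≤ hi 6 := (hW 6 (by norm_num) (by norm_num)).2
    have a2 : (a * b) ^ 2 * w 2 ≤ (a * b) ^ 2 * hi 2 :=
      mul_le_mul_of_nonneg_left (hW 2 (by norm_num) (by norm_num)).2 (sq_nonneg _)
    have a5 := hmax 5 (-2 * (a + b)) (by norm_num) (by norm_num)
    have a4 := hmax 4 ((a + b) ^ 2 + 2 * a * b) (by norm_num) (by norm_num)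
    have a3 := hmax 3 (-2 * a * b * (a + b)) (by norm_num) (by norm_num)
    linarith
  have hl1 : 1 ≤ S.lam β * s := by
    refine (S.one_le_p β hβ').trans (mul_le_mul_of_nonneg_left ?_ (S.lam_pos _ hβ').le)
    exact Real.exp_le_exp.2 (mul_le_mul_of_nonneg_left S.e_le_ev hβ'.le)
  have hql : (1 - a) ^ 2 * (1 - b) ^ 2 ≤ qf (S.lam β * s) := by
    simp only [hq]
    have a1 : 0 < 1 - a := by linarith
    have a2 : 0 < 1 - b := by linarith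
    calc (1 - a) ^ 2 * (1 - b) ^ 2 = 1 ^ 2 * (1 - a) ^ 2 * (1 - b) ^ 2 := by ring
      _ ≤ _ := by gcongr
  have hlow : S.c0 β * (s ^ 2 * ((1 - a) ^ 2 * (1 - b) ^ 2)) ≤
      c * ((1 - a) ^ 2 * (1 - b) ^ 2) := by
    refine le_trans (hasSum_le (fun i => ?_) ((S.oa_sum_top hβ').hasSum.mul_right _) hS) hup
    have b1 := mul_nonneg (G.cA_nonneg i) (hq0 ((S.fam β).μA i * s))
    have b2 := mul_nonneg (G.cE_nonneg i) (hq0 ((S.fam β).μE i * s))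
    have b3 := mul_le_mul_of_nonneg_left hql (G.cA_nonneg i)
    have b4 := mul_le_mul_of_nonneg_left hql (G.cE_nonneg i)
    rw [mul_left_comm]
    refine mul_le_mul_of_nonneg_left ?_ (by positivity)
    unfold oaTop
    split_ifs with h1 h2 h2
    · rw [h1, h2]; linarith
    · rw [h1]; linarith
    · rw [h2]; linarith
    · linarith
  have hpos : 0 < (1 - a) ^ 2 * (1 - b) ^ 2 := by
    have a1 : 0 < 1 - a := by linarith
    have a2 : 0 < 1 - b := by linarith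
    positivity
  unfold C0
  refine le_of_mul_le_mul_right ?_ hpos
  have e : Real.exp (2 * β * (ev : ℝ)) = s ^ 2 := by
    rw [hs, ← Real.exp_nat_mul]; congr 1; push_cast; ring
  rw [e, mul_assoc]
  exact hlow

end Sys
end Crest.Agent.R347
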