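import Crest.Agent.R347.BootRing

/-! Row 347: auxiliary facts for the open-chain rules (helper66). -/

set_option autoImplicit false

namespace Crest.Agent.R347
namespace OA

/-- monotonicity of `ℓ^p` norms, integer exponents -/
theorem sum_pow_pow_le {ι : Type*} (s : Finset ι) (u : ι → ℝ) (hu : ∀ i ∈ s, 0 ≤ u i)
    {a b : ℕ} (ha : 1 ≤ a) (hab : a ≤ b) :
    (∑ i ∈ s, u i ^ b) ^ a ≤ (∑ i ∈ s, u i ^ a) ^ b := by
  set σ := ∑ i ∈ s, u i ^ a with hσ
  have hσ0 : 0 ≤ σ := Finset.sum_nonneg fun i hi => pow_nonneg (hu i hi) _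
  set t := σ ^ ((a : ℝ)⁻¹) with ht
  have ht0 : 0 ≤ t := Real.rpow_nonneg hσ0 _
  have hta : t ^ a = σ := Real.rpow_inv_natCast_pow hσ0 (by omega)
  have hut : ∀ i ∈ s, u i ≤ t := by
    intro i hi
    refine le_of_pow_le_pow_left₀ (n := a) (by omega) ht0 ?_
    rw [hta]
    exact Finset.single_le_sum (f := fun i => u i ^ a) (fun j hj => pow_nonneg (hu j hj) _) hi
  obtain ⟨d, rfl⟩ := Nat.exists_eq_add_of_le hab
  have h1 : ∑ i ∈ s, u i ^ (a + d) ≤ σ * t ^ d := by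
    rw [hσ, Finset.sum_mul]
    refine Finset.sum_le_sum fun i hi => ?_
    rw [pow_add]
    exact mul_le_mul_of_nonneg_left (pow_le_pow_left₀ (hu i hi) (hut i hi) _)
      (pow_nonneg (hu i hi) _)
  calc (∑ i ∈ s, u i ^ (a + d)) ^ a ≤ (σ * t ^ d) ^ a :=
        pow_le_pow_left₀ (Finset.sum_nonneg fun i hi => pow_nonneg (hu i hi) _) h1 _
    _ = σ ^ (a + d) := by rw [mul_pow, ← pow_mul, mul_comm d a, pow_mul, hta, pow_add]

/-- two-point power mean inequality, integer exponents -/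
theorem mean_pow_le {u v : ℝ} (hu : 0 ≤ u) (hv : 0 ≤ v) {a b : ℕ} (ha : 1 ≤ a) (hab : a ≤ b) :
    ((u ^ a + v ^ a) / 2) ^ b ≤ ((u ^ b + v ^ b) / 2) ^ a := by
  have ha' : (0 : ℝ) < a := by exact_mod_cast ha
  have hr : (1 : ℝ) ≤ (b : ℝ) / a := by
    rw [le_div_iff₀ ha', one_mul]; exact_mod_cast hab
  have key : ∀ w : ℝ, 0 ≤ w → (w ^ a) ^ ((b : ℝ) / a) = w ^ b := by
    intro w hw
    rw [← Real.rpow_natCast, ← Real.rpow_mul hw, mul_div_cancel₀ _ ha'.ne', Real.rpow_natCast]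
  have hc := (convexOn_rpow hr).2 (Set.mem_Ici.2 (pow_nonneg hu a)) (Set.mem_Ici.2 (pow_nonneg hv a))
    (by norm_num : (0 : ℝ) ≤ 1 / 2) (by norm_num : (0 : ℝ) ≤ 1 / 2) (by norm_num)
  simp only [smul_eq_mul] at hc
  rw [key u hu, key v hv] at hc
  have h0 : 0 ≤ (u ^ a + v ^ a) / 2 := by positivity
  have e1 : ((u ^ a + v ^ a) / 2) ^ b = (((u ^ a + v ^ a) / 2) ^ ((b : ℝ) / a)) ^ a := by
    rw [← Real.rpow_natCast (((u ^ a + v ^ a) / 2) ^ ((b : ℝ) / a)) a, ← Real.rpow_mul h0,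
      div_mul_cancel₀ _ ha'.ne', Real.rpow_natCast]
  rw [e1]
  refine pow_le_pow_left₀ (Real.rpow_nonneg h0 _) ?_ _
  have e2 : (u ^ a + v ^ a) / 2 = 1 / 2 * u ^ a + 1 / 2 * v ^ a := by ring
  rw [e2]
  linarith

theorem exp_nat (E : ℝ) (n : ℕ) : Real.exp (-(n : ℝ) * E) = Real.exp (-E) ^ n := by
  rw [← Real.exp_nat_mul]; congr 1; ring

variable {f : ℝ → ℝ} {E0 : ℝ}

theorem ts_ge (h : TS f E0) (β : ℝ) : Real.exp (-β * E0) ≤ f β := by
  obtain ⟨n, E, -, hf⟩ := h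
  rw [hf]
  have : 0 ≤ ∑ j, Real.exp (-β * E j) := Finset.sum_nonneg fun j _ => (Real.exp_pos _).le
  linarith

theorem ts_pos (h : TS f E0) (β : ℝ) : 0 < f β :=
  (Real.exp_pos _).trans_le (ts_ge h β)

theorem ts_pow (h : TS f E0) {a b : ℕ} (ha : 1 ≤ a) (hab : a ≤ b) :
    f b ^ a ≤ f a ^ b := by
  obtain ⟨n, E, -, hf⟩ := h
  have key : ∀ k : ℕ, f k = ∑ o : Option (Fin n),
      (Real.exp (-(o.elim E0 E))) ^ k := by
    intro k
    rw [hf, Fintype.sum_option]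
    simp only [Option.elim_none, Option.elim_some, exp_nat]
  rw [key, key]
  exact sum_pow_pow_le _ _ (fun i _ => (Real.exp_pos _).le) ha hab

theorem ts_tail_pow (h : TS f E0) {a b : ℕ} (ha : 1 ≤ a) (hab : a ≤ b) {x y : ℝ} (hy : 0 ≤ y)
    (h1 : f a ≤ (1 + x) * Real.exp (-(a : ℝ) * E0)) (hxy : x ^ b ≤ y ^ a) :
    f b ≤ (1 + y) * Real.exp (-(b : ℝ) * E0) := by
  obtain ⟨n, E, -, hf⟩ := h
  have key : ∀ k : ℕ, f k = (1 + ∑ j, Real.exp (E0 - E j) ^ k) * Real.exp (-(k : ℝ) * E0) := by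
    intro k
    rw [hf, add_mul, one_mul, Finset.sum_mul]
    congr 1
    refine Finset.sum_congr rfl fun j _ => ?_
    rw [← Real.exp_nat_mul, ← Real.exp_add]; congr 1; ring
  rw [key] at h1 ⊢
  have h2 : ∑ j, Real.exp (E0 - E j) ^ a ≤ x := by
    have := le_of_mul_le_mul_right h1 (Real.exp_pos _)
    linarith
  have h3 := sum_pow_pow_le Finset.univ (fun j => Real.exp (E0 - E j))
    (fun i _ => (Real.exp_pos _).le) ha hab
  have h4 : ∑ j, Real.exp (E0 - E j) ^ b ≤ y := by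
    refine le_of_pow_le_pow_left₀ (n := a) (by omega) hy (h3.trans (le_trans ?_ hxy))
    exact pow_le_pow_left₀ (Finset.sum_nonneg fun j _ => by positivity) h2 _
  exact mul_le_mul_of_nonneg_right (by linarith) (Real.exp_pos _).le

theorem ts_decay (h : TS f E0) {β β' : ℝ} (hb : β ≤ β') :
    f β' ≤ f β * Real.exp (-(β' - β) * E0) := by
  obtain ⟨n, E, hE, hf⟩ := h
  rw [hf, hf, add_mul, Finset.sum_mul]
  refine add_le_add (le_of_eq ?_) (Finset.sum_le_sum fun j _ => ?_)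
  · rw [← Real.exp_add]; congr 1; ring
  · rw [← Real.exp_add]
    refine Real.exp_le_exp.2 ?_
    nlinarith [hE j]

theorem exp_four_le : Real.exp 4 ≤ 55 := by
  have h : Real.exp 4 = Real.exp 1 ^ 4 := by rw [← Real.exp_nat_mul]; norm_num
  rw [h]
  calc Real.exp 1 ^ 4 ≤ (2.7182818286 : ℝ) ^ 4 :=
        pow_le_pow_left₀ (Real.exp_pos _).le Real.exp_one_lt_d9.le _
    _ ≤ 55 := by norm_num

end OA

namespace Sys
open Classical
variable (S : Sys)

/-- symmetric part of the open-chain partition functions -/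
noncomputable def oaW (N : ℕ) (β : ℝ) : ℝ := (S.Zo true N β + S.Zo false N β) / 2
/-- antisymmetric part -/
noncomputable def oaB (N : ℕ) (β : ℝ) : ℝ := (S.Zo false N β - S.Zo true N β) / 2
/-- top term -/
noncomputable def oaT (N : ℕ) (β : ℝ) : ℝ := S.c0 β * S.lam β ^ (N - 2)

noncomputable def oaTop (β : ℝ) (i : ℕ) : ℝ :=
  (if (S.fam β).μA i = S.lam β then (S.fam β).cA i else 0) +
    (if (S.fam β).μE i = S.lam β then (S.fam β).cE i else 0)
noncomputable def oaRest (k : ℕ) (β : ℝ) (i : ℕ) : ℝ :=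
  (if (S.fam β).μA i = S.lam β then 0 else (S.fam β).cA i * |(S.fam β).μA i| ^ k) +
    (if (S.fam β).μE i = S.lam β then 0 else (S.fam β).cE i * |(S.fam β).μE i| ^ k)

theorem oa_c0_eq (β : ℝ) : S.c0 β = ∑' i, S.oaTop β i := rfl
theorem oa_restA_eq (N : ℕ) (β : ℝ) : S.restA N β = ∑' i, S.oaRest (N - 2) β i := rfl

variable {β : ℝ} {N N' k : ℕ}

theorem oa_hasW (hβ : 0 < β) (hN : 3 ≤ N) :
    HasSum (fun i => (S.fam β).cA i * (S.fam β).μA i ^ (N - 2) +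
      (S.fam β).cE i * (S.fam β).μE i ^ (N - 2)) (S.oaW N β) := by
  have h := (S.fam_good β hβ).wW (N - 2) (by omega)
  have e : N - 2 + 2 = N := by omega
  simp only [e] at h
  exact h

theorem oa_hasB (hβ : 0 < β) (hN : 3 ≤ N) :
    HasSum (fun i => (S.fam β).c1 i * (S.fam β).μ1 i ^ (N - 2)) (S.oaB N β) := by
  have h := (S.fam_good β hβ).wB (N - 2) (by omega)
  have e : N - 2 + 2 = N := by omega
  simp only [e] at h
  exact h

theorem oa_sumA (hβ : 0 < β) (hk : 1 ≤ k) :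
    Summable fun i => (S.fam β).cA i * |(S.fam β).μA i| ^ k := by
  have h := ((S.fam_good β hβ).wA k hk).abs
  refine h.congr fun i => ?_
  rw [abs_mul, abs_pow, abs_of_nonneg ((S.fam_good β hβ).cA_nonneg i)]

theorem oa_sumE (hβ : 0 < β) (hk : 1 ≤ k) :
    Summable fun i => (S.fam β).cE i * |(S.fam β).μE i| ^ k := by
  have h := (((S.fam_good β hβ).wW k hk).summable.sub ((S.fam_good β hβ).wA k hk)).abs
  refine h.congr fun i => ?_
  rw [add_sub_cancel_left, abs_mul, abs_pow, abs_of_nonneg ((S.fam_good β hβ).cE_nonneg i)]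

theorem oa_sum1 (hβ : 0 < β) (hk : 1 ≤ k) :
    Summable fun i => (S.fam β).c1 i * |(S.fam β).μ1 i| ^ k := by
  have h := ((S.fam_good β hβ).wB k hk).summable.abs
  refine h.congr fun i => ?_
  rw [abs_mul, abs_pow, abs_of_nonneg ((S.fam_good β hβ).c1_nonneg i)]

theorem oa_top_nonneg (hβ : 0 < β) (i : ℕ) : 0 ≤ S.oaTop β i := by
  have h1 := (S.fam_good β hβ).cA_nonneg i
  have h2 := (S.fam_good β hβ).cE_nonneg i
  unfold oaTop
  split_ifs <;> linarith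

theorem oa_rest_nonneg (hβ : 0 < β) (k i : ℕ) : 0 ≤ S.oaRest k β i := by
  have h1 := mul_nonneg ((S.fam_good β hβ).cA_nonneg i) (pow_nonneg (abs_nonneg ((S.fam β).μA i)) k)
  have h2 := mul_nonneg ((S.fam_good β hβ).cE_nonneg i) (pow_nonneg (abs_nonneg ((S.fam β).μE i)) k)
  unfold oaRest
  split_ifs <;> linarith

theorem oa_split (hβ : 0 < β) (k i : ℕ) :
    S.oaTop β i * S.lam β ^ k + S.oaRest k β i =
      (S.fam β).cA i * |(S.fam β).μA i| ^ k + (S.fam β).cE i * |(S.fam β).μE i| ^ k := by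
  have hl := abs_of_pos (S.lam_pos β hβ)
  unfold oaTop oaRest
  split_ifs with h1 h2 h2
  · rw [h1, h2, hl]; ring
  · rw [h1, hl]; ring
  · rw [h2, hl]; ring
  · ring

theorem oa_sum_rest (hβ : 0 < β) (hk : 1 ≤ k) : Summable (S.oaRest k β) := by
  refine Summable.of_nonneg_of_le (S.oa_rest_nonneg hβ k) (fun i => ?_)
    ((S.oa_sumA hβ hk).add (S.oa_sumE hβ hk))
  rw [← S.oa_split hβ]
  have := mul_nonneg (S.oa_top_nonneg hβ i) (pow_nonneg (S.lam_pos β hβ).le k)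
  linarith

theorem oa_sum_top (hβ : 0 < β) : Summable (S.oaTop β) := by
  have hl := S.lam_pos β hβ
  have h : Summable fun i => S.oaTop β i * S.lam β ^ 1 := by
    refine Summable.of_nonneg_of_le
      (fun i => mul_nonneg (S.oa_top_nonneg hβ i) (pow_nonneg hl.le _)) (fun i => ?_)
      ((S.oa_sumA hβ le_rfl).add (S.oa_sumE hβ le_rfl))
    rw [← S.oa_split hβ]
    have := S.oa_rest_nonneg hβ 1 i
    linarith
  have h2 := h.mul_right (S.lam β)⁻¹
  refine h2.congr fun i => ?_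
  field_simp

theorem oa_c0_nonneg (hβ : 0 < β) : 0 ≤ S.c0 β := tsum_nonneg (S.oa_top_nonneg hβ)
theorem oa_restA_nonneg (hβ : 0 < β) (N : ℕ) : 0 ≤ S.restA N β :=
  tsum_nonneg (S.oa_rest_nonneg hβ _)
theorem oa_restB_nonneg (hβ : 0 < β) (N : ℕ) : 0 ≤ S.restB N β :=
  tsum_nonneg fun i =>
    mul_nonneg ((S.fam_good β hβ).c1_nonneg i) (pow_nonneg (abs_nonneg _) _)
theorem oa_T_nonneg (hβ : 0 < β) (N : ℕ) : 0 ≤ S.oaT N β :=
  mul_nonneg (S.oa_c0_nonneg hβ) (pow_nonneg (S.lam_pos β hβ).le _)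

theorem oa_hasT (hβ : 0 < β) (N : ℕ) :
    HasSum (fun i => S.oaTop β i * S.lam β ^ (N - 2)) (S.oaT N β) :=
  (S.oa_sum_top hβ).hasSum.mul_right _

theorem oa_hasRest (hβ : 0 < β) (hN : 3 ≤ N) : HasSum (S.oaRest (N - 2) β) (S.restA N β) :=
  (S.oa_sum_rest hβ (by omega)).hasSum

theorem oa_term_abs (hβ : 0 < β) (k i : ℕ) :
    |(S.fam β).cA i * (S.fam β).μA i ^ k + (S.fam β).cE i * (S.fam β).μE i ^ k -
      S.oaTop β i * S.lam β ^ k| ≤ S.oaRest k β i := by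
  have a1 : |(S.fam β).cA i * (S.fam β).μA i ^ k| = (S.fam β).cA i * |(S.fam β).μA i| ^ k := by
    rw [abs_mul, abs_pow, abs_of_nonneg ((S.fam_good β hβ).cA_nonneg i)]
  have a2 : |(S.fam β).cE i * (S.fam β).μE i ^ k| = (S.fam β).cE i * |(S.fam β).μE i| ^ k := by
    rw [abs_mul, abs_pow, abs_of_nonneg ((S.fam_good β hβ).cE_nonneg i)]
  unfold oaTop oaRest
  split_ifs with h1 h2 h2
  · rw [h1, h2]; ring_nf; simp
  · rw [← a2, h1]; ring_nf; exact le_rfl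
  · rw [← a1, h2]; ring_nf; exact le_rfl
  · rw [← a1, ← a2]; ring_nf; exact abs_add_le _ _

theorem oa_W_abs (hβ : 0 < β) (hN : 3 ≤ N) : |S.oaW N β - S.oaT N β| ≤ S.restA N β := by
  have h := (S.oa_hasW hβ hN).sub (S.oa_hasT hβ N)
  have hr := S.oa_hasRest hβ hN
  rw [abs_le]
  constructor
  · have := hasSum_le (fun i => (abs_le.1 (S.oa_term_abs hβ (N - 2) i)).1) hr.neg h
    exact this
  · exact hasSum_le (fun i => (abs_le.1 (S.oa_term_abs hβ (N - 2) i)).2) h hr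

theorem oa_W_le (hβ : 0 < β) (hN : 3 ≤ N) : S.oaW N β ≤ S.oaT N β + S.restA N β := by
  have := (abs_le.1 (S.oa_W_abs hβ hN)).2; linarith

theorem oa_le_W (hβ : 0 < β) (hN : 3 ≤ N) : S.oaT N β - S.restA N β ≤ S.oaW N β := by
  have := (abs_le.1 (S.oa_W_abs hβ hN)).1; linarith

theorem oa_W_even (hβ : 0 < β) (hN : EK N) : S.oaW N β = S.oaT N β + S.restA N β := by
  obtain ⟨h2, h6⟩ := hN
  have he : Even (N - 2) := Nat.even_iff.2 (by omega)
  have h := (S.oa_hasT hβ N).add (S.oa_hasRest hβ (by omega : 3 ≤ N))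
  refine (S.oa_hasW hβ (by omega)).unique (h.congr' ?_)
  refine Filter.Eventually.of_forall fun s => Finset.sum_congr rfl fun i _ => ?_
  beta_reduce
  rw [S.oa_split hβ, he.pow_abs, he.pow_abs]

theorem oa_B_abs (hβ : 0 < β) (hN : 3 ≤ N) : |S.oaB N β| ≤ S.restB N β := by
  have h := S.oa_hasB hβ hN
  have hr : HasSum _ (S.restB N β) := (S.oa_sum1 hβ (by omega : 1 ≤ N - 2)).hasSum
  have a1 : ∀ i, |(S.fam β).c1 i * (S.fam β).μ1 i ^ (N - 2)| ≤
      (S.fam β).c1 i * |(S.fam β).μ1 i| ^ (N - 2) := fun i => by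
    rw [abs_mul, abs_pow, abs_of_nonneg ((S.fam_good β hβ).c1_nonneg i)]
  rw [abs_le]
  exact ⟨hasSum_le (fun i => (abs_le.1 (a1 i)).1) hr.neg h,
    hasSum_le (fun i => (abs_le.1 (a1 i)).2) h hr⟩

theorem oa_B_even (hβ : 0 < β) (hN : EK N) : S.restB N β = S.oaB N β := by
  obtain ⟨h2, h6⟩ := hN
  have he : Even (N - 2) := Nat.even_iff.2 (by omega)
  rw [← (S.oa_hasB hβ (by omega : 3 ≤ N)).tsum_eq]
  unfold restB
  simp only [he.pow_abs]

theorem oa_Zo_le (hβ : 0 < β) (hN : 3 ≤ N) (τ : Bool) :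
    S.Zo τ N β ≤ S.oaT N β + S.restA N β + S.restB N β := by
  have h1 := S.oa_W_le hβ hN
  have h2 := abs_le.1 (S.oa_B_abs hβ hN)
  unfold oaW at h1; unfold oaB at h2
  cases τ <;> linarith [h2.1, h2.2]

theorem oa_le_Zo (hβ : 0 < β) (hN : 3 ≤ N) (τ : Bool) :
    S.oaT N β - S.restA N β - S.restB N β ≤ S.Zo τ N β := by
  have h1 := S.oa_le_W hβ hN
  have h2 := abs_le.1 (S.oa_B_abs hβ hN)
  unfold oaW at h1; unfold oaB at h2
  cases τ <;> linarith [h2.1, h2.2]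

theorem oa_Zo_pos (hN : 2 ≤ N) (τ : Bool) (β : ℝ) : 0 < S.Zo τ N β :=
  OA.ts_pos (S.tso τ N hN) β

theorem oa_W_pos (hN : 2 ≤ N) (β : ℝ) : 0 < S.oaW N β := by
  have h1 := S.oa_Zo_pos hN true β
  have h2 := S.oa_Zo_pos hN false β
  unfold oaW; linarith

theorem oa_restA_le_W (hβ : 0 < β) (hN : EK N) : S.restA N β ≤ S.oaW N β := by
  rw [S.oa_W_even hβ hN]; linarith [S.oa_T_nonneg hβ N]

theorem oa_T_le_W (hβ : 0 < β) (hN : EK N) : S.oaT N β ≤ S.oaW N β := by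
  rw [S.oa_W_even hβ hN]; linarith [S.oa_restA_nonneg hβ N]

theorem oa_restB_le_W (hβ : 0 < β) (hN : EK N) : S.restB N β ≤ S.oaW N β := by
  rw [S.oa_B_even hβ hN]
  have := S.oa_Zo_pos (by have := hN.2; omega : 2 ≤ N) true β
  unfold oaW oaB; linarith

theorem oa_restA_decay (hβ : 0 < β) (hN : 3 ≤ N) (hn : N ≤ N') {M : ℝ}
    (hA : ∀ i, ((S.fam β).μA i ≠ S.lam β → |(S.fam β).μA i| ≤ M) ∧
      ((S.fam β).μE i ≠ S.lam β → |(S.fam β).μE i| ≤ M)) :
    S.restA N' β ≤ S.restA N β * M ^ (N' - N) := by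
  refine hasSum_le (fun i => ?_) (S.oa_hasRest hβ (hN.trans hn)) ((S.oa_hasRest hβ hN).mul_right _)
  have e : N' - 2 = (N - 2) + (N' - N) := by omega
  have key : ∀ c μ : ℝ, 0 ≤ c → |μ| ≤ M → c * |μ| ^ (N' - 2) ≤ c * |μ| ^ (N - 2) * M ^ (N' - N) := by
    intro c μ hc hμ
    rw [e, pow_add, ← mul_assoc]
    exact mul_le_mul_of_nonneg_left (pow_le_pow_left₀ (abs_nonneg _) hμ _) (by positivity)
  have k1 := fun h => key _ _ ((S.fam_good β hβ).cA_nonneg i) ((hA i).1 h)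
  have k2 := fun h => key _ _ ((S.fam_good β hβ).cE_nonneg i) ((hA i).2 h)
  unfold oaRest
  split_ifs with h1 h2 h2
  · simp
  · have := k2 h2; linarith
  · have := k1 h1; linarith
  · have := k1 h1; have := k2 h2; linarith

theorem oa_restB_decay (hβ : 0 < β) (hN : 3 ≤ N) (hn : N ≤ N') {M : ℝ}
    (hB : ∀ i, |(S.fam β).μ1 i| ≤ M) :
    S.restB N' β ≤ S.restB N β * M ^ (N' - N) := by
  refine hasSum_le (fun i => ?_) (S.oa_sum1 hβ (by omega : 1 ≤ N' - 2)).hasSum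
    ((S.oa_sum1 hβ (by omega : 1 ≤ N - 2)).hasSum.mul_right _)
  have e : N' - 2 = (N - 2) + (N' - N) := by omega
  rw [e, pow_add, ← mul_assoc]
  exact mul_le_mul_of_nonneg_left (pow_le_pow_left₀ (abs_nonneg _) (hB i) _)
    (mul_nonneg ((S.fam_good β hβ).c1_nonneg i) (by positivity))

theorem oa_T_shift (hN : 2 ≤ N) (hn : N ≤ N') (β : ℝ) :
    S.oaT N' β = S.oaT N β * S.lam β ^ (N' - N) := by
  have e : N' - 2 = (N - 2) + (N' - N) := by omega
  unfold oaT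
  rw [e, pow_add, mul_assoc]

theorem oa_y_of_rel (hβ : 0 < β) (hN : 3 ≤ N) {a b ya yb : ℝ}
    (h1 : S.restA N β ≤ a * S.oaW N β) (h2 : S.restB N β ≤ b * S.oaW N β)
    (hya : 0 ≤ ya) (hyb : 0 ≤ yb) (h : a ≤ ya * (1 - a)) (h' : b ≤ yb * (1 - a)) :
    S.restA N β ≤ ya * S.oaT N β ∧ S.restB N β ≤ yb * S.oaT N β := by
  have hW := (S.oa_W_pos (by omega : 2 ≤ N) β).le
  have h3 : (1 - a) * S.oaW N β ≤ S.oaT N β := by
    have := S.oa_W_le hβ hN
    linarith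
  constructor
  · calc S.restA N β ≤ a * S.oaW N β := h1
      _ ≤ ya * (1 - a) * S.oaW N β := mul_le_mul_of_nonneg_right h hW
      _ = ya * ((1 - a) * S.oaW N β) := by ring
      _ ≤ _ := mul_le_mul_of_nonneg_left h3 hya
  · calc S.restB N β ≤ b * S.oaW N β := h2
      _ ≤ yb * (1 - a) * S.oaW N β := mul_le_mul_of_nonneg_right h' hW
      _ = yb * ((1 - a) * S.oaW N β) := by ring
      _ ≤ _ := mul_le_mul_of_nonneg_left h3 hyb

end Sys
end Crest.Agent.R347
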