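import Crest.Agent.R347.BootRingAux

/-! Row 347: structural facts and derivation rules for the ring. -/

set_option autoImplicit false

namespace Crest.Agent.R347
open BR

/-- atoms of the `D₂`-trivial sector, with multiplicity -/
def Fam.fD (F : Fam) : ℕ ⊕ ℕ ⊕ ℕ ⊕ ℕ → ℝ := Sum.elim F.μA (Sum.elim F.μ2 (Sum.elim F.μE F.μE))
/-- atoms of the two triplet sectors -/
def Fam.fT (F : Fam) : ℕ ⊕ ℕ → ℝ := Sum.elim F.μ1 F.μT
/-- all atoms, with multiplicity -/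
def Fam.fZ (F : Fam) : (ℕ ⊕ ℕ ⊕ ℕ ⊕ ℕ) ⊕ (ℕ ⊕ ℕ) ⊕ (ℕ ⊕ ℕ) ⊕ (ℕ ⊕ ℕ) → ℝ :=
  Sum.elim F.fD (Sum.elim F.fT (Sum.elim F.fT F.fT))

theorem EK.six : EK 6 := by decide
theorem EK.add {K : ℕ} (h : EK K) (k : ℕ) : EK (K + 2 * k) := ⟨by have := h.1; omega, by
  have := h.2; omega⟩
theorem EK.mk' (k : ℕ) : EK (2 * k + 6) := ⟨by omega, by omega⟩
theorem EK.abs_pow {K : ℕ} (h : EK K) (x : ℝ) : |x| ^ K = x ^ K :=
  (Nat.even_iff.2 h.1).pow_abs x
theorem EK.one_le {K : ℕ} (h : EK K) : 1 ≤ K := by have := h.2; omega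
theorem EK.two_le {K : ℕ} (h : EK K) : 2 ≤ K := by have := h.2; omega
theorem EK.ne {K : ℕ} (h : EK K) : K ≠ 0 := by have := h.2; omega
theorem EK.pos {K : ℕ} (h : EK K) : (0 : ℝ) < K := by have := h.2; positivity

namespace Sys
variable (S : Sys)

theorem fam_good (β : ℝ) (hβ : 0 < β) :
    (S.fam β).Good (fun a L => S.Z a L β) (fun τ N => S.Zo τ N β) := by
  obtain ⟨WA, WE, ⟨μA, cA, a0, a1, a2⟩, ⟨μ2, -, -, b1, -⟩, ⟨μE, cE, e0, e1, e2⟩,
    ⟨μ1, c1, t0, t1, t2⟩, ⟨μT, -, -, u1, -⟩, hW⟩ := S.sp β hβ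
  exact Classical.epsilon_spec (p := fun F : Fam =>
    F.Good (fun a L => S.Z a L β) (fun τ N => S.Zo τ N β))
    ⟨⟨μA, cA, μ2, μE, cE, μ1, c1, μT⟩, a0, e0, t0, a1, b1, e1, t1, u1,
      fun k hk => (a2 k hk).summable, fun k hk => hW k hk ▸ (a2 k hk).add (e2 k hk), t2⟩

section aux
variable {β : ℝ} {K K' : ℕ}

/-- weight of the triplet sectors -/
noncomputable def T0 (K : ℕ) (β : ℝ) : ℝ := (S.Z 0 K β - S.Z 6 K β) / 4

theorem Z0_eq (K : ℕ) (β : ℝ) : S.Z 0 K β = S.D0 K β + 3 * S.T0 K β := by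
  unfold D0 T0; ring

theorem Z6_eq (K : ℕ) (β : ℝ) : S.Z 6 K β = S.D0 K β - S.T0 K β := by
  unfold D0 T0; ring

theorem sumD (hβ : 0 < β) (hK : 5 ≤ K) : HasSum (fun i => (S.fam β).fD i ^ K) (S.D0 K β) := by
  have h := S.fam_good β hβ
  have := HasSum.sum (f := fun i => (S.fam β).fD i ^ K) (h.sA K hK) (HasSum.sum (h.s2 K hK)
    (HasSum.sum (h.sE K hK) (h.sE K hK)))
  convert this using 1
  simp only [D0, cA1, cA2, cE]
  ring

theorem sumT (hβ : 0 < β) (hK : 5 ≤ K) : HasSum (fun i => (S.fam β).fT i ^ K) (S.T0 K β) := by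
  have h := S.fam_good β hβ
  have := HasSum.sum (f := fun i => (S.fam β).fT i ^ K) (h.s1 K hK) (h.sT K hK)
  convert this using 1
  simp only [T0, cT1, cT2]
  ring

theorem sumZ (hβ : 0 < β) (hK : 5 ≤ K) : HasSum (fun i => (S.fam β).fZ i ^ K) (S.Z 0 K β) := by
  have := HasSum.sum (f := fun i => (S.fam β).fZ i ^ K) (S.sumD hβ hK) (HasSum.sum (S.sumT hβ hK)
    (HasSum.sum (S.sumT hβ hK) (S.sumT hβ hK)))
  convert this using 1
  rw [Z0_eq]
  ring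

theorem absD (hβ : 0 < β) (hK : EK K) : HasSum (fun i => |(S.fam β).fD i| ^ K) (S.D0 K β) := by
  simpa only [hK.abs_pow] using S.sumD hβ (by have := hK.2; omega)

theorem absT (hβ : 0 < β) (hK : EK K) : HasSum (fun i => |(S.fam β).fT i| ^ K) (S.T0 K β) := by
  simpa only [hK.abs_pow] using S.sumT hβ (by have := hK.2; omega)

theorem absZ (hβ : 0 < β) (hK : EK K) : HasSum (fun i => |(S.fam β).fZ i| ^ K) (S.Z 0 K β) := by
  simpa only [hK.abs_pow] using S.sumZ hβ (by have := hK.2; omega)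

theorem D0_nonneg (hβ : 0 < β) (hK : EK K) : 0 ≤ S.D0 K β :=
  (S.absD hβ hK).nonneg fun _ => by positivity

theorem T0_nonneg (hβ : 0 < β) (hK : EK K) : 0 ≤ S.T0 K β :=
  (S.absT hβ hK).nonneg fun _ => by positivity

theorem Z_pos (hK : EK K) (β : ℝ) : 0 < S.Z 0 K β := ts_pos (S.ts0 K hK.two_le) β

theorem lam_nonneg (β : ℝ) : 0 ≤ S.lam β :=
  le_ciInf fun k => Real.rpow_nonneg (S.Z_pos (.mk' k) β).le _

theorem lam_pow_le (hK : EK K) (β : ℝ) : S.lam β ^ K ≤ S.Z 0 K β := by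
  obtain ⟨k, rfl⟩ : ∃ k, K = 2 * k + 6 := ⟨(K - 6) / 2, by have := hK.1; have := hK.2; omega⟩
  have := ciInf_le (f := fun k : ℕ => S.Z 0 (2 * k + 6) β ^ (1 / ((2 * k + 6 : ℕ) : ℝ)))
    ⟨0, by rintro _ ⟨k, rfl⟩; exact Real.rpow_nonneg (S.Z_pos (.mk' k) β).le _⟩ k
  refine (pow_le_pow_left₀ (S.lam_nonneg β) this _).trans_eq ?_
  rw [one_div, Real.rpow_inv_natCast_pow (S.Z_pos hK β).le hK.ne]

theorem fZ_le (hβ : 0 < β) (i) : |(S.fam β).fZ i| ≤ S.lam β := by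
  refine le_ciInf fun k => le_of_pow_le_pow_left₀ (EK.mk' k).ne
    (Real.rpow_nonneg (S.Z_pos (.mk' k) β).le _) ?_
  rw [one_div, Real.rpow_inv_natCast_pow (S.Z_pos (.mk' k) β).le (EK.mk' k).ne]
  exact pow_le_sum (fun _ => abs_nonneg _) (S.absZ hβ (.mk' k)) i

theorem Z_le_of_bound (hβ : 0 < β) {M : ℝ} (hM : 0 < M) (h : ∀ i, |(S.fam β).fZ i| ≤ M)
    (hK : EK K) : S.Z 0 K β ≤ S.Z 0 6 β / M ^ 6 * M ^ K := by
  refine (le_mul_of_bound (fun _ => abs_nonneg _) h hK.2 (S.absZ hβ .six) (S.absZ hβ hK)).trans_eq ?_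
  conv_rhs => rw [← Nat.sub_add_cancel hK.2, pow_add]
  field_simp

theorem top (hβ : 0 < β) : 0 < S.lam β ∧ ∃ j, |(S.fam β).fZ j| = S.lam β := by
  obtain ⟨j, h0, hj⟩ := exists_max (fun _ => abs_nonneg _) (by norm_num) (S.absZ hβ .six)
    (S.Z_pos .six β)
  have h1 := h0.trans_le (S.fZ_le hβ j)
  exact ⟨h1, j, le_antisymm (S.fZ_le hβ j) (le_of_pow_le' h1 h0 6 fun k =>
    (S.lam_pow_le (EK.six.add k) β).trans (S.Z_le_of_bound hβ h0 hj (EK.six.add k)))⟩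

theorem Z_le (hβ : 0 < β) (hK : EK K) : S.Z 0 K β ≤ S.Z 0 6 β / S.lam β ^ 6 * S.lam β ^ K :=
  S.Z_le_of_bound hβ (S.top hβ).1 (S.fZ_le hβ) hK

theorem E0_div_mono (hK : EK K) (hK' : EK K') (h : K ≤ K') : S.E0 K / K ≤ S.E0 K' / K' := by
  have := le_of_exp_le (a := -(K * S.E0 K')) (b := -(K' * S.E0 K)) (C := S.Z 0 K 0 ^ K')
    fun β hβ => by
      have h1 := pow_le_pow_left₀ (Real.exp_pos _).le (ts_lower (S.ts0 K' hK'.two_le) β) K
      have h2 := lp_nat (fun _ => abs_nonneg _) hK.one_le h (S.absZ hβ hK) (S.absZ hβ hK')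
      have h3 := pow_le_pow_left₀ (S.Z_pos hK β).le (ts_upper (S.ts0 K hK.two_le) hβ.le) K'
      rw [mul_pow, ← Real.exp_nat_mul] at h3
      rw [← Real.exp_nat_mul] at h1
      exact le_of_eq_of_le (by ring_nf) ((h1.trans (h2.trans h3)).trans_eq (by ring_nf))
  rw [div_le_div_iff₀ hK.pos hK'.pos]
  linarith

theorem E0_div_le (hK : EK K) : S.E0 K / K ≤ (ev : ℝ) := by
  obtain ⟨C, n0, h⟩ := S.mps
  refine le_of_forall_pos_le_add fun ε hε => ?_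
  obtain ⟨k, hk⟩ := exists_nat_ge (C / ε)
  have hK' := hK.add (k + n0)
  refine (S.E0_div_mono hK hK' (by omega)).trans ?_
  rw [div_le_iff₀ hK'.pos]
  rw [div_le_iff₀ hε] at hk
  have h1 : (k : ℝ) ≤ (K + 2 * (k + n0) : ℕ) := by exact_mod_cast (by omega)
  nlinarith [h (K + 2 * (k + n0)) (by omega)]

theorem e_le {c : ℝ} (h : ∀ K, EK K → S.E0 K / K ≤ c) : S.e ≤ c :=
  ciSup_le fun k => h _ (.mk' k)

theorem E0_convex (hK : EK K) : S.E0 K + S.E0 (K + 4) ≤ 2 * S.E0 (K + 2) := by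
  have h2 := hK.add 1
  have h4 := hK.add 2
  have := le_of_exp_le (a := -(2 * S.E0 (K + 2))) (b := -(S.E0 K + S.E0 (K + 4)))
    (C := S.Z 0 K 0 * S.Z 0 (K + 4) 0) fun β hβ => by
      have h1 := pow_le_pow_left₀ (Real.exp_pos _).le (ts_lower (S.ts0 _ h2.two_le) β) 2
      have h3 := cs (fun _ => abs_nonneg _) (S.Z_pos hK β) (S.absZ hβ hK) (S.absZ hβ h2)
        (S.absZ hβ h4)
      have h5 := mul_le_mul (ts_upper (S.ts0 K hK.two_le) hβ.le)
        (ts_upper (S.ts0 _ h4.two_le) hβ.le) (S.Z_pos h4 β).le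
        (mul_pos (S.Z_pos hK 0) (Real.exp_pos _)).le
      rw [mul_mul_mul_comm, ← Real.exp_add] at h5
      rw [← Real.exp_nat_mul] at h1
      exact le_of_eq_of_le (by push_cast; ring_nf) ((h1.trans (h3.trans h5)).trans_eq (by ring_nf))
  linarith

end aux

theorem lam_pos (β : ℝ) (hβ : 0 < β) : 0 < S.lam β := by
  exact (S.top hβ).1

/-- every atom is bounded by `lam` -/
theorem abs_le_lam (β : ℝ) (hβ : 0 < β) (i : ℕ) :
    |(S.fam β).μA i| ≤ S.lam β ∧ |(S.fam β).μ2 i| ≤ S.lam β ∧ |(S.fam β).μE i| ≤ S.lam β ∧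
      |(S.fam β).μ1 i| ≤ S.lam β ∧ |(S.fam β).μT i| ≤ S.lam β := by
  exact ⟨S.fZ_le hβ (.inl (.inl i)), S.fZ_le hβ (.inl (.inr (.inl i))),
    S.fZ_le hβ (.inl (.inr (.inr (.inl i)))), S.fZ_le hβ (.inr (.inl (.inl i))),
    S.fZ_le hβ (.inr (.inl (.inr i)))⟩

/-- some atom has modulus `lam` -/
theorem exists_top (β : ℝ) (hβ : 0 < β) : ∃ i,
    |(S.fam β).μA i| = S.lam β ∨ |(S.fam β).μ2 i| = S.lam β ∨ |(S.fam β).μE i| = S.lam β ∨
      |(S.fam β).μ1 i| = S.lam β ∨ |(S.fam β).μT i| = S.lam β := by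
  obtain ⟨j, hj⟩ := (S.top hβ).2
  rcases j with (i | i | i | i) | (i | i) | (i | i) | (i | i) <;> refine ⟨i, ?_⟩ <;>
    simp only [Fam.fZ, Fam.fD, Fam.fT, Sum.elim_inl, Sum.elim_inr] at hj <;> simp [hj]

theorem e_le_ev : S.e ≤ (ev : ℝ) := by
  exact S.e_le fun _ => S.E0_div_le

theorem E0_le (K : ℕ) (hK : EK K) : S.E0 K ≤ K * S.e := by
  rw [mul_comm, ← div_le_iff₀ hK.pos]
  obtain ⟨k, rfl⟩ : ∃ k, K = 2 * k + 6 := ⟨(K - 6) / 2, by have := hK.1; have := hK.2; omega⟩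
  exact le_ciSup (f := fun k : ℕ => S.E0 (2 * k + 6) / ((2 * k + 6 : ℕ) : ℝ))
    ⟨ev, by rintro _ ⟨k, rfl⟩; exact S.E0_div_le (.mk' k)⟩ k

theorem one_le_p (β : ℝ) (hβ : 0 < β) : 1 ≤ S.lam β * Real.exp (β * S.e) := by
  have := le_of_pow_le' (a := Real.exp (-(β * S.e))) (Real.exp_pos _) (S.lam_pos β hβ) 6 fun k => by
    have hK := EK.six.add k
    refine le_trans ?_ ((ts_lower (S.ts0 _ hK.two_le) β).trans (S.Z_le hβ hK))
    rw [← Real.exp_nat_mul, Real.exp_le_exp]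
    nlinarith [S.E0_le _ hK]
  rwa [Real.exp_neg, inv_le_iff_one_le_mul₀ (Real.exp_pos _)] at this

theorem delta_anti (K K' : ℕ) (hK : EK K) (hK' : EK K') (h : K ≤ K') :
    K' * S.e - S.E0 K' ≤ K * S.e - S.E0 K := by
  have step : ∀ K, EK K → ((K + 2 : ℕ) : ℝ) * S.e - S.E0 (K + 2) ≤ K * S.e - S.E0 K := by
    intro K hK
    by_contra hc
    set c := ((K + 2 : ℕ) : ℝ) * S.e - S.E0 (K + 2) - (K * S.e - S.E0 K) with hc'
    have hc0 : 0 < c := by linarith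
    have h1 : ∀ j : ℕ, S.E0 (K + 2 * j + 2) - S.E0 (K + 2 * j) ≤ 2 * S.e - c := by
      intro j
      induction j with
      | zero => rw [hc']; push_cast; simp only [add_zero]; linarith
      | succ j ih =>
        have := S.E0_convex (hK.add j)
        rw [show K + 2 * (j + 1) + 2 = K + 2 * j + 4 by ring,
          show K + 2 * (j + 1) = K + 2 * j + 2 by ring]
        linarith
    have h2 : ∀ j : ℕ, S.E0 (K + 2 * j) ≤ (K + 2 * j) * S.e - c * j := by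
      intro j
      induction j with
      | zero => simpa using S.E0_le K hK
      | succ j ih =>
        have := h1 j
        rw [show K + 2 * (j + 1) = K + 2 * j + 2 by ring]
        push_cast
        linarith
    have h3 := S.e_le (c := S.e - c / 4) fun L hL => by
      have hK' := hK.add (K + L)
      refine (S.E0_div_mono hL hK' (by omega)).trans ?_
      rw [div_le_iff₀ hK'.pos]
      have := h2 (K + L)
      push_cast at this ⊢
      nlinarith [mul_pos hc0 hK.pos, mul_pos hc0 hL.pos]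
    linarith
  obtain ⟨j, rfl⟩ : ∃ j, K' = K + 2 * j := ⟨(K' - K) / 2, by have := hK.1; have := hK'.1; omega⟩
  clear hK' h
  induction j with
  | zero => simp
  | succ j ih => exact (step _ (hK.add j)).trans ih

theorem p_anti (β β' : ℝ) (hβ : 0 < β) (h : β ≤ β') :
    S.lam β' * Real.exp (β' * S.e) ≤ S.lam β * Real.exp (β * S.e) := by
  rcases h.eq_or_lt with rfl | h
  · exact le_rfl
  have h0 := S.lam_pos β hβ
  have h1 := S.lam_pos β' (hβ.trans h)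
  have h2 := S.e_le (c := Real.log (S.lam β / S.lam β') / (β' - β)) fun K hK => by
    have := le_of_pow_le' (b := S.lam β * Real.exp (-(β' - β) * (S.E0 K / K)))
      (C := S.Z 0 6 β / S.lam β ^ 6) h1 (by positivity) K fun k => by
        have hK' := hK.add k
        refine (S.lam_pow_le hK' β').trans ((ts_shift (S.ts0 _ hK'.two_le) h.le).trans ?_)
        rw [mul_pow, ← mul_assoc, mul_comm, ← Real.exp_nat_mul]
        refine mul_le_mul (S.Z_le hβ hK') (Real.exp_le_exp.2 ?_) (Real.exp_pos _).le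
          ((S.Z_pos hK' β).le.trans (S.Z_le hβ hK'))
        have := S.E0_div_mono hK hK' (by omega)
        rw [le_div_iff₀ hK'.pos] at this
        nlinarith
    rw [le_div_iff₀ (sub_pos.2 h), Real.le_log_iff_exp_le (by positivity), le_div_iff₀ h1]
    refine (mul_le_mul_of_nonneg_left this (Real.exp_pos _).le).trans_eq ?_
    rw [mul_left_comm, ← Real.exp_add, show S.E0 K / K * (β' - β) + -(β' - β) * (S.E0 K / K) = 0 by
      ring, Real.exp_zero, mul_one]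
  rw [le_div_iff₀ (sub_pos.2 h), Real.le_log_iff_exp_le (by positivity), le_div_iff₀ h1] at h2
  refine le_trans (le_of_eq ?_) (mul_le_mul_of_nonneg_right h2 (Real.exp_pos _).le)
  rw [mul_right_comm, ← Real.exp_add, mul_comm]
  ring_nf

variable {S} {K K' β β' : ℕ} {x y d p q q' s s' m : ℝ}

private theorem bp (hβ : 1 ≤ β) : (0 : ℝ) < β := by positivity

theorem exp_delta_pow (K β : ℕ) : Real.exp (K * S.e - S.E0 K) ^ β =
    Real.exp (-(β : ℝ) * S.E0 K) * Real.exp (β * K * S.e) := by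
  rw [← Real.exp_nat_mul, ← Real.exp_add]
  ring_nf

theorem p_pow (K β : ℕ) : (S.lam β * Real.exp (β * S.e)) ^ K =
    S.lam β ^ K * Real.exp (β * K * S.e) := by
  rw [mul_pow, ← Real.exp_nat_mul]
  ring_nf

theorem delta_pow_le (hK : EK K) (β : ℕ) :
    Real.exp (K * S.e - S.E0 K) ^ β ≤ S.Z 0 K β * Real.exp (β * K * S.e) := by
  rw [exp_delta_pow]
  exact mul_le_mul_of_nonneg_right (ts_lower (S.ts0 K hK.two_le) β) (Real.exp_pos _).le

theorem p_pow_le (hK : EK K) (β : ℕ) :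
    (S.lam β * Real.exp (β * S.e)) ^ K ≤ S.Z 0 K β * Real.exp (β * K * S.e) := by
  rw [p_pow]
  exact mul_le_mul_of_nonneg_right (S.lam_pow_le hK β) (Real.exp_pos _).le

theorem p_nonneg (β : ℝ) : 0 ≤ S.lam β * Real.exp (β * S.e) :=
  mul_nonneg (S.lam_nonneg β) (Real.exp_pos _).le

theorem Xt.nonneg (h1 : S.Xt K β x) (hK : EK K) : 0 ≤ 1 + x :=
  nonneg_of_mul_nonneg_left ((S.Z_pos hK β).le.trans h1) (Real.exp_pos _)

theorem Xs.nonneg (h1 : S.Xs K β x) (hK : EK K) (hβ : 1 ≤ β) : 0 ≤ 1 + x :=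
  nonneg_of_mul_nonneg_left ((S.Z_pos hK β).le.trans h1) (pow_pos (S.lam_pos β (bp hβ)) _)

theorem Xt.phi (h1 : S.Xt K β x) :
    S.Z 0 K β * Real.exp (β * K * S.e) ≤ (1 + x) * Real.exp (K * S.e - S.E0 K) ^ β := by
  rw [exp_delta_pow, ← mul_assoc]
  exact mul_le_mul_of_nonneg_right h1 (Real.exp_pos _).le

theorem le_phi {z : ℝ} (h1 : z ≤ (1 + x) * S.lam β ^ K) :
    z * Real.exp (β * K * S.e) ≤ (1 + x) * (S.lam β * Real.exp (β * S.e)) ^ K := by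
  rw [p_pow, ← mul_assoc]
  exact mul_le_mul_of_nonneg_right h1 (Real.exp_pos _).le

theorem le_of_phi {z : ℝ} (hz : 0 ≤ z) (hβ : 1 ≤ β) (h1 : z * Real.exp (β * K * S.e) ≤ q) :
    z ≤ q * S.lam β ^ K := by
  have h0 := Real.exp_pos (β * K * S.e)
  refine le_of_mul_le_mul_right (h1.trans ?_) h0
  rw [mul_assoc, ← p_pow]
  exact le_mul_of_one_le_right ((mul_nonneg hz h0.le).trans h1)
    (one_le_pow₀ (S.one_le_p β (bp hβ)))

/-- for `x < 2` the top atom is not in a triplet sector -/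
theorem Xs.top (h1 : S.Xs K β x) (hK : EK K) (hβ : 1 ≤ β) (hx : x < 2) :
    ∃ j, |(S.fam β).fD j| = S.lam β := by
  obtain ⟨h0, j, hj⟩ := S.top (bp hβ)
  have key : ∀ i, |(S.fam β).fT i| ≠ S.lam β := fun i hi => by
    have h2 := pow_le_sum (fun _ => abs_nonneg _) (S.absT (bp hβ) hK) i
    have h3 := S.D0_nonneg (bp hβ) hK
    have h4 := S.Z0_eq K β
    rw [hi] at h2
    unfold Xs at h1
    nlinarith [pow_pos h0 K]
  rcases j with i | i | i | i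
  exacts [⟨i, hj⟩, absurd hj (key i), absurd hj (key i), absurd hj (key i)]

theorem phi_t (h1 : S.Xt K β x) (h2 : S.Dk K d) (hK : EK K) (h : (1 + x) * d ^ β ≤ q) :
    S.Phi K β q := by
  exact h1.phi.trans ((mul_le_mul_of_nonneg_left (pow_le_pow_left₀ (Real.exp_pos _).le h2 β)
    (h1.nonneg hK)).trans h)
theorem phi_s (h1 : S.Xs K β x) (h2 : S.Pb β p) (hK : EK K) (hβ : 1 ≤ β)
    (h : (1 + x) * p ^ K ≤ q) : S.Phi K β q := by
  exact (le_phi h1).trans ((mul_le_mul_of_nonneg_left (pow_le_pow_left₀ (p_nonneg _) h2 K)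
    (h1.nonneg hK hβ)).trans h)
theorem xt_phi (h1 : S.Phi K β q) (hK : EK K) (h : q ≤ 1 + x) : S.Xt K β x := by
  have h0 := Real.exp_pos (β * K * S.e)
  refine le_of_mul_le_mul_right (le_trans h1 (h.trans ?_)) h0
  rw [mul_assoc, ← exp_delta_pow]
  exact le_mul_of_one_le_right ((mul_pos (S.Z_pos hK β) h0).le.trans (le_trans h1 h))
    (one_le_pow₀ (Real.one_le_exp (sub_nonneg.2 (S.E0_le K hK))))
theorem xs_phi (h1 : S.Phi K β q) (hK : EK K) (hβ : 1 ≤ β) (h : q ≤ 1 + x) : S.Xs K β x := by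
  exact le_of_phi (S.Z_pos hK β).le hβ (le_trans h1 h)
theorem d_phi (h1 : S.Phi K β q) (hK : EK K) (hβ : 1 ≤ β) (hd : 0 ≤ d) (h : q ≤ d ^ β) :
    S.Dk K d := by
  exact le_of_pow_le_pow_left₀ (by omega) hd ((delta_pow_le hK β).trans (le_trans h1 h))
theorem p_phi (h1 : S.Phi K β q) (hK : EK K) (hβ : 1 ≤ β) (hp : 0 ≤ p) (h : q ≤ p ^ K) :
    S.Pb β p := by
  exact le_of_pow_le_pow_left₀ hK.ne hp ((p_pow_le hK β).trans (le_trans h1 h))
theorem d_mono (h1 : S.Dk K d) (hK : EK K) (hK' : EK K') (h : K ≤ K') : S.Dk K' d := by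
  exact (Real.exp_le_exp.2 (S.delta_anti K K' hK hK' h)).trans h1
theorem p_mono (h1 : S.Pb β p) (hβ : 1 ≤ β) (h : β ≤ β') : S.Pb β' p := by
  exact (S.p_anti β β' (bp hβ) (by exact_mod_cast h)).trans h1
theorem p_la (h1 : S.La β p) (hβ : 1 ≤ β) : S.Pb β p := by
  exact (mul_le_mul_of_nonneg_left (Real.exp_le_exp.2 (mul_le_mul_of_nonneg_left S.e_le_ev
    (bp hβ).le)) (S.lam_nonneg β)).trans h1
theorem la_pow (h1 : S.La β p) (hβ : 1 ≤ β) (hb : β ≤ β') (hq : 0 ≤ q) (h : p ^ β' ≤ q ^ β) :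
    S.La β' q := by
  have h0 := S.lam_pos β (bp hβ)
  have h0' := S.lam_pos β' (bp (hβ.trans hb))
  have h2 : S.lam β' ^ β ≤ S.lam β ^ β' :=
    le_of_pow_le' (C := (S.Z 0 6 β / S.lam β ^ 6) ^ β') (pow_pos h0' _) (pow_pos h0 _) 6 fun k => by
      have hK := EK.six.add k
      obtain ⟨n, a, ha, -, hs⟩ := ts_fam (S.ts0 _ hK.two_le)
      rw [← pow_mul, mul_comm β, pow_mul, ← pow_mul (S.lam β), mul_comm β', pow_mul, ← mul_pow]
      exact (pow_le_pow_left₀ (pow_pos h0' _).le (S.lam_pow_le hK _) _).trans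
        ((lp_nat ha hβ hb (hs β) (hs β')).trans
          (pow_le_pow_left₀ (S.Z_pos hK β).le (S.Z_le (bp hβ) hK) _))
  refine le_of_pow_le_pow_left₀ (by omega : β ≠ 0) hq (le_trans ?_
    ((pow_le_pow_left₀ (by positivity) h1 β').trans h))
  rw [mul_pow, mul_pow, ← Real.exp_nat_mul, ← Real.exp_nat_mul, mul_left_comm (β : ℝ)]
  exact mul_le_mul_of_nonneg_right h2 (Real.exp_pos _).le
theorem xt_pow (h1 : S.Xt K β x) (hK : EK K) (hβ : 1 ≤ β) (hb : β ≤ β') (hy : 0 ≤ y)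
    (h : x ^ β' ≤ y ^ β) : S.Xt K β' y := by
  obtain ⟨n, a, ha, h0, hs⟩ := ts_fam (S.ts0 _ hK.two_le)
  have e : ∀ b : ℕ, Real.exp (-(b : ℝ) * S.E0 K) = Real.exp (-S.E0 K) ^ b := fun b => by
    rw [← Real.exp_nat_mul]; ring_nf
  unfold Xt at h1 ⊢
  rw [e] at h1 ⊢
  obtain ⟨h2, h3⟩ := lp_rest ha hβ hb (hs β) (hs β') (Real.exp_pos _) h0 h1
  exact h3.trans (by gcongr; exact rpow_le_of_pow h2 hy hβ h)
theorem xi_pow (h1 : S.Xi K β q) (hK : EK K) (hβ : 1 ≤ β) (hb : β ≤ β') (hq : 0 ≤ q')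
    (h : q ^ β' ≤ q' ^ β) : S.Xi K β' q' := by
  obtain ⟨E, hE⟩ := S.tsp K hK.two_le
  obtain ⟨n, a, ha, -, hs⟩ := ts_fam hE
  have e : ∀ b : ℕ, Real.exp (b * K * S.e) = (Real.exp (-(K * S.e)) ^ b)⁻¹ := fun b => by
    rw [← Real.exp_nat_mul, ← Real.exp_neg]; ring_nf
  unfold Xi at h1 ⊢
  rw [e, ← div_eq_mul_inv, div_le_iff₀ (by positivity)] at h1 ⊢
  obtain ⟨h2, h3⟩ := lp_norm ha hβ hb (hs β) (hs β') (Real.exp_pos _) h1
  exact h3.trans (by gcongr; exact rpow_le_of_pow h2 hq hβ h)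
theorem ss_xs (h1 : S.Xs K β x) (hK : EK K) (hβ : 1 ≤ β) : S.Ss K β x := by
  have := S.T0_nonneg (bp hβ) hK
  have := S.Z0_eq K β
  unfold Xs at h1
  unfold Ss
  linarith
theorem xs_pow0 (h1 : S.Xs K β x) (hK : EK K) (hK' : EK K') (hβ : 1 ≤ β) (hk : K ≤ K')
    (hy : 0 ≤ y) (h : x ^ K' ≤ y ^ K) : S.Xs K' β y := by
  obtain ⟨h0, j, hj⟩ := S.top (bp hβ)
  obtain ⟨h2, h3⟩ := lp_rest (fun _ => abs_nonneg _) hK.one_le hk (S.absZ (bp hβ) hK)
    (S.absZ (bp hβ) hK') h0 hj h1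
  exact h3.trans (by gcongr; exact rpow_le_of_pow h2 hy hK.one_le h)
/-- sector-resolved power rule: `x = s + 3 y`, worst case at an end point of the segment -/
theorem xs_pow (h1 : S.Xs K β x) (h2 : S.Ss K β s) (hK : EK K) (hK' : EK K') (hβ : 1 ≤ β)
    (hk : K ≤ K') (hx : x < 2) (hs : s ≤ x) (u₁ u₂ u₃ : ℝ) (h₁ : 0 ≤ u₁) (h₂ : 0 ≤ u₂)
    (h₃ : 0 ≤ u₃) (e₁ : (x / 3) ^ K' ≤ u₁ ^ K) (e₂ : s ^ K' ≤ u₂ ^ K)
    (e₃ : ((x - s) / 3) ^ K' ≤ u₃ ^ K) (f₁ : 3 * u₁ ≤ y) (f₂ : u₂ + 3 * u₃ ≤ y) :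
    S.Xs K' β y := by
  obtain ⟨j, hj⟩ := h1.top hK hβ hx
  have h0 := S.lam_pos β (bp hβ)
  have hl := pow_pos h0 K
  obtain ⟨h3, h4⟩ := lp_rest (c := S.D0 K β / S.lam β ^ K - 1) (fun _ => abs_nonneg _) hK.one_le hk
    (S.absD (bp hβ) hK) (S.absD (bp hβ) hK') h0 hj (le_of_eq (by field_simp; ring))
  obtain ⟨h5, h6⟩ := lp_norm (c := S.T0 K β / S.lam β ^ K) (fun _ => abs_nonneg _) hK.one_le hk
    (S.absT (bp hβ) hK) (S.absT (bp hβ) hK') h0 (le_of_eq (by field_simp))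
  have h7 : S.D0 K β / S.lam β ^ K - 1 ≤ s := by
    rw [sub_le_iff_le_add', div_le_iff₀ hl]; exact h2
  have h8 : S.D0 K β / S.lam β ^ K - 1 + 3 * (S.T0 K β / S.lam β ^ K) ≤ x := by
    have : S.Z 0 K β / S.lam β ^ K ≤ 1 + x := by rw [div_le_iff₀ hl]; exact h1
    rw [S.Z0_eq, add_div, mul_div_assoc] at this
    linarith
  have h9 := conv (t := (K' : ℝ) / K) ((one_le_div hK.pos).2 (by exact_mod_cast hk)) h3 h7 h5 h8 hs
    (y := y) (by linarith [rpow_le_of_pow (by linarith) h₁ hK.one_le e₁])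
    (by linarith [rpow_le_of_pow (by linarith) h₂ hK.one_le e₂,
      rpow_le_of_pow (by linarith) h₃ hK.one_le e₃])
  unfold Xs
  rw [S.Z0_eq]
  nlinarith [pow_pos h0 K']
theorem ss_pow (h1 : S.Xs K β x) (h2 : S.Ss K β s) (hK : EK K) (hK' : EK K') (hβ : 1 ≤ β)
    (hk : K ≤ K') (hx : x < 2) (hs : 0 ≤ s') (h : s ^ K' ≤ s' ^ K) : S.Ss K' β s' := by
  obtain ⟨j, hj⟩ := h1.top hK hβ hx
  have h0 := S.lam_pos β (bp hβ)
  obtain ⟨h3, h4⟩ := lp_rest (fun _ => abs_nonneg _) hK.one_le hk (S.absD (bp hβ) hK)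
    (S.absD (bp hβ) hK') h0 hj h2
  exact h4.trans (by gcongr; exact rpow_le_of_pow h3 hs hK.one_le h)
theorem xi_s (h1 : S.Ss K β s) (h2 : S.Pb β p) (hK : EK K) (hβ : 1 ≤ β)
    (h : (1 + s) * p ^ K ≤ q) : S.Xi K β q := by
  have h3 : S.Z 6 K β ≤ (1 + s) * S.lam β ^ K := by
    have := S.T0_nonneg (bp hβ) hK
    have := S.Z6_eq K β
    unfold Ss at h1
    linarith
  exact (le_phi h3).trans ((mul_le_mul_of_nonneg_left (pow_le_pow_left₀ (p_nonneg _) h2 K)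
    (nonneg_of_mul_nonneg_left ((S.D0_nonneg (bp hβ) hK).trans h1)
      (pow_pos (S.lam_pos β (bp hβ)) _))).trans h)
theorem ss_phi (h1 : S.Phi K β q) (h2 : S.Xi K β q') (hK : EK K) (hβ : 1 ≤ β)
    (h : (q + 3 * q') / 4 ≤ 1 + s) : S.Ss K β s := by
  refine le_of_phi (S.D0_nonneg (bp hβ) hK) hβ (le_trans ?_ h)
  unfold Phi at h1
  unfold Xi at h2
  unfold D0
  linarith
theorem d_rule (h1 : S.Xt K β x) (h2 : S.Xs K β' y) (hK : EK K) (hβ : 1 ≤ β) (hb : β < β')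
    (hd : 0 ≤ d) (h : (1 + x) * (1 + y) ≤ d ^ (β' - β)) : S.Dk K d := by
  have hy := h2.nonneg hK (hβ.trans hb.le)
  have h3 := (delta_pow_le hK β').trans ((le_phi h2).trans (mul_le_mul_of_nonneg_left
    ((pow_le_pow_left₀ (p_nonneg _) (S.p_anti β β' (bp hβ) (by exact_mod_cast hb.le)) K).trans
      ((p_pow_le hK β).trans h1.phi)) hy))
  refine le_of_pow_le_pow_left₀ (Nat.sub_ne_zero_of_lt hb) hd (le_trans ?_ h)
  rw [← Nat.sub_add_cancel hb.le, pow_add, ← mul_assoc, mul_comm (1 + y)] at h3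
  exact le_of_mul_le_mul_right h3 (by positivity)
theorem p_rule (h1 : S.Xs K β x) (h2 : S.Xt K' β y) (hK : EK K) (hK' : EK K') (hβ : 1 ≤ β)
    (hk : K < K') (hp : 0 ≤ p) (h : (1 + x) * (1 + y) ≤ p ^ (K' - K)) : S.Pb β p := by
  have h3 := (p_pow_le hK' β).trans (h2.phi.trans (mul_le_mul_of_nonneg_left
    ((pow_le_pow_left₀ (Real.exp_pos _).le (Real.exp_le_exp.2 (S.delta_anti K K' hK hK' hk.le))
      β).trans ((delta_pow_le hK β).trans (le_phi h1))) (h2.nonneg hK')))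
  refine le_of_pow_le_pow_left₀ (Nat.sub_ne_zero_of_lt hk) hp (le_trans ?_ h)
  rw [← Nat.sub_add_cancel hk.le, pow_add, ← mul_assoc, mul_comm (1 + y)] at h3
  have := S.lam_pos β (bp hβ)
  exact le_of_mul_le_mul_right h3 (by positivity)
theorem ma_ss (h1 : S.Xs K β x) (h2 : S.Ss K β s) (hK : EK K) (hβ : 1 ≤ β) (hx : x < 1)
    (hm : 0 ≤ m) (h : s ≤ m ^ K) : S.MA β m := by
  obtain ⟨j, hj⟩ := h1.top hK hβ (by linarith)
  have h0 := S.lam_pos β (bp hβ)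
  have key : ∀ i, (S.fam β).fD i ≠ S.lam β → |(S.fam β).fD i| ≤ m * S.lam β := fun i hi => by
    have h3 : (S.fam β).fD i ≠ -S.lam β := fun h3 => by
      have h4 := le_hasSum (((S.absZ (bp hβ) hK).mul_left (S.lam β)).sub
        (S.sumZ (K := K + 1) (bp hβ) (by have := hK.2; omega))) (.inl i) fun j _ => by
          rw [sub_nonneg, pow_succ', hK.abs_pow]
          exact mul_le_mul_of_nonneg_right ((le_abs_self _).trans (S.fZ_le (bp hβ) j))
            (hK.abs_pow _ ▸ by positivity)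
      have h5 := ts_pos (S.ts0 (K + 1) (by have := hK.2; omega)) β
      simp only [Fam.fZ, Sum.elim_inl, h3, hK.abs_pow, pow_succ', (Nat.even_iff.2 hK.1).neg_pow] at h4
      unfold Xs at h1
      nlinarith [mul_pos h0 (pow_pos h0 K), mul_le_mul_of_nonneg_left h1 h0.le]
    have h4 : i ≠ j := by
      rintro rfl
      rcases (abs_eq h0.le).1 hj with h | h <;> contradiction
    have h5 := two_le_sum (fun _ => abs_nonneg _) (S.absD (bp hβ) hK) h4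
    refine le_of_pow_le_pow_left₀ hK.ne (by positivity) ?_
    rw [hj] at h5
    unfold Ss at h2
    rw [mul_pow]
    nlinarith [pow_pos h0 K]
  exact fun i => ⟨key (.inl i), key (.inr (.inr (.inl i)))⟩
theorem mb_xs (h1 : S.Xs K β x) (hK : EK K) (hβ : 1 ≤ β) (hx : x < 2)
    (hm : 0 ≤ m) (h : x / 3 ≤ m ^ K) : S.MB β m := by
  obtain ⟨j, hj⟩ := h1.top hK hβ hx
  have h0 := S.lam_pos β (bp hβ)
  intro i
  have h2 := pow_le_sum (fun _ => abs_nonneg _) (S.absD (bp hβ) hK) j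
  have h3 : |(S.fam β).μ1 i| ^ K ≤ _ := pow_le_sum (fun _ => abs_nonneg _) (S.absT (bp hβ) hK) (.inl i)
  have h4 := S.Z0_eq K β
  refine le_of_pow_le_pow_left₀ hK.ne (by positivity) ?_
  rw [hj] at h2
  unfold Xs at h1
  rw [mul_pow]
  nlinarith [pow_pos h0 K]
theorem abs_aux {z : ℝ} (h1 : z ≤ m * S.lam β) (h2 : S.La β p) (hm : 0 ≤ m) (h : m * p ≤ q) :
    z * Real.exp (β * (ev : ℝ)) ≤ q :=
  (mul_le_mul_of_nonneg_right h1 (Real.exp_pos _).le).trans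
    ((mul_assoc _ _ _).trans_le ((mul_le_mul_of_nonneg_left h2 hm).trans h))

theorem abs_aux' {z : ℝ} (h1 : z * Real.exp (β * (ev : ℝ)) ≤ m) (hβ : 1 ≤ β) (hm : 0 ≤ m) :
    z ≤ m * S.lam β := by
  refine le_of_mul_le_mul_right (h1.trans ?_) (Real.exp_pos _)
  rw [mul_assoc]
  exact le_mul_of_one_le_right hm ((S.one_le_p β (bp hβ)).trans (p_la (le_refl _) hβ))

theorem ma'_ma (h1 : S.MA β m) (h2 : S.La β p) (hβ : 1 ≤ β) (hm : 0 ≤ m) (h : m * p ≤ q) :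
    S.MA' β q := by
  exact fun i => ⟨fun hi => abs_aux ((h1 i).1 hi) h2 hm h, fun hi => abs_aux ((h1 i).2 hi) h2 hm h⟩
theorem mb'_mb (h1 : S.MB β m) (h2 : S.La β p) (hβ : 1 ≤ β) (hm : 0 ≤ m) (h : m * p ≤ q) :
    S.MB' β q := by
  exact fun i => abs_aux (h1 i) h2 hm h
theorem ma_ma' (h1 : S.MA' β m) (hβ : 1 ≤ β) (hm : 0 ≤ m) : S.MA β m := by
  exact fun i => ⟨fun hi => abs_aux' ((h1 i).1 hi) hβ hm, fun hi => abs_aux' ((h1 i).2 hi) hβ hm⟩
theorem mb_mb' (h1 : S.MB' β m) (hβ : 1 ≤ β) : S.MB β m := by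
  exact fun i => abs_aux' (h1 i) hβ (le_trans (by positivity) (h1 i))
theorem gap_xt (h1 : S.Xt K β x) (hβ : 1 ≤ β) (γ : ℝ) (h : x < Real.exp (-γ * β)) :
    GapAt (S.Z 0 K) (S.E0 K) γ := by
  exact ⟨β, bp hβ, lt_of_le_of_lt h1 (by gcongr)⟩

end Sys
end Crest.Agent.R347
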