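import Crest.Agent.R347.BootDefs

/-! Row 347: general lemmas on power sums used by `BootRing`. -/

set_option autoImplicit false

namespace Crest.Agent.R347
namespace BR

open Filter Topology

lemma le_of_pow_le {a b C : ℝ} (hb : 0 < b) (h : ∀ k : ℕ, a ^ k ≤ C * b ^ k) : a ≤ b := by
  by_contra hc
  have h1 : 1 < a / b := (one_lt_div hb).2 (not_le.1 hc)
  obtain ⟨k, hk⟩ := ((tendsto_pow_atTop_atTop_of_one_lt h1).eventually_gt_atTop C).exists
  rw [div_pow, lt_div_iff₀ (pow_pos hb k)] at hk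
  exact absurd (h k) (not_le.2 hk)

/-- comparison along `K₀ + 2 k` -/
lemma le_of_pow_le' {a b C : ℝ} (ha : 0 < a) (hb : 0 < b) (K₀ : ℕ)
    (h : ∀ k : ℕ, a ^ (K₀ + 2 * k) ≤ C * b ^ (K₀ + 2 * k)) : a ≤ b := by
  refine le_of_sq_le_sq' (le_of_pow_le (C := C * b ^ K₀ / a ^ K₀) (pow_pos hb 2) fun k => ?_) hb.le
  have := h k
  rw [div_mul_eq_mul_div, le_div_iff₀ (pow_pos ha _), ← pow_mul, ← pow_mul]
  rw [pow_add, pow_add] at this
  linarith
where le_of_sq_le_sq' {a b : ℝ} (h : a ^ 2 ≤ b ^ 2) (hb : 0 ≤ b) : a ≤ b :=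
  (abs_le_of_sq_le_sq' h hb).2

lemma le_of_exp_le {a b C : ℝ} (h : ∀ β : ℝ, 0 < β → Real.exp (β * a) ≤ C * Real.exp (β * b)) :
    a ≤ b := by
  rw [← Real.exp_le_exp]
  refine le_of_pow_le' (C := C) (Real.exp_pos _) (Real.exp_pos _) 1 fun k => ?_
  rw [← Real.exp_nat_mul, ← Real.exp_nat_mul]
  exact h _ (by positivity)

variable {ι : Type*} {a : ι → ℝ} {K K' : ℕ} {x x' : ℝ}

lemma le_mul_of_bound (ha : ∀ i, 0 ≤ a i) {M : ℝ} (hM : ∀ i, a i ≤ M) (hK : K ≤ K')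
    (h : HasSum (fun i => a i ^ K) x) (h' : HasSum (fun i => a i ^ K') x') :
    x' ≤ M ^ (K' - K) * x := by
  refine hasSum_le (fun i => ?_) h' (h.mul_left _)
  conv_lhs => rw [← Nat.sub_add_cancel hK, pow_add]
  exact mul_le_mul_of_nonneg_right (pow_le_pow_left₀ (ha i) (hM i) _) (pow_nonneg (ha i) _)

lemma pow_le_sum (ha : ∀ i, 0 ≤ a i) (h : HasSum (fun i => a i ^ K) x) (i : ι) : a i ^ K ≤ x :=
  le_hasSum h i fun j _ => pow_nonneg (ha j) _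

lemma two_le_sum (ha : ∀ i, 0 ≤ a i) (h : HasSum (fun i => a i ^ K) x) {i j : ι} (hij : i ≠ j) :
    a i ^ K + a j ^ K ≤ x := by
  classical
  have := sum_le_hasSum {i, j} (fun j _ => pow_nonneg (ha j) _) h
  rwa [Finset.sum_pair hij] at this

/-- monotonicity of `ℓ^p` norms -/
lemma lp (ha : ∀ i, 0 ≤ a i) (h1 : 1 ≤ K) (hK : K ≤ K') (h : HasSum (fun i => a i ^ K) x)
    (h' : HasSum (fun i => a i ^ K') x') : x' ≤ x ^ ((K' : ℝ) / K) := by
  have hx : 0 ≤ x := h.nonneg fun i => pow_nonneg (ha i) _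
  have hK0 : K ≠ 0 := by omega
  have e : (x ^ (K : ℝ)⁻¹) ^ K = x := Real.rpow_inv_natCast_pow hx hK0
  have := le_mul_of_bound ha (M := x ^ (K : ℝ)⁻¹) (fun i => by
    refine le_of_pow_le_pow_left₀ hK0 (Real.rpow_nonneg hx _) ?_
    rw [e]; exact pow_le_sum ha h i) hK h h'
  refine this.trans_eq ?_
  rw [div_eq_inv_mul, Real.rpow_mul hx, Real.rpow_natCast]
  conv_rhs => rw [← Nat.sub_add_cancel hK, pow_add, e]

lemma lp_nat (ha : ∀ i, 0 ≤ a i) (h1 : 1 ≤ K) (hK : K ≤ K') (h : HasSum (fun i => a i ^ K) x)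
    (h' : HasSum (fun i => a i ^ K') x') : x' ^ K ≤ x ^ K' := by
  have hx : 0 ≤ x := h.nonneg fun i => pow_nonneg (ha i) _
  have hx' : 0 ≤ x' := h'.nonneg fun i => pow_nonneg (ha i) _
  refine (pow_le_pow_left₀ hx' (lp ha h1 hK h h') K).trans_eq ?_
  have : (K : ℝ) ≠ 0 := by positivity
  rw [← Real.rpow_natCast, ← Real.rpow_mul hx, div_mul_cancel₀ _ this, Real.rpow_natCast]

lemma mul_pow_rpow {c l : ℝ} (hc : 0 ≤ c) (hl : 0 ≤ l) (h1 : 1 ≤ K) :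
    (c * l ^ K) ^ ((K' : ℝ) / K) = c ^ ((K' : ℝ) / K) * l ^ K' := by
  have : (K : ℝ) ≠ 0 := by positivity
  rw [Real.mul_rpow hc (pow_nonneg hl _), ← Real.rpow_natCast l, ← Real.rpow_mul hl,
    mul_div_cancel₀ _ this, Real.rpow_natCast]

lemma rpow_le_of_pow {c u : ℝ} (hc : 0 ≤ c) (hu : 0 ≤ u) (h1 : 1 ≤ K) (h : c ^ K' ≤ u ^ K) :
    c ^ ((K' : ℝ) / K) ≤ u := by
  have : (K : ℝ) ≠ 0 := by positivity
  refine le_of_pow_le_pow_left₀ (by omega : K ≠ 0) hu ?_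
  rwa [← Real.rpow_natCast, ← Real.rpow_mul hc, div_mul_cancel₀ _ this, Real.rpow_natCast]

/-- normalised form -/
lemma lp_norm (ha : ∀ i, 0 ≤ a i) (h1 : 1 ≤ K) (hK : K ≤ K') (h : HasSum (fun i => a i ^ K) x)
    (h' : HasSum (fun i => a i ^ K') x') {c l : ℝ} (hl : 0 < l) (hc : x ≤ c * l ^ K) :
    0 ≤ c ∧ x' ≤ c ^ ((K' : ℝ) / K) * l ^ K' := by
  have hx : 0 ≤ x := h.nonneg fun i => pow_nonneg (ha i) _
  have hc0 : 0 ≤ c := nonneg_of_mul_nonneg_left (hx.trans hc) (pow_pos hl _)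
  refine ⟨hc0, (lp ha h1 hK h h').trans ?_⟩
  rw [← mul_pow_rpow hc0 hl.le h1]
  exact Real.rpow_le_rpow hx hc (by positivity)

/-- normalised form with the top atom removed -/
lemma lp_rest (ha : ∀ i, 0 ≤ a i) (h1 : 1 ≤ K) (hK : K ≤ K') (h : HasSum (fun i => a i ^ K) x)
    (h' : HasSum (fun i => a i ^ K') x') {c l : ℝ} (hl : 0 < l) {j : ι} (hj : a j = l)
    (hc : x ≤ (1 + c) * l ^ K) : 0 ≤ c ∧ x' ≤ (1 + c ^ ((K' : ℝ) / K)) * l ^ K' := by
  classical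
  have e : ∀ {L : ℕ} {y : ℝ}, 1 ≤ L → HasSum (fun i => a i ^ L) y →
      HasSum (fun i => (if i = j then 0 else a i) ^ L) (y - l ^ L) := fun {L y} hL hy => by
    have := hasSum_ite_sub_hasSum hy j
    rw [hj] at this
    simpa only [ite_pow, zero_pow (show L ≠ 0 by omega)] using this
  have := lp_norm (c := c) (fun i => by split_ifs; exacts [le_rfl, ha i]) h1 hK (e h1 h)
    (e (h1.trans hK) h') hl (by linarith)
  exact ⟨this.1, by linarith [this.2]⟩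

lemma exists_max (ha : ∀ i, 0 ≤ a i) (h1 : 1 ≤ K) (h : HasSum (fun i => a i ^ K) x) (hx : 0 < x) :
    ∃ j, 0 < a j ∧ ∀ i, a i ≤ a j := by
  obtain ⟨i0, hi0⟩ : ∃ i, 0 < a i := by
    by_contra hc
    push Not at hc
    have : (fun i => a i ^ K) = fun _ => 0 := funext fun i => by
      rw [le_antisymm (hc i) (ha i), zero_pow (by omega)]
    rw [this] at h
    exact hx.ne' (h.unique hasSum_zero)
  have hf : {i | a i0 ≤ a i}.Finite := by
    have := h.summable.tendsto_cofinite_zero.eventually (gt_mem_nhds (pow_pos hi0 K))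
    refine (Filter.eventually_cofinite.1 this).subset fun i hi => ?_
    exact not_lt.2 (pow_le_pow_left₀ hi0.le hi K)
  obtain ⟨j, hj, hm⟩ := Set.exists_max_image _ a hf ⟨i0, le_refl (a i0)⟩
  exact ⟨j, hi0.trans_le hj, fun i => (le_total (a i0) (a i)).elim (hm i) fun h => h.trans hj⟩

lemma cs {y z : ℝ} (ha : ∀ i, 0 ≤ a i) (hx : 0 < x) (h0 : HasSum (fun i => a i ^ K) x)
    (h1 : HasSum (fun i => a i ^ (K + 2)) y) (h2 : HasSum (fun i => a i ^ (K + 4)) z) :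
    y ^ 2 ≤ x * z := by
  have := (((h0.mul_left (y ^ 2)).sub (h1.mul_left (2 * x * y))).add
    (h2.mul_left (x ^ 2))).nonneg fun i => by
      have := mul_nonneg (pow_nonneg (ha i) K) (sq_nonneg (y - x * a i ^ 2))
      convert this using 1
      ring
  nlinarith

variable {f : ℝ → ℝ} {E : ℝ}

lemma ts_lower (h : TS f E) (β : ℝ) : Real.exp (-β * E) ≤ f β := by
  obtain ⟨n, E', -, h⟩ := h
  rw [h]
  exact le_add_of_nonneg_right (Finset.sum_nonneg fun _ _ => (Real.exp_pos _).le)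

lemma ts_pos (h : TS f E) (β : ℝ) : 0 < f β := (Real.exp_pos _).trans_le (ts_lower h β)

lemma ts_shift (h : TS f E) {β β' : ℝ} (hb : β ≤ β') :
    f β' ≤ Real.exp (-(β' - β) * E) * f β := by
  obtain ⟨n, E', h0, h⟩ := h
  rw [h, h, mul_add, Finset.mul_sum, ← Real.exp_add]
  refine add_le_add (le_of_eq (by ring_nf)) (Finset.sum_le_sum fun j _ => ?_)
  rw [← Real.exp_add, Real.exp_le_exp]
  nlinarith [h0 j]

lemma ts_upper (h : TS f E) {β : ℝ} (hb : 0 ≤ β) : f β ≤ f 0 * Real.exp (-β * E) := by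
  simpa [mul_comm] using ts_shift h hb

lemma ts_fam (h : TS f E) : ∃ (n : ℕ) (a : Option (Fin n) → ℝ), (∀ i, 0 ≤ a i) ∧
    a none = Real.exp (-E) ∧ ∀ β : ℕ, HasSum (fun i => a i ^ β) (f β) := by
  obtain ⟨n, E', -, h⟩ := h
  refine ⟨n, fun o => Real.exp (-o.elim E E'), fun _ => (Real.exp_pos _).le, rfl, fun β => ?_⟩
  convert hasSum_fintype _ using 1
  rw [h, Fintype.sum_option]
  simp [← Real.exp_nat_mul]

/-- the convexity step of the sector-resolved power rule -/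
lemma conv {t s₀ y₀ s x : ℝ} (ht : 1 ≤ t) (h0 : 0 ≤ s₀) (h1 : s₀ ≤ s) (h2 : 0 ≤ y₀)
    (h3 : s₀ + 3 * y₀ ≤ x) (hs : s ≤ x) {y : ℝ} (f₁ : 3 * (x / 3) ^ t ≤ y)
    (f₂ : s ^ t + 3 * ((x - s) / 3) ^ t ≤ y) : s₀ ^ t + 3 * y₀ ^ t ≤ y := by
  obtain ⟨θ, h4, h5, rfl⟩ : ∃ θ : ℝ, 0 ≤ θ ∧ θ ≤ 1 ∧ s₀ = θ * s := by
    rcases (h0.trans h1).eq_or_lt with h | h
    · exact ⟨0, le_rfl, zero_le_one, by linarith⟩
    · exact ⟨s₀ / s, by positivity, (div_le_one h).2 h1, by field_simp⟩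
  have hs0 := h0.trans h1
  have c1 := (convexOn_rpow ht).2 (x := s) (y := 0) hs0 (Set.mem_Ici.2 le_rfl) h4
    (sub_nonneg.2 h5) (by ring)
  have c2 := (convexOn_rpow ht).2 (x := (x - s) / 3) (y := x / 3)
    (Set.mem_Ici.2 (by linarith)) (Set.mem_Ici.2 (by linarith)) h4 (sub_nonneg.2 h5) (by ring)
  simp only [smul_eq_mul, mul_zero, add_zero, Real.zero_rpow (by linarith : t ≠ 0)] at c1 c2
  have c3 : y₀ ^ t ≤ (θ * ((x - s) / 3) + (1 - θ) * (x / 3)) ^ t :=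
    Real.rpow_le_rpow h2 (by linarith) (by linarith)
  nlinarith [mul_le_mul_of_nonneg_left f₂ h4, mul_le_mul_of_nonneg_left f₁ (sub_nonneg.2 h5)]

end BR
end Crest.Agent.R347
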