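import Crest.Agent.R347.BootOpen

/-! Row 347: interface tables between the ring chain and the open chain.  Owner: helper8. -/

set_option autoImplicit false

namespace Crest.Agent.R347

/-- `(β, p, mA, mB)`: `Pb β p`, `MA β mA`, `MB β mB` -/
def tabP : List (ℕ × ℚ × ℚ × ℚ) := [
  (10, 1 + 2490 / 10 ^ 6, 7199 / 10000, 8759 / 10000),
  (11, 1 + 2096 / 10 ^ 6, 7187 / 10000, 8843 / 10000),
  (12, 1 + 1931 / 10 ^ 6, 7237 / 10000, 8928 / 10000),
  (14, 1 + 1554 / 10 ^ 6, 7507 / 10000, 9095 / 10000),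
  (16, 1 + 1246 / 10 ^ 6, 7762 / 10000, 9258 / 10000),
  (20, 1 + 8241 / 10 ^ 7, 8239 / 10000, 9313 / 10000),
  (24, 1 + 5726 / 10 ^ 7, 8683 / 10000, 9362 / 10000),
  (30, 1 + 3574 / 10 ^ 7, 9433 / 10000, 9432 / 10000),
  (40, 1 + 1655 / 10 ^ 7, 9532 / 10000, 9512 / 10000),
  (52, 1 + 7271 / 10 ^ 8, 9606 / 10000, 9562 / 10000),
  (64, 1 + 3415 / 10 ^ 8, 9654 / 10000, 9598 / 10000),
  (80, 1 + 1292 / 10 ^ 8, 9704 / 10000, 9626 / 10000),
  (100, 1 + 4156 / 10 ^ 9, 9731 / 10000, 9650 / 10000),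
  (140, 1 + 5173 / 10 ^ 10, 9761 / 10000, 9681 / 10000),
  (200, 1 + 3009 / 10 ^ 11, 9788 / 10000, 9710 / 10000),
  (280, 1 + 8483 / 10 ^ 13, 9803 / 10000, 9736 / 10000),
  (400, 1 + 2454 / 10 ^ 14, 9817 / 10000, 9762 / 10000)]

/-- `(β, la, mA, mB)`: `La β la`, `MA' β mA`, `MB' β mB` -/
def tabA : List (ℕ × ℚ × ℚ × ℚ) := [
  (10, 1002418 / 1000000, 7196 / 10000, 8755 / 10000),
  (11, 1002036 / 1000000, 7184 / 10000, 8839 / 10000),
  (12, 1001974 / 1000000, 7229 / 10000, 8924 / 10000),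
  (14, 1002515 / 1000000, 7498 / 10000, 9091 / 10000),
  (16, 1003742 / 1000000, 7753 / 10000, 9253 / 10000),
  (20, 1008067 / 1000000, 8230 / 10000, 9567 / 10000),
  (24, 1015029 / 1000000, 8673 / 10000, 9872 / 10000)]

/-- the doubly exponentially small quantity of the ring induction -/
noncomputable def th (j : ℕ) : ℝ := 1 / 2 ^ (8 * 2 ^ j + j + 16)

end Crest.Agent.R347
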