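import Mathlib
import Crest.Prelude.Def_SpinChain

/-! Row 347 (Haldane gap): shared definitions.  Owner: helper8.  See notes of row 347. -/

set_option autoImplicit false

namespace Crest.Agent.R347
open Crest.MathPhysics.SpinChain Matrix

/-- spin configurations of `L` sites -/
abbrev Cfg (L : ℕ) := Fin L → Fin 3

open Classical in
/-- partition function `Tr exp(-β H)` of a Hermitian matrix, through its eigenvalues -/
noncomputable def ptr {κ : Type} [Fintype κ] [DecidableEq κ] (H : Matrix κ κ ℂ) (β : ℝ) : ℝ :=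
  if h : H.IsHermitian then ∑ i, Real.exp (-β * h.eigenvalues i) else 0

open Classical in
/-- ground state energy (least eigenvalue) of a Hermitian matrix -/
noncomputable def gse {κ : Type} [Fintype κ] [DecidableEq κ] (H : Matrix κ κ ℂ) : ℝ :=
  if h : H.IsHermitian then ⨅ i, h.eigenvalues i else 0

/-- `f β = exp(-β E0) + Σ_j exp(-β E_j)` with all `E_j ≥ E0` ("time" structure). -/
def TS (f : ℝ → ℝ) (E0 : ℝ) : Prop :=
  ∃ (n : ℕ) (E : Fin n → ℝ), (∀ j, E0 ≤ E j) ∧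
    ∀ β, f β = Real.exp (-β * E0) + ∑ j, Real.exp (-β * E j)

/-- `w L = Σ_i μ_i^L` (`L ≥ 5`) and `W k = Σ_i c_i μ_i^k` (`k ≥ 1`) with weights `c_i ≥ 0`
("space" structure: spectrum of the transfer matrix in one symmetry sector). -/
def PS2 (w W : ℕ → ℝ) : Prop :=
  ∃ μ c : ℕ → ℝ, (∀ i, 0 ≤ c i) ∧ (∀ L, 5 ≤ L → HasSum (fun i => μ i ^ L) (w L)) ∧
    (∀ k, 1 ≤ k → HasSum (fun i => c i * μ i ^ k) (W k))

/-- twisted exchange bond in the `S^z` basis -/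
noncomputable def tbond {ι : Type} [Fintype ι] [DecidableEq ι] (ζ : ℂ) (j k : ι) :
    Matrix (ι → Fin 3) (ι → Fin 3) ℂ :=
  onSite spinZ j * onSite spinZ k + (ζ / 2) • (onSite spinPlus j * onSite spinMinus k) +
    (star ζ / 2) • (onSite spinMinus j * onSite spinPlus k)

/-- ring with every bond twisted by `ζ` (uniform gauge; total twist `ζ^L`) -/
noncomputable def Hring (L : ℕ) (ζ : ℂ) : Matrix (Cfg L) (Cfg L) ℂ :=
  ∑ j : Fin L, tbond ζ j (finRotate L j)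

/-- `exp(2πi/(24 L))` -/
noncomputable def om (L : ℕ) : ℂ := Complex.exp (2 * Real.pi * Complex.I / (24 * L))

/-- per-bond phase for the total twist angle `2π a / 12` (`a = 0, 3, 4, 6` are used) -/
noncomputable def zeta (L a : ℕ) : ℂ := om L ^ (2 * a)

/-- ring partition function with total twist `2π a/12` -/
noncomputable def Zr (a L : ℕ) (β : ℝ) : ℝ := ptr (Hring L (zeta L a)) β

/-- open chain of `n+1` sites, field `3/5` at the first site, `±3/5` at the last one -/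
noncomputable def Hopen (n : ℕ) (τ : Bool) : Matrix (Cfg (n + 1)) (Cfg (n + 1)) ℂ :=
  (∑ j : Fin n, bond (Fin.castSucc j) (Fin.succ j)) -
    (((3 / 5 : ℝ)) : ℂ) • (onSite spinZ (0 : Fin (n + 1)) +
      (if τ then (1 : ℂ) else -1) • onSite spinZ (Fin.last n))

/-- open-chain partition function, `N` sites -/
noncomputable def Zo (τ : Bool) (N : ℕ) (β : ℝ) : ℝ := ptr (Hopen (N - 1) τ) β

/-- octahedral sector combinations of the twisted partition functions `z a L` -/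
noncomputable def cA1 (z : ℕ → ℕ → ℝ) (L : ℕ) : ℝ := (z 0 L + 9 * z 6 L + 6 * z 3 L + 8 * z 4 L) / 24
noncomputable def cA2 (z : ℕ → ℕ → ℝ) (L : ℕ) : ℝ := (z 0 L - 3 * z 6 L - 6 * z 3 L + 8 * z 4 L) / 24
noncomputable def cE (z : ℕ → ℕ → ℝ) (L : ℕ) : ℝ := (z 0 L + 3 * z 6 L - 4 * z 4 L) / 12
noncomputable def cT1 (z : ℕ → ℕ → ℝ) (L : ℕ) : ℝ := (z 0 L - 3 * z 6 L + 2 * z 3 L) / 8
noncomputable def cT2 (z : ℕ → ℕ → ℝ) (L : ℕ) : ℝ := (z 0 L + z 6 L - 2 * z 3 L) / 8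

/-- The spatial transfer-matrix structure at one temperature: `z a L` ring partition functions,
`o τ N` open-chain partition functions. -/
def Spatial (z : ℕ → ℕ → ℝ) (o : Bool → ℕ → ℝ) : Prop :=
  ∃ WA WE : ℕ → ℝ, PS2 (cA1 z) WA ∧ PS2 (cA2 z) (fun _ => 0) ∧ PS2 (cE z) WE ∧
    PS2 (cT1 z) (fun k => (o false (k + 2) - o true (k + 2)) / 2) ∧ PS2 (cT2 z) (fun _ => 0) ∧
    ∀ k, 1 ≤ k → WA k + WE k = (o true (k + 2) + o false (k + 2)) / 2

/-- variational (MPS) upper bound for the bulk energy density -/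
def ev : ℚ := -140148 / 100000

/-- Everything the bootstrap uses, except the numerical tables. -/
structure Sys where
  Z : ℕ → ℕ → ℝ → ℝ
  E0 : ℕ → ℝ
  Zo : Bool → ℕ → ℝ → ℝ
  Eo : Bool → ℕ → ℝ
  ts0 : ∀ L, 2 ≤ L → TS (Z 0 L) (E0 L)
  tsp : ∀ L, 2 ≤ L → ∃ E, TS (Z 6 L) E
  tso : ∀ τ N, 2 ≤ N → TS (Zo τ N) (Eo τ N)
  sp : ∀ β : ℝ, 0 < β → Spatial (fun a L => Z a L β) (fun τ N => Zo τ N β)
  mps : ∃ (C : ℝ) (n0 : ℕ), ∀ N, n0 ≤ N → E0 N ≤ N * (ev : ℝ) + C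
  crude : ∀ τ N, 2 ≤ N → Eo τ N ≤ E0 N + 4

/-- table entry `(a, L, β, lo, hi)`: `lo/10^8 ≤ Z a L β · exp(β L ev) ≤ hi/10^8` -/
def EncR (Z : ℕ → ℕ → ℝ → ℝ) (t : ℕ × ℕ × ℕ × ℕ × ℕ) : Prop :=
  (t.2.2.2.1 : ℝ) / 10 ^ 8 ≤ Z t.1 t.2.1 t.2.2.1 * Real.exp (t.2.2.1 * t.2.1 * (ev : ℝ)) ∧
    Z t.1 t.2.1 t.2.2.1 * Real.exp (t.2.2.1 * t.2.1 * (ev : ℝ)) ≤ (t.2.2.2.2 : ℝ) / 10 ^ 8

/-- table entry `(τ, N, β, lo, hi)`: `lo/10^14 ≤ Zo τ N β · exp(β N ev) ≤ hi/10^14` -/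
def EncO (Z : Bool → ℕ → ℝ → ℝ) (t : Bool × ℕ × ℕ × ℕ × ℕ) : Prop :=
  (t.2.2.2.1 : ℝ) / 10 ^ 14 ≤ Z t.1 t.2.1 t.2.2.1 * Real.exp (t.2.2.1 * t.2.1 * (ev : ℝ)) ∧
    Z t.1 t.2.1 t.2.2.1 * Real.exp (t.2.2.1 * t.2.1 * (ev : ℝ)) ≤ (t.2.2.2.2 : ℝ) / 10 ^ 14

/-- table entry `(τ, N, u)`: `Eo τ N ≤ N ev + u` -/
def EncD (E : Bool → ℕ → ℝ) (t : Bool × ℕ × ℚ) : Prop :=
  E t.1 t.2.1 ≤ t.2.1 * (ev : ℝ) + (t.2.2 : ℝ)

/-- conclusion of the bootstrap for one system: the excited states weigh less than `exp(-γ β)` -/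
def GapAt (f : ℝ → ℝ) (E0 γ : ℝ) : Prop :=
  ∃ β : ℝ, 0 < β ∧ f β < (1 + Real.exp (-γ * β)) * Real.exp (-β * E0)

/-- enclosure of a partition function from certified low-lying levels:
levels `ρ ± η`, and at most `n` further levels, all `≥ Es` (list of tails `(n, Es)`). -/
def Encl (f : ℝ → ℝ) (ρ : List ℚ) (η : ℚ) (tails : List (ℕ × ℚ)) : Prop :=
  ∀ β : ℝ, 0 ≤ β →
    (ρ.map fun r : ℚ => Real.exp (-β * ((r : ℝ) + η))).sum ≤ f β ∧
    f β ≤ (ρ.map fun r : ℚ => Real.exp (-β * ((r : ℝ) - η))).sum +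
      (tails.map fun t : ℕ × ℚ => (t.1 : ℝ) * Real.exp (-β * (t.2 : ℝ))).sum

/-! ### product operators -/

/-- tensor product of one-site matrices -/
def piKron {ι V R : Type} [Fintype ι] [CommMonoid R] (W : ι → Matrix V V R) :
    Matrix (ι → V) (ι → V) R :=
  Matrix.of fun σ τ => ∏ j, W j (σ j) (τ j)

/-- two-site matrix acting at the sites `j`, `k` (meant for `j ≠ k`) -/
def onBond {ι V R : Type} [Fintype ι] [DecidableEq ι] [DecidableEq V] [Zero R]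
    (B : Matrix (V × V) (V × V) R) (j k : ι) : Matrix (ι → V) (ι → V) R :=
  Matrix.of fun σ τ => if (∀ i, i ≠ j → i ≠ k → σ i = τ i) then B (σ j, σ k) (τ j, τ k) else 0

/-- the two-site matrix of `tbond ζ`: diagonal `m m'`, hopping `ζ` / `conj ζ` -/
noncomputable def hloc (ζ : ℂ) : Matrix (Fin 3 × Fin 3) (Fin 3 × Fin 3) ℂ :=
  Matrix.of fun s t =>
    if s = t then ((magneticNumber s.1 * magneticNumber s.2 : ℤ) : ℂ)
    else if t.1.val = s.1.val + 1 ∧ s.2.val = t.2.val + 1 then ζ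
    else if s.1.val = t.1.val + 1 ∧ t.2.val = s.2.val + 1 then star ζ
    else 0

end Crest.Agent.R347
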