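import Mathlib

/-! Row 347, MPS bounds: blocks as completely positive maps (real linear algebra). -/

set_option autoImplicit false

namespace Crest.Agent.R347.MC
open Matrix Kronecker

variable {κ κ' κ'' Ω Ω' : Type} [Fintype κ] [Fintype κ'] [Fintype κ''] [Fintype Ω] [Fintype Ω']

/-- comparison of quadratic forms -/
def QLe (A B : Matrix κ κ ℝ) : Prop := ∀ v : κ → ℝ, v ⬝ᵥ A *ᵥ v ≤ v ⬝ᵥ B *ᵥ v

namespace QLe

variable {A B C A' B' : Matrix κ κ ℝ}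

lemma refl (A : Matrix κ κ ℝ) : QLe A A := fun _ => le_rfl

lemma of_eq (h : A = B) : QLe A B := h ▸ refl A

lemma trans (h : QLe A B) (h' : QLe B C) : QLe A C := fun v => (h v).trans (h' v)

lemma add (h : QLe A B) (h' : QLe A' B') : QLe (A + A') (B + B') := fun v => by
  simp only [add_mulVec, dotProduct_add]
  exact add_le_add (h v) (h' v)

lemma smul (h : QLe A B) {c : ℝ} (hc : 0 ≤ c) : QLe (c • A) (c • B) := fun v => by
  simp only [smul_mulVec, dotProduct_smul, smul_eq_mul]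
  exact mul_le_mul_of_nonneg_left (h v) hc

lemma of_sub (h : QLe (A - B) 0) : QLe A B := fun v => by
  have := h v
  simp only [sub_mulVec, dotProduct_sub, zero_mulVec, dotProduct_zero] at this
  linarith

lemma conj (h : QLe A B) (T : Matrix κ κ' ℝ) : QLe (Tᵀ * A * T) (Tᵀ * B * T) := fun v => by
  have key : ∀ X : Matrix κ κ ℝ, v ⬝ᵥ (Tᵀ * X * T) *ᵥ v = (T *ᵥ v) ⬝ᵥ X *ᵥ (T *ᵥ v) := fun X => by
    rw [← mulVec_mulVec, ← mulVec_mulVec, dotProduct_mulVec, vecMul_transpose]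
  rw [key, key]
  exact h _

lemma sum {ι : Type} (s : Finset ι) {f g : ι → Matrix κ κ ℝ} (h : ∀ i ∈ s, QLe (f i) (g i)) :
    QLe (∑ i ∈ s, f i) (∑ i ∈ s, g i) := fun v => by
  simp only [sum_mulVec, dotProduct_sum]
  exact Finset.sum_le_sum fun i hi => h i hi v

lemma transpose (A : Matrix κ κ ℝ) : QLe Aᵀ A := fun v => by
  rw [mulVec_transpose, dotProduct_comm, dotProduct_mulVec]

lemma of_frob [DecidableEq κ] {E : Matrix κ κ ℝ} {c : ℝ} (hc : 0 ≤ c)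
    (h : ∑ i, ∑ j, E i j * E i j ≤ c * c) : QLe E (c • 1) := fun v => by
  have h1 : v ⬝ᵥ E *ᵥ v = ∑ p : κ × κ, E p.1 p.2 * (v p.1 * v p.2) := by
    simp only [dotProduct, mulVec, Finset.mul_sum, Fintype.sum_prod_type]
    exact Finset.sum_congr rfl fun i _ => Finset.sum_congr rfl fun j _ => by ring
  have h2 := Finset.sum_mul_sq_le_sq_mul_sq Finset.univ (fun p : κ × κ => E p.1 p.2)
    fun p : κ × κ => v p.1 * v p.2
  have h3 : ∑ p : κ × κ, (v p.1 * v p.2) ^ 2 = (v ⬝ᵥ v) ^ 2 := by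
    simp only [dotProduct, Fintype.sum_prod_type, sq, Finset.sum_mul_sum]
    exact Finset.sum_congr rfl fun i _ => Finset.sum_congr rfl fun j _ => by ring
  have h4 : ∑ p : κ × κ, E p.1 p.2 ^ 2 ≤ c ^ 2 := by
    simpa only [Fintype.sum_prod_type, sq] using h
  have h5 : 0 ≤ v ⬝ᵥ v := Finset.sum_nonneg fun i _ => mul_self_nonneg _
  rw [smul_mulVec, one_mulVec, dotProduct_smul, smul_eq_mul, h1]
  refine (le_abs_self _).trans (abs_le_of_sq_le_sq ?_ (mul_nonneg hc h5))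
  rw [mul_pow]
  rw [h3] at h2
  exact h2.trans (mul_le_mul_of_nonneg_right h4 (sq_nonneg _))

lemma exists_le [DecidableEq κ] (E : Matrix κ κ ℝ) : ∃ c : ℝ, QLe E (c • 1) :=
  ⟨√(∑ i, ∑ j, E i j * E i j), of_frob (Real.sqrt_nonneg _) (Real.mul_self_sqrt
    (Finset.sum_nonneg fun _ _ => Finset.sum_nonneg fun _ _ => mul_self_nonneg _)).ge⟩

lemma le_of_smul_one [DecidableEq κ] [Nonempty κ] {a b : ℝ}
    (h : QLe (a • (1 : Matrix κ κ ℝ)) (b • 1)) : a ≤ b := by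
  simpa [smul_mulVec] using h (Pi.single (Classical.arbitrary κ) 1)

end QLe

/-- Frobenius product -/
def fr (A B : Matrix κ κ' ℝ) : ℝ := ∑ i, ∑ j, A i j * B i j

lemma quad_kron (O : Matrix κ κ ℝ) (O' : Matrix κ' κ' ℝ) (c : κ × κ' → ℝ) :
    c ⬝ᵥ (O ⊗ₖ O') *ᵥ c = fr ((of fun a b => c (a, b)) * O') (O * of fun a b => c (a, b)) := by
  simp only [fr, dotProduct, mulVec, Fintype.sum_prod_type, kroneckerMap_apply, mul_apply,
    of_apply, Finset.sum_mul_sum]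
  simp only [Finset.mul_sum]
  refine Finset.sum_congr rfl fun a _ => ?_
  conv_rhs => rw [Finset.sum_comm]
  refine Finset.sum_congr rfl fun b _ => ?_
  rw [Finset.sum_comm]
  exact Finset.sum_congr rfl fun b' _ => Finset.sum_congr rfl fun a' _ => by ring

lemma QLe.kron_one [DecidableEq κ'] {A B : Matrix κ κ ℝ} (h : QLe A B) :
    QLe (A ⊗ₖ (1 : Matrix κ' κ' ℝ)) (B ⊗ₖ 1) := fun c => by
  have key : ∀ X : Matrix κ κ ℝ, c ⬝ᵥ (X ⊗ₖ (1 : Matrix κ' κ' ℝ)) *ᵥ c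
      = ∑ b, (fun a => c (a, b)) ⬝ᵥ X *ᵥ fun a => c (a, b) := fun X => by
    rw [quad_kron, Matrix.mul_one, fr, Finset.sum_comm]
    rfl
  rw [key, key]
  exact Finset.sum_le_sum fun b _ => h _

lemma QLe.one_kron [DecidableEq κ'] {A B : Matrix κ κ ℝ} (h : QLe A B) :
    QLe ((1 : Matrix κ' κ' ℝ) ⊗ₖ A) (1 ⊗ₖ B) := fun c => by
  have key : ∀ X : Matrix κ κ ℝ, c ⬝ᵥ ((1 : Matrix κ' κ' ℝ) ⊗ₖ X) *ᵥ c
      = ∑ a, (fun b => c (a, b)) ⬝ᵥ X *ᵥ fun b => c (a, b) := fun X => by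
    rw [quad_kron, Matrix.one_mul, fr]
    refine Finset.sum_congr rfl fun a _ => ?_
    rw [dotProduct_mulVec]
    rfl
  rw [key, key]
  exact Finset.sum_le_sum fun b _ => h _

/-- a family of Kraus operators -/
structure CP (Ω κ : Type) where
  /-- ancilla index -/
  K : Type
  [fin : Fintype K]
  /-- Kraus operators -/
  φ : K → Matrix Ω κ ℝ

attribute [instance] CP.fin

namespace CP

/-- the completely positive map -/
def ap (E : CP Ω κ) : Matrix Ω Ω ℝ →ₗ[ℝ] Matrix κ κ ℝ where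
  toFun O := ∑ k, (E.φ k)ᵀ * O * E.φ k
  map_add' O O' := by simp only [Matrix.mul_add, Matrix.add_mul, Finset.sum_add_distrib]
  map_smul' c O := by
    simp only [Matrix.mul_smul, Matrix.smul_mul, Finset.smul_sum, RingHom.id_apply]

omit [Fintype κ] in
lemma ap_apply (E : CP Ω κ) (O : Matrix Ω Ω ℝ) : E.ap O = ∑ k, (E.φ k)ᵀ * O * E.φ k := rfl

omit [Fintype κ] in
lemma ap_transpose (E : CP Ω κ) (O : Matrix Ω Ω ℝ) : E.ap Oᵀ = (E.ap O)ᵀ := by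
  simp only [ap_apply, transpose_sum, transpose_mul, transpose_transpose, Matrix.mul_assoc]

lemma ap_mono (E : CP Ω κ) {O O' : Matrix Ω Ω ℝ} (h : QLe O O') : QLe (E.ap O) (E.ap O') :=
  QLe.sum _ fun k _ => h.conj (E.φ k)

/-- tensor product -/
def kron (E : CP Ω κ) (E' : CP Ω' κ') : CP (Ω × Ω') (κ × κ') where
  K := E.K × E'.K
  φ p := E.φ p.1 ⊗ₖ E'.φ p.2

omit [Fintype κ] [Fintype κ'] in
lemma ap_kron (E : CP Ω κ) (E' : CP Ω' κ') (O : Matrix Ω Ω ℝ) (O' : Matrix Ω' Ω' ℝ) :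
    (E.kron E').ap (O ⊗ₖ O') = E.ap O ⊗ₖ E'.ap O' := by
  change ∑ p : E.K × E'.K, (E.φ p.1 ⊗ₖ E'.φ p.2)ᵀ * (O ⊗ₖ O') * (E.φ p.1 ⊗ₖ E'.φ p.2) = _
  simp only [← kroneckerMap_transpose, ← mul_kronecker_mul, ap_apply]
  ext ⟨a, b⟩ ⟨a', b'⟩
  simp only [Matrix.sum_apply, kroneckerMap_apply, Fintype.sum_prod_type, Finset.sum_mul_sum]

/-- composition -/
def comp (E : CP Ω κ) (E' : CP κ κ') : CP Ω κ' where
  K := E'.K × E.K
  φ p := E.φ p.2 * E'.φ p.1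

omit [Fintype κ'] in
lemma ap_comp (E : CP Ω κ) (E' : CP κ κ') (O : Matrix Ω Ω ℝ) :
    (E.comp E').ap O = E'.ap (E.ap O) := by
  change ∑ p : E'.K × E.K, (E.φ p.2 * E'.φ p.1)ᵀ * O * (E.φ p.2 * E'.φ p.1) = _
  simp only [ap_apply, Fintype.sum_prod_type, Matrix.mul_sum, Matrix.sum_mul, transpose_mul,
    Matrix.mul_assoc]

/-- the identity -/
def one (κ : Type) [DecidableEq κ] : CP κ κ where
  K := Unit
  φ _ := 1

lemma ap_one [DecidableEq κ] (O : Matrix κ κ ℝ) : (one κ).ap O = O := by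
  change ∑ _p : Unit, (1 : Matrix κ κ ℝ)ᵀ * O * 1 = _
  simp

/-- relabelling of the configurations -/
def reidx (E : CP Ω κ) (F : Ω' ≃ Ω) : CP Ω' κ where
  K := E.K
  φ k := (E.φ k).submatrix F id

omit [Fintype κ] in
lemma ap_reidx (E : CP Ω κ) (F : Ω' ≃ Ω) (O : Matrix Ω Ω ℝ) :
    (E.reidx F).ap (O.submatrix F F) = E.ap O := by
  change ∑ k : E.K, ((E.φ k).submatrix F id)ᵀ * O.submatrix F F * (E.φ k).submatrix F id = _
  simp only [transpose_submatrix, submatrix_mul_equiv, submatrix_id_id, ap_apply]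

end CP

/-- A block with orthonormal states, energy at most `M` and edge operators `Z`, `P`. -/
def Blk [DecidableEq Ω] [DecidableEq κ] (H Zo Po : Matrix Ω Ω ℝ) (Z P M : Matrix κ κ ℝ) : Prop :=
  ∃ E : CP Ω κ, E.ap 1 = 1 ∧ E.ap Zo = Z ∧ E.ap Po = P ∧ QLe (E.ap H) M

/-- two blocks joined by a bond -/
def Hj [DecidableEq Ω] [DecidableEq Ω'] (H Zo Po : Matrix Ω Ω ℝ) (H' Zo' Po' : Matrix Ω' Ω' ℝ) :
    Matrix (Ω × Ω') (Ω × Ω') ℝ :=
  H ⊗ₖ 1 + 1 ⊗ₖ H' + Zo ⊗ₖ Zo' + Po ⊗ₖ Po'ᵀ + Poᵀ ⊗ₖ Po'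

/-- `S^z` -/
def zS : Matrix (Fin 3) (Fin 3) ℝ := !![1, 0, 0; 0, 0, 0; 0, 0, -1]
/-- `S^+ / √2` -/
def pS : Matrix (Fin 3) (Fin 3) ℝ := !![0, 1, 0; 0, 0, 1; 0, 0, 0]

/-- Gram matrix of a site tensor -/
def XA {R : Type} [Ring R] (A : Fin 3 → Matrix κ κ R) : Matrix κ κ R :=
  (A 0)ᵀ * A 0 + ((A 1)ᵀ * A 1 + (A 2)ᵀ * A 2)
/-- `S^z` of the new site -/
def ZA {R : Type} [Ring R] (A : Fin 3 → Matrix κ κ R) : Matrix κ κ R :=
  (A 0)ᵀ * A 0 - (A 2)ᵀ * A 2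
/-- `S^+ / √2` of the new site -/
def PA {R : Type} [Ring R] (A : Fin 3 → Matrix κ κ R) : Matrix κ κ R :=
  (A 0)ᵀ * A 1 + (A 1)ᵀ * A 2
/-- energy of the enlarged block -/
def NA {R : Type} [Ring R] (Z P G : Matrix κ κ R) (A : Fin 3 → Matrix κ κ R) : Matrix κ κ R :=
  (A 0)ᵀ * ((G + Z) * A 0) + ((A 1)ᵀ * (G * A 1 + (P * A 0 + P * A 0)) +
    (A 2)ᵀ * ((G - Z) * A 2 + (P * A 1 + P * A 1)))

/-- the three matrices of a site tensor, stacked -/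
def stk (A : Fin 3 → Matrix κ κ' ℝ) : Matrix (κ × Fin 3) κ' ℝ := of fun p b => A p.2 p.1 b

omit [Fintype κ'] in
lemma stk_kron (A : Fin 3 → Matrix κ κ' ℝ) (O : Matrix κ κ ℝ) (U : Matrix (Fin 3) (Fin 3) ℝ) :
    (stk A)ᵀ * (O ⊗ₖ U) * stk A = ∑ s, ∑ t, U s t • ((A s)ᵀ * O * A t) := by
  ext b b'
  simp only [stk, mul_apply, transpose_apply, of_apply, kroneckerMap_apply, Fintype.sum_prod_type,
    Matrix.sum_apply, Matrix.smul_apply, smul_eq_mul, Finset.sum_mul, Finset.mul_sum]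
  conv_rhs => rw [Finset.sum_comm]
  rw [Finset.sum_comm]
  refine Finset.sum_congr rfl fun t _ => ?_
  conv_rhs => rw [Finset.sum_comm]
  refine Finset.sum_congr rfl fun a' _ => ?_
  rw [Finset.sum_comm]
  exact Finset.sum_congr rfl fun s _ => Finset.sum_congr rfl fun a _ => by ring

open scoped MatrixOrder in
lemma exists_root [DecidableEq κ] {X : Matrix κ κ ℝ} (hX : Xᵀ = X) (h : QLe X 1) :
    ∃ B : Matrix κ κ ℝ, Bᵀ * B = 1 - X := by
  have h1 : (1 - X).PosSemidef := PosSemidef.of_dotProduct_mulVec_nonneg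
    (by simpa [IsHermitian] using hX) fun v => by
      have := h v
      rw [star_trivial, sub_mulVec, dotProduct_sub]
      linarith
  obtain ⟨B, hB⟩ := CStarAlgebra.nonneg_iff_eq_star_mul_self.mp h1.nonneg
  exact ⟨B, by simpa [star_eq_conjTranspose] using hB.symm⟩

namespace Blk

variable [DecidableEq Ω] [DecidableEq Ω'] [DecidableEq κ] [DecidableEq κ']
variable {H Zo Po : Matrix Ω Ω ℝ} {Z P M : Matrix κ κ ℝ}
variable {H' Zo' Po' : Matrix Ω' Ω' ℝ} {Z' P' M' : Matrix κ' κ' ℝ}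

lemma mono (h : Blk H Zo Po Z P M) {M₁ : Matrix κ κ ℝ} (hM : QLe M M₁) : Blk H Zo Po Z P M₁ := by
  obtain ⟨E, h1, h2, h3, h4⟩ := h
  exact ⟨E, h1, h2, h3, h4.trans hM⟩

lemma reidx (h : Blk H Zo Po Z P M) (F : Ω' ≃ Ω) :
    Blk (H.submatrix F F) (Zo.submatrix F F) (Po.submatrix F F) Z P M := by
  obtain ⟨E, h1, h2, h3, h4⟩ := h
  refine ⟨E.reidx F, ?_, ?_, ?_, ?_⟩
  · rw [← submatrix_one_equiv F, CP.ap_reidx, h1]
  · rw [CP.ap_reidx, h2]
  · rw [CP.ap_reidx, h3]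
  · rwa [CP.ap_reidx]

lemma flip (h : Blk H (-Zo) Poᵀ Z P M) : Blk H Zo Po (-Z) Pᵀ M := by
  obtain ⟨E, h1, h2, h3, h4⟩ := h
  refine ⟨E, h1, ?_, ?_, h4⟩
  · rw [← h2, map_neg, neg_neg]
  · rw [← h3, CP.ap_transpose, transpose_transpose]

/-- the empty block -/
lemma base [Unique Ω] (c : ℝ) :
    Blk (0 : Matrix Ω Ω ℝ) (c • 1) 0 (c • (1 : Matrix κ κ ℝ)) 0 0 := by
  let E : CP Ω κ := { K := κ, φ := fun k => of fun _ b => if k = b then 1 else 0 }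
  have h1 : E.ap 1 = 1 := by
    change ∑ k : κ, (of fun (_ : Ω) b => if k = b then (1 : ℝ) else 0)ᵀ * 1
      * (of fun (_ : Ω) b => if k = b then (1 : ℝ) else 0) = 1
    ext b b'
    simp [Matrix.sum_apply, mul_apply, one_apply, eq_comm]
  refine ⟨E, h1, ?_, ?_, ?_⟩
  · rw [map_smul, h1]
  · rw [map_zero]
  · rw [map_zero]
    exact QLe.refl _

lemma lower (h : Blk H Zo Po Z P M) {e : ℝ} (he : QLe (e • 1) H) : QLe (e • 1) M := by
  obtain ⟨E, h1, -, -, h4⟩ := h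
  have := E.ap_mono he
  rw [map_smul, h1] at this
  exact this.trans h4

lemma merge (h : Blk H Zo Po Z P M) {E' : CP Ω' κ'} (h1' : E'.ap 1 = 1) (h2' : E'.ap Zo' = Z')
    (h3' : E'.ap Po' = P') (h4' : QLe (E'.ap H') M') :
    Blk (Hj H Zo Po H' Zo' Po') (1 ⊗ₖ Zo') (1 ⊗ₖ Po') (1 ⊗ₖ Z') (1 ⊗ₖ P')
      (M ⊗ₖ 1 + 1 ⊗ₖ M' + Z ⊗ₖ Z' + P ⊗ₖ P'ᵀ + P ⊗ₖ P'ᵀ) := by
  obtain ⟨E, h1, h2, h3, h4⟩ := h
  refine ⟨E.kron E', ?_, ?_, ?_, ?_⟩
  · rw [← one_kronecker_one, CP.ap_kron, h1, h1', one_kronecker_one]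
  · rw [CP.ap_kron, h1, h2']
  · rw [CP.ap_kron, h1, h3']
  · simp only [Hj, map_add, CP.ap_kron, CP.ap_transpose, h1, h2, h3, h1', h2', h3']
    refine (((h4.kron_one.add h4'.one_kron).add (QLe.refl _)).add (QLe.refl _)).add ?_
    have := QLe.transpose (P ⊗ₖ P'ᵀ)
    rwa [← kroneckerMap_transpose, transpose_transpose] at this

/-- the join of two blocks -/
theorem join (h : Blk H Zo Po Z P M) (h' : Blk H' Zo' Po' Z' P' M') {e : ℝ}
    (he : QLe (e • 1) (Hj H Zo Po H' Zo' Po')) (C : Matrix κ κ' ℝ) :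
    e * fr C C ≤ fr C (M * C) + fr (C * M') C + fr (C * Z') (Z * C)
      + 2 * fr (C * P'ᵀ) (P * C) := by
  obtain ⟨E', h1', h2', h3', h4'⟩ := h'
  have := (h.merge h1' h2' h3' h4').lower he fun p => C p.1 p.2
  rw [← one_kronecker_one, smul_mulVec, dotProduct_smul] at this
  simp only [add_mulVec, dotProduct_add, quad_kron, Matrix.mul_one, Matrix.one_mul,
    smul_eq_mul] at this
  change e * fr C C ≤ fr C (M * C) + fr (C * M') C + fr (C * Z') (Z * C)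
      + fr (C * P'ᵀ) (P * C) + fr (C * P'ᵀ) (P * C) at this
  linarith

/-- adding one site -/
theorem step (h : Blk H Zo Po Z P M) (A : Fin 3 → Matrix κ κ ℝ) {y g : ℝ} {G : Matrix κ κ ℝ}
    (hM : QLe M (y • 1 + G)) (hG : QLe G (g • 1)) (hA : QLe (XA A) 1) :
    Blk (Hj H Zo Po 0 zS pS) (1 ⊗ₖ zS) (1 ⊗ₖ pS) (ZA A) (PA A)
      (y • 1 + (NA Z P G A + g • (1 - XA A))) := by
  obtain ⟨B, hB⟩ := exists_root (X := XA A) (by simp [XA, transpose_mul]) hA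
  obtain ⟨E, h1, h2, h3, h4⟩ := (h.mono hM).merge (E' := CP.one (Fin 3)) (H' := 0) (M' := 0)
    (CP.ap_one 1) (CP.ap_one zS) (CP.ap_one pS) (QLe.of_eq (CP.ap_one 0))
  let T : CP (κ × Fin 3) κ := { K := Bool, φ := fun b => stk (bif b then A else ![0, B, 0]) }
  have hT : ∀ (O : Matrix κ κ ℝ) (U : Matrix (Fin 3) (Fin 3) ℝ), T.ap (O ⊗ₖ U)
      = ∑ s, ∑ t, U s t • ((A s)ᵀ * O * A t) + U 1 1 • (Bᵀ * O * B) := fun O U => by
    change ∑ b : Bool, (stk (bif b then A else ![0, B, 0]))ᵀ * (O ⊗ₖ U)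
      * stk (bif b then A else ![0, B, 0]) = _
    simp only [Fintype.sum_bool, cond_true, cond_false, stk_kron]
    congr 1
    simp [Fin.sum_univ_three]
  refine ⟨E.comp T, ?_, ?_, ?_, ?_⟩
  · rw [CP.ap_comp, h1, ← one_kronecker_one, hT]
    simp [Fin.sum_univ_three, hB, XA, add_assoc]
  · rw [CP.ap_comp, h2, hT]
    simp [Fin.sum_univ_three, zS, ZA, sub_eq_add_neg]
  · rw [CP.ap_comp, h3, hT]
    simp [Fin.sum_univ_three, pS, PA]
  · rw [CP.ap_comp]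
    refine (T.ap_mono h4).trans ?_
    have h5 : QLe (Bᵀ * G * B) (g • (1 - XA A)) := by
      have := hG.conj B
      rwa [Matrix.mul_smul, Matrix.smul_mul, Matrix.mul_one, hB] at this
    refine (QLe.of_eq ?_).trans ((QLe.refl (y • 1)).add ((QLe.refl (NA Z P G A)).add h5))
    have h6 : (1 : Matrix κ κ ℝ) = XA A + Bᵀ * B := by rw [hB, add_sub_cancel]
    simp only [map_add, hT, kronecker_zero, map_zero]
    conv_rhs => rw [h6]
    simp [Fin.sum_univ_three, zS, pS, XA, NA, Matrix.mul_add, Matrix.add_mul, Matrix.sub_mul,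
      Matrix.mul_sub, Matrix.mul_assoc]
    abel

end Blk

end Crest.Agent.R347.MC
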