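import Crest.Agent.R347.Tensor
import Crest.Agent.R347.Spec
import Crest.Agent.R347.MpsLin

/-! Row 347, MPS bounds: the spin chain as a sequence of blocks. -/

set_option autoImplicit false

namespace Crest.Agent.R347.MC
open Crest.MathPhysics.SpinChain Matrix Kronecker

section site

variable {ι : Type} [Fintype ι] [DecidableEq ι]

/-- a real one-site matrix acting at the site `j` -/
noncomputable def onR (A : Matrix (Fin 3) (Fin 3) ℝ) (j : ι) : Matrix (ι → Fin 3) (ι → Fin 3) ℝ :=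
  piKron (Function.update (fun _ => (1 : Matrix (Fin 3) (Fin 3) ℝ)) j A)

/-- the real bond matrix -/
noncomputable def bondR (j k : ι) : Matrix (ι → Fin 3) (ι → Fin 3) ℝ :=
  onR zS j * onR zS k + onR pS j * onR pSᵀ k + onR pSᵀ j * onR pS k

/-- complexification -/
noncomputable def cm {κ : Type} [Fintype κ] [DecidableEq κ] : Matrix κ κ ℝ →+* Matrix κ κ ℂ :=
  Complex.ofRealHom.mapMatrix

lemma cm_apply {κ : Type} [Fintype κ] [DecidableEq κ] (M : Matrix κ κ ℝ) (i j : κ) :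
    cm M i j = (M i j : ℂ) := rfl

lemma cm_smul {κ : Type} [Fintype κ] [DecidableEq κ] (c : ℝ) (M : Matrix κ κ ℝ) :
    cm (c • M) = (c : ℂ) • cm M := by
  ext i j
  simp [cm_apply]

lemma onSite_cm (A : Matrix (Fin 3) (Fin 3) ℝ) (j : ι) : onSite (cm A) j = cm (onR A j) := by
  rw [onSite_eq_piKron]
  ext σ τ
  simp only [cm_apply, onR, piKron, of_apply, Complex.ofReal_prod]
  refine Finset.prod_congr rfl fun i _ => ?_
  by_cases h : i = j
  · subst h
    simp [cm_apply]
  · simp [Function.update_of_ne h, one_apply, apply_ite]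

lemma onSite_smul (c : ℂ) (A : Matrix (Fin 3) (Fin 3) ℂ) (j : ι) :
    onSite (c • A) j = c • onSite A j := by
  ext σ τ
  simp [onSite]

lemma spinZ_eq : spinZ = cm zS := by
  ext i j
  fin_cases i <;> fin_cases j <;> simp [spinZ, magneticNumber, cm_apply, zS]
  norm_num

lemma spinPlus_eq : spinPlus = ((√2 : ℝ) : ℂ) • cm pS := by
  ext i j
  fin_cases i <;> fin_cases j <;> simp [spinPlus, cm_apply, pS]

lemma spinMinus_eq : spinMinus = ((√2 : ℝ) : ℂ) • cm pSᵀ := by
  ext i j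
  fin_cases i <;> fin_cases j <;> simp [spinMinus, spinPlus, cm_apply, pS]

lemma bond_cm (j k : ι) : bond j k = cm (bondR j k) := by
  have h2 : ((√2 : ℝ) : ℂ) * ((√2 : ℝ) : ℂ) = 2 := by
    rw [← Complex.ofReal_mul, Real.mul_self_sqrt zero_le_two]
    norm_num
  rw [bond_eq_tbond, tbond, spinZ_eq, spinPlus_eq, spinMinus_eq]
  simp only [onSite_smul, onSite_cm, bondR, map_add, map_mul, smul_mul_smul_comm, smul_smul, h2,
    star_one]
  norm_num

lemma onR_transpose (A : Matrix (Fin 3) (Fin 3) ℝ) (j : ι) : (onR A j)ᵀ = onR Aᵀ j := by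
  rw [onR, piKron_transpose, onR]
  congr 1
  funext i
  by_cases h : i = j
  · subst h
    simp
  · simp [Function.update_of_ne h]

lemma onR_comm (A B : Matrix (Fin 3) (Fin 3) ℝ) {j k : ι} (h : j ≠ k) :
    onR A j * onR B k = onR B k * onR A j := by
  simp only [onR, piKron_mul]
  congr 1
  funext i
  by_cases h1 : i = j
  · subst h1
    simp [Function.update_of_ne h]
  · simp [Function.update_of_ne h1]

lemma bondR_comm {j k : ι} (h : j ≠ k) : bondR j k = bondR k j := by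
  simp only [bondR]
  rw [onR_comm zS zS h, onR_comm pS pSᵀ h, onR_comm pSᵀ pS h]
  abel

lemma onR_neg (A : Matrix (Fin 3) (Fin 3) ℝ) (j : ι) : onR (-A) j = -onR A j := by
  ext σ τ
  simp only [onR, piKron, of_apply, Matrix.neg_apply]
  rw [← Finset.mul_prod_erase _ _ (Finset.mem_univ j),
    ← Finset.mul_prod_erase _ _ (Finset.mem_univ j), ← neg_mul]
  congr 1
  · simp
  · refine Finset.prod_congr rfl fun i hi => ?_
    simp [Function.update_of_ne (Finset.ne_of_mem_erase hi)]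

/-- spin flip -/
def flipE (ι : Type) : (ι → Fin 3) ≃ (ι → Fin 3) := Equiv.piCongrRight fun _ => Fin.revPerm

lemma onR_flip (A : Matrix (Fin 3) (Fin 3) ℝ) (j : ι) :
    (onR A j).submatrix (flipE ι) (flipE ι) = onR (A.submatrix Fin.rev Fin.rev) j := by
  ext σ τ
  simp only [onR, piKron, of_apply, submatrix_apply]
  refine Finset.prod_congr rfl fun i _ => ?_
  by_cases h : i = j
  · subst h
    simp [flipE]
  · simp [Function.update_of_ne h, one_apply, flipE]

lemma zS_flip : zS.submatrix Fin.rev Fin.rev = -zS := by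
  ext i j
  fin_cases i <;> fin_cases j <;> simp [zS, Fin.rev]

lemma pS_flip : pS.submatrix Fin.rev Fin.rev = pSᵀ := by
  ext i j
  fin_cases i <;> fin_cases j <;> simp [pS, Fin.rev]

lemma mS_flip : pSᵀ.submatrix Fin.rev Fin.rev = pS := by
  ext i j
  fin_cases i <;> fin_cases j <;> simp [pS, Fin.rev]

lemma bondR_flip (j k : ι) : (bondR j k).submatrix (flipE ι) (flipE ι) = bondR j k := by
  simp only [bondR, submatrix_add, Pi.add_apply, ← submatrix_mul_equiv _ _ _ (flipE ι), onR_flip,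
    zS_flip, pS_flip, mS_flip, onR_neg, neg_mul_neg]
  abel

end site

/-- real form of a variational bound -/
lemma re_form {κ : Type} [Fintype κ] [DecidableEq κ] (M : Matrix κ κ ℝ) (v : κ → ℝ) :
    (star (fun i => (v i : ℂ)) ⬝ᵥ (cm M).mulVec fun i => (v i : ℂ)).re = v ⬝ᵥ M *ᵥ v := by
  have : star (fun i => (v i : ℂ)) ⬝ᵥ (cm M).mulVec (fun i => (v i : ℂ))
      = ((v ⬝ᵥ M *ᵥ v : ℝ) : ℂ) := by
    simp [dotProduct, mulVec, cm_apply]
  rw [this, Complex.ofReal_re]

lemma re_form_one {κ : Type} [Fintype κ] (v : κ → ℝ) :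
    (star (fun i => (v i : ℂ)) ⬝ᵥ fun i => (v i : ℂ)).re = v ⬝ᵥ v := by
  have : (star (fun i => (v i : ℂ)) ⬝ᵥ fun i => (v i : ℂ)) = ((v ⬝ᵥ v : ℝ) : ℂ) := by
    simp [dotProduct]
  rw [this, Complex.ofReal_re]

lemma gse_qle {κ : Type} [Fintype κ] [DecidableEq κ] {M : Matrix κ κ ℝ}
    (h : (cm M).IsHermitian) : QLe (gse (cm M) • 1) M := fun v => by
  have := gse_le _ h fun i => (v i : ℂ)
  rwa [re_form, re_form_one, ← smul_eq_mul, ← dotProduct_smul, ← one_mulVec (_ • v),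
    mulVec_smul, ← smul_mulVec] at this

lemma bondR_le {ι : Type} [Fintype ι] [DecidableEq ι] {j k : ι} (h : j ≠ k) :
    QLe (bondR j k) 1 := fun v => by
  have := (bond_form_bound j k h fun i => (v i : ℂ)).2
  rw [bond_cm, re_form, re_form_one] at this
  rwa [one_mulVec]

/-- open chain with a field at the first site -/
noncomputable def HL (h : ℝ) (n : ℕ) : Matrix (Cfg (n + 1)) (Cfg (n + 1)) ℝ :=
  (∑ j : Fin n, bondR (Fin.castSucc j) (Fin.succ j)) - h • onR zS 0

/-- a block of `n + 1` sites -/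
def Inv {κ : Type} [Fintype κ] [DecidableEq κ] (h : ℝ) (n : ℕ) (Z P M : Matrix κ κ ℝ) : Prop :=
  Blk (HL h n) (onR zS (Fin.last n)) (onR pS (Fin.last n)) Z P M

lemma submatrix_sum' {Ω Ω' ι : Type} (s : Finset ι) (f : ι → Matrix Ω Ω ℝ) (F : Ω' → Ω) :
    (∑ i ∈ s, f i).submatrix F F = ∑ i ∈ s, (f i).submatrix F F := by
  ext a b
  simp [Matrix.sum_apply]

lemma sum_kron {Ω Ω' ι : Type} (s : Finset ι) (f : ι → Matrix Ω Ω ℝ) (B : Matrix Ω' Ω' ℝ) :
    (∑ i ∈ s, f i) ⊗ₖ B = ∑ i ∈ s, f i ⊗ₖ B := by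
  ext a b
  simp [Matrix.sum_apply, Finset.sum_mul]

lemma kron_sum {Ω Ω' ι : Type} (s : Finset ι) (f : ι → Matrix Ω Ω ℝ) (B : Matrix Ω' Ω' ℝ) :
    B ⊗ₖ (∑ i ∈ s, f i) = ∑ i ∈ s, B ⊗ₖ f i := by
  ext a b
  simp [Matrix.sum_apply, Finset.mul_sum]

lemma sub_kron {Ω Ω' : Type} (A A' : Matrix Ω Ω ℝ) (B : Matrix Ω' Ω' ℝ) :
    (A - A') ⊗ₖ B = A ⊗ₖ B - A' ⊗ₖ B := by
  ext a b
  simp [sub_mul]

lemma kron_sub {Ω Ω' : Type} (A A' : Matrix Ω Ω ℝ) (B : Matrix Ω' Ω' ℝ) :
    B ⊗ₖ (A - A') = B ⊗ₖ A - B ⊗ₖ A' := by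
  ext a b
  simp [mul_sub]

lemma HL_flip (h : ℝ) (n : ℕ) : (HL h n).submatrix (flipE _) (flipE _) = HL (-h) n := by
  simp only [HL, submatrix_sub, Pi.sub_apply, submatrix_sum', bondR_flip, submatrix_smul,
    Pi.smul_apply, onR_flip, zS_flip, onR_neg, smul_neg, neg_smul]

lemma Inv.flip {κ : Type} [Fintype κ] [DecidableEq κ] {h : ℝ} {n : ℕ} {Z P M : Matrix κ κ ℝ}
    (H : Inv h n Z P M) : Inv (-h) n (-Z) Pᵀ M := by
  have := Blk.reidx H (flipE _)
  rw [HL_flip, onR_flip, onR_flip, zS_flip, pS_flip, onR_neg, ← onR_transpose] at this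
  exact this.flip

/-! ### adding one site -/

/-- splitting off the last site -/
def stepE (n : ℕ) : Cfg (n + 1) ≃ Cfg n × Fin 3 where
  toFun σ := (fun j => σ (Fin.castSucc j), σ (Fin.last n))
  invFun p := Fin.snoc p.1 p.2
  left_inv σ := Fin.snoc_init_self σ
  right_inv p := by simp

lemma piKron_step {n : ℕ} (W : Fin (n + 1) → Matrix (Fin 3) (Fin 3) ℝ) :
    piKron W = (piKron (fun j => W (Fin.castSucc j)) ⊗ₖ W (Fin.last n)).submatrix
      (stepE n) (stepE n) := by
  ext σ τ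
  simp only [piKron, of_apply, Fin.prod_univ_castSucc]
  rfl

lemma onR_castSucc {n : ℕ} (A : Matrix (Fin 3) (Fin 3) ℝ) (j : Fin n) :
    onR A (Fin.castSucc j) = (onR A j ⊗ₖ 1).submatrix (stepE n) (stepE n) := by
  rw [onR, piKron_step, Function.update_of_ne (Fin.castSucc_lt_last j).ne', onR]
  congr 3
  funext i
  by_cases h : i = j
  · subst h
    simp
  · rw [Function.update_of_ne h, Function.update_of_ne fun h' => h (Fin.castSucc_injective _ h')]

lemma onR_last {n : ℕ} (A : Matrix (Fin 3) (Fin 3) ℝ) :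
    onR A (Fin.last n) = ((1 : Matrix (Cfg n) (Cfg n) ℝ) ⊗ₖ A).submatrix (stepE n) (stepE n) := by
  rw [onR, piKron_step, Function.update_self, ← piKron_one]
  congr 3
  funext i
  rw [Function.update_of_ne (Fin.castSucc_lt_last i).ne]

lemma bondR_castSucc {n : ℕ} (j k : Fin n) :
    bondR (Fin.castSucc j) (Fin.castSucc k) = (bondR j k ⊗ₖ 1).submatrix (stepE n) (stepE n) := by
  simp only [bondR, onR_castSucc, submatrix_mul_equiv, ← mul_kronecker_mul, Matrix.mul_one,
    add_kronecker, submatrix_add, Pi.add_apply]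

lemma HL_zero (h : ℝ) : HL h 0 = (Hj 0 ((-h) • 1) 0 0 zS pS).submatrix (stepE 0) (stepE 0) := by
  have : (0 : Fin (0 + 1)) = Fin.last 0 := rfl
  rw [HL, this, onR_last, Hj, smul_kronecker]
  simp [submatrix_smul, submatrix_neg]

lemma HL_succ (h : ℝ) (n : ℕ) : HL h (n + 1) = (Hj (HL h n) (onR zS (Fin.last n))
    (onR pS (Fin.last n)) 0 zS pS).submatrix (stepE (n + 1)) (stepE (n + 1)) := by
  have h0 : (0 : Fin (n + 1 + 1)) = Fin.castSucc 0 := rfl
  rw [HL, Fin.sum_univ_castSucc, h0, onR_castSucc, Fin.succ_last]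
  simp only [Fin.succ_castSucc, bondR_castSucc]
  rw [bondR]
  simp only [onR_castSucc, onR_last (n := n + 1), submatrix_mul_equiv, ← mul_kronecker_mul,
    Matrix.mul_one, Matrix.one_mul, Hj, HL, onR_transpose, sub_kron, sum_kron, smul_kronecker,
    kronecker_zero, add_zero, submatrix_add, submatrix_sub, submatrix_smul, submatrix_sum',
    Pi.add_apply, Pi.sub_apply, Pi.smul_apply]
  abel

section
variable {κ : Type} [Fintype κ] [DecidableEq κ] {h : ℝ} {Z P M G : Matrix κ κ ℝ}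

theorem Inv.first (h : ℝ) (A : Fin 3 → Matrix κ κ ℝ) {y g : ℝ} (hM : QLe 0 (y • 1 + G))
    (hG : QLe G (g • 1)) (hA : QLe (XA A) 1) :
    Inv h 0 (ZA A) (PA A) (y • 1 + (NA ((-h) • 1) 0 G A + g • (1 - XA A))) := by
  have := ((Blk.base (Ω := Cfg 0) (-h)).step A hM hG hA).reidx (stepE 0)
  rwa [← HL_zero, ← onR_last, ← onR_last] at this

theorem Inv.step {n : ℕ} (H : Inv h n Z P M) (A : Fin 3 → Matrix κ κ ℝ) {y g : ℝ}
    (hM : QLe M (y • 1 + G)) (hG : QLe G (g • 1)) (hA : QLe (XA A) 1) :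
    Inv h (n + 1) (ZA A) (PA A) (y • 1 + (NA Z P G A + g • (1 - XA A))) := by
  have := (Blk.step H A hM hG hA).reidx (stepE (n + 1))
  rwa [← HL_succ, ← onR_last, ← onR_last] at this

theorem Inv.ring {n : ℕ} (H : Inv 0 (n + 1) Z P M) [Nonempty κ] {c : ℝ} (hM : QLe M (c • 1)) :
    gse (Hring (n + 2) (zeta (n + 2) 0)) ≤ c + 1 := by
  have h1 : Hring (n + 2) (zeta (n + 2) 0) = cm (HL 0 (n + 1) + bondR (Fin.last (n + 1)) 0) := by
    rw [Hring_succ, HL]
    simp only [bond_cm, map_add, map_sum, zero_smul, sub_zero]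
  have h2 := Hring_herm (n + 2) (by omega) (zeta (n + 2) 0)
  rw [h1] at h2 ⊢
  have h3 := (gse_qle h2).trans ((QLe.refl _).add (bondR_le (Fin.last_pos.ne')))
  have h4 : QLe ((gse (cm (HL 0 (n + 1) + bondR (Fin.last (n + 1)) 0)) - 1) • 1)
      (HL 0 (n + 1)) := by
    have := h3.add (QLe.refl (-1))
    rwa [add_neg_cancel_right, ← sub_eq_add_neg, ← one_smul ℝ (1 : Matrix _ _ ℝ), smul_smul,
      mul_one, ← sub_smul] at this
  have := ((Blk.lower H h4).trans hM).le_of_smul_one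
  linarith

end

/-! ### joining a block and a mirrored block -/

/-- sites of the left block -/
def eL (n : ℕ) (j : Fin (n + 1)) : Fin (n + 1 + n + 1) := Fin.castAdd (n + 1) j
/-- sites of the right block -/
def eR (n : ℕ) (j : Fin (n + 1)) : Fin (n + 1 + n + 1) := Fin.natAdd (n + 1) j.rev

/-- the sites of the two blocks -/
def siteE (n : ℕ) : Fin (n + 1) ⊕ Fin (n + 1) ≃ Fin (n + 1 + n + 1) :=
  (Equiv.sumCongr (Equiv.refl _) Fin.revPerm).trans finSumFinEquiv

/-- the configurations of the two blocks -/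
def joinE (n : ℕ) : Cfg (n + 1 + n + 1) ≃ Cfg (n + 1) × Cfg (n + 1) :=
  ((siteE n).symm.arrowCongr (Equiv.refl _)).trans (Equiv.sumArrowEquivProdArrow _ _ _)

lemma piKron_join {n : ℕ} (W : Fin (n + 1 + n + 1) → Matrix (Fin 3) (Fin 3) ℝ) :
    piKron W = (piKron (fun j => W (eL n j)) ⊗ₖ piKron fun j => W (eR n j)).submatrix
      (joinE n) (joinE n) := by
  ext σ τ
  simp only [piKron, of_apply]
  rw [← (siteE n).prod_comp, Fintype.prod_sum_type]
  rfl

lemma eL_ne_eR {n : ℕ} (i j : Fin (n + 1)) : eL n i ≠ eR n j := fun h =>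
  Sum.inl_ne_inr ((siteE n).injective (a₁ := Sum.inl i) (a₂ := Sum.inr j) h)

lemma eL_inj {n : ℕ} {i j : Fin (n + 1)} (h : eL n i = eL n j) : i = j :=
  Sum.inl_injective ((siteE n).injective (a₁ := Sum.inl i) (a₂ := Sum.inl j) h)

lemma eR_inj {n : ℕ} {i j : Fin (n + 1)} (h : eR n i = eR n j) : i = j :=
  Sum.inr_injective ((siteE n).injective (a₁ := Sum.inr i) (a₂ := Sum.inr j) h)

lemma onR_eL {n : ℕ} (A : Matrix (Fin 3) (Fin 3) ℝ) (j : Fin (n + 1)) :
    onR A (eL n j) = (onR A j ⊗ₖ 1).submatrix (joinE n) (joinE n) := by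
  rw [onR, piKron_join, onR, ← piKron_one]
  congr 3
  · funext i
    by_cases h : i = j
    · subst h
      simp
    · rw [Function.update_of_ne h, Function.update_of_ne fun h' => h (eL_inj h')]
  · funext i
    rw [Function.update_of_ne (eL_ne_eR j i).symm]

lemma onR_eR {n : ℕ} (A : Matrix (Fin 3) (Fin 3) ℝ) (j : Fin (n + 1)) :
    onR A (eR n j) = (1 ⊗ₖ onR A j).submatrix (joinE n) (joinE n) := by
  rw [onR, piKron_join, onR, ← piKron_one]
  congr 3
  · funext i
    rw [Function.update_of_ne (eL_ne_eR i j)]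
  · funext i
    by_cases h : i = j
    · subst h
      simp
    · rw [Function.update_of_ne h, Function.update_of_ne fun h' => h (eR_inj h')]

lemma bondR_eL {n : ℕ} (j k : Fin (n + 1)) :
    bondR (eL n j) (eL n k) = (bondR j k ⊗ₖ 1).submatrix (joinE n) (joinE n) := by
  simp only [bondR, onR_eL, submatrix_mul_equiv, ← mul_kronecker_mul, Matrix.mul_one,
    add_kronecker, submatrix_add, Pi.add_apply]

lemma bondR_eR {n : ℕ} (j k : Fin (n + 1)) :
    bondR (eR n j) (eR n k) = (1 ⊗ₖ bondR j k).submatrix (joinE n) (joinE n) := by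
  simp only [bondR, onR_eR, submatrix_mul_equiv, ← mul_kronecker_mul, Matrix.mul_one,
    kronecker_add, submatrix_add, Pi.add_apply]

lemma sum_bonds (n : ℕ) : ∑ j : Fin (n + 1 + n), bondR (Fin.castSucc j) (Fin.succ j)
    = ∑ j : Fin n, bondR (eL n (Fin.castSucc j)) (eL n (Fin.succ j))
      + bondR (eL n (Fin.last n)) (eR n (Fin.last n))
      + ∑ j : Fin n, bondR (eR n (Fin.castSucc j)) (eR n (Fin.succ j)) := by
  rw [Fin.sum_univ_add, Fin.sum_univ_castSucc]
  congr 1
  · congr 2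
    ext
    simp [eR]
  · rw [← Equiv.sum_comp Fin.revPerm]
    refine Finset.sum_congr rfl fun j _ => ?_
    rw [bondR_comm (Fin.castSucc_lt_succ (i := _)).ne]
    have := j.2
    congr 1
    · ext
      simp [eR]
      omega
    · ext
      simp [eR]

lemma Hopen_join (n : ℕ) (τ : Bool) : Hopen (n + 1 + n) τ =
    cm ((Hj (HL (3 / 5) n) (onR zS (Fin.last n)) (onR pS (Fin.last n))
      (HL (bif τ then 3 / 5 else -(3 / 5)) n) (onR zS (Fin.last n))
      (onR pS (Fin.last n))).submatrix (joinE n) (joinE n)) := by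
  have h0 : (0 : Fin (n + 1 + n + 1)) = eL n 0 := rfl
  have h1 : Fin.last (n + 1 + n) = eR n 0 := by
    ext
    simp [eR]
  have h2 : Hopen (n + 1 + n) τ = cm (∑ j : Fin (n + 1 + n), bondR (Fin.castSucc j) (Fin.succ j)
      - (3 / 5 : ℝ) • onR zS (eL n 0) - (bif τ then 3 / 5 else -(3 / 5) : ℝ) • onR zS (eR n 0)) := by
    rw [Hopen, h0, h1, spinZ_eq]
    simp only [map_sub, map_sum, bond_cm, onSite_cm, cm_smul]
    cases τ
    · simp only [Bool.false_eq_true, if_false, cond_false]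
      push_cast
      module
    · simp only [if_true, cond_true]
      module
  rw [h2, sum_bonds]
  congr 1
  simp only [bondR_eL, bondR_eR]
  rw [bondR]
  simp only [onR_eL, onR_eR, submatrix_mul_equiv, ← mul_kronecker_mul,
    Matrix.mul_one, Matrix.one_mul, Hj, HL, onR_transpose, sub_kron, sum_kron, smul_kronecker,
    kron_sub, kron_sum, kronecker_smul, submatrix_add, submatrix_sub, submatrix_smul,
    submatrix_sum', Pi.add_apply, Pi.sub_apply, Pi.smul_apply]
  abel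

theorem Inv.join {κ : Type} [Fintype κ] [DecidableEq κ] {n : ℕ} {Z P M : Matrix κ κ ℝ}
    (H : Inv (3 / 5) n Z P M) (τ : Bool) (C : Matrix κ κ ℝ) :
    gse (Hopen (n + 1 + n) τ) * fr C C ≤ fr C (M * C) + fr (C * M) C
      + (bif τ then 1 else -1) * fr (C * Z) (Z * C)
      + 2 * fr (C * bif τ then Pᵀ else P) (P * C) := by
  have h1 := Hopen_herm (n + 1 + n) τ
  have h2 := Hopen_join n τ
  rw [h2] at h1
  have h3 := gse_qle h1
  rw [← h2] at h3
  have h4 : QLe (gse (Hopen (n + 1 + n) τ) • 1) (Hj (HL (3 / 5) n) (onR zS (Fin.last n))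
      (onR pS (Fin.last n)) (HL (bif τ then 3 / 5 else -(3 / 5)) n) (onR zS (Fin.last n))
      (onR pS (Fin.last n))) := by
    have := ((CP.one _).reidx (joinE n)).ap_mono h3
    rwa [CP.ap_reidx, CP.ap_one, map_smul, ← submatrix_one_equiv (joinE n), CP.ap_reidx,
      CP.ap_one] at this
  cases τ
  · have := Blk.join H H.flip h4 C
    have h5 : fr (C * -Z) (Z * C) = -1 * fr (C * Z) (Z * C) := by simp [fr]
    rwa [h5, transpose_transpose] at this
  · have := Blk.join H H h4 C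
    simpa using this

end Crest.Agent.R347.MC
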