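import Crest.Agent.R347.MpsChk
import Crest.Agent.R347.MpsSpin

/-! Row 347, MPS bounds: soundness of the checker. -/

set_option autoImplicit false

namespace Crest.Agent.R347.MC
open Matrix

/-! ### lists -/

section lists

variable {α β γ : Type} {n : ℕ}

lemma mapL_ofFn (f : α → β) (x : Fin n → α) :
    mapL f (List.ofFn x) = List.ofFn fun i => f (x i) := by
  induction n with
  | zero => simp [mapL]
  | succ n ih =>
    rw [List.ofFn_succ, List.ofFn_succ, ← ih]
    rfl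

lemma zipL_ofFn (f : α → β → γ) (x : Fin n → α) (y : Fin n → β) :
    zipL f (List.ofFn x) (List.ofFn y) = List.ofFn fun i => f (x i) (y i) := by
  induction n with
  | zero => simp [zipL]
  | succ n ih =>
    rw [List.ofFn_succ, List.ofFn_succ, List.ofFn_succ, ← ih]
    rfl

lemma dot_ofFn (x y : Fin n → ℤ) : dot (List.ofFn x) (List.ofFn y) = ∑ i, x i * y i := by
  induction n with
  | zero => simp [dot]
  | succ n ih =>
    rw [List.ofFn_succ, List.ofFn_succ, Fin.sum_univ_succ, ← ih]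
    rfl

lemma sumL_ofFn (x : Fin n → ℤ) : sumL (List.ofFn x) = ∑ i, x i := by
  induction n with
  | zero => simp [sumL]
  | succ n ih =>
    rw [List.ofFn_succ, Fin.sum_univ_succ, ← ih]
    rfl

lemma horner (b : ℤ) (x : Fin (n + 1) → ℤ) :
    ∑ j, x j * b ^ (j : ℕ) = x 0 + b * ∑ j : Fin n, x j.succ * b ^ (j : ℕ) := by
  rw [Fin.sum_univ_succ, Finset.mul_sum]
  simp only [Fin.val_zero, pow_zero, mul_one, Fin.val_succ, pow_succ]
  congr 1
  exact Finset.sum_congr rfl fun j _ => by ring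

lemma pk_ofFn (x : Fin n → ℤ) : pk (List.ofFn x) = ∑ j, x j * (bz : ℤ) ^ (j : ℕ) := by
  induction n with
  | zero => simp [pk]
  | succ n ih =>
    rw [List.ofFn_succ, horner, ← ih]
    rfl

lemma packT_ofFn (x : Fin n → Fin 24 → ℤ) :
    packT (List.ofFn fun i => List.ofFn (x i))
      = List.ofFn fun j => ∑ i, x i j * (bz : ℤ) ^ (i : ℕ) := by
  induction n with
  | zero => simp [packT]
  | succ n ih =>
    have e : ∀ (r : List ℤ) (L : LM), packT (r :: L)
        = zipL (fun x y => Int.add x (Int.mul (Int.ofNat bz) y)) r (packT L) := fun _ _ => rfl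
    rw [List.ofFn_succ, e, ih, zipL_ofFn]
    congr 1
    funext j
    rw [horner]
    rfl

lemma pows_eq (k x : ℕ) : pows k x = List.ofFn fun i : Fin k => (x : ℤ) * (bz : ℤ) ^ (i : ℕ) := by
  induction k generalizing x with
  | zero => simp [pows]
  | succ k ih =>
    rw [List.ofFn_succ]
    change (x : ℤ) :: pows k (x * bz) = _
    rw [ih]
    simp only [Fin.val_zero, pow_zero, mul_one, Fin.val_succ, pow_succ, Nat.cast_mul]
    congr 2
    funext i
    ring

lemma unN_succ (h b k m : ℕ) :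
    unN h b (k + 1) m = (((m % b : ℕ) : ℤ) - h) :: unN h b k (m / b) := by
  rw [← Int.subNatNat_eq_coe]
  rfl

lemma unN_eq (h : ℕ) (x : Fin n → ℤ) (hx : ∀ j, |x j| ≤ h) (m : ℕ)
    (hm : (m : ℤ) = ∑ j, (x j + h) * (2 * h + 1 : ℤ) ^ (j : ℕ)) :
    unN h (2 * h + 1) n m = List.ofFn x := by
  induction n generalizing m with
  | zero => simp [unN]
  | succ n ih =>
    rw [horner] at hm
    have h0 := abs_le.1 (hx 0)
    have hb : (0 : ℤ) < 2 * h + 1 := by positivity
    have h1 := (Int.ediv_emod_unique hb).2 ⟨hm.symm, by linarith, by linarith⟩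
    rw [unN_succ, List.ofFn_succ, ih (fun j => x j.succ) (fun j => hx _) _
      (by push_cast; exact h1.1)]
    congr 1
    push_cast
    rw [h1.2]
    ring

lemma exists_unN (h k m : ℕ) :
    ∃ x : Fin k → ℤ, unN h (2 * h + 1) k m = List.ofFn x ∧ ∀ j, |x j| ≤ h := by
  induction k generalizing m with
  | zero => exact ⟨Fin.elim0, by simp [unN], fun j => j.elim0⟩
  | succ k ih =>
    obtain ⟨x, h1, h2⟩ := ih (m / (2 * h + 1))
    refine ⟨Fin.cons (((m % (2 * h + 1) : ℕ) : ℤ) - h) x, ?_, fun j => ?_⟩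
    · rw [unN_succ, List.ofFn_succ, h1]
      rfl
    · induction j using Fin.cases with
      | zero =>
        have := Nat.mod_lt m (show 0 < 2 * h + 1 by omega)
        rw [Fin.cons_zero, abs_le]
        omega
      | succ j => exact h2 j

lemma exists_rowsN (b k m : ℕ) : ∃ x : Fin k → ℕ, rowsN b k m = List.ofFn x := by
  induction k generalizing m with
  | zero => exact ⟨Fin.elim0, by simp [rowsN]⟩
  | succ k ih =>
    obtain ⟨x, h1⟩ := ih (m / b)
    refine ⟨Fin.cons (m % b) x, ?_⟩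
    rw [List.ofFn_succ]
    exact congrArg (List.cons (m % b)) h1

end lists

/-! ### integer matrices -/

/-- integer matrices -/
abbrev MZ : Type := Matrix (Fin 24) (Fin 24) ℤ

/-- list of rows -/
def toL (M : MZ) : LM := List.ofFn fun i => List.ofFn (M i)

/-- list of packed rows -/
def toQ (M : MZ) : List ℤ := List.ofFn fun i => ∑ j, M i j * (bz : ℤ) ^ (j : ℕ)

/-- bound for the entries -/
def Bd (M : MZ) (c : ℤ) : Prop := ∀ i j, |M i j| ≤ c

/-- Frobenius product -/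
def frZ (M M' : MZ) : ℤ := ∑ i, ∑ j, M i j * M' i j

lemma toL_inj {M M' : MZ} (h : toL M = toL M') : M = M' := by
  ext i j
  exact congrFun (List.ofFn_injective (congrFun (List.ofFn_injective h) i)) j

lemma exists_mat (h n : ℕ) : ∃ M : MZ, matL h n = toL M ∧ Bd M h := by
  obtain ⟨y, hy⟩ := exists_rowsN (Nat.pow (Nat.succ (Nat.mul 2 h)) 24) 24 n
  choose x h1 h2 using fun i => exists_unN h 24 (y i)
  refine ⟨x, ?_, h2⟩
  have e : Nat.succ (Nat.mul 2 h) = 2 * h + 1 := rfl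
  rw [matL, hy, mapL_ofFn, e]
  simp only [h1]
  rfl

/-- the matrix stored in a number -/
noncomputable def mat (h n : ℕ) : MZ := (exists_mat h n).choose

lemma matL_eq (h n : ℕ) : matL h n = toL (mat h n) := (exists_mat h n).choose_spec.1

lemma bd_mat (h n : ℕ) : Bd (mat h n) h := (exists_mat h n).choose_spec.2

lemma packR_toL (M : MZ) : packR (toL M) = toQ M := by
  simp only [packR, toL, mapL_ofFn, pk_ofFn, toQ]

lemma packT_toL (M : MZ) : packT (toL M) = toQ Mᵀ := packT_ofFn M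

lemma idQ_eq : idQ = toQ 1 := by
  rw [idQ, pows_eq, toQ]
  congr 1
  funext i
  simp [one_apply]

lemma mulQ_toL (C R : MZ) : mulQ (toL C) (toQ R) = toQ (C * R) := by
  simp only [mulQ, toL, toQ, mapL_ofFn, dot_ofFn, mul_apply, Finset.mul_sum, Finset.sum_mul,
    mul_assoc]
  congr 1
  funext i
  exact Finset.sum_comm

lemma addQ_toQ (R R' : MZ) : addQ (toQ R) (toQ R') = toQ (R + R') := by
  simp only [addQ, toQ, zipL_ofFn, Matrix.add_apply, add_mul, Finset.sum_add_distrib]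
  rfl

lemma linQ_ofFn {n : ℕ} (a b : ℤ) (x y : Fin n → ℤ) :
    linQ a (List.ofFn x) b (List.ofFn y) = List.ofFn fun i => a * x i + b * y i :=
  zipL_ofFn _ x y

lemma linQ_toQ (a b : ℤ) (R R' : MZ) : linQ a (toQ R) b (toQ R') = toQ (a • R + b • R') := by
  simp only [toQ, linQ_ofFn, Matrix.add_apply, Matrix.smul_apply, smul_eq_mul, add_mul,
    Finset.sum_add_distrib, Finset.mul_sum, mul_assoc]

lemma linL_toL (a b : ℤ) (M M' : MZ) : linL a (toL M) b (toL M') = toL (a • M + b • M') := by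
  simp only [linL, toL, zipL_ofFn, linQ_ofFn]
  rfl

lemma frob_toL (M M' : MZ) : frob (toL M) (toL M') = frZ M M' := by
  simp only [frob, toL, zipL_ofFn, dot_ofFn, sumL_ofFn, frZ]

lemma off_eq : (off : ℤ) = ∑ j : Fin 24, (hz : ℤ) * (bz : ℤ) ^ (j : ℕ) := by decide +kernel

lemma unp_toQ {M : MZ} (h : Bd M hz) : unp (toQ M) = toL M := by
  have hb : bz = 2 * hz + 1 := by decide +kernel
  simp only [unp, toQ, mapL_ofFn, toL]
  congr 1
  funext i
  have h1 : (∑ j, M i j * (bz : ℤ) ^ (j : ℕ)) + off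
      = ∑ j, (M i j + hz) * (2 * hz + 1 : ℤ) ^ (j : ℕ) := by
    rw [off_eq, ← Finset.sum_add_distrib, hb]
    push_cast
    exact Finset.sum_congr rfl fun j _ => by ring
  have h2 : 0 ≤ ∑ j, (M i j + hz) * (2 * hz + 1 : ℤ) ^ (j : ℕ) :=
    Finset.sum_nonneg fun j _ => mul_nonneg (by linarith [(abs_le.1 (h i j)).1]) (by positivity)
  change unN hz bz 24 (Int.toNat ((∑ j, M i j * (bz : ℤ) ^ (j : ℕ)) + off)) = _
  rw [h1, hb]
  exact unN_eq hz _ (h i) _ (Int.toNat_of_nonneg h2)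

namespace Bd

variable {M M' : MZ} {c c' : ℤ}

lemma mono (h : Bd M c) (hc : c ≤ c') : Bd M c' := fun i j => (h i j).trans hc

lemma transpose (h : Bd M c) : Bd Mᵀ c := fun i j => h j i

lemma add (h : Bd M c) (h' : Bd M' c') : Bd (M + M') (c + c') := fun i j =>
  (abs_add_le _ _).trans (add_le_add (h i j) (h' i j))

lemma sub (h : Bd M c) (h' : Bd M' c') : Bd (M - M') (c + c') := fun i j =>
  (abs_sub _ _).trans (add_le_add (h i j) (h' i j))

lemma smul (h : Bd M c) (a : ℤ) : Bd (a • M) (|a| * c) := fun i j => by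
  rw [Matrix.smul_apply, smul_eq_mul, abs_mul]
  exact mul_le_mul_of_nonneg_left (h i j) (abs_nonneg a)

lemma mul (h : Bd M c) (h' : Bd M' c') : Bd (M * M') (24 * (c * c')) := fun i j => by
  rw [mul_apply]
  refine (Finset.abs_sum_le_sum_abs _ _).trans ?_
  refine (Finset.sum_le_sum (g := fun _ => c * c') fun k _ => ?_).trans_eq (by simp)
  rw [abs_mul]
  exact mul_le_mul (h i k) (h' k j) (abs_nonneg _) ((abs_nonneg _).trans (h i k))

lemma one : Bd 1 1 := fun i j => by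
  rw [one_apply]
  split_ifs <;> simp

end Bd

/-- the integer tensor -/
noncomputable def AZ (a : Ten) : Fin 3 → MZ := ![(mat sc a.a0)ᵀ, (mat sc a.a1)ᵀ, (mat sc a.a2)ᵀ]

lemma bd_AZ (a : Ten) (s : Fin 3) : Bd (AZ a s) sc := by
  fin_cases s <;> exact (bd_mat _ _).transpose

lemma bd_XA (a : Ten) : Bd (XA (AZ a)) (72 * sc ^ 2) :=
  (((bd_AZ a 0).transpose.mul (bd_AZ a 0)).add (((bd_AZ a 1).transpose.mul (bd_AZ a 1)).add
    ((bd_AZ a 2).transpose.mul (bd_AZ a 2)))).mono (le_of_eq (by ring))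

lemma bd_ZA (a : Ten) : Bd (ZA (AZ a)) (48 * sc ^ 2) :=
  (((bd_AZ a 0).transpose.mul (bd_AZ a 0)).sub
    ((bd_AZ a 2).transpose.mul (bd_AZ a 2))).mono (le_of_eq (by ring))

lemma bd_PA (a : Ten) : Bd (PA (AZ a)) (48 * sc ^ 2) :=
  (((bd_AZ a 0).transpose.mul (bd_AZ a 1)).add
    ((bd_AZ a 1).transpose.mul (bd_AZ a 2))).mono (le_of_eq (by ring))

lemma bd_NA {Z P G : MZ} {c : ℤ} (hZ : Bd Z c) (hP : Bd P c) (hG' : Bd G c) (a : Ten) :
    Bd (NA Z P G (AZ a)) (5184 * sc ^ 2 * c) :=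
  (((bd_AZ a 0).transpose.mul ((hG'.add hZ).mul (bd_AZ a 0))).add
    (((bd_AZ a 1).transpose.mul ((hG'.mul (bd_AZ a 1)).add
      ((hP.mul (bd_AZ a 0)).add (hP.mul (bd_AZ a 0))))).add
    ((bd_AZ a 2).transpose.mul (((hG'.sub hZ).mul (bd_AZ a 2)).add
      ((hP.mul (bd_AZ a 1)).add (hP.mul (bd_AZ a 1))))))).mono (le_of_eq (by ring))

lemma zL_eq (a : Ten) : zL a = toL (ZA (AZ a)) := by
  rw [← unp_toQ ((bd_ZA a).mono (by decide +kernel))]
  simp only [zL, matL_eq, packT_toL, mulQ_toL, linQ_toQ]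
  congr 2
  simp [ZA, AZ, sub_eq_add_neg]

lemma pL_eq (a : Ten) : pL a = toL (PA (AZ a)) := by
  rw [← unp_toQ ((bd_PA a).mono (by decide +kernel))]
  simp only [pL, matL_eq, packT_toL, mulQ_toL, addQ_toQ]
  rfl

lemma xQ_eq (a : Ten) : xQ a = toQ (XA (AZ a)) := by
  simp only [xQ, matL_eq, packT_toL, mulQ_toL, addQ_toQ]
  rfl

lemma nQ_eq (Z P G : MZ) (a : Ten) :
    nQ (toL Z) (toL P) (toL G) a = toQ (NA Z P ((sc : ℤ) • G) (AZ a)) := by
  simp only [nQ, matL_eq, packT_toL, mulQ_toL, addQ_toQ, linQ_toQ, linL_toL]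
  congr 1
  simp [NA, AZ, sub_eq_add_neg, two_smul, mul_assoc]

lemma z0L_eq : z0L = toL ((-894069671630859375 : ℤ) • 1) := by
  rw [← unp_toQ ((Bd.one.smul _).mono (by decide +kernel)), z0L, idQ_eq, linQ_toQ]
  congr 2
  simp [Int.negOfNat_eq]

lemma p0L_eq : p0L = toL 0 := by
  rw [← unp_toQ (M := 0) (fun i j => by simp), p0L, idQ_eq, linQ_toQ]
  congr 2
  simp

lemma leZ_spec {a : ℤ} {b : ℕ} (h : leZ a b = true) : a ≤ b :=
  Int.toNat_le.1 (Nat.le_of_ble_eq_true h)

/-! ### real matrices -/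

/-- the real matrix -/
noncomputable def cR : MZ →+* Matrix (Fin 24) (Fin 24) ℝ := (Int.castRingHom ℝ).mapMatrix

lemma cR_apply (M : MZ) (i j : Fin 24) : cR M i j = (M i j : ℝ) := rfl

lemma cR_transpose (M : MZ) : cR Mᵀ = (cR M)ᵀ := rfl

lemma cR_smul (a : ℤ) (M : MZ) : cR (a • M) = (a : ℝ) • cR M := by
  ext i j
  rw [cR_apply, Matrix.smul_apply, Matrix.smul_apply, cR_apply, smul_eq_mul, smul_eq_mul,
    Int.cast_mul]

lemma fr_cR (M M' : MZ) : fr (cR M) (cR M') = frZ M M' := by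
  simp [fr, frZ, cR_apply]

lemma frobLe_spec {M : MZ} {c : ℕ} (h : frobLe (toL M) c = true) : QLe (cR M) ((c : ℝ) • 1) := by
  have h1 := leZ_spec h
  rw [frob_toL] at h1
  refine QLe.of_frob (Nat.cast_nonneg c) ?_
  change fr (cR M) (cR M) ≤ _
  rw [fr_cR]
  exact_mod_cast h1

/-- inverse of the scale -/
noncomputable def si : ℝ := (sc : ℝ)⁻¹

lemma si_pos : 0 < si := by
  unfold si sc
  positivity

lemma si_mul : si * sc = 1 := inv_mul_cancel₀ (by unfold sc; positivity)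

/-- the real tensor -/
noncomputable def AR (a : Ten) : Fin 3 → Matrix (Fin 24) (Fin 24) ℝ := fun s => si • cR (AZ a s)

/-- the energy matrix -/
noncomputable def GR (g : ℕ) : Matrix (Fin 24) (Fin 24) ℝ := si • cR (mat hG g)

lemma XA_AR (a : Ten) : XA (AR a) = si ^ 2 • cR (XA (AZ a)) := by
  simp only [XA, AR, transpose_smul, smul_mul_smul_comm, map_add, map_mul, cR_transpose, smul_add,
    sq]

lemma ZA_AR (a : Ten) : ZA (AR a) = si ^ 2 • cR (ZA (AZ a)) := by
  simp only [ZA, AR, transpose_smul, smul_mul_smul_comm, map_sub, map_mul, cR_transpose, smul_sub,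
    sq]

lemma PA_AR (a : Ten) : PA (AR a) = si ^ 2 • cR (PA (AZ a)) := by
  simp only [PA, AR, transpose_smul, smul_mul_smul_comm, map_add, map_mul, cR_transpose, smul_add,
    sq]

lemma NA_AR (Z P G : MZ) (a : Ten) :
    NA (si ^ 2 • cR Z) (si ^ 2 • cR P) (si ^ 2 • cR G) (AR a) = si ^ 4 • cR (NA Z P G (AZ a)) := by
  simp only [NA, AR, transpose_smul, ← smul_add, ← smul_sub, smul_mul_smul_comm, map_add, map_sub,
    map_mul, cR_transpose]
  congr 1
  ring

lemma isoOK_spec {a : Ten} (h : isoOK a = true) : QLe (XA (AR a)) 1 := by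
  rw [isoOK, xQ_eq, idQ_eq, linQ_toQ, unp_toQ ((((bd_XA a).smul _).add (Bd.one.smul _)).mono
    (by decide +kernel))] at h
  have h1 := ((frobLe_spec h).add (QLe.refl (((sc : ℝ) ^ 2 - 16 * sc) • 1))).smul
    (sq_nonneg si)
  refine (QLe.of_eq ?_).trans (h1.trans (QLe.of_eq ?_))
  · rw [XA_AR, map_add, cR_smul, cR_smul, map_one]
    have e : ((Int.negOfNat (Nat.sub (Nat.mul sc sc) (Nat.mul 16 sc)) : ℤ) : ℝ)
        = -((sc : ℝ) ^ 2 - 16 * sc) := by
      have : Int.negOfNat (Nat.sub (Nat.mul sc sc) (Nat.mul 16 sc)) = -((sc : ℤ) ^ 2 - 16 * sc) := by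
        decide +kernel
      rw [this]
      push_cast
      ring
    rw [e, neg_smul, neg_add_cancel_right]
    simp
  · rw [← add_smul, smul_smul]
    have : si ^ 2 * (((Nat.mul 16 sc : ℕ) : ℝ) + ((sc : ℝ) ^ 2 - 16 * sc)) = 1 := by
      change si ^ 2 * (((16 * sc : ℕ) : ℝ) + ((sc : ℝ) ^ 2 - 16 * sc)) = 1
      push_cast
      linear_combination (si * sc + 1) * si_mul
    rw [this, one_smul]

theorem stepOK_spec {Z P : MZ} (hZ : Bd Z (48 * sc ^ 2)) (hP : Bd P (48 * sc ^ 2)) {g g' : ℕ}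
    {a : Ten} (h : stepOK (toL Z) (toL P) g a g' = true) :
    QLe (GR g) ((32 : ℝ) • 1) ∧ QLe (XA (AR a)) 1 ∧
      QLe (NA (si ^ 2 • cR Z) (si ^ 2 • cR P) (GR g) (AR a) + (32 : ℝ) • (1 - XA (AR a)))
        ((-(eh * si)) • 1 + GR g') := by
  simp only [stepOK, Bool.and_eq_true] at h
  obtain ⟨h1, h2, h3⟩ := h
  have hhG : (hG : ℝ) = 32 * sc := by
    unfold hG sc
    norm_num
  refine ⟨?_, isoOK_spec h2, ?_⟩
  · rw [matL_eq] at h1
    refine ((frobLe_spec h1).smul si_pos.le).trans (QLe.of_eq ?_)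
    rw [smul_smul, hhG]
    congr 1
    linear_combination 32 * si_mul
  · have hb : Bd ((sc : ℤ) • mat hG g) (48 * sc ^ 2) :=
      ((bd_mat hG g).smul _).mono (by decide +kernel)
    rw [matL_eq, matL_eq, nQ_eq, xQ_eq, idQ_eq, linQ_toQ, addQ_toQ,
      unp_toQ (((bd_NA hZ hP hb a).add (((bd_XA a).smul _).add (Bd.one.smul _))).mono
        (by decide +kernel)), linL_toL] at h3
    have h4 := ((frobLe_spec h3).smul (pow_nonneg si_pos.le 4)).add
      (QLe.refl ((-((eh + 24) * si)) • 1 + GR g'))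
    have e0 : GR g = si ^ 2 • cR ((sc : ℤ) • mat hG g) := by
      rw [GR, cR_smul, smul_smul]
      congr 1
      push_cast
      linear_combination (-si) * si_mul
    have e1 : ((Int.negOfNat (Nat.mul 32 (Nat.pow sc 2)) : ℤ) : ℝ) = -(32 * (sc : ℝ) ^ 2) := by
      have : Int.negOfNat (Nat.mul 32 (Nat.pow sc 2)) = -(32 * (sc : ℤ) ^ 2) := by decide +kernel
      rw [this]
      push_cast
      ring
    have e2 : ((Int.ofNat (Nat.mul (Nat.add (Nat.add hG eh) 24) (Nat.pow sc 3)) : ℤ) : ℝ)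
        = (32 * sc + eh + 24) * (sc : ℝ) ^ 3 := by
      change (((hG + eh + 24) * sc ^ 3 : ℕ) : ℝ) = _
      push_cast
      rw [hhG]
    have e3 : ((Int.negOfNat (Nat.pow sc 3) : ℤ) : ℝ) = -(sc : ℝ) ^ 3 := by
      have : Int.negOfNat (Nat.pow sc 3) = -(sc : ℤ) ^ 3 := by decide +kernel
      rw [this]
      push_cast
      ring
    have e4 : ((Nat.mul 24 (Nat.pow sc 3) : ℕ) : ℝ) = 24 * (sc : ℝ) ^ 3 := by
      change ((24 * sc ^ 3 : ℕ) : ℝ) = _
      push_cast
      ring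
    have s2 : si ^ 4 * (sc : ℝ) ^ 2 = si ^ 2 := by
      linear_combination si ^ 2 * (si * sc + 1) * si_mul
    have s3 : si ^ 4 * (sc : ℝ) ^ 3 = si := by
      linear_combination si * (si ^ 2 * sc ^ 2 + si * sc + 1) * si_mul
    refine (QLe.of_eq ?_).trans (h4.trans (QLe.of_eq ?_))
    · rw [e0, NA_AR, XA_AR]
      simp only [map_add, cR_smul, map_one, e1, e2, e3, GR]
      ext i j
      simp only [Matrix.add_apply, Matrix.smul_apply, Matrix.sub_apply, smul_eq_mul]
      change _ = si ^ 4 * (((1 : ℤ) : ℝ) * _ + _) + _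
      push_cast
      linear_combination (32 * cR (XA (AZ a)) i j) * s2
        - ((32 * sc + eh + 24) * (1 : Matrix (Fin 24) (Fin 24) ℝ) i j - cR (mat hG g') i j) * s3
        - 32 * (1 : Matrix (Fin 24) (Fin 24) ℝ) i j * si_mul
    · rw [e4, smul_smul, ← add_assoc, ← add_smul]
      congr 2
      linear_combination 24 * s3

/-- the invariant of the computation -/
def St (h : ℝ) (n : ℕ) (a : Ten) (y : ℝ) (g : ℕ) : Prop :=
  Inv h n (ZA (AR a)) (PA (AR a)) (y • 1 + GR g)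

theorem St.step {h y : ℝ} {n : ℕ} {a a' : Ten} {g g' : ℕ} (H : St h n a y g)
    (hc : stepOK (zL a) (pL a) g a' g' = true) : St h (n + 1) a' (y - eh * si) g' := by
  rw [zL_eq, pL_eq] at hc
  obtain ⟨h1, h2, h3⟩ := stepOK_spec (bd_ZA a) (bd_PA a) hc
  rw [← ZA_AR, ← PA_AR] at h3
  refine Blk.mono (Inv.step H (AR a') (QLe.refl _) h1 h2) ?_
  refine ((QLe.refl _).add h3).trans (QLe.of_eq ?_)
  rw [← add_assoc, ← add_smul, sub_eq_add_neg]

theorem St.first {a : Ten} {g g' : ℕ} (h0 : matL hG g = p0L)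
    (hc : stepOK z0L p0L g a g' = true) : St (3 / 5) 0 a (-(eh * si)) g' := by
  rw [matL_eq, p0L_eq] at h0
  rw [z0L_eq, p0L_eq] at hc
  obtain ⟨h1, h2, h3⟩ := stepOK_spec ((Bd.one.smul _).mono (by decide +kernel))
    (fun i j => by simp) hc
  have e : si ^ 2 • cR ((-894069671630859375 : ℤ) • 1) = (-(3 / 5) : ℝ) • 1 := by
    rw [cR_smul, map_one, smul_smul]
    congr 1
    unfold si sc
    norm_num
  rw [e, map_zero, smul_zero] at h3
  refine Blk.mono (Inv.first (3 / 5) (AR a) (y := 0) (QLe.of_eq ?_) h1 h2) ?_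
  · rw [GR, toL_inj h0]
    simp
  · simpa using h3

theorem St.start {a : Ten} (h : QLe (XA (AR a)) 1) (g : ℕ) : ∃ y, St 0 0 a y g := by
  have h1 := Inv.first 0 (AR a) (y := 0) (g := 0) (G := 0) (QLe.of_eq (by simp))
    (QLe.of_eq (by simp)) h
  obtain ⟨c, hc⟩ := QLe.exists_le (((0 : ℝ) • 1 + (NA ((-0 : ℝ) • 1) 0 0 (AR a)
    + (0 : ℝ) • (1 - XA (AR a)))) - GR g)
  refine ⟨c, Blk.mono h1 ?_⟩
  have := hc.add (QLe.refl (GR g))
  rwa [sub_add_cancel] at this

theorem bulk_of {a : Ten} {g : ℕ} (hc : stepOK (zL a) (pL a) g a g = true) :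
    ∃ C : ℝ, ∀ n : ℕ, gse (Hring (n + 2) (zeta (n + 2) 0)) ≤ (n + 2 : ℕ) * -(eh * si) + C := by
  have hc' := hc
  rw [zL_eq, pL_eq] at hc'
  obtain ⟨h1, h2, -⟩ := stepOK_spec (bd_ZA a) (bd_PA a) hc'
  obtain ⟨y, hy⟩ := St.start h2 g
  have key : ∀ n : ℕ, St 0 n a (y - n * (eh * si)) g := fun n => by
    induction n with
    | zero => simpa using hy
    | succ n ih =>
      have := ih.step hc
      rwa [show y - n * (eh * si) - eh * si = y - (n + 1 : ℕ) * (eh * si) by
        push_cast; ring] at this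
  refine ⟨y + 33 + eh * si, fun n => ?_⟩
  have := Inv.ring (key (n + 1)) (c := y - (n + 1 : ℕ) * (eh * si) + 32)
    (((QLe.refl _).add h1).trans (QLe.of_eq (by rw [add_smul])))
  push_cast at this ⊢
  linarith

lemma fr_smul_left (c : ℝ) (A B : Matrix (Fin 24) (Fin 24) ℝ) : fr (c • A) B = c * fr A B := by
  simp only [fr, Matrix.smul_apply, smul_eq_mul, Finset.mul_sum, mul_assoc]

lemma fr_smul_right (c : ℝ) (A B : Matrix (Fin 24) (Fin 24) ℝ) : fr A (c • B) = c * fr A B := by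
  simp only [fr, Matrix.smul_apply, smul_eq_mul, Finset.mul_sum, mul_left_comm]

lemma fr_add_left (A A' B : Matrix (Fin 24) (Fin 24) ℝ) : fr (A + A') B = fr A B + fr A' B := by
  simp only [fr, Matrix.add_apply, add_mul, Finset.sum_add_distrib]

lemma fr_add_right (A B B' : Matrix (Fin 24) (Fin 24) ℝ) : fr A (B + B') = fr A B + fr A B' := by
  simp only [fr, Matrix.add_apply, mul_add, Finset.sum_add_distrib]

theorem St.join {y : ℝ} {n : ℕ} {a : Ten} {g c : ℕ} {τ : Bool} (H : St (3 / 5) n a y g)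
    (hc : joinOK τ (zL a) (pL a) (matL hG g) (matL sc c) = true) :
    gse (Hopen (n + 1 + n) τ) ≤ 2 * y + 4035 / 10000 := by
  have hC := bd_mat sc c
  have hG' := bd_mat hG g
  have hZ := bd_ZA a
  have hP := bd_PA a
  have h1 := Inv.join H τ (cR (mat sc c))
  rw [ZA_AR, PA_AR, GR] at h1
  rw [zL_eq, pL_eq, matL_eq, matL_eq] at hc
  generalize mat sc c = C at *
  generalize mat hG g = G at *
  generalize ZA (AZ a) = Z at *
  generalize PA (AZ a) = P at *
  have e1 : (bif τ then packT (toL P) else packR (toL P)) = toQ (bif τ then Pᵀ else P) := by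
    cases τ
    exacts [packR_toL P, packT_toL P]
  have hP' : Bd (bif τ then Pᵀ else P) (48 * sc ^ 2) := by
    cases τ
    exacts [hP, hP.transpose]
  have e2 : (bif τ then (si ^ 2 • cR P)ᵀ else si ^ 2 • cR P)
      = si ^ 2 • cR (bif τ then Pᵀ else P) := by
    cases τ <;> rfl
  rw [e2] at h1
  rw [joinOK, e1] at hc
  simp only [Bool.and_eq_true, packR_toL, mulQ_toL] at hc
  generalize (bif τ then Pᵀ else P) = P' at *
  rw [unp_toQ ((hG'.mul hC).mono (by decide +kernel)),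
    unp_toQ ((hC.mul hG').mono (by decide +kernel)),
    unp_toQ ((hC.mul hZ).mono (by decide +kernel)),
    unp_toQ ((hZ.mul hC).mono (by decide +kernel)),
    unp_toQ ((hC.mul hP').mono (by decide +kernel)),
    unp_toQ ((hP.mul hC).mono (by decide +kernel))] at hc
  simp only [frob_toL] at hc
  obtain ⟨h2, h3⟩ := hc
  have h4 : 1 ≤ frZ C C := by
    have := Nat.le_of_ble_eq_true h2
    omega
  have h5 : 2000 * ((sc : ℤ) ^ 3 * (frZ C (G * C) + frZ (C * G) C)
      + ((bif τ then 1 else -1) * frZ (C * Z) (Z * C) + 2 * frZ (C * P') (P * C)))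
      ≤ 807 * (sc : ℤ) ^ 4 * frZ C C := by
    have := leZ_spec h3
    rw [← Int.toNat_of_nonneg (show 0 ≤ frZ C C by omega)]
    exact_mod_cast this
  have e3 : (((bif τ then 1 else -1 : ℤ)) : ℝ) = bif τ then 1 else -1 := by
    cases τ <;> simp
  have h6 : (2000 : ℝ) * ((sc : ℝ) ^ 3 * (frZ C (G * C) + frZ (C * G) C)
      + ((bif τ then 1 else -1) * frZ (C * Z) (Z * C) + 2 * frZ (C * P') (P * C)))
      ≤ 807 * (sc : ℝ) ^ 4 * frZ C C := by
    rw [← e3]
    exact_mod_cast h5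
  simp only [Matrix.add_mul, Matrix.mul_add, Matrix.smul_mul, Matrix.mul_smul, Matrix.one_mul,
    Matrix.mul_one, ← map_mul, fr_add_left, fr_add_right, fr_smul_left, fr_smul_right,
    fr_cR] at h1
  have h7 : (0 : ℝ) < frZ C C := by exact_mod_cast h4
  have h8 := mul_le_mul_of_nonneg_left h6 (pow_nonneg si_pos.le 4)
  have s3 : si ^ 4 * (sc : ℝ) ^ 3 = si := by
    linear_combination si * (si ^ 2 * sc ^ 2 + si * sc + 1) * si_mul
  have s4 : si ^ 4 * (sc : ℝ) ^ 4 = 1 := by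
    linear_combination sc * s3 + si_mul
  refine le_of_mul_le_mul_right ?_ h7
  generalize (frZ C C : ℝ) = f0 at *
  generalize (frZ C (G * C) : ℝ) = f1 at *
  generalize (frZ (C * G) C : ℝ) = f2 at *
  generalize (frZ (C * Z) (Z * C) : ℝ) = f3 at *
  generalize (frZ (C * P') (P * C) : ℝ) = f4 at *
  generalize (bif τ then (1 : ℝ) else -1) = ε at *
  have h9 : 2000 * (si * (f1 + f2) + si ^ 4 * (ε * f3 + 2 * f4)) ≤ 807 * f0 := by
    linear_combination h8 - 2000 * (f1 + f2) * s3 + 807 * f0 * s4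
  linear_combination h1 + h9 / 2000

end Crest.Agent.R347.MC
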