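import Crest.Agent.R347.Tensor
import Crest.Agent.R347.Spec
import Crest.Agent.R347.Tab
import Crest.Agent.R347.MpsSound
import Crest.Agent.R347.MpsD0
import Crest.Agent.R347.MpsD4

/-! Row 347: variational upper bounds from matrix product states. -/

set_option autoImplicit false

namespace Crest.Agent.R347
open Crest.MathPhysics.SpinChain Matrix Filter Topology

namespace MC

lemma shift_le : -((eh : ℝ) * si) ≤ (ev : ℝ) := by
  unfold eh si sc ev
  norm_num

/-- the invariant with the energy shift of `n + 1` sites -/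
def Sn (n : ℕ) (a : Ten) (g : ℕ) : Prop := St (3 / 5) n a ((n + 1 : ℕ) * -(eh * si)) g

lemma Sn.step {n : ℕ} {a a' : Ten} {g g' : ℕ} (H : Sn n a g)
    (hc : stepOK (zL a) (pL a) g a' g' = true) : Sn (n + 1) a' g' := by
  have := St.step H hc
  rwa [show ((n + 1 : ℕ) : ℝ) * -(eh * si) - eh * si = (n + 1 + 1 : ℕ) * -(eh * si) by
    push_cast; ring] at this

lemma Sn.join {n : ℕ} {a : Ten} {g c : ℕ} {τ : Bool} (H : Sn n a g)
    (hc : joinOK τ (zL a) (pL a) (matL hG g) (matL sc c) = true) :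
    EncD (fun τ N => gse (Hopen (N - 1) τ)) (τ, n + 1 + n + 1, 4035 / 10000) := by
  have h1 := St.join H hc
  have h2 := mul_le_mul_of_nonneg_left shift_le (Nat.cast_nonneg (α := ℝ) (n + 1))
  change gse (Hopen (n + 1 + n) τ) ≤ ((n + 1 + n + 1 : ℕ) : ℝ) * ev + ((4035 / 10000 : ℚ) : ℝ)
  push_cast at h1 h2 ⊢
  linarith

lemma sn1 : Sn 0 a1 g1 := by
  have := St.first (by decide +kernel) st1
  rwa [Sn, zero_add, Nat.cast_one, one_mul]

lemma sn2 : Sn 1 a2 g2 := sn1.step st2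
lemma sn3 : Sn 2 a3 g3 := sn2.step st3
lemma sn4 : Sn 3 a4 g4 := sn3.step st4
lemma sn5 : Sn 4 a5 g5 := sn4.step st5
lemma sn6 : Sn 5 a6 g6 := sn5.step st6
lemma sn7 : Sn 6 a7 g7 := sn6.step st7
lemma sn8 : Sn 7 a8 g8 := sn7.step st8
lemma sn9 : Sn 8 a9 g9 := sn8.step st9
lemma sn10 : Sn 9 a10 g10 := sn9.step st10
lemma sn11 : Sn 10 a11 g11 := sn10.step st11
lemma sn12 : Sn 11 a12 g12 := sn11.step st12
lemma sn13 : Sn 12 a13 g13 := sn12.step st13
lemma sn14 : Sn 13 a14 g14 := sn13.step st14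
lemma sn15 : Sn 14 a15 g15 := sn14.step st15
lemma sn16 : Sn 15 a16 g16 := sn15.step st16
lemma sn17 : Sn 16 a17 g17 := sn16.step st17
lemma sn18 : Sn 17 a18 g18 := sn17.step st18
lemma sn19 : Sn 18 a19 g19 := sn18.step st19
lemma sn20 : Sn 19 a20 g20 := sn19.step st20
lemma sn21 : Sn 20 a21 g21 := sn20.step st21
lemma sn22 : Sn 21 a22 g22 := sn21.step st22
lemma sn23 : Sn 22 a23 g23 := sn22.step st23
lemma sn24 : Sn 23 a24 g24 := sn23.step st24
lemma sn25 : Sn 24 a25 g25 := sn24.step st25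
lemma sn26 : Sn 25 a26 g26 := sn25.step st26
lemma sn27 : Sn 26 a27 g27 := sn26.step st27
lemma sn28 : Sn 27 a28 g28 := sn27.step st28
lemma sn29 : Sn 28 a29 g29 := sn28.step st29
lemma sn30 : Sn 29 a30 g30 := sn29.step st30
lemma sn31 : Sn 30 a31 g31 := sn30.step st31
lemma sn32 : Sn 31 a32 g32 := sn31.step st32
lemma sn33 : Sn 32 a33 g33 := sn32.step st33
lemma sn34 : Sn 33 a34 g34 := sn33.step st34
lemma sn35 : Sn 34 a35 g35 := sn34.step st35
lemma sn36 : Sn 35 a36 g36 := sn35.step st36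
lemma sn37 : Sn 36 a37 g37 := sn36.step st37
lemma sn38 : Sn 37 a38 g38 := sn37.step st38
lemma sn39 : Sn 38 a39 g39 := sn38.step st39
lemma sn40 : Sn 39 a40 g40 := sn39.step st40

lemma abs_spinZ_le {ι : Type} [Fintype ι] [DecidableEq ι] (j : ι) (ψ : (ι → Fin 3) → ℂ) :
    |(star ψ ⬝ᵥ (onSite spinZ j).mulVec ψ).re| ≤ (star ψ ⬝ᵥ ψ).re := by
  have h1 : onSite spinZ j = diagonal fun σ : ι → Fin 3 => (magneticNumber (σ j) : ℂ) := by
    ext σ τ
    simp only [onSite, of_apply, spinZ, diagonal_apply]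
    by_cases h : σ = τ
    · subst h
      simp
    · rw [if_neg h]
      split_ifs with h2 h3
      · refine absurd (funext fun k => ?_) h
        by_cases hk : k = j
        · rw [hk, h3]
        · exact h2 k hk
      · rfl
      · rfl
  have h2 : ∀ k : Fin 3, |(magneticNumber k : ℝ)| ≤ 1 := fun k => by
    fin_cases k <;> simp [magneticNumber]
  rw [h1]
  simp only [dotProduct, mulVec_diagonal, Complex.re_sum, Pi.star_apply]
  refine (Finset.abs_sum_le_sum_abs _ _).trans (Finset.sum_le_sum fun σ _ => ?_)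
  have h3 : (star (ψ σ) * ψ σ).re = Complex.normSq (ψ σ) := by
    simp [Complex.normSq_apply]
  have h4 : (star (ψ σ) * ((magneticNumber (σ j) : ℂ) * ψ σ)).re
      = magneticNumber (σ j) * Complex.normSq (ψ σ) := by
    simp [Complex.normSq_apply]
    ring
  rw [h3, h4, abs_mul, abs_of_nonneg (Complex.normSq_nonneg _)]
  exact mul_le_of_le_one_left (Complex.normSq_nonneg _) (h2 _)

end MC

theorem mps_bulk : ∃ (C : ℝ) (n0 : ℕ), ∀ N, n0 ≤ N →
    gse (Hring N (zeta N 0)) ≤ N * (ev : ℝ) + C := by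
  obtain ⟨C, hC⟩ := MC.bulk_of MC.stb
  refine ⟨C, 2, fun N hN => ?_⟩
  obtain ⟨n, rfl⟩ : ∃ n, N = n + 2 := ⟨N - 2, by omega⟩
  have := mul_le_mul_of_nonneg_left MC.shift_le (Nat.cast_nonneg (α := ℝ) (n + 2))
  linarith [hC n]

theorem mps_open : ∀ t ∈ tabD, EncD (fun τ N => gse (Hopen (N - 1) τ)) t := by
  intro t ht
  simp only [tabD, List.mem_cons, List.not_mem_nil, or_false] at ht
  rcases ht with rfl | rfl | rfl | rfl | rfl | rfl | rfl | rfl | rfl | rfl
  exacts [MC.sn20.join MC.jn20t, MC.sn20.join MC.jn20f, MC.sn25.join MC.jn25t,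
    MC.sn25.join MC.jn25f, MC.sn30.join MC.jn30t, MC.sn30.join MC.jn30f, MC.sn35.join MC.jn35t,
    MC.sn35.join MC.jn35f, MC.sn40.join MC.jn40t, MC.sn40.join MC.jn40f]

theorem crude_open (τ : Bool) (N : ℕ) (hN : 2 ≤ N) :
    gse (Hopen (N - 1) τ) ≤ gse (Hring N (zeta N 0)) + 4 := by
  obtain ⟨n, rfl⟩ : ∃ n, N = n + 1 + 1 := ⟨N - 2, by omega⟩
  change gse (Hopen (n + 1) τ) ≤ _
  obtain ⟨ψ, h1, h2⟩ := exists_ground _ (Hring_herm (n + 1 + 1) hN (zeta (n + 1 + 1) 0))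
  have h3 := gse_le _ (Hopen_herm (n + 1) τ) ψ
  have h4 := (bond_form_bound (Fin.last (n + 1)) 0 Fin.last_pos.ne' ψ).1
  have h5 := abs_le.1 (MC.abs_spinZ_le (0 : Fin (n + 1 + 1)) ψ)
  have h6 := abs_le.1 (MC.abs_spinZ_le (Fin.last (n + 1)) ψ)
  have h7 : Hopen (n + 1) τ = Hring (n + 1 + 1) (zeta (n + 1 + 1) 0) - bond (Fin.last (n + 1)) 0 -
      (((3 / 5 : ℝ)) : ℂ) • (onSite spinZ (0 : Fin (n + 1 + 1)) +
        (if τ then (1 : ℂ) else -1) • onSite spinZ (Fin.last (n + 1))) := by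
    rw [Hring_succ, add_sub_cancel_right, Hopen]
  rw [h1, Complex.one_re] at h3 h4 h5 h6
  rw [mul_one] at h3
  refine h3.trans ?_
  rw [h7]
  simp only [sub_mulVec, add_mulVec, smul_mulVec, dotProduct_sub, dotProduct_add,
    dotProduct_smul, h2, h1, smul_eq_mul, mul_one, Complex.sub_re, Complex.ofReal_re,
    Complex.re_ofReal_mul, Complex.add_re]
  cases τ
  · simp only [Bool.false_eq_true, if_false, neg_mul, one_mul, Complex.neg_re]
    linarith [h5.1, h6.2]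
  · simp only [if_true, one_mul]
    linarith [h5.1, h6.1]

end Crest.Agent.R347
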