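import Crest.Agent.R347.Transfer
import Crest.Agent.R347.Mps
import Crest.Agent.R347.Boot
import Crest.Agent.R347.Base

/-! Row 347: assembly. -/

set_option autoImplicit false

namespace Crest.Agent.R347
open Crest.MathPhysics.SpinChain Matrix

/-- the physical system -/
noncomputable def sys : Sys where
  Z := Zr
  E0 := fun L => gse (Hring L (zeta L 0))
  Zo := Zo
  Eo := fun τ N => gse (Hopen (N - 1) τ)
  ts0 := fun L hL => ts_ptr _ (Hring_herm L hL _)
  tsp := fun L hL => ⟨_, ts_ptr _ (Hring_herm L hL _)⟩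
  tso := fun τ N _ => ts_ptr _ (Hopen_herm _ τ)
  sp := transfer
  mps := mps_bulk
  crude := crude_open

theorem ring_gap (L : ℕ) (hL : Even L) (h : 60 ≤ L) (γ : ℝ) (h0 : 0 ≤ γ) (hγ : γ ≤ 1 / 200) :
    HasSimpleGroundStateWithGap (heisenbergRing L) γ := by
  rw [heisenbergRing_eq]
  exact gap_of_gapAt _ (Hring_herm L (by omega) _) _ _ h0 hγ (boot_ring sys base_ring L hL h)

theorem open_gap (L : ℕ) (h : 960 ≤ L) (γ : ℝ) (h0 : 0 ≤ γ) (hγ : γ ≤ 6 / 1000) :
    HasSimpleGroundStateWithGap (openChainEndField (2 * L) (3 / 5)) γ := by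
  rw [openChain_eq]
  exact gap_of_gapAt _ (Hopen_herm _ _) _ _ h0 hγ
    (boot_open sys base_ring base_open mps_open (2 * L + 1) (by omega))

end Crest.Agent.R347
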