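import Mathlib

/-! Row 347, MPS bounds: the kernel checker (definitions only). -/

set_option autoImplicit false

namespace Crest.Agent.R347.MC

/-- matrices as lists of rows -/
abbrev LM : Type := List (List ℤ)

/-- `k` digits in base `b`, shifted by `h` -/
def unN (h b k : ℕ) : ℕ → List ℤ :=
  Nat.rec (motive := fun _ => ℕ → List ℤ) (fun _ => [])
    (fun _ ih n => Int.subNatNat (Nat.mod n b) h :: ih (Nat.div n b)) k

/-- `k` digits in base `b` -/
def rowsN (b k : ℕ) : ℕ → List ℕ :=
  Nat.rec (motive := fun _ => ℕ → List ℕ) (fun _ => [])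
    (fun _ ih n => Nat.mod n b :: ih (Nat.div n b)) k

/-- `List.map` -/
def mapL {α β : Type} (f : α → β) (l : List α) : List β :=
  List.rec (motive := fun _ => List β) [] (fun a _ ih => f a :: ih) l

/-- `List.zipWith` -/
def zipL {α β γ : Type} (f : α → β → γ) (l : List α) : List β → List γ :=
  List.rec (motive := fun _ => List β → List γ) (fun _ => [])
    (fun a _ ih m => List.casesOn m [] fun b t => f a b :: ih t) l

/-- dot product -/
def dot (l : List ℤ) : List ℤ → ℤ :=
  List.rec (motive := fun _ => List ℤ → ℤ) (fun _ => Int.ofNat 0)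
    (fun a _ ih m => List.casesOn m (Int.ofNat 0) fun b t => Int.add (Int.mul a b) (ih t)) l

/-- sum -/
def sumL (l : List ℤ) : ℤ :=
  List.rec (motive := fun _ => ℤ) (Int.ofNat 0) (fun a _ ih => Int.add a ih) l

/-- the matrix stored in the number `n`, entries bounded by `h` -/
def matL (h n : ℕ) : LM :=
  mapL (unN h (Nat.succ (Nat.mul 2 h)) 24) (rowsN (Nat.pow (Nat.succ (Nat.mul 2 h)) 24) 24 n)

/-- half of the packing base -/
def hz : ℕ := 1393796574908163946345982392040522594123776
/-- the packing base -/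
def bz : ℕ := 2787593149816327892691964784081045188247553
/-- the packed constant row `hz` -/
def off : ℕ := Nat.div (Nat.pow bz 24) 2

/-- packing of a row -/
def pk (l : List ℤ) : ℤ :=
  List.rec (motive := fun _ => ℤ) (Int.ofNat 0)
    (fun a _ ih => Int.add a (Int.mul (Int.ofNat bz) ih)) l

/-- packed rows -/
def packR (L : LM) : List ℤ := mapL pk L

/-- packed rows of the transpose -/
def packT (L : LM) : List ℤ :=
  List.rec (motive := fun _ => List ℤ) (List.replicate 24 (Int.ofNat 0))
    (fun r _ ih => zipL (fun x y => Int.add x (Int.mul (Int.ofNat bz) y)) r ih) L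

/-- the `k` numbers `x, x bz, …` -/
def pows (k : ℕ) : ℕ → List ℤ :=
  Nat.rec (motive := fun _ => ℕ → List ℤ) (fun _ => [])
    (fun _ ih x => Int.ofNat x :: ih (Nat.mul x bz)) k

/-- packed rows of the identity -/
def idQ : List ℤ := pows 24 1

/-- packed rows of a product -/
def mulQ (C : LM) (R : List ℤ) : List ℤ := mapL (fun c => dot c R) C

/-- sum of rows -/
def addQ (R R' : List ℤ) : List ℤ := zipL Int.add R R'

/-- linear combination of rows -/
def linQ (a : ℤ) (R : List ℤ) (b : ℤ) (R' : List ℤ) : List ℤ :=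
  zipL (fun x y => Int.add (Int.mul a x) (Int.mul b y)) R R'

/-- linear combination of matrices -/
def linL (a : ℤ) (L : LM) (b : ℤ) (L' : LM) : LM := zipL (fun r r' => linQ a r b r') L L'

/-- unpacking -/
def unp (R : List ℤ) : LM := mapL (fun r => unN hz bz 24 (Int.toNat (Int.add r (Int.ofNat off)))) R

/-- Frobenius product -/
def frob (L L' : LM) : ℤ := sumL (zipL dot L L')

/-- the scale `5 ^ 13` -/
def sc : ℕ := 1220703125
/-- bound for the entries of `G` -/
def hG : ℕ := 39062500000
/-- minus the energy shift -/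
def eh : ℕ := 1710792250

/-- a site tensor: three transposed matrices -/
structure Ten where
  /-- `m = 1` -/
  a0 : ℕ
  /-- `m = 0` -/
  a1 : ℕ
  /-- `m = -1` -/
  a2 : ℕ

/-- `S^z` of the last site -/
def zL (a : Ten) : LM :=
  unp (linQ (Int.ofNat 1) (mulQ (matL sc a.a0) (packT (matL sc a.a0))) (Int.negSucc 0)
    (mulQ (matL sc a.a2) (packT (matL sc a.a2))))

/-- `S^+ / √2` of the last site -/
def pL (a : Ten) : LM :=
  unp (addQ (mulQ (matL sc a.a0) (packT (matL sc a.a1)))
    (mulQ (matL sc a.a1) (packT (matL sc a.a2))))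

/-- Gram matrix -/
def xQ (a : Ten) : List ℤ :=
  addQ (mulQ (matL sc a.a0) (packT (matL sc a.a0)))
    (addQ (mulQ (matL sc a.a1) (packT (matL sc a.a1)))
      (mulQ (matL sc a.a2) (packT (matL sc a.a2))))

/-- `a ≤ b` -/
def leZ (a : ℤ) (b : ℕ) : Bool := Nat.ble (Int.toNat a) b

/-- `Frobenius norm ≤ c` -/
def frobLe (L : LM) (c : ℕ) : Bool := leZ (frob L L) (Nat.mul c c)

/-- the tensor is a contraction -/
def isoOK (a : Ten) : Bool :=
  frobLe (unp (linQ (Int.ofNat 1) (xQ a)
    (Int.negOfNat (Nat.sub (Nat.mul sc sc) (Nat.mul 16 sc))) idQ)) (Nat.mul 16 sc)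

/-- energy of the enlarged block -/
def nQ (Z P G : LM) (a : Ten) : List ℤ :=
  addQ (mulQ (matL sc a.a0) (mulQ (linL (Int.ofNat sc) G (Int.ofNat 1) Z) (packT (matL sc a.a0))))
    (addQ
      (mulQ (matL sc a.a1) (linQ (Int.ofNat sc) (mulQ G (packT (matL sc a.a1)))
        (Int.ofNat 2) (mulQ P (packT (matL sc a.a0)))))
      (mulQ (matL sc a.a2) (linQ (Int.ofNat 1)
        (mulQ (linL (Int.ofNat sc) G (Int.negSucc 0) Z) (packT (matL sc a.a2)))
        (Int.ofNat 2) (mulQ P (packT (matL sc a.a1))))))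

/-- one site step -/
def stepOK (Z P : LM) (g : ℕ) (a : Ten) (g' : ℕ) : Bool :=
  frobLe (matL hG g) hG && (isoOK a &&
    frobLe (linL (Int.ofNat 1)
      (unp (addQ (nQ Z P (matL hG g) a)
        (linQ (Int.negOfNat (Nat.mul 32 (Nat.pow sc 2))) (xQ a)
          (Int.ofNat (Nat.mul (Nat.add (Nat.add hG eh) 24) (Nat.pow sc 3))) idQ)))
      (Int.negOfNat (Nat.pow sc 3)) (matL hG g')) (Nat.mul 24 (Nat.pow sc 3)))

/-- the boundary field, as the `S^z` matrix of the empty block -/
def z0L : LM := unp (linQ (Int.negOfNat 894069671630859375) idQ (Int.ofNat 0) idQ)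

/-- the zero matrix -/
def p0L : LM := unp (linQ (Int.ofNat 0) idQ (Int.ofNat 0) idQ)

/-- the join of two blocks -/
def joinOK (τ : Bool) (Z P G C : LM) : Bool :=
  Nat.ble 1 (Int.toNat (frob C C)) &&
  leZ (Int.mul (Int.ofNat 2000) (Int.add
    (Int.mul (Int.ofNat (Nat.pow sc 3))
      (Int.add (frob C (unp (mulQ G (packR C)))) (frob (unp (mulQ C (packR G))) C)))
    (Int.add
      (Int.mul (bif τ then Int.ofNat 1 else Int.negSucc 0)
        (frob (unp (mulQ C (packR Z))) (unp (mulQ Z (packR C)))))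
      (Int.mul (Int.ofNat 2)
        (frob (unp (mulQ C (bif τ then packT P else packR P))) (unp (mulQ P (packR C))))))))
    (Nat.mul (Nat.mul 807 (Nat.pow sc 4)) (Int.toNat (frob C C)))

end Crest.Agent.R347.MC
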