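import Crest.Agent.R347.TDefs
import Crest.Agent.R347.Tensor

/-! Row 347: space-time duality of the Trotter step, and its expansion. -/

set_option autoImplicit false

namespace Crest.Agent.R347
open Crest.MathPhysics.SpinChain Matrix Filter Topology

theorem st_cons {X M : Type} [Fintype X] [AddCommMonoid M] {n : ℕ} (f : (Fin (n + 1) → X) → M) :
    ∑ x, f x = ∑ w, ∑ σ : Fin n → X, f (Fin.cons w σ) := by
  rw [← (Fin.consEquiv fun _ => X).sum_comp, Fintype.sum_prod_type]
  rfl

theorem st_pow {R ι V X : Type} [CommRing R] [Fintype ι] [DecidableEq ι] [Fintype V]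
    [DecidableEq V] [Fintype X] (c : X → R) (W : X → ι → Matrix V V R) (n : ℕ) :
    (∑ x, c x • piKron (W x)) ^ n = ∑ x : Fin n → X,
      (∏ t, c (x t)) • piKron fun j => (List.ofFn fun t => W (x t) j).prod := by
  induction n with
  | zero => simp [piKron_one]
  | succ n ih =>
    rw [pow_succ', ih, Finset.sum_mul_sum, st_cons]
    simp only [smul_mul_smul_comm, piKron_mul, Fin.prod_univ_succ, List.ofFn_succ, List.prod_cons,
      Fin.cons_zero, Fin.cons_succ]

theorem st_path {R X : Type} [CommRing R] [Fintype X] [DecidableEq X] {m : ℕ}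
    (N : Fin (m + 1) → Matrix X X R) (u v : X) :
    (List.ofFn N).prod u v = ∑ σ : Fin m → X,
      ∏ j, N j ((Fin.cons u σ : Fin (m + 1) → X) j) ((Fin.snoc σ v : Fin (m + 1) → X) j) := by
  induction m generalizing u with
  | zero => simp [Fin.snoc]
  | succ m ih =>
    rw [List.ofFn_succ, List.prod_cons, mul_apply, st_cons]
    simp only [ih, Finset.mul_sum]
    refine Finset.sum_congr rfl fun w _ => Finset.sum_congr rfl fun σ _ => ?_
    rw [← Fin.cons_snoc_eq_snoc_cons, Fin.prod_univ_succ (n := m + 1)]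
    simp only [Fin.cons_zero, Fin.cons_succ]

theorem st_cyc {R X : Type} [CommRing R] [Fintype X] [DecidableEq X] {m : ℕ}
    (N : Fin (m + 1) → Matrix X X R) : trace (List.ofFn N).prod =
      ∑ σ : Fin (m + 1) → X, ∏ j, N j (σ ((finRotate (m + 1)).symm j)) (σ j) := by
  rw [← (Equiv.arrowCongr (finRotate (m + 1)).symm (Equiv.refl X)).sum_comp, st_cons]
  simp only [trace, diag, st_path, Fin.snoc_eq_cons_rotate, Equiv.arrowCongr_apply, Equiv.coe_refl,
    Function.comp_apply, id, Equiv.symm_symm, Equiv.apply_symm_apply]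

theorem trace_Step_pow {R : Type} [CommRing R] {L : ℕ} (hL : 1 ≤ L) (n : ℕ)
    (A : Fin L → Ev → Ev → Matrix (Fin 3) (Fin 3) R) (G : Fin L → Matrix Ev Ev R) :
    trace (Step A G ^ n) =
      trace (List.ofFn fun j : Fin L => Mt n (A j) * piKron fun _ : Fin n => G j).prod := by
  obtain ⟨m, rfl⟩ : ∃ m, L = m + 1 := ⟨L - 1, by omega⟩
  rw [st_cyc, Step, ← Fintype.sum_prod_type', st_pow, trace_sum]
  simp only [mul_apply, Finset.prod_univ_sum, Fintype.piFinset_univ]
  rw [← Fintype.sum_prod_type']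
  refine Fintype.sum_equiv ⟨fun x => (fun j t => (x t).1 j, fun j t => (x t).2 j),
    fun p t => (fun j => p.1 j t, fun j => p.2 j t), fun _ => rfl, fun _ => rfl⟩ _ _ fun x => ?_
  rw [trace_smul, trace_piKron, smul_eq_mul, Finset.prod_mul_distrib, mul_comm, Finset.prod_comm]
  rfl

theorem st_lim {ι V : Type} [Fintype ι] [DecidableEq ι] (A B : ι → Matrix V V ℂ) (β : ℂ) :
    Tendsto (fun n : ℕ => (n : ℂ) • (piKron (fun j => A j + ((n : ℂ)⁻¹ * β) • B j) - piKron A))
      atTop (𝓝 (β • ∑ i, piKron (Function.update A i (B i)))) := by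
  refine tendsto_pi_nhds.2 fun σ => tendsto_pi_nhds.2 fun τ => ?_
  have := (HasDerivAt.fun_finsetProd (u := Finset.univ) (x := (0 : ℂ)) fun j _ =>
    ((hasDerivAt_id' (0 : ℂ)).mul_const (B j (σ j) (τ j))).const_add
      (A j (σ j) (τ j))).hasFDerivAt.lim β (c := fun n : ℕ => (n : ℂ)) (l := atTop)
      (by simpa using tendsto_natCast_atTop_atTop)
  convert this using 2
  · simp [piKron]
  · simp only [piKron, Matrix.smul_apply, Matrix.sum_apply, of_apply, zero_mul, add_zero, one_mul,
      ContinuousLinearMap.toSpanSingleton_apply, smul_eq_mul]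
    congr 1
    refine Finset.sum_congr rfl fun i _ => ?_
    rw [← Finset.prod_erase_mul _ _ (Finset.mem_univ i), Function.update_self]
    congr 1
    exact Finset.prod_congr rfl fun j hj => by rw [Function.update_of_ne (Finset.mem_erase.1 hj).1]

/-- order zero part of a site factor -/
noncomputable def st_F0 : Ev → Ev → Ev → Matrix (Fin 3) (Fin 3) ℂ
  | none, none, none => 1
  | some α, none, none => Lc ℂ α
  | _, _, _ => 0

/-- order one part of a site factor -/
noncomputable def st_F1 (g : Matrix (Fin 3) (Fin 3) ℂ) (κ : ℂ) :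
    Ev → Ev → Ev → Matrix (Fin 3) (Fin 3) ℂ
  | none, none, none => κ • Lc ℂ 2
  | none, some α, some β => g α β • Lc ℂ α
  | _, _, _ => 0

theorem st_step {L : ℕ} (g : Fin L → Matrix (Fin 3) (Fin 3) ℂ) (κ : Fin L → ℂ) (s ε : ℂ)
    (h : s * s = ε) :
    Step (fun j => site s (ε * κ j)) (fun j => ext1 (g j)) = ∑ a : Fin L → Ev, ∑ a' : Fin L → Ev,
      piKron fun j => st_F0 (a ((finRotate L).symm j)) (a' j) (a j) +
        ε • st_F1 (g j) (κ j) (a ((finRotate L).symm j)) (a' j) (a j) := by
  refine Finset.sum_congr rfl fun a _ => Finset.sum_congr rfl fun a' _ => ?_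
  ext σ τ
  let w : Ev → ℂ := fun x => x.elim 1 fun _ => s
  have e : ∀ (η : ℂ) (x y : Ev), site s η x y = (w x * w y) • site 1 η x y := fun η x y => by
    cases x <;> cases y <;> simp [site, w]
  simp only [piKron, Matrix.smul_apply, of_apply, e, smul_eq_mul, mul_assoc]
  rw [Finset.prod_mul_distrib, (finRotate L).symm.prod_comp fun j => w (a j),
    ← Finset.prod_mul_distrib, ← Finset.prod_mul_distrib]
  refine Finset.prod_congr rfl fun j _ => ?_
  cases a ((finRotate L).symm j) <;> cases a' j <;> cases a j <;>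
    simp [site, w, ext1, st_F0, st_F1, ← h] <;> ring

theorem st_kron_zero {ι V : Type} [Fintype ι] {W : ι → Matrix V V ℂ} (j : ι) (h : W j = 0) :
    piKron W = 0 := by
  ext σ τ
  exact Finset.prod_eq_zero (Finset.mem_univ j) (by rw [h]; rfl)

theorem st_F0_zero (x : Ev) {y z : Ev} (h : y ≠ none ∨ z ≠ none) : st_F0 x y z = 0 := by
  cases x <;> cases y <;> cases z <;> simp [st_F0] at h ⊢

theorem st_zero (L : ℕ) : ∑ a : Fin L → Ev, ∑ a' : Fin L → Ev,
    piKron (fun j => st_F0 (a ((finRotate L).symm j)) (a' j) (a j)) = 1 := by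
  rw [Fintype.sum_eq_single (fun _ => none) fun a ha => ?_,
    Fintype.sum_eq_single (fun _ => none) fun a ha => ?_]
  · exact piKron_one
  · obtain ⟨j, hj⟩ := Function.ne_iff.1 ha
    exact st_kron_zero j (st_F0_zero _ (.inl hj))
  · obtain ⟨j, hj⟩ := Function.ne_iff.1 ha
    exact Finset.sum_eq_zero fun _ _ => st_kron_zero j (st_F0_zero _ (.inr hj))

theorem st_upd {ι M : Type} [Fintype ι] [DecidableEq ι] [AddCommMonoid M] (F : (ι → Ev) → M)
    (i : ι) (h : ∀ a j, j ≠ i → a j ≠ none → F a = 0) :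
    ∑ a, F a = ∑ x, F (Function.update (fun _ => none) i x) := by
  refine (Fintype.sum_of_injective _ (Function.update_injective _ i) _ _ (fun a ha => ?_)
    fun _ => rfl).symm
  by_contra h0
  refine ha ⟨a i, Function.update_eq_iff.2 ⟨rfl, fun j hj => ?_⟩⟩
  by_contra h1
  exact h0 (h a j hj (Ne.symm h1))

theorem st_one {L : ℕ} (hL : 2 ≤ L) (g : Fin L → Matrix (Fin 3) (Fin 3) ℂ) (κ : Fin L → ℂ) :
    ∑ a : Fin L → Ev, ∑ a' : Fin L → Ev, -∑ i, piKron (Function.update
      (fun j => st_F0 (a ((finRotate L).symm j)) (a' j) (a j)) i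
        (st_F1 (g i) (κ i) (a ((finRotate L).symm i)) (a' i) (a i))) = Hc L g κ := by
  simp only [Finset.sum_neg_distrib]
  rw [Hc, ← Finset.sum_add_distrib, Finset.sum_congr rfl fun a _ => Finset.sum_comm,
    Finset.sum_comm]
  congr 1
  refine Finset.sum_congr rfl fun i _ => ?_
  have hi := finRotate_ne hL i
  have hi' : (finRotate L).symm i ≠ i := fun h => hi ((Equiv.symm_apply_eq _).1 h)
  rw [st_upd _ i fun a j hj h => Finset.sum_eq_zero fun _ _ => st_kron_zero j (by
    rw [Function.update_of_ne hj, st_F0_zero _ (.inr h)])]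
  have e : ∀ z : Ev, _ = ∑ y : Ev, tn_hom i _ hi
      (kroneckerMap (· * ·) (st_F1 (g i) (κ i) none y z) (st_F0 z none none)) := fun z =>
    (st_upd (fun a' => piKron (Function.update (fun j => st_F0 (Function.update (fun _ => none) i z
      ((finRotate L).symm j)) (a' j) (Function.update (fun _ => none) i z j)) i
        (st_F1 (g i) (κ i) (Function.update (fun _ => none) i z ((finRotate L).symm i)) (a' i)
          (Function.update (fun _ => none) i z i)))) i fun a j hj h => st_kron_zero j (by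
      rw [Function.update_of_ne hj, st_F0_zero _ (.inl h)])).trans
    (Finset.sum_congr rfl fun y _ => by
      refine Eq.trans ?_ (piKron_two _ _ _ _ hi)
      congr 1
      ext1 j
      by_cases h : j = i
      · simp only [h, Function.update_self, Function.update_of_ne hi, Function.update_of_ne hi']
      · by_cases h' : j = finRotate L i
        · simp only [h', Function.update_self, Function.update_of_ne hi.symm,
            Equiv.symm_apply_apply]
        · have : (finRotate L).symm j ≠ i := fun h => h' ((Equiv.symm_apply_eq _).1 h)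
          simp only [Function.update_of_ne h, Function.update_of_ne h', Function.update_of_ne this,
            st_F0])
  simp only [e, ← map_sum]
  have e2 : onSite (Lc ℂ 2) i = onBond (kroneckerMap (· * ·) (Lc ℂ 2) 1) i (finRotate L i) := by
    rw [← tn_site_mul _ _ _ _ hi, onSite_eq_piKron 1, Function.update_eq_self, piKron_one, mul_one]
  rw [e2, ← onBond_smul, ← onBond_add]
  change onBond _ _ _ = _
  congr 1
  rw [LL, Finset.sum_comm, add_comm]
  simp [Fintype.sum_option, st_F0, st_F1, smul_kronecker]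

theorem step_tendsto {L : ℕ} (hL : 2 ≤ L) (g : Fin L → Matrix (Fin 3) (Fin 3) ℂ)
    (κ : Fin L → ℂ) (β : ℝ) (hβ : 0 ≤ β) :
    Tendsto (fun n : ℕ => (n : ℂ) •
      (Step (fun j => site ((Real.sqrt (β / n) : ℝ) : ℂ) (((β / n : ℝ) : ℂ) * κ j))
        (fun j => ext1 (g j)) - 1)) atTop (𝓝 ((-(β : ℂ)) • Hc L g κ)) := by
  have h : ∀ n : ℕ, ((Real.sqrt (β / n) : ℝ) : ℂ) * ((Real.sqrt (β / n) : ℝ) : ℂ) =
      ((β / n : ℝ) : ℂ) := fun n => by
    rw [← Complex.ofReal_mul, Real.mul_self_sqrt (by positivity)]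
  simp only [st_step g κ _ _ (h _), ← st_zero L, ← Finset.sum_sub_distrib, ← st_one hL g κ,
    Finset.smul_sum (s := Finset.univ (α := Fin L → Ev))]
  refine tendsto_finsetSum _ fun a _ => tendsto_finsetSum _ fun a' _ => ?_
  rw [smul_neg, neg_smul, neg_neg]
  simpa only [div_eq_inv_mul, Complex.ofReal_mul, Complex.ofReal_inv, Complex.ofReal_natCast]
    using st_lim _ _ (β : ℂ)

end Crest.Agent.R347
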