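import Crest.Agent.R347.Defs

/-! Row 347: definitions for the Trotter / transfer-matrix part.  Owner: helper8. -/

set_option autoImplicit false

namespace Crest.Agent.R347
open Crest.MathPhysics.SpinChain Matrix

/-- `(L^α)_(βγ) = ε_(αβγ)`; real antisymmetric, `Σ_α L^α ⊗ L^α = ΩΩᵀ - swap` -/
def Lz : Fin 3 → Matrix (Fin 3) (Fin 3) ℤ :=
  ![!![0, 0, 0; 0, 0, 1; 0, -1, 0], !![0, 0, -1; 0, 0, 0; 1, 0, 0], !![0, 1, 0; -1, 0, 0; 0, 0, 0]]

/-- `Lz` over a ring -/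
def Lc (R : Type) [Ring R] (α : Fin 3) : Matrix (Fin 3) (Fin 3) R := (Lz α).map (Int.cast)

/-- bond events in one time slice -/
abbrev Ev := Option (Fin 3)

/-- site matrix, given the events on its left and right bond -/
def site {R : Type} [CommRing R] (s η : R) : Ev → Ev → Matrix (Fin 3) (Fin 3) R
  | none, none => 1 + η • Lc R 2
  | some α, none => s • Lc R α
  | none, some α => s • Lc R α
  | some _, some _ => 0

/-- spatial transfer matrix of one site on bond histories of `n` time slices -/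
def Mt {R : Type} [CommRing R] (n : ℕ) (A : Ev → Ev → Matrix (Fin 3) (Fin 3) R) :
    Matrix (Fin n → Ev) (Fin n → Ev) R :=
  Matrix.of fun σ σ' => trace (List.ofFn fun t => A (σ t) (σ' t)).prod

/-- `1 ⊕ g` on events -/
def ext1 {R : Type} [CommRing R] (g : Matrix (Fin 3) (Fin 3) R) : Matrix Ev Ev R :=
  Matrix.of fun a b => match a, b with
    | none, none => 1
    | some α, some β => g α β
    | _, _ => 0

/-- one Trotter step: site `j` sees the event `a (j-1)` on its left, `a' j` on its right; bond `j`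
couples `a' j` with `a j` through `G j`. -/
noncomputable def Step {R : Type} [CommRing R] {L : ℕ} (A : Fin L → Ev → Ev → Matrix (Fin 3) (Fin 3) R)
    (G : Fin L → Matrix Ev Ev R) : Matrix (Cfg L) (Cfg L) R :=
  ∑ a : Fin L → Ev, ∑ a' : Fin L → Ev,
    (∏ j, G j (a' j) (a j)) • piKron fun j => A j (a ((finRotate L).symm j)) (a' j)

/-- `Σ_(αβ) g_(αβ) L^α ⊗ L^β` -/
noncomputable def LL (g : Matrix (Fin 3) (Fin 3) ℂ) : Matrix (Fin 3 × Fin 3) (Fin 3 × Fin 3) ℂ :=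
  ∑ α, ∑ β, g α β • Matrix.kroneckerMap (· * ·) (Lc ℂ α) (Lc ℂ β)

/-- Hamiltonian in the Cartesian basis: bond matrices `g j`, imaginary fields `κ j` -/
noncomputable def Hc (L : ℕ) (g : Fin L → Matrix (Fin 3) (Fin 3) ℂ) (κ : Fin L → ℂ) :
    Matrix (Cfg L) (Cfg L) ℂ :=
  -((∑ j, onBond (LL (g j)) j (finRotate L j)) + ∑ j, κ j • onSite (Lc ℂ 2) j)

/-- `g` on the last bond (from site `L-1` to site `0`), `1` elsewhere -/
def seam {R : Type} [CommRing R] (L : ℕ) (g : Matrix (Fin 3) (Fin 3) R) :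
    Fin L → Matrix (Fin 3) (Fin 3) R :=
  fun j => if j.val + 1 = L then g else 1

/-- end fields `(3/5) i` at the first site and `±(3/5) i` at the last one -/
noncomputable def endF (L : ℕ) (τ : Bool) : Fin L → ℂ := fun j =>
  (if j.val = 0 then (3 / 5 : ℂ) * Complex.I else 0) +
    (if j.val + 1 = L then (if τ then 1 else -1) * ((3 / 5 : ℂ) * Complex.I) else 0)

/-- the 24 rotations of the cube -/
def Og : Fin 24 → Matrix (Fin 3) (Fin 3) ℤ :=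
  ![!![1, 0, 0; 0, 1, 0; 0, 0, 1],
    !![1, 0, 0; 0, -1, 0; 0, 0, -1],
    !![-1, 0, 0; 0, 1, 0; 0, 0, -1],
    !![-1, 0, 0; 0, -1, 0; 0, 0, 1],
    !![1, 0, 0; 0, 0, 1; 0, -1, 0],
    !![1, 0, 0; 0, 0, -1; 0, 1, 0],
    !![-1, 0, 0; 0, 0, 1; 0, 1, 0],
    !![-1, 0, 0; 0, 0, -1; 0, -1, 0],
    !![0, 1, 0; 1, 0, 0; 0, 0, -1],
    !![0, 1, 0; -1, 0, 0; 0, 0, 1],
    !![0, -1, 0; 1, 0, 0; 0, 0, 1],
    !![0, -1, 0; -1, 0, 0; 0, 0, -1],
    !![0, 1, 0; 0, 0, 1; 1, 0, 0],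
    !![0, 1, 0; 0, 0, -1; -1, 0, 0],
    !![0, -1, 0; 0, 0, 1; -1, 0, 0],
    !![0, -1, 0; 0, 0, -1; 1, 0, 0],
    !![0, 0, 1; 1, 0, 0; 0, 1, 0],
    !![0, 0, 1; -1, 0, 0; 0, -1, 0],
    !![0, 0, -1; 1, 0, 0; 0, -1, 0],
    !![0, 0, -1; -1, 0, 0; 0, 1, 0],
    !![0, 0, 1; 0, 1, 0; -1, 0, 0],
    !![0, 0, 1; 0, -1, 0; 1, 0, 0],
    !![0, 0, -1; 0, 1, 0; 1, 0, 0],
    !![0, 0, -1; 0, -1, 0; -1, 0, 0]]

/-- rotation angle of `Og i` in units of `2π/12` -/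
def cls : Fin 24 → ℕ := ![0, 6, 6, 6, 3, 3, 6, 6, 6, 3, 3, 6, 4, 4, 4, 4, 4, 4, 4, 4, 3, 6, 3, 6]

end Crest.Agent.R347
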