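import Crest.Agent.R347.TDefs
import Crest.Agent.R347.Tensor

/-! Row 347: the cube group acting on bond histories. -/

set_option autoImplicit false

namespace Crest.Agent.R347
open Crest.MathPhysics.SpinChain Matrix Filter Topology

/-- multiplication table of the cube group, five bits per entry -/
def trTab : ℕ :=
  0xc415250b3148784e5163dcdb5697088605a12a390a68ca706b9ecbd2b61040342d4921cc5946137358fa5ed5180224a968298e49c2327b1aeadaf4218e5731af10023a5af5429699423329cc47b58e18402aded44ad489c612310a7639ed00861b52b75212b84a71394866bdcc08c40bd6965a50a8ce5042d2a088038ca1321ca6a5eb66b98f4a90b00c2284e3229887ada9763dae52568180419c251314e4b56f47b1cd5a1491046094670390c5bd2d5735ec639af218a7a5ab70082384a334292b6bd8e29c86ade9608c028ce124ad0a731ed310e5b52f51006194271521697b5cc394c4bd6d4184409c6505a54884672ad2d74a14b635ee00462290c78c253a56f64256a6b1cf08043214e694e30bda955a90973dac10c20398859ca11b5eb452d287b98d1880131ca4a56d784653635cf4254b214c700443ad2f68c2726b1ee4a16a290e608062b5e9594e1173d8d52d0931c8510c01bdab49ca307b9ac5a928398a418820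

/-- index of the product -/
def trMul (i j : Fin 24) : Fin 24 := Fin.ofNat 24 (trTab / 32 ^ (24 * i.val + j.val) % 32)

/-- index of the inverse -/
def trInv : Fin 24 → Fin 24 :=
  ![0, 1, 2, 3, 5, 4, 6, 7, 8, 10, 9, 11, 16, 18, 19, 17, 12, 15, 13, 14, 22, 21, 20, 23]

theorem tr_mul : ∀ i j, Og (trMul i j) = Og i * Og j := by decide +kernel

theorem tr_inv : ∀ i, Og (trInv i) = (Og i)ᵀ := by decide +kernel

theorem tr_inv_inv : ∀ i, trInv (trInv i) = i := by decide +kernel

theorem tr_orth : ∀ i, (Og i)ᵀ * Og i = 1 := by decide +kernel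

theorem tr_L1 : ∀ i α, (Og i)ᵀ * Lz α * Og i = ∑ β, Og i α β • Lz β := by decide +kernel

theorem tr_L2 : ∀ i α, (Og i)ᵀ * (∑ β, Og i β α • Lz β) * Og i = Lz α := by decide +kernel

/-- `c / 24` are the coefficients of a symmetric idempotent -/
def TrProj (c : Fin 24 → ℤ) : Prop :=
  (∀ i, c (trInv i) = c i) ∧
    ∀ k, (∑ i, ∑ j, if trMul i j = k then c i * c j else 0) = 24 * c k

instance (c : Fin 24 → ℤ) : Decidable (TrProj c) := by unfold TrProj; infer_instance

/-- sector `A₁` -/
def trA1 : Fin 24 → ℤ := ![1, 1, 1, 1, 1, 1, 1, 1, 1, 1, 1, 1, 1, 1, 1, 1, 1, 1, 1, 1, 1, 1, 1, 1]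
/-- sector `A₂` -/
def trA2 : Fin 24 → ℤ :=
  ![1, 1, 1, 1, -1, -1, -1, -1, -1, -1, -1, -1, 1, 1, 1, 1, 1, 1, 1, 1, -1, -1, -1, -1]
/-- sector `E` -/
def trE : Fin 24 → ℤ :=
  ![2, 2, 2, 2, -1, -1, -1, -1, 2, 2, 2, 2, -1, -1, -1, -1, -1, -1, -1, -1, -1, -1, -1, -1]
/-- sector `T₁` -/
def trT1 : Fin 24 → ℤ :=
  ![3, -3, -3, 3, 0, 0, 0, 0, -3, 3, 3, -3, 0, 0, 0, 0, 0, 0, 0, 0, 0, 0, 0, 0]
/-- sector `T₂` -/
def trT2 : Fin 24 → ℤ :=
  ![3, -3, -3, 3, 0, 0, 0, 0, 3, -3, -3, 3, 0, 0, 0, 0, 0, 0, 0, 0, 0, 0, 0, 0]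

theorem tr_A1 : TrProj trA1 := by decide +kernel
theorem tr_A2 : TrProj trA2 := by decide +kernel
theorem tr_E : TrProj trE := by decide +kernel
theorem tr_T1 : TrProj trT1 := by decide +kernel
theorem tr_T2 : TrProj trT2 := by decide +kernel

/-- the rotations that fix the third axis up to sign -/
theorem tr_axis : ∀ i, (trA1 i + trE i = 0 ∧ trT1 i = 0) ∨
    (trA1 i + trE i = 3 ∧ trT1 i = 3 ∧ (Og i)ᵀ * Lz 2 * Og i = Lz 2) ∨
    (trA1 i + trE i = 3 ∧ trT1 i = -3 ∧ (Og i)ᵀ * Lz 2 * Og i = -Lz 2) := by decide +kernel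

theorem tr_sum1 : ∑ i, (trA1 i + trE i) = 24 := by decide +kernel

theorem tr_sum2 : ∑ i, |trT1 i| = 24 := by decide +kernel

section ring
variable {R : Type} [CommRing R]

theorem tr_ext1_mul (g h : Matrix (Fin 3) (Fin 3) R) : ext1 (g * h) = ext1 g * ext1 h := by
  ext a b
  cases a <;> cases b <;> simp [ext1, Matrix.mul_apply, Fintype.sum_option]

theorem tr_ext1_one : ext1 (1 : Matrix (Fin 3) (Fin 3) R) = 1 := by
  ext a b
  cases a <;> cases b <;> simp [ext1, Matrix.one_apply]

theorem tr_ext1_transpose (g : Matrix (Fin 3) (Fin 3) R) : ext1 gᵀ = (ext1 g)ᵀ := by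
  ext a b
  cases a <;> cases b <;> simp [ext1]

theorem tr_prod_sum {n : ℕ} (f : Fin n → Ev → R) (B : Fin n → Ev → Matrix (Fin 3) (Fin 3) R) :
    (List.ofFn fun t => ∑ a, f t a • B t a).prod =
      ∑ σ : Fin n → Ev, (∏ t, f t (σ t)) • (List.ofFn fun t => B t (σ t)).prod := by
  have h := (MultilinearMap.mkPiAlgebraFin R n (Matrix (Fin 3) (Fin 3) R)).map_sum
    (fun t a => f t a • B t a)
  simpa only [MultilinearMap.map_smul_univ, MultilinearMap.mkPiAlgebraFin_apply] using h

theorem tr_piKron_mul_Mt (n : ℕ) (G : Matrix Ev Ev R) (A : Ev → Ev → Matrix (Fin 3) (Fin 3) R) :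
    (piKron fun _ : Fin n => G) * Mt n A = Mt n fun a b => ∑ a', G a a' • A a' b := by
  ext σ τ
  simp only [Matrix.mul_apply, piKron, Mt, of_apply]
  rw [tr_prod_sum (fun t a => G (σ t) a) fun t a => A a (τ t), trace_sum]
  simp only [trace_smul, smul_eq_mul]

theorem tr_Mt_mul_piKron (n : ℕ) (G : Matrix Ev Ev R) (A : Ev → Ev → Matrix (Fin 3) (Fin 3) R) :
    Mt n A * (piKron fun _ : Fin n => G) = Mt n fun a b => ∑ b', G b' b • A a b' := by
  ext σ τ
  simp only [Matrix.mul_apply, piKron, Mt, of_apply]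
  rw [tr_prod_sum (fun t b => G b (τ t)) fun t b => A (σ t) b, trace_sum]
  simp only [trace_smul, smul_eq_mul, mul_comm]

theorem tr_prod_conj {g h : Matrix (Fin 3) (Fin 3) R} (hg : h * g = 1)
    (l : List (Matrix (Fin 3) (Fin 3) R)) : (l.map fun B => h * B * g).prod = h * l.prod * g := by
  have hg' : g * h = 1 := mul_eq_one_comm.1 hg
  induction l with
  | nil => simp [hg]
  | cons B l ih =>
    rw [List.map_cons, List.prod_cons, List.prod_cons, ih]
    calc h * B * g * (h * l.prod * g) = h * B * (g * h) * l.prod * g := by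
          simp only [Matrix.mul_assoc]
      _ = _ := by rw [hg']; simp only [Matrix.mul_assoc, Matrix.mul_one]

theorem tr_Mt_conj (n : ℕ) {g h : Matrix (Fin 3) (Fin 3) R} (hg : h * g = 1)
    (A : Ev → Ev → Matrix (Fin 3) (Fin 3) R) : (Mt n fun a b => h * A a b * g) = Mt n A := by
  ext σ τ
  simp only [Mt, of_apply]
  have e : (List.ofFn fun t => h * A (σ t) (τ t) * g) =
      (List.ofFn fun t => A (σ t) (τ t)).map fun B => h * B * g := by
    rw [List.map_ofFn]; rfl
  rw [e, tr_prod_conj hg, trace_mul_comm, ← Matrix.mul_assoc, mul_eq_one_comm.1 hg,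
    Matrix.one_mul]

/-- `Og i` over `R` -/
def trO (R : Type) [CommRing R] (i : Fin 24) : Matrix (Fin 3) (Fin 3) R :=
  (Og i).map (Int.cast : ℤ → R)

/-- the representation on histories -/
def trU (R : Type) [CommRing R] (n : ℕ) (i : Fin 24) : Matrix (Fin n → Ev) (Fin n → Ev) R :=
  piKron fun _ : Fin n => ext1 (trO R i)

theorem tr_cast_mul (A B : Matrix (Fin 3) (Fin 3) ℤ) :
    (A * B).map (Int.cast : ℤ → R) = A.map Int.cast * B.map Int.cast :=
  Matrix.map_mul (f := Int.castRingHom R)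

theorem tr_cast_sum (c : Fin 3 → ℤ) :
    (∑ β, c β • Lz β).map (Int.cast : ℤ → R) = ∑ β, (c β : R) • Lc R β := by
  ext a b
  simp only [Lc, Matrix.sum_apply, map_apply, Matrix.smul_apply, smul_eq_mul, Int.cast_sum,
    Int.cast_mul]

theorem trO_orth (i : Fin 24) : (trO R i)ᵀ * trO R i = 1 := by
  have h := congrArg (fun A : Matrix (Fin 3) (Fin 3) ℤ => A.map (Int.cast : ℤ → R)) (tr_orth i)
  simp only [tr_cast_mul, Matrix.transpose_map] at h
  exact h.trans (Matrix.map_one _ Int.cast_zero Int.cast_one)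

theorem trO_conj (i : Fin 24) (B : Matrix (Fin 3) (Fin 3) ℤ) :
    (trO R i)ᵀ * B.map (Int.cast : ℤ → R) * trO R i = ((Og i)ᵀ * B * Og i).map Int.cast := by
  simp only [tr_cast_mul, Matrix.transpose_map, trO]

theorem trU_mul (n : ℕ) (i j : Fin 24) : trU R n i * trU R n j = trU R n (trMul i j) := by
  simp only [trU, trO, piKron_mul, tr_mul, tr_cast_mul, tr_ext1_mul]

theorem trU_transpose (n : ℕ) (i : Fin 24) : (trU R n i)ᵀ = trU R n (trInv i) := by
  simp only [trU, trO, piKron_transpose, tr_inv, Matrix.transpose_map, tr_ext1_transpose]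

theorem trU_comm (n : ℕ) (i : Fin 24) (s η η' : R)
    (h : η' • Lc R 2 = η • ((trO R i)ᵀ * Lc R 2 * trO R i)) :
    trU R n i * Mt n (site s η') = Mt n (site s η) * trU R n i := by
  rw [trU, tr_piKron_mul_Mt, tr_Mt_mul_piKron,
    ← tr_Mt_conj n (trO_orth i) fun a b => ∑ b', ext1 (trO R i) b' b • site s η a b']
  congr 1
  funext a b
  have h1 : ∀ α, (trO R i)ᵀ * Lc R α * trO R i = ∑ β, trO R i α β • Lc R β := fun α => by
    rw [Lc, trO_conj, tr_L1, tr_cast_sum]; rfl
  have h2 : ∀ α, (trO R i)ᵀ * (∑ β, trO R i β α • Lc R β) * trO R i = Lc R α := fun α => by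
    have := trO_conj (R := R) i (∑ β, Og i β α • Lz β)
    rw [tr_L2, tr_cast_sum] at this
    exact this
  cases a with
  | none =>
    cases b with
    | none =>
      simp only [Fintype.sum_option, ext1, of_apply, site, one_smul, zero_smul,
        Finset.sum_const_zero, add_zero, Matrix.mul_add, Matrix.add_mul, Matrix.mul_one, trO_orth,
        Matrix.mul_smul, Matrix.smul_mul, h]
    | some β =>
      simp only [Fintype.sum_option, ext1, of_apply, site, one_smul, zero_smul,
        Finset.sum_const_zero, add_zero, zero_add, smul_comm _ s, ← Finset.smul_sum,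
        Matrix.mul_smul, Matrix.smul_mul, h2]
  | some α =>
    cases b with
    | none =>
      simp only [Fintype.sum_option, ext1, of_apply, site, one_smul, zero_smul,
        Finset.sum_const_zero, add_zero, zero_add, smul_comm _ s, ← Finset.smul_sum,
        Matrix.mul_smul, Matrix.smul_mul, h1]
    | some β =>
      simp only [Fintype.sum_option, ext1, of_apply, site, zero_smul, smul_zero,
        Finset.sum_const_zero, add_zero, Matrix.mul_zero, Matrix.zero_mul]

theorem tr_Mt_symm (n : ℕ) (s η : R) : (Mt n (site s η))ᵀ = Mt n (site s η) := by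
  ext σ τ
  simp only [Mt, transpose_apply, of_apply]
  congr 3
  funext t
  cases σ t <;> cases τ t <;> rfl

theorem tr_piKron_row (n : ℕ) (g : Matrix (Fin 3) (Fin 3) R) (τ : Fin n → Ev) :
    (piKron fun _ : Fin n => ext1 g) (fun _ => none) τ = if τ = fun _ => none then 1 else 0 := by
  simp only [piKron, of_apply]
  split_ifs with h
  · simp [h, ext1]
  · obtain ⟨t, ht⟩ := Function.ne_iff.1 h
    refine Finset.prod_eq_zero (Finset.mem_univ t) ?_
    cases e : τ t with
    | none => exact absurd e ht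
    | some α => rfl

theorem tr_trace_zero (n : ℕ) (B : Matrix (Fin n → Ev) (Fin n → Ev) R) :
    trace (B * piKron fun _ : Fin n => ext1 (0 : Matrix (Fin 3) (Fin 3) R)) =
      B (fun _ => none) fun _ => none := by
  have h : ∀ σ τ : Fin n → Ev, (piKron fun _ : Fin n => ext1 (0 : Matrix (Fin 3) (Fin 3) R)) σ τ =
      if σ = fun _ => none then (if τ = fun _ => none then 1 else 0) else 0 := by
    intro σ τ
    split_ifs with h1 h2
    · rw [h1, tr_piKron_row, if_pos h2]
    · rw [h1, tr_piKron_row, if_neg h2]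
    · obtain ⟨t, ht⟩ := Function.ne_iff.1 h1
      refine Finset.prod_eq_zero (Finset.mem_univ t) ?_
      cases e : σ t with
      | none => exact absurd e ht
      | some α => cases τ t <;> rfl
  simp [trace, Matrix.mul_apply, h]

/-- the boundary vector -/
def trW (n : ℕ) (s η : R) : (Fin n → Ev) → R := Mt n (site s η) fun _ => none

theorem trW_vecMul (n : ℕ) (i : Fin 24) (s η η' : R)
    (h : η' • Lc R 2 = η • ((trO R i)ᵀ * Lc R 2 * trO R i)) :
    trW n s η ᵥ* trU R n i = trW n s η' := by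
  funext τ
  have e := congrFun (congrFun (trU_comm n i s η η' h) fun _ => none) τ
  rw [Matrix.mul_apply, Matrix.mul_apply] at e
  simp only [trU, tr_piKron_row, ite_mul, one_mul, zero_mul, Finset.sum_ite_eq',
    Finset.mem_univ, if_true] at e
  exact e.symm

theorem tr_Mt_map {R' : Type} [CommRing R'] (f : R →+* R') (n : ℕ) (s η : R) :
    (Mt n (site s η)).map f = Mt n (site (f s) (f η)) := by
  ext σ τ
  simp only [Mt, map_apply, of_apply]
  rw [AddMonoidHom.map_trace f]
  congr 1
  change f.mapMatrix _ = _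
  rw [map_list_prod, List.map_ofFn]
  congr 2
  funext t
  simp only [Function.comp]
  cases σ t <;> cases τ t <;> ext a b <;> simp [site, Lc, Matrix.one_apply, apply_ite f]

theorem trU_map {R' : Type} [CommRing R'] (f : R →+* R') (n : ℕ) (i : Fin 24) :
    (trU R n i).map f = trU R' n i := by
  ext σ τ
  simp only [trU, piKron, map_apply, of_apply, map_prod]
  refine Finset.prod_congr rfl fun t _ => ?_
  cases σ t <;> cases τ t <;> simp [ext1, trO]

theorem tr_ring_prod (n l : ℕ) (B : Matrix (Fin n → Ev) (Fin n → Ev) R)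
    (g : Matrix (Fin 3) (Fin 3) R) :
    (List.ofFn fun j : Fin (l + 1) => B * piKron fun _ : Fin n => ext1 (seam (l + 1) g j)).prod =
      B ^ (l + 1) * piKron fun _ : Fin n => ext1 g := by
  rw [List.ofFn_succ_last]
  have h1 : ∀ j : Fin l, seam (l + 1) g j.castSucc = 1 := fun j =>
    if_neg (by have := j.2; simp only [Fin.val_castSucc]; omega)
  have h2 : seam (l + 1) g (Fin.last l) = g := if_pos rfl
  simp only [h1, h2, tr_ext1_one, piKron_one, Matrix.mul_one, List.ofFn_const, List.prod_append,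
    List.prod_replicate, List.prod_singleton, pow_succ, Matrix.mul_assoc]

theorem tr_open_prod (n k : ℕ) (B : Fin (k + 2) → Matrix (Fin n → Ev) (Fin n → Ev) R)
    (M : Matrix (Fin n → Ev) (Fin n → Ev) R) (h : ∀ j : Fin k, B j.castSucc.succ = M) :
    trace (List.ofFn fun j : Fin (k + 2) => B j * piKron fun _ : Fin n =>
      ext1 (seam (k + 2) (0 : Matrix (Fin 3) (Fin 3) R) j)).prod =
      (B 0 * M ^ k * B (Fin.last (k + 1))) (fun _ => none) fun _ => none := by
  rw [List.ofFn_succ, List.ofFn_succ_last]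
  have h0 : seam (k + 2) (0 : Matrix (Fin 3) (Fin 3) R) 0 = 1 := if_neg (by simp)
  have h1 : ∀ j : Fin k, seam (k + 2) (0 : Matrix (Fin 3) (Fin 3) R) j.castSucc.succ = 1 :=
    fun j => if_neg (by have := j.2; simp only [Fin.val_succ, Fin.val_castSucc]; omega)
  have h2 : seam (k + 2) (0 : Matrix (Fin 3) (Fin 3) R) (Fin.last k).succ = 0 := if_pos rfl
  simp only [h0, h1, h2, h, tr_ext1_one, piKron_one, Matrix.mul_one, List.ofFn_const,
    List.prod_append, List.prod_replicate, List.prod_cons, List.prod_nil,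
    ← Matrix.mul_assoc, tr_trace_zero]
  rfl

end ring

end Crest.Agent.R347
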