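import Crest.Agent.R347.Defs
import Crest.Agent.R347.SpecAux

/-! Row 347: ultralimit of finite weighted spectra. -/

set_option autoImplicit false

namespace Crest.Agent.R347
open Crest.MathPhysics.SpinChain Matrix Filter Topology

theorem ul_pad {ι : Type} [Fintype ι] (μ c : ι → ℝ) (hc : ∀ i, 0 ≤ c i) : ∃ m d : ℕ → ℝ,
    (∀ F : ℝ → ℝ → ℝ, F 0 0 = 0 → HasSum (fun i => F (m i) (d i)) (∑ i, F (μ i) (c i))) ∧
      (∀ i, 0 ≤ d i) ∧ ∀ i : ℕ, ((i + 1 : ℕ) : ℝ) * m i ^ 4 ≤ ∑ i, μ i ^ 4 := by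
  let e₀ := (Fintype.equivFin ι).symm
  let e := (Tuple.sort fun j => -μ (e₀ j) ^ 4).trans e₀
  have he : ∀ i j, i ≤ j → μ (e j) ^ 4 ≤ μ (e i) ^ 4 := fun i j h =>
    neg_le_neg_iff.1 (Tuple.monotone_sort (fun j => -μ (e₀ j) ^ 4) h)
  let p : (ι → ℝ) → ℕ → ℝ := fun f i => if h : i < Fintype.card ι then f (e ⟨i, h⟩) else 0
  have h1 : ∀ F : ℝ → ℝ → ℝ, F 0 0 = 0 →
      HasSum (fun i => F (p μ i) (p c i)) (∑ i, F (μ i) (c i)) := fun F hF => by
    convert hasSum_sum_of_ne_finset_zero (s := Finset.range (Fintype.card ι)) fun i hi => ?_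
    · rw [Finset.sum_range, ← e.sum_comp]
      simp [p]
    · simp [p, Finset.mem_range.not.1 hi, hF]
    · infer_instance
  refine ⟨p μ, p c, h1, fun i => ?_, fun i => ?_⟩
  · simp only [p]
    split_ifs
    exacts [hc _, le_rfl]
  · refine le_trans ?_ (sum_le_hasSum (Finset.range (i + 1)) (fun j _ => by positivity)
      (h1 (fun x _ => x ^ 4) (by norm_num)))
    rw [← nsmul_eq_mul]
    refine le_of_eq_of_le (by rw [Finset.card_range]) (Finset.card_nsmul_le_sum _ _ _ fun j hj => ?_)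
    have := Finset.mem_range.1 hj
    by_cases h : i < Fintype.card ι
    · simp only [p, dif_pos h, dif_pos (show j < Fintype.card ι by omega)]
      exact he _ _ (Fin.mk_le_mk.2 (by omega))
    · simp only [p, dif_neg h]
      rw [zero_pow four_ne_zero]
      positivity

theorem ul_lim (𝒰 : Ultrafilter ℕ) (f : ℕ → ℝ) (R : ℝ) (h : ∀ᶠ n in (𝒰 : Filter ℕ), |f n| ≤ R) :
    ∃ x, Tendsto f 𝒰 (𝓝 x) := by
  obtain ⟨x, -, hx⟩ := (isCompact_Icc (a := -R) (b := R)).ultrafilter_le_nhds (𝒰.map f)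
    (le_principal_iff.2 (h.mono fun n hn => abs_le.1 hn))
  exact ⟨x, hx⟩

theorem ul_tail {d g : ℕ → ℝ} {C t : ℝ} {I : ℕ} (hd : ∀ i, 0 ≤ d i) (hs : Summable d)
    (hC : ∑' i, d i ≤ C) (ht : 0 ≤ t) (hg : ∀ i, I ≤ i → |g i| ≤ t) :
    Summable (fun i => d i * g i) ∧
      |∑' i, d i * g i - ∑ i ∈ Finset.range I, d i * g i| ≤ C * t := by
  have hs' := ((summable_nat_add_iff I).2 hs).hasSum.mul_right t
  have hb : ∀ i, ‖d (i + I) * g (i + I)‖ ≤ d (i + I) * t := fun i => by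
    rw [norm_mul, Real.norm_of_nonneg (hd _)]
    exact mul_le_mul_of_nonneg_left (hg _ (by omega)) (hd _)
  have h1 : Summable fun i => d i * g i :=
    (summable_nat_add_iff I).1 (hs'.summable.of_norm_bounded hb)
  refine ⟨h1, ?_⟩
  rw [← h1.sum_add_tsum_nat_add I, add_sub_cancel_left]
  refine (tsum_of_norm_bounded hs' hb).trans (mul_le_mul_of_nonneg_right ?_ ht)
  rw [← hs.sum_add_tsum_nat_add I] at hC
  linarith [Finset.sum_nonneg fun i (_ : i ∈ Finset.range I) => hd i]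

theorem ultra_ps2 (𝒰 : Ultrafilter ℕ) (h𝒰 : (𝒰 : Filter ℕ) ≤ atTop) (ι : ℕ → Type)
    [∀ n, Fintype (ι n)] (μ c : ∀ n, ι n → ℝ) (hc : ∀ n i, 0 ≤ c n i) (C : ℝ)
    (hC : ∀ᶠ n in atTop, ∑ i, c n i ≤ C) (w : ℕ → ℝ)
    (hw : ∀ L, 4 ≤ L → Tendsto (fun n => ∑ i, μ n i ^ L) atTop (𝓝 (w L))) :
    ∃ W : ℕ → ℝ, PS2 w W ∧
      ∀ k, 1 ≤ k → Tendsto (fun n => ∑ i, c n i * μ n i ^ k) 𝒰 (𝓝 (W k)) := by
  choose m d h1 h2 h3 using fun n => ul_pad (μ n) (c n) (hc n)
  set B := |w 4| + 1 with hB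
  have hB1 : 1 ≤ B := by linarith [abs_nonneg (w 4)]
  set u : ℕ → ℝ := fun i => B * ((i + 1 : ℕ) : ℝ) ^ (-1 / 4 : ℝ) with hu
  have hu0 : ∀ i, 0 ≤ u i := fun i => by positivity
  have huL : ∀ i (L : ℕ), u i ^ L = B ^ L * ((i + 1 : ℕ) : ℝ) ^ (-(L : ℝ) / 4) := fun i L => by
    rw [mul_pow, ← Real.rpow_natCast (_ ^ _), ← Real.rpow_mul (Nat.cast_nonneg _)]
    congr 2
    ring
  have hm : ∀ᶠ n in (𝒰 : Filter ℕ), ∀ i, |m n i| ≤ u i := by
    filter_upwards [h𝒰 ((hw 4 le_rfl).eventually_le_const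
      ((le_abs_self _).trans_lt (lt_add_one _)))] with n hn i
    rw [← pow_le_pow_iff_left₀ (abs_nonneg _) (hu0 i) four_ne_zero, Even.pow_abs (by decide), huL,
      show -((4 : ℕ) : ℝ) / 4 = -1 by norm_num, Real.rpow_neg_one, ← div_eq_mul_inv,
      le_div_iff₀' (by positivity)]
    exact ((h3 n i).trans hn).trans (le_self_pow₀ hB1 four_ne_zero)
  have hd : ∀ n, HasSum (d n) (∑ i, c n i) := fun n => h1 n (fun _ y => y) rfl
  choose M hM using fun i => ul_lim 𝒰 (fun n => m n i) (u i) (hm.mono fun n hn => hn i)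
  choose D hD using fun i => ul_lim 𝒰 (fun n => d n i) C (by
    filter_upwards [h𝒰 hC] with n hn
    rw [abs_of_nonneg (h2 n i)]
    exact (le_hasSum (hd n) i fun j _ => h2 n j).trans hn)
  have hM' : ∀ i, |M i| ≤ u i := fun i => le_of_tendsto (hM i).abs (hm.mono fun n hn => hn i)
  have hD0 : ∀ i, 0 ≤ D i := fun i => ge_of_tendsto' (hD i) fun n => h2 n i
  have hDC : ∀ s : Finset ℕ, ∑ i ∈ s, D i ≤ C := fun s =>
    le_of_tendsto (tendsto_finsetSum s fun i _ => hD i) (by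
      filter_upwards [h𝒰 hC] with n hn
      exact (sum_le_hasSum s (fun j _ => h2 n j) (hd n)).trans hn)
  have hDs : Summable D := summable_of_sum_le hD0 hDC
  have tail : ∀ (x : ℕ → ℝ) (k I : ℕ), (∀ i, |x i| ≤ u i) → ∀ i, I ≤ i → |x i ^ k| ≤ u I ^ k := by
    intro x k I hx i hi
    rw [abs_pow]
    refine pow_le_pow_left₀ (abs_nonneg _) ((hx i).trans (mul_le_mul_of_nonneg_left
      (Real.rpow_le_rpow_of_nonpos (by positivity) (by gcongr) (by norm_num)) (by linarith))) k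
  have tD := fun k I => ul_tail hD0 hDs (hDs.tsum_le_of_sum_le hDC) (pow_nonneg (hu0 I) k)
    (tail M k I hM')
  refine ⟨fun k => ∑' i, D i * M i ^ k, ⟨M, D, hD0, fun L hL => ?_, fun k _ => (tD k 0).1.hasSum⟩,
    fun k hk => ?_⟩
  · have hs : Summable fun i => u i ^ L := by
      simp only [huL]
      refine ((summable_nat_add_iff 1).2 (Real.summable_nat_rpow.2 ?_)).mul_left _
      have : (5 : ℝ) ≤ L := by exact_mod_cast hL
      linarith
    have := tendsto_tsum_of_dominated_convergence hs (fun i => (hM i).pow L)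
      (hm.mono fun n hn i => tail (m n) L i hn i le_rfl)
    rw [← tendsto_nhds_unique this (((hw L (by omega)).mono_left h𝒰).congr fun n =>
      (h1 n (fun x _ => x ^ L) (zero_pow (by omega))).tsum_eq.symm)]
    exact (hs.of_norm_bounded fun i => tail M L i hM' i le_rfl).hasSum
  · have hu' : Tendsto (fun I => C * u I ^ k) atTop (𝓝 0) := by
      have := ((((tendsto_rpow_neg_atTop (show (0 : ℝ) < 1 / 4 by norm_num)).comp
        tendsto_natCast_atTop_atTop).comp (tendsto_add_atTop_nat 1)).const_mul B).pow k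
      rw [mul_zero, zero_pow (by omega)] at this
      simpa [hu, neg_div] using this.const_mul C
    rw [Metric.tendsto_nhds]
    intro ε hε
    obtain ⟨I, hI⟩ := (hu'.eventually_lt_const (show 0 < ε / 3 by linarith)).exists
    filter_upwards [Metric.tendsto_nhds.1 (tendsto_finsetSum (Finset.range I) fun i _ =>
      (hD i).mul ((hM i).pow k)) (ε / 3) (by linarith), hm, h𝒰 hC] with n a1 a2 a3
    have a4 := (ul_tail (h2 n) (hd n).summable ((hd n).tsum_eq.trans_le a3) (pow_nonneg (hu0 I) k)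
      (tail (m n) k I a2)).2
    rw [(h1 n (fun x y => y * x ^ k) (zero_mul _)).tsum_eq] at a4
    have a5 := (tD k I).2
    rw [Real.dist_eq, abs_lt] at a1 ⊢
    rw [abs_le] at a4 a5
    constructor <;> linarith [a1.1, a1.2, a4.1, a4.2, a5.1, a5.2]

/-- finite spectral decomposition of a real symmetric matrix with a vector -/
theorem finite_family {κ : Type} [Fintype κ] [DecidableEq κ] (S : Matrix κ κ ℝ) (hS : Sᵀ = S)
    (x : κ → ℝ) : ∃ μ c : κ → ℝ, (∀ i, 0 ≤ c i) ∧ (∀ L, trace (S ^ L) = ∑ i, μ i ^ L) ∧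
      ∀ k, x ⬝ᵥ (S ^ k).mulVec x = ∑ i, c i * μ i ^ k := by
  have hH : S.IsHermitian := by rw [IsHermitian, conjTranspose_eq_transpose_of_trivial, hS]
  obtain ⟨U, h1, h2, h3⟩ := sp_diag S hH
  generalize hH.eigenvalues = E at h3
  replace h3 : S = U * diagonal E * Uᴴ := h3
  rw [conjTranspose_eq_transpose_of_trivial] at h1 h2 h3
  have h4 : ∀ k, S ^ k = U * diagonal (E ^ k) * Uᵀ := fun k => by
    rw [← diagonal_pow, ← sp_pow (A := S) (by rw [h3, mul_assoc, h1, mul_one]), mul_assoc, h2, mul_one]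
  refine ⟨E, fun i => (Uᵀ *ᵥ x) i ^ 2, fun i => sq_nonneg _, fun L => ?_, fun k => ?_⟩
  · rw [h4, trace_mul_cycle, h1, one_mul, trace_diagonal]
    rfl
  · rw [h4, ← mulVec_mulVec, ← mulVec_mulVec, dotProduct_mulVec, ← mulVec_transpose, dotProduct]
    refine Finset.sum_congr rfl fun i _ => ?_
    rw [mulVec_diagonal, Pi.pow_apply]
    ring

end Crest.Agent.R347
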