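import Crest.Agent.R347.StepId
import Crest.Agent.R347.Basis
import Crest.Agent.R347.Ultra
import Crest.Agent.R347.TransferAux

/-! Row 347: the spatial structure of the partition functions. -/

set_option autoImplicit false

namespace Crest.Agent.R347
open Crest.MathPhysics.SpinChain Matrix Filter Topology

/-- the element of the group algebra with coefficients `c / 24` -/
noncomputable def trP (n : ℕ) (c : Fin 24 → ℤ) : Matrix (Fin n → Ev) (Fin n → Ev) ℝ :=
  ∑ i, ((c i : ℝ) / 24) • trU ℝ n i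

theorem trP_symm (n : ℕ) {c : Fin 24 → ℤ} (h : TrProj c) : (trP n c)ᵀ = trP n c := by
  rw [trP, transpose_sum, ← Equiv.sum_comp (Function.Involutive.toPerm trInv tr_inv_inv)
    fun i => ((c i : ℝ) / 24) • trU ℝ n i]
  refine Finset.sum_congr rfl fun i _ => ?_
  rw [transpose_smul, trU_transpose, Function.Involutive.coe_toPerm, h.1]

theorem trP_idem (n : ℕ) {c : Fin 24 → ℤ} (h : TrProj c) : trP n c * trP n c = trP n c := by
  have e : ∀ i j, (((c i : ℝ) / 24) • trU ℝ n i) * (((c j : ℝ) / 24) • trU ℝ n j) =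
      ∑ k, (((if trMul i j = k then c i * c j else 0 : ℤ) : ℝ) / 576) • trU ℝ n k := by
    intro i j
    rw [Finset.sum_eq_single (trMul i j) (fun k _ hk => by rw [if_neg hk.symm]; simp) (by simp),
      if_pos rfl, Matrix.smul_mul, Matrix.mul_smul, smul_smul, trU_mul]
    congr 1
    push_cast
    ring
  calc trP n c * trP n c = ∑ i, ∑ j, ∑ k,
        (((if trMul i j = k then c i * c j else 0 : ℤ) : ℝ) / 576) • trU ℝ n k := by
        simp only [trP, Finset.sum_mul_sum, e]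
    _ = ∑ k, ∑ i, ∑ j,
        (((if trMul i j = k then c i * c j else 0 : ℤ) : ℝ) / 576) • trU ℝ n k := by
        rw [Finset.sum_congr rfl fun i _ => Finset.sum_comm, Finset.sum_comm]
    _ = _ := by
        refine Finset.sum_congr rfl fun k _ => ?_
        simp only [← Finset.sum_smul, ← Finset.sum_div, ← Int.cast_sum, h.2]
        congr 1
        push_cast
        ring

theorem trP_comm (n : ℕ) (c : Fin 24 → ℤ) (s : ℝ) :
    Commute (trP n c) (Mt n (site s 0)) :=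
  Commute.sum_left _ _ _ fun i _ =>
    Commute.smul_left (trU_comm n i s 0 0 (by rw [zero_smul, zero_smul])) _

theorem trP_pow (n : ℕ) {c : Fin 24 → ℤ} (h : TrProj c) (s : ℝ) {k : ℕ} (hk : 1 ≤ k) :
    (trP n c * Mt n (site s 0)) ^ k = trP n c * Mt n (site s 0) ^ k := by
  obtain ⟨k, rfl⟩ : ∃ l, k = l + 1 := ⟨k - 1, by omega⟩
  rw [(trP_comm n c s).mul_pow, IsIdempotentElem.pow_succ_eq k (trP_idem n h)]

theorem tr_ring_limit (β : ℝ) (hβ : 0 < β) (i : Fin 24) {L : ℕ} (hL : 2 ≤ L) :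
    Tendsto (fun n : ℕ => trace (trU ℝ n i * Mt n (site (Real.sqrt (β / n)) 0) ^ L)) atTop
      (𝓝 (Zr (cls i) L β)) := by
  have h := ptr_tendsto _ (Hc_ring_herm L i) β _ (step_tendsto hL _ 0 β hβ.le)
  rw [basis_ring L hL] at h
  refine h.congr fun n => ?_
  obtain ⟨l, rfl⟩ : ∃ l, L = l + 1 := ⟨L - 1, by omega⟩
  rw [trace_Step_pow (by omega)]
  simp only [Pi.zero_apply, mul_zero]
  have e1 := tr_Mt_map Complex.ofRealHom n (Real.sqrt (β / n)) 0
  have e2 := trU_map Complex.ofRealHom n i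
  rw [map_zero, Complex.ofRealHom_eq_coe] at e1
  rw [tr_ring_prod, ← e1, trace_mul_comm]
  change (trace (trU ℂ n i * _)).re = _
  rw [← e2, ← RingHom.mapMatrix_apply, ← RingHom.mapMatrix_apply, ← map_pow, ← map_mul,
    RingHom.mapMatrix_apply, ← AddMonoidHom.map_trace]
  rfl

theorem tr_sector (β : ℝ) (hβ : 0 < β) {c : Fin 24 → ℤ} (h : TrProj c)
    (x : ∀ n : ℕ, (Fin n → Ev) → ℝ) (C : ℝ) (hC : ∀ᶠ n in atTop, x n ⬝ᵥ x n ≤ C) :
    ∃ W : ℕ → ℝ, PS2 (fun L => ∑ i, (c i : ℝ) / 24 * Zr (cls i) L β) W ∧ ∀ k, 1 ≤ k →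
      Tendsto (fun n : ℕ => (x n ᵥ* trP n c) ⬝ᵥ
        (Mt n (site (Real.sqrt (β / n)) 0) ^ k) *ᵥ x n) (hyperfilter ℕ) (𝓝 (W k)) := by
  have hS : ∀ n : ℕ, (trP n c * Mt n (site (Real.sqrt (β / n)) 0))ᵀ =
      trP n c * Mt n (site (Real.sqrt (β / n)) 0) := fun n => by
    rw [transpose_mul, trP_symm n h, tr_Mt_symm, (trP_comm n c _).eq]
  choose μ w hw h1 h2 using fun n => finite_family _ (hS n) (x n)
  obtain ⟨W, hW, hW'⟩ := ultra_ps2 (hyperfilter ℕ) (Nat.hyperfilter_le_atTop) _ μ w hw C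
    (hC.mono fun n hn => by simpa using (h2 n 0).symm.trans_le (by simpa using hn))
    (fun L => ∑ i, (c i : ℝ) / 24 * Zr (cls i) L β) fun L hL => by
      refine (tendsto_finsetSum _ fun i _ =>
        (tr_ring_limit β hβ i (by omega)).const_mul ((c i : ℝ) / 24)).congr fun n => ?_
      rw [← h1, trP_pow n h _ (by omega), trP, Finset.sum_mul, trace_sum]
      simp only [Matrix.smul_mul, trace_smul, smul_eq_mul]
  refine ⟨W, hW, fun k hk => (hW' k hk).congr fun n => ?_⟩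
  rw [← h2, trP_pow n h _ hk, ← mulVec_mulVec, dotProduct_mulVec]

theorem tr_re_form {κ : Type} [Fintype κ] (B : Matrix κ κ ℝ) (u v : κ → ℂ) :
    (u ⬝ᵥ (B.map Complex.ofRealHom) *ᵥ v).re =
      (fun i => (u i).re) ⬝ᵥ B *ᵥ (fun i => (v i).re) -
        (fun i => (u i).im) ⬝ᵥ B *ᵥ fun i => (v i).im := by
  simp only [dotProduct, mulVec, map_apply, Complex.ofRealHom_eq_coe, Complex.re_sum,
    Complex.mul_re, Complex.im_sum, Complex.mul_im, Complex.ofReal_re, Complex.ofReal_im,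
    zero_mul, sub_zero, add_zero, Finset.sum_sub_distrib]

/-- the complex boundary vector -/
noncomputable def trw (β : ℝ) (n : ℕ) : (Fin n → Ev) → ℂ :=
  trW n ((Real.sqrt (β / n) : ℝ) : ℂ) (((β / n : ℝ) : ℂ) * ((3 / 5 : ℂ) * Complex.I))

theorem trw_conj (β : ℝ) (n : ℕ) (σ : Fin n → Ev) :
    trW n ((Real.sqrt (β / n) : ℝ) : ℂ) (-(((β / n : ℝ) : ℂ) * ((3 / 5 : ℂ) * Complex.I))) σ =
      (starRingEnd ℂ) (trw β n σ) := by
  have e := tr_Mt_map (starRingEnd ℂ) n ((Real.sqrt (β / n) : ℝ) : ℂ)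
    (((β / n : ℝ) : ℂ) * ((3 / 5 : ℂ) * Complex.I))
  have e' : (starRingEnd ℂ) (((β / n : ℝ) : ℂ) * ((3 / 5 : ℂ) * Complex.I)) =
      -(((β / n : ℝ) : ℂ) * ((3 / 5 : ℂ) * Complex.I)) := by
    rw [map_mul, map_mul, Complex.conj_ofReal, Complex.conj_I, map_div₀, map_ofNat, map_ofNat]
    ring
  rw [Complex.conj_ofReal, e'] at e
  rw [trW, ← e]
  rfl

theorem tr_open_limit (β : ℝ) (hβ : 0 < β) (τ : Bool) (k : ℕ) :
    Tendsto (fun n : ℕ =>
      (fun σ => (trw β n σ).re) ⬝ᵥ (Mt n (site (Real.sqrt (β / n)) 0) ^ k) *ᵥ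
        (fun σ => (trw β n σ).re) - (if τ then 1 else -1) *
      ((fun σ => (trw β n σ).im) ⬝ᵥ (Mt n (site (Real.sqrt (β / n)) 0) ^ k) *ᵥ
        fun σ => (trw β n σ).im)) atTop (𝓝 (Zo τ (k + 2) β)) := by
  have h := ptr_tendsto _ (Hc_open_herm (k + 2) τ) β _ (step_tendsto (by omega) _ _ β hβ.le)
  rw [basis_open (k + 2) (by omega)] at h
  refine h.congr fun n => ?_
  have e1 := tr_Mt_map Complex.ofRealHom n (Real.sqrt (β / n)) 0
  rw [map_zero, Complex.ofRealHom_eq_coe] at e1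
  have a0 : endF (k + 2) τ 0 = (3 / 5 : ℂ) * Complex.I := by simp [endF]
  have a1 : ∀ j : Fin k, endF (k + 2) τ j.castSucc.succ = 0 := fun j => by
    have := j.2
    rw [endF, if_neg (by simp), if_neg (by simp only [Fin.val_succ, Fin.val_castSucc]; omega),
      add_zero]
  have a2 : endF (k + 2) τ (Fin.last (k + 1)) =
      (if τ then 1 else -1) * ((3 / 5 : ℂ) * Complex.I) := by simp [endF]
  rw [trace_Step_pow (by omega), tr_open_prod n k _ _ fun j => by rw [a1, mul_zero, ← e1], a0, a2,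
    ← RingHom.mapMatrix_apply, ← map_pow, RingHom.mapMatrix_apply, ← tr_Mt_symm n _
      (((β / n : ℝ) : ℂ) * ((if τ then 1 else -1) * ((3 / 5 : ℂ) * Complex.I)))]
  have e2 : ∀ (A B C : Matrix (Fin n → Ev) (Fin n → Ev) ℂ) (σ : Fin n → Ev),
      (A * B * Cᵀ) σ σ = A σ ⬝ᵥ B *ᵥ C σ := fun A B C σ => by
    rw [dotProduct_mulVec]
    rfl
  rw [e2, tr_re_form]
  cases τ with
  | true =>
    simp only [if_true, one_mul]
    rfl
  | false =>
    have e3 := trw_conj β n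
    simp only [trW] at e3
    simp only [Bool.false_eq_true, if_false, neg_mul, one_mul, mul_neg, e3, Complex.conj_re,
      Complex.conj_im]
    rw [show (fun σ => -(trw β n σ).im) = -fun σ => (trw β n σ).im from rfl, mulVec_neg,
      dotProduct_neg]
    rfl

theorem tr_vecMul_re {κ : Type} [Fintype κ] (B : Matrix κ κ ℝ) (u : κ → ℂ) :
    (fun i => (u i).re) ᵥ* B = (fun i => ((u ᵥ* B.map Complex.ofRealHom) i).re) ∧
      (fun i => (u i).im) ᵥ* B = fun i => ((u ᵥ* B.map Complex.ofRealHom) i).im := by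
  constructor <;> funext i <;> simp [vecMul, dotProduct]

theorem trw_fix (β : ℝ) (n : ℕ) {i : Fin 24} (h : (Og i)ᵀ * Lz 2 * Og i = Lz 2) :
    (fun σ => (trw β n σ).re) ᵥ* trU ℝ n i = (fun σ => (trw β n σ).re) ∧
      (fun σ => (trw β n σ).im) ᵥ* trU ℝ n i = fun σ => (trw β n σ).im := by
  have e : trw β n ᵥ* trU ℂ n i = trw β n :=
    trW_vecMul n i _ _ _ (by rw [Lc, trO_conj, h])
  have := tr_vecMul_re (trU ℝ n i) (trw β n)
  rwa [trU_map, e] at this

theorem trw_flip (β : ℝ) (n : ℕ) {i : Fin 24} (h : (Og i)ᵀ * Lz 2 * Og i = -Lz 2) :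
    (fun σ => (trw β n σ).re) ᵥ* trU ℝ n i = (fun σ => (trw β n σ).re) ∧
      (fun σ => (trw β n σ).im) ᵥ* trU ℝ n i = -fun σ => (trw β n σ).im := by
  have e : trw β n ᵥ* trU ℂ n i = fun σ => (starRingEnd ℂ) (trw β n σ) :=
    (trW_vecMul n i _ _ _ (by
      rw [Lc, trO_conj, h, Matrix.map_neg _ Int.cast_neg, neg_smul, smul_neg])).trans
      (funext (trw_conj β n))
  have := tr_vecMul_re (trU ℝ n i) (trw β n)
  rw [trU_map, e] at this
  exact this

theorem trw_re (β : ℝ) (n : ℕ) :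
    (fun σ => (trw β n σ).re) ᵥ* trP n trA1 + (fun σ => (trw β n σ).re) ᵥ* trP n trE =
      fun σ => (trw β n σ).re := by
  have e : ∀ i, (fun σ => (trw β n σ).re) ᵥ* (((trA1 i : ℝ) / 24) • trU ℝ n i) +
      (fun σ => (trw β n σ).re) ᵥ* (((trE i : ℝ) / 24) • trU ℝ n i) =
      (((trA1 i + trE i : ℤ) : ℝ) / 24) • fun σ => (trw β n σ).re := by
    intro i
    rw [vecMul_smul, vecMul_smul, ← add_smul, ← add_div, ← Int.cast_add]
    rcases tr_axis i with h | h | h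
    · rw [h.1]; simp
    · rw [(trw_fix β n h.2.2).1]
    · rw [(trw_flip β n h.2.2).1]
  rw [trP, trP, vecMul_sum, vecMul_sum, ← Finset.sum_add_distrib, Finset.sum_congr rfl
    fun i _ => e i, ← Finset.sum_smul, ← Finset.sum_div, ← Int.cast_sum, tr_sum1]
  simp

theorem trw_im (β : ℝ) (n : ℕ) :
    (fun σ => (trw β n σ).im) ᵥ* trP n trT1 = fun σ => (trw β n σ).im := by
  have e : ∀ i, (fun σ => (trw β n σ).im) ᵥ* (((trT1 i : ℝ) / 24) • trU ℝ n i) =
      (((|trT1 i| : ℤ) : ℝ) / 24) • fun σ => (trw β n σ).im := by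
    intro i
    rw [vecMul_smul]
    rcases tr_axis i with h | h | h
    · rw [h.2]; simp
    · rw [(trw_fix β n h.2.2).2, h.2.1]; norm_num
    · rw [(trw_flip β n h.2.2).2, h.2.1, smul_neg, ← neg_smul]; norm_num
  rw [trP, vecMul_sum, Finset.sum_congr rfl fun i _ => e i, ← Finset.sum_smul, ← Finset.sum_div,
    ← Int.cast_sum, tr_sum2]
  simp

theorem tr_PS2_congr {w w' W W' : ℕ → ℝ} (h : PS2 w W) (h1 : ∀ L, w L = w' L)
    (h2 : ∀ k, 1 ≤ k → W k = W' k) : PS2 w' W' := by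
  obtain ⟨μ, c, h0, h3, h4⟩ := h
  exact ⟨μ, c, h0, fun L hL => h1 L ▸ h3 L hL, fun k hk => h2 k hk ▸ h4 k hk⟩

theorem transfer (β : ℝ) (hβ : 0 < β) : Spatial (fun a L => Zr a L β) (fun τ N => Zo τ N β) := by
  have ha : ∀ k, Tendsto (fun n : ℕ => (fun σ => (trw β n σ).re) ⬝ᵥ
      (Mt n (site (Real.sqrt (β / n)) 0) ^ k) *ᵥ fun σ => (trw β n σ).re) atTop
      (𝓝 ((Zo true (k + 2) β + Zo false (k + 2) β) / 2)) := fun k =>
    (((tr_open_limit β hβ true k).add (tr_open_limit β hβ false k)).div_const 2).congr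
      fun n => by simp only [if_true, Bool.false_eq_true, if_false]; ring
  have hb : ∀ k, Tendsto (fun n : ℕ => (fun σ => (trw β n σ).im) ⬝ᵥ
      (Mt n (site (Real.sqrt (β / n)) 0) ^ k) *ᵥ fun σ => (trw β n σ).im) atTop
      (𝓝 ((Zo false (k + 2) β - Zo true (k + 2) β) / 2)) := fun k =>
    (((tr_open_limit β hβ false k).sub (tr_open_limit β hβ true k)).div_const 2).congr
      fun n => by simp only [if_true, Bool.false_eq_true, if_false]; ring
  have ha0 := (ha 0).eventually (Iic_mem_nhds (lt_add_one _))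
  have hb0 := (hb 0).eventually (Iic_mem_nhds (lt_add_one _))
  simp only [pow_zero, one_mulVec] at ha0 hb0
  obtain ⟨WA, a1, a2⟩ := tr_sector β hβ tr_A1 (fun n σ => (trw β n σ).re) _ ha0
  obtain ⟨WE, e1, e2⟩ := tr_sector β hβ tr_E (fun n σ => (trw β n σ).re) _ ha0
  obtain ⟨WT, t1, t2⟩ := tr_sector β hβ tr_T1 (fun n σ => (trw β n σ).im) _ hb0
  obtain ⟨W2, b1, b2⟩ := tr_sector β hβ tr_A2 (fun _ => 0) 0
    (Eventually.of_forall fun _ => by simp)
  obtain ⟨W3, c1, c2⟩ := tr_sector β hβ tr_T2 (fun _ => 0) 0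
    (Eventually.of_forall fun _ => by simp)
  refine ⟨WA, WE, tr_PS2_congr a1 (fun L => ?_) fun _ _ => rfl,
    tr_PS2_congr b1 (fun L => ?_) fun k hk => ?_, tr_PS2_congr e1 (fun L => ?_) fun _ _ => rfl,
    tr_PS2_congr t1 (fun L => ?_) fun k hk => ?_, tr_PS2_congr c1 (fun L => ?_) fun k hk => ?_,
    fun k hk => ?_⟩
  · simp [Fin.sum_univ_succ, trA1, cls, cA1]; ring
  · simp [Fin.sum_univ_succ, trA2, cls, cA2]; ring
  · exact tendsto_nhds_unique (b2 k hk) (by simp)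
  · simp [Fin.sum_univ_succ, trE, cls, cE]; ring
  · simp [Fin.sum_univ_succ, trT1, cls, cT1]; ring
  · refine tendsto_nhds_unique (t2 k hk) ?_
    simp only [trw_im]
    exact (hb k).mono_left Nat.hyperfilter_le_atTop
  · simp [Fin.sum_univ_succ, trT2, cls, cT2]; ring
  · exact tendsto_nhds_unique (c2 k hk) (by simp)
  · refine tendsto_nhds_unique ((a2 k hk).add (e2 k hk)) ?_
    simp only [← add_dotProduct, trw_re]
    exact (ha k).mono_left Nat.hyperfilter_le_atTop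

end Crest.Agent.R347
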